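import Claimed.Agent.R323.Ht.Modica

/-!
# Row 323, block C, sub-block AC: THE EXACT DIVERGENCE-FREE STRESS TENSOR, vertex `0`.   (helper106; identity found by helper137)

`U` an `AcSol n κ U`, `ε̂ = κ|x|`, `A = W(U)/ε̂` (`htsA`), `B = ε̂|DU|²/2` (`htsB`), `e = B + A`, `ξ = A - B ≥ 0`, `g = ξ/((n-2)|x|²)` (`htsG`),
`T = e I - ε̂ DU⊗DU + g x⊗x`.   For a field `X`:  `Y = T X` (`htsY`), `⟨T,DX⟩` (`htsI`).
* `hts_div`: `div Y = ⟨T, DX⟩` at every `x ≠ 0` (i.e. `div T = 0`).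
* `hts_div_punctured`: GENERAL divergence theorem with a point singularity: `Y ∈ C¹({0}ᶜ)`, compact support, `|Y| ≤ K/|x|`, `div Y` integrable, `n ≥ 3` ⟹ `∫ div Y = 0`.
* `hts_stat`: `∫ ⟨T, DX⟩ = 0` for ALL `X ∈ C¹_c(E n)`, and the integrand is integrable.
* kit: `hts_grad_*`, `hts_dgrad_*` (the field `∇U`, symmetry of its derivative, Euler relations), `hts_norm_hasFDerivAt`, `hts_inv_hasFDerivAt`, `hts_inv_integrableOn` (`|x|⁻¹ ∈ L¹_loc`), `hts_ae_ne`, `hts_measurable_gmtDiv`.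
-/

set_option autoImplicit false
open scoped ContDiff RealInnerProductSpace Topology
open MeasureTheory Metric Set Filter

namespace Claimed.Agent.R323

open Claimed.Agent.Gmt Claimed.Agent.Lib.Ell

variable {n : ℕ}

/-! ### the gradient field -/

section grad

variable {U : E n → ℝ} {x : E n}

theorem hts_grad_smooth (hs : ContDiffOn ℝ ∞ U {0}ᶜ) : ContDiffOn ℝ ∞ (gradient U) {0}ᶜ := by
  unfold gradient
  exact (LinearIsometryEquiv.contDiff _).comp_contDiffOn (hs.fderiv_of_isOpen isOpen_compl_singleton (by simp))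

theorem hts_grad_diff (hs : ContDiffOn ℝ ∞ U {0}ᶜ) (hx : x ≠ 0) : DifferentiableAt ℝ (gradient U) x :=
  ((hts_grad_smooth hs).contDiffAt (isOpen_compl_singleton.mem_nhds hx)).differentiableAt (by simp)

theorem hts_grad_inner (U : E n → ℝ) (x v : E n) : ⟪gradient U x, v⟫ = fderiv ℝ U x v :=
  (ell_dd_eq_inner U x v).symm

theorem hts_dgrad_inner (hs : ContDiffOn ℝ ∞ U {0}ᶜ) (hx : x ≠ 0) (v w : E n) :
    ⟪fderiv ℝ (gradient U) x v, w⟫ = ellD2 U x v w := by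
  have h1 : HasFDerivAt (fun z => ⟪gradient U z, w⟫) ((innerSL ℝ w).comp (fderiv ℝ (gradient U) x)) x := by
    have := (innerSL ℝ w).hasFDerivAt.comp x (hts_grad_diff hs hx).hasFDerivAt
    refine this.congr_of_eventuallyEq (Eventually.of_forall fun z => ?_)
    simp
  have h2 : (fun z => ⟪gradient U z, w⟫) = fun z => fderiv ℝ U z w := funext fun z => hts_grad_inner U z w
  rw [h2] at h1
  have hd0 : DifferentiableAt ℝ (fderiv ℝ U) x :=
    ((hs.fderiv_of_isOpen isOpen_compl_singleton (m := ∞) (by simp)).contDiffAt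
      (isOpen_compl_singleton.mem_nhds hx)).differentiableAt (by simp)
  have h3 : HasFDerivAt (fun z => fderiv ℝ U z w) ((ellD2 U x).flip w) x := by
    have := hd0.hasFDerivAt.clm_apply (hasFDerivAt_const w x)
    simpa [ellD2] using this
  have h4 := h1.unique h3
  have h5 := congrArg (fun L : E n →L[ℝ] ℝ => L v) h4
  simpa [real_inner_comm] using h5

theorem hts_dgrad_symm (hs : ContDiffOn ℝ ∞ U {0}ᶜ) (hx : x ≠ 0) (v w : E n) :
    ⟪fderiv ℝ (gradient U) x v, w⟫ = ⟪fderiv ℝ (gradient U) x w, v⟫ := by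
  rw [hts_dgrad_inner hs hx, hts_dgrad_inner hs hx]
  exact ell_d2_symm isOpen_compl_singleton (hs.of_le (by norm_cast)) hx v w

theorem hts_euler (hs : ContDiffOn ℝ ∞ U {0}ᶜ) (hh : ∀ t : ℝ, 0 < t → ∀ x, U (t • x) = U x) (hx : x ≠ 0) :
    ⟪gradient U x, x⟫ = 0 := by
  rw [hts_grad_inner]; exact ht_hom_euler hs hh hx

theorem hts_dgrad_x (hs : ContDiffOn ℝ ∞ U {0}ᶜ) (hh : ∀ t : ℝ, 0 < t → ∀ x, U (t • x) = U x) (hx : x ≠ 0) :
    fderiv ℝ (gradient U) x x = - gradient U x := by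
  refine ext_inner_right ℝ fun w => ?_
  rw [hts_dgrad_symm hs hx, inner_neg_left]
  have h1 : HasFDerivAt (fun z => ⟪gradient U z, z⟫) _ x :=
    (hts_grad_diff hs hx).hasFDerivAt.inner ℝ (hasFDerivAt_id x)
  have h2 : (fun z => ⟪gradient U z, z⟫) =ᶠ[𝓝 x] fun _ => (0 : ℝ) := by
    filter_upwards [isOpen_compl_singleton.mem_nhds hx] with z hz using hts_euler hs hh hz
  have h3 := h1.unique ((hasFDerivAt_const (0 : ℝ) x).congr_of_eventuallyEq h2)
  have h4 := congrArg (fun L : E n →L[ℝ] ℝ => L w) h3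
  simp at h4
  rw [hts_grad_inner]
  linarith

end grad

/-! ### the scalar densities -/

/-- `W(U)/ε̂`, `ε̂ = κ|x|`. -/
noncomputable def htsA (κ : ℝ) (U : E n → ℝ) (z : E n) : ℝ := acW (U z) * (κ⁻¹ * ‖z‖⁻¹)

/-- `ε̂|DU|²/2`. -/
noncomputable def htsB (κ : ℝ) (U : E n → ℝ) (z : E n) : ℝ := κ / 2 * (‖z‖ * ⟪gradient U z, gradient U z⟫)

/-- the coefficient `ξ/((n-2)|x|²)` of `x ⊗ x`, `ξ = W/ε̂ - ε̂|DU|²/2`. -/
noncomputable def htsG (κ : ℝ) (U : E n → ℝ) (z : E n) : ℝ := ((n : ℝ) - 2)⁻¹ * ((htsA κ U z - htsB κ U z) * (‖z‖⁻¹ * ‖z‖⁻¹))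

section scal

variable {U : E n → ℝ} {x : E n} {κ : ℝ}

theorem hts_norm_hasFDerivAt (hx : x ≠ 0) : HasFDerivAt (fun z : E n => ‖z‖) (‖x‖⁻¹ • innerSL ℝ x) x := by
  have h1 : HasFDerivAt (fun z : E n => ‖z‖ ^ 2) (2 • innerSL ℝ x) x := (hasStrictFDerivAt_norm_sq x).hasFDerivAt
  have hne : ‖x‖ ^ 2 ≠ 0 := pow_ne_zero _ (norm_ne_zero_iff.2 hx)
  have h2 := h1.sqrt hne
  have e : (fun z : E n => Real.sqrt (‖z‖ ^ 2)) = fun z => ‖z‖ := funext fun z => Real.sqrt_sq (norm_nonneg z)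
  rw [e, Real.sqrt_sq (norm_nonneg x)] at h2
  have e2 : (‖x‖⁻¹ • innerSL ℝ x : E n →L[ℝ] ℝ) = (1 / (2 * ‖x‖)) • (2 • innerSL ℝ x : E n →L[ℝ] ℝ) := by
    ext v
    simp only [smul_apply, innerSL_apply_apply, smul_eq_mul, nsmul_eq_mul]
    push_cast
    field_simp
  rw [e2]
  exact h2

theorem hts_inv_hasFDerivAt (hx : x ≠ 0) :
    HasFDerivAt (fun z : E n => ‖z‖⁻¹) (-(‖x‖⁻¹ * ‖x‖⁻¹ * ‖x‖⁻¹) • innerSL ℝ x) x := by
  have hne : ‖x‖ ≠ 0 := norm_ne_zero_iff.2 hx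
  have h2 := (hasDerivAt_inv hne).comp_hasFDerivAt x (hts_norm_hasFDerivAt hx)
  have e2 : (-(‖x‖⁻¹ * ‖x‖⁻¹ * ‖x‖⁻¹) • innerSL ℝ x : E n →L[ℝ] ℝ)
      = (-(‖x‖ ^ 2)⁻¹) • (‖x‖⁻¹ • innerSL ℝ x : E n →L[ℝ] ℝ) := by
    ext v
    simp only [smul_apply, innerSL_apply_apply, smul_eq_mul]
    field_simp
  rw [e2]
  exact h2

theorem hts_fderiv_A (hs : ContDiffOn ℝ ∞ U {0}ᶜ) (hx : x ≠ 0) (v : E n) :
    DifferentiableAt ℝ (htsA κ U) x ∧ fderiv ℝ (htsA κ U) x v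
      = acW' (U x) * ⟪gradient U x, v⟫ * (κ⁻¹ * ‖x‖⁻¹) - htsA κ U x * (‖x‖⁻¹ * ‖x‖⁻¹) * ⟪x, v⟫ := by
  have hU : HasFDerivAt U (fderiv ℝ U x) x := (ht_diffAt isOpen_compl_singleton hs hx).hasFDerivAt
  have h1 := (ht_acW_deriv (U x)).comp_hasFDerivAt x hU
  have h2 := h1.mul ((hts_inv_hasFDerivAt hx).const_mul κ⁻¹)
  refine ⟨h2.differentiableAt, ?_⟩
  have e : htsA κ U = (acW ∘ U) * fun z => κ⁻¹ * ‖z‖⁻¹ := rfl
  rw [e, h2.fderiv, hts_grad_inner]
  simp [htsA]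
  ring

theorem hts_fderiv_B (hs : ContDiffOn ℝ ∞ U {0}ᶜ) (hx : x ≠ 0) (v : E n) :
    DifferentiableAt ℝ (htsB κ U) x ∧ fderiv ℝ (htsB κ U) x v
      = htsB κ U x * (‖x‖⁻¹ * ‖x‖⁻¹) * ⟪x, v⟫ + κ * ‖x‖ * ⟪fderiv ℝ (gradient U) x v, gradient U x⟫ := by
  have hne : ‖x‖ ≠ 0 := norm_ne_zero_iff.2 hx
  have hG := (hts_grad_diff hs hx).hasFDerivAt
  have h1 := hG.inner ℝ hG
  have h2 := ((hts_norm_hasFDerivAt hx).mul h1).const_mul (κ / 2)
  refine ⟨h2.differentiableAt, ?_⟩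
  have e : htsB κ U = fun z => κ / 2 * (((fun z : E n => ‖z‖) * fun z => ⟪gradient U z, gradient U z⟫) z) := rfl
  rw [e, h2.fderiv]
  simp [htsB, real_inner_comm]
  field_simp
  ring

theorem hts_fderiv_G (hs : ContDiffOn ℝ ∞ U {0}ᶜ) (hh : ∀ t : ℝ, 0 < t → ∀ x, U (t • x) = U x) (hx : x ≠ 0) :
    DifferentiableAt ℝ (htsG κ U) x ∧ fderiv ℝ (htsG κ U) x x = -3 * htsG κ U x := by
  have hne : ‖x‖ ≠ 0 := norm_ne_zero_iff.2 hx
  obtain ⟨hA, hA'⟩ := hts_fderiv_A (κ := κ) hs hx x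
  obtain ⟨hB, hB'⟩ := hts_fderiv_B (κ := κ) hs hx x
  have hρ := hts_inv_hasFDerivAt hx
  have h2 := ((hA.hasFDerivAt.sub hB.hasFDerivAt).mul (hρ.mul hρ)).const_mul ((n : ℝ) - 2)⁻¹
  refine ⟨h2.differentiableAt, ?_⟩
  have e : htsG κ U = fun z => ((n : ℝ) - 2)⁻¹ * ((htsA κ U - htsB κ U) * ((fun z : E n => ‖z‖⁻¹) * fun z : E n => ‖z‖⁻¹)) z := rfl
  rw [hts_euler hs hh hx, real_inner_self_eq_norm_sq] at hA'
  rw [hts_dgrad_x hs hh hx, real_inner_self_eq_norm_sq, inner_neg_left] at hB'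
  have hB2 : κ * ‖x‖ * ⟪gradient U x, gradient U x⟫ = 2 * htsB κ U x := by unfold htsB; ring
  have hA2 : fderiv ℝ (htsA κ U) x x = - htsA κ U x := by
    rw [hA']; field_simp; ring
  have hB3 : fderiv ℝ (htsB κ U) x x = - htsB κ U x := by
    rw [hB', mul_neg, hB2]; field_simp; ring
  rw [e, h2.fderiv]
  simp only [smul_apply, add_apply, sub_apply, Pi.mul_apply, Pi.sub_apply, smul_eq_mul, hA2, hB3, innerSL_apply_apply,
    real_inner_self_eq_norm_sq]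
  field_simp
  ring

end scal

/-! ### the pointwise identity `div Y = ⟨T, DX⟩` -/

section div

variable {U : E n → ℝ} {x : E n} {κ : ℝ}

theorem hts_gmtDiv_id (x : E n) : gmtDiv (fun z : E n => z) x = n := by
  unfold gmtDiv
  simp

theorem hts_gmtDiv_sub {T T' : E n → E n} (hT : DifferentiableAt ℝ T x) (hT' : DifferentiableAt ℝ T' x) :
    gmtDiv (fun y => T y - T' y) x = gmtDiv T x - gmtDiv T' x := by
  unfold gmtDiv
  rw [fderiv_fun_sub hT hT', ← Finset.sum_sub_distrib]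
  simp

/-- the field `Y = T X`. -/
noncomputable def htsY (κ : ℝ) (U : E n → ℝ) (X : E n → E n) (z : E n) : E n :=
  (htsB κ U z + htsA κ U z) • X z - (κ * ‖z‖ * ⟪gradient U z, X z⟫) • gradient U z + (htsG κ U z * ⟪z, X z⟫) • z

/-- the contraction `⟨T, DX⟩`. -/
noncomputable def htsI (κ : ℝ) (U : E n → ℝ) (X : E n → E n) (x : E n) : ℝ :=
  (htsB κ U x + htsA κ U x) * gmtDiv X x - κ * ‖x‖ * ⟪gradient U x, fderiv ℝ X x (gradient U x)⟫
    + htsG κ U x * ⟪x, fderiv ℝ X x x⟫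

theorem hts_div (hκ : κ ≠ 0) (hn : (n : ℝ) - 2 ≠ 0) (hs : ContDiffOn ℝ ∞ U {0}ᶜ)
    (hh : ∀ t : ℝ, 0 < t → ∀ x, U (t • x) = U x) (hx : x ≠ 0) (heq : κ ^ 2 * ‖x‖ ^ 2 * flLap U x = acW' (U x))
    {X : E n → E n} (hX : DifferentiableAt ℝ X x) : gmtDiv (htsY κ U X) x = htsI κ U X x := by
  have hne : ‖x‖ ≠ 0 := norm_ne_zero_iff.2 hx
  obtain ⟨hA, hA'⟩ := hts_fderiv_A (κ := κ) hs hx (X x)
  obtain ⟨hB, hB'⟩ := hts_fderiv_B (κ := κ) hs hx (X x)
  obtain ⟨hGd, hG'⟩ := hts_fderiv_G (κ := κ) hs hh hx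
  have hG := hts_grad_diff hs hx
  have hr := hts_norm_hasFDerivAt hx
  have ha := (hr.const_mul κ).mul (hG.hasFDerivAt.inner ℝ hX.hasFDerivAt)
  have hb := hGd.hasFDerivAt.mul ((hasFDerivAt_id x).inner ℝ hX.hasFDerivAt)
  have hBA : DifferentiableAt ℝ (fun z => htsB κ U z + htsA κ U z) x := hB.fun_add hA
  have d1 := gmtDiv_smul hBA hX
  have d2 := gmtDiv_smul ha.differentiableAt hG
  have d3 := gmtDiv_smul hb.differentiableAt (differentiableAt_id (𝕜 := ℝ) (x := x))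
  have e1 : gmtDiv (htsY κ U X) x = gmtDiv (fun z => (htsB κ U z + htsA κ U z) • X z) x
      - gmtDiv (fun z => ((fun z : E n => κ * ‖z‖) * fun z => ⟪gradient U z, X z⟫) z • gradient U z) x
      + gmtDiv (fun z => (htsG κ U * fun z => ⟪id z, X z⟫) z • id z) x := by
    unfold htsY
    rw [← hts_gmtDiv_sub (hBA.fun_smul hX) (ha.differentiableAt.fun_smul hG),
      ← gmtDiv_add ((hBA.fun_smul hX).fun_sub (ha.differentiableAt.fun_smul hG))
        (hb.differentiableAt.fun_smul differentiableAt_id)]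
    rfl
  rw [e1, d1, d2, d3, ha.fderiv, hb.fderiv, fderiv_fun_add hB hA]
  have hlap : gmtDiv (gradient U) x = flLap U x := rfl
  have hid : gmtDiv (id : E n → E n) x = n := hts_gmtDiv_id x
  have hsy : ⟪fderiv ℝ (gradient U) x (X x), gradient U x⟫ = ⟪fderiv ℝ (gradient U) x (gradient U x), X x⟫ :=
    hts_dgrad_symm hs hx _ _
  have heu : ⟪x, gradient U x⟫ = 0 := by rw [real_inner_comm]; exact hts_euler hs hh hx
  have hW : acW' (U x) * (κ⁻¹ * ‖x‖⁻¹) = κ * ‖x‖ * flLap U x := by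
    rw [← heq]; field_simp
  have hGx : htsG κ U x * ((n : ℝ) - 2) = (htsA κ U x - htsB κ U x) * (‖x‖⁻¹ * ‖x‖⁻¹) := by
    unfold htsG; field_simp
  unfold htsI
  simp only [hlap, hid, add_apply, smul_apply, smul_eq_mul, Pi.mul_apply, hA', hB', hG', innerSL_apply_apply, heu, hsy,
    ContinuousLinearMap.comp_apply, ContinuousLinearMap.prod_apply, fderivInnerCLM_apply, id_eq,
    ContinuousLinearMap.id_apply]
  have hW' : acW' (U x) * ⟪gradient U x, X x⟫ * (κ⁻¹ * ‖x‖⁻¹) = κ * ‖x‖ * flLap U x * ⟪gradient U x, X x⟫ := by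
    rw [← hW]; ring
  rw [hW']
  have key : htsG κ U x * ⟪x, X x⟫ * ((n : ℝ) - 2) = (htsA κ U x - htsB κ U x) * (‖x‖⁻¹ * ‖x‖⁻¹) * ⟪x, X x⟫ := by
    rw [← hGx]; ring
  linear_combination key

end div

/-! ### the divergence theorem with a point singularity -/

theorem hts_ae_ne (hn : 1 ≤ n) (q : E n) : ∀ᵐ x : E n, x ≠ q := by
  have : Nonempty (Fin n) := ⟨⟨0, by omega⟩⟩
  have : (volume : Measure (E n)) {q} = 0 := measure_singleton q
  exact compl_mem_ae_iff.2 this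

/-- **divergence theorem with a point singularity** of order `|x|⁻¹`, dimension `≥ 3`. -/
theorem hts_div_punctured (hn : 3 ≤ n) {Y : E n → E n} (hY : ContDiffOn ℝ 1 Y {0}ᶜ) (hc : HasCompactSupport Y) {K : ℝ}
    (hK : ∀ x, x ≠ 0 → ‖Y x‖ ≤ K * ‖x‖⁻¹) (hint : Integrable (gmtDiv Y)) : ∫ x, gmtDiv Y x = 0 := by
  obtain ⟨hζs, hζ01, hζ1, hζ0, -, C, hC0, hC⟩ := fl_cut_props (n := n) (a := 1) (b := 2) zero_le_one one_lt_two
  obtain ⟨ζ, hζdef⟩ : ∃ ζ : E n → ℝ, ζ = flCut 1 2 := ⟨_, rfl⟩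
  rw [← hζdef] at hζs hζ01 hζ1 hζ0 hC
  have hK0 : 0 ≤ K := by
    have h1 := hK (eb ⟨0, by omega⟩) (by
      intro h
      have := congrArg norm h
      simp at this)
    simp at h1
    exact (norm_nonneg _).trans h1
  have hΩ : IsOpen ({0}ᶜ : Set (E n)) := isOpen_compl_singleton
  obtain ⟨a, hadef⟩ : ∃ a : ℕ → ℝ, a = fun j : ℕ => (j : ℝ) + 1 := ⟨_, rfl⟩
  have ha1 : ∀ j, 1 ≤ a j := fun j => by rw [hadef]; simp
  have ha : ∀ j, 0 < a j := fun j => lt_of_lt_of_le one_pos (ha1 j)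
  obtain ⟨χ, hχdef⟩ : ∃ χ : ℕ → E n → ℝ, χ = fun j x => 1 - ζ (a j • x) := ⟨_, rfl⟩
  have hχ : ∀ j x, χ j x = 1 - ζ (a j • x) := fun j x => by rw [hχdef]
  have hχs : ∀ j, ContDiff ℝ ∞ (χ j) := fun j => by
    rw [hχdef]
    exact contDiff_const.sub (hζs.comp (contDiff_id.const_smul (a j)))
  have hζd : ∀ y, DifferentiableAt ℝ ζ y := fun y => hζs.differentiable (by simp) y
  have hχd : ∀ j x, fderiv ℝ (χ j) x = -(a j • fderiv ℝ ζ (a j • x)) := fun j x => by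
    have h1 : HasFDerivAt (fun z : E n => a j • z) (a j • ContinuousLinearMap.id ℝ (E n)) x :=
      (hasFDerivAt_id x).const_smul (a j)
    have h2 := ((hζd (a j • x)).hasFDerivAt.comp x h1).const_sub 1
    have e : χ j = fun z => 1 - (ζ ∘ fun z : E n => a j • z) z := by rw [hχdef]; rfl
    rw [e, h2.fderiv]
    ext v
    simp
  have hζin : ∀ y : E n, ‖y‖ < 1 → fderiv ℝ ζ y = 0 := fun y hy => by
    have h1 : ζ =ᶠ[𝓝 y] fun _ => (1 : ℝ) := by
      have ho : IsOpen {z : E n | ‖z‖ < 1} := isOpen_lt continuous_norm continuous_const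
      filter_upwards [ho.mem_nhds hy] with z hz using hζ1 z (le_of_lt hz)
    rw [h1.fderiv_eq]; simp
  have hζout : ∀ y : E n, 2 < ‖y‖ → fderiv ℝ ζ y = 0 := fun y hy => by
    have h1 : ζ =ᶠ[𝓝 y] fun _ => (0 : ℝ) := by
      have ho : IsOpen {z : E n | 2 < ‖z‖} := isOpen_lt continuous_const continuous_norm
      filter_upwards [ho.mem_nhds hy] with z hz using hζ0 z (le_of_lt hz)
    rw [h1.fderiv_eq]; simp
  have hnorm : ∀ j (x : E n), ‖a j • x‖ = a j * ‖x‖ := fun j x => by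
    rw [norm_smul, Real.norm_eq_abs, abs_of_pos (ha j)]
  -- the cut fields
  have hZ : ∀ j, GmtTest univ (fun x => χ j x • Y x) := fun j => by
    refine ⟨contDiff_iff_contDiffAt.2 fun x => ?_, HasCompactSupport.smul_left (f := χ j) hc, subset_univ _⟩
    by_cases hx : x = 0
    · have h1 : (fun x => χ j x • Y x) =ᶠ[𝓝 x] fun _ => (0 : E n) := by
        have ho : IsOpen {z : E n | a j * ‖z‖ < 1} := isOpen_lt (continuous_const.mul continuous_norm) continuous_const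
        have hm : x ∈ {z : E n | a j * ‖z‖ < 1} := by simp [hx]
        filter_upwards [ho.mem_nhds hm] with z hz
        rw [hχ, hζ1 _ (by rw [hnorm]; exact le_of_lt hz)]
        simp
      exact contDiffAt_const.congr_of_eventuallyEq h1
    · exact (((hχs j).of_le (by norm_cast)).contDiffAt).smul (hY.contDiffAt (hΩ.mem_nhds hx))
  have hdiv : ∀ j x, x ≠ 0 → gmtDiv (fun x => χ j x • Y x) x = χ j x * gmtDiv Y x + fderiv ℝ (χ j) x (Y x) := fun j x hx =>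
    gmtDiv_smul ((hχs j).differentiable (by simp) x) ((hY.contDiffAt (hΩ.mem_nhds hx)).differentiableAt (by simp))
  have hae := hts_ae_ne (n := n) (by omega) 0
  have hχ01 : ∀ j x, |χ j x| ≤ 1 := fun j x => by
    rw [hχ, abs_le]
    have := hζ01 (a j • x)
    constructor <;> linarith [this.1, this.2]
  have hi1 : ∀ j, Integrable (fun x => χ j x * gmtDiv Y x) := fun j =>
    hint.bdd_mul (c := 1) (hχs j).continuous.aestronglyMeasurable (Eventually.of_forall fun x => by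
      rw [Real.norm_eq_abs]; exact hχ01 j x)
  have hi2 : ∀ j, Integrable (fun x => fderiv ℝ (χ j) x (Y x)) := fun j => by
    refine ((gmtDiv_integrable (hZ j)).sub (hi1 j)).congr ?_
    filter_upwards [hae] with x hx
    simp only [Pi.sub_apply]
    rw [hdiv j x hx]; ring
  have hsum : ∀ j, ∫ x, χ j x * gmtDiv Y x = - ∫ x, fderiv ℝ (χ j) x (Y x) := fun j => by
    have h1 := integral_gmtDiv_eq_zero (hZ j)
    have h2 : ∫ x, gmtDiv (fun x => χ j x • Y x) x = ∫ x, (χ j x * gmtDiv Y x + fderiv ℝ (χ j) x (Y x)) := by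
      refine integral_congr_ae ?_
      filter_upwards [hae] with x hx using hdiv j x hx
    rw [h2, integral_add (hi1 j) (hi2 j)] at h1
    linarith
  -- first limit
  have hl1 : Tendsto (fun j => ∫ x, χ j x * gmtDiv Y x) atTop (𝓝 (∫ x, gmtDiv Y x)) := by
    refine tendsto_integral_of_dominated_convergence (fun x => ‖gmtDiv Y x‖) (fun j => (hi1 j).1) hint.norm
      (fun j => Eventually.of_forall fun x => ?_) ?_
    · rw [norm_mul]
      exact mul_le_of_le_one_left (norm_nonneg _) (by rw [Real.norm_eq_abs]; exact hχ01 j x)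
    · filter_upwards [hae] with x hx
      refine tendsto_const_nhds.congr' ?_
      have hxp : 0 < ‖x‖ := norm_pos_iff.2 hx
      obtain ⟨N, hN⟩ := exists_nat_ge (2 / ‖x‖)
      filter_upwards [eventually_ge_atTop N] with j hj
      have h1 : 2 ≤ ‖a j • x‖ := by
        rw [hnorm, hadef]
        have h2 : (N : ℝ) ≤ j := by exact_mod_cast hj
        have h3 : 2 / ‖x‖ ≤ (j : ℝ) + 1 := by linarith
        rwa [div_le_iff₀ hxp] at h3
      rw [hχ, hζ0 _ h1]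
      simp
  -- second limit
  obtain ⟨v, hvdef⟩ : ∃ v : ℝ, v = (volume : Measure (E n)).real (ball 0 1) := ⟨_, rfl⟩
  have hv0 : 0 ≤ v := by rw [hvdef]; exact measureReal_nonneg
  have hb : ∀ j, ‖∫ x, fderiv ℝ (χ j) x (Y x)‖ ≤ C * K * 2 ^ n * v * (1 / ((j : ℝ) + 1)) := fun j => by
    have hpt : ∀ x, ‖fderiv ℝ (χ j) x (Y x)‖ ≤ C * K * a j ^ 2 := fun x => by
      by_cases hx : a j * ‖x‖ < 1
      · rw [hχd, hζin _ (by rw [hnorm]; exact hx)]
        simp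
        positivity
      · rw [not_lt] at hx
        have hxp : 0 < ‖x‖ := by
          by_contra h
          have : ‖x‖ = 0 := le_antisymm (not_lt.1 h) (norm_nonneg _)
          rw [this] at hx; linarith
        have h1 : ‖Y x‖ ≤ K * a j := by
          refine (hK x (norm_pos_iff.1 hxp)).trans (mul_le_mul_of_nonneg_left ?_ hK0)
          rw [inv_le_comm₀ hxp (ha j), ← one_div, div_le_iff₀ (ha j)]
          linarith
        have h2 : ‖fderiv ℝ (χ j) x‖ ≤ a j * C := by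
          rw [hχd, norm_neg, norm_smul, Real.norm_eq_abs, abs_of_pos (ha j)]
          exact mul_le_mul_of_nonneg_left (hC _) (ha j).le
        calc ‖fderiv ℝ (χ j) x (Y x)‖ ≤ ‖fderiv ℝ (χ j) x‖ * ‖Y x‖ := ContinuousLinearMap.le_opNorm _ _
          _ ≤ (a j * C) * (K * a j) := mul_le_mul h2 h1 (norm_nonneg _) (by have := ha j; positivity)
          _ = C * K * a j ^ 2 := by ring
    have hsupp : ∀ x, x ∉ closedBall (0 : E n) (2 / a j) → fderiv ℝ (χ j) x (Y x) = 0 := fun x hx => by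
      rw [mem_closedBall, dist_zero_right, not_le, div_lt_iff₀ (ha j)] at hx
      rw [hχd, hζout _ (by rw [hnorm]; linarith)]
      simp
    rw [← setIntegral_eq_integral_of_forall_compl_eq_zero hsupp]
    have h3 := norm_setIntegral_le_of_norm_le_const (μ := (volume : Measure (E n))) (s := closedBall (0 : E n) (2 / a j))
      (f := fun x => fderiv ℝ (χ j) x (Y x)) (C := C * K * a j ^ 2) measure_closedBall_lt_top (fun x _ => hpt x)
    refine h3.trans ?_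
    have h4 : (volume : Measure (E n)).real (closedBall 0 (2 / a j)) = (2 / a j) ^ n * v := by
      rw [Measure.addHaar_real_closedBall _ _ (by have := ha j; positivity), hvdef]
      simp
    rw [h4]
    have h5 : a j ^ 2 * (2 / a j) ^ n ≤ 2 ^ n * (1 / a j) := by
      rw [div_pow]
      have h6 : a j ^ 3 ≤ a j ^ n := pow_le_pow_right₀ (ha1 j) hn
      have h7 : 0 < a j ^ n := pow_pos (ha j) n
      rw [mul_one_div, mul_div_assoc', div_le_div_iff₀ h7 (ha j)]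
      have : 0 < (2 : ℝ) ^ n := by positivity
      nlinarith
    have h8 : a j = (j : ℝ) + 1 := by rw [hadef]
    rw [← h8]
    calc C * K * a j ^ 2 * ((2 / a j) ^ n * v) = C * K * v * (a j ^ 2 * (2 / a j) ^ n) := by ring
      _ ≤ C * K * v * (2 ^ n * (1 / a j)) := mul_le_mul_of_nonneg_left h5 (by positivity)
      _ = _ := by ring
  have hl2 : Tendsto (fun j => ∫ x, fderiv ℝ (χ j) x (Y x)) atTop (𝓝 0) := by
    refine squeeze_zero_norm hb ?_
    have := (tendsto_one_div_add_atTop_nhds_zero_nat (𝕜 := ℝ)).const_mul (C * K * 2 ^ n * v)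
    simpa using this
  have hl3 : Tendsto (fun j => ∫ x, χ j x * gmtDiv Y x) atTop (𝓝 0) := by
    have := hl2.neg
    simp only [neg_zero] at this
    exact this.congr fun j => (hsum j).symm
  exact tendsto_nhds_unique hl1 hl3


/-! ### bounds -/

section bounds

variable {U : E n → ℝ} {x : E n} {κ : ℝ}

theorem hts_B_nonneg (hκ : 0 < κ) (U : E n → ℝ) (x : E n) : 0 ≤ htsB κ U x := by
  unfold htsB
  have : 0 ≤ ⟪gradient U x, gradient U x⟫ := real_inner_self_nonneg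
  positivity

theorem hts_B_le_A (hκ : 0 < κ) (hn : 3 ≤ n) (hU : AcSol n κ U) (hx : x ≠ 0) : htsB κ U x ≤ htsA κ U x := by
  have h1 := ht_modica hκ hn hU hx
  have hp : 0 < ‖x‖ := norm_pos_iff.2 hx
  unfold htsB htsA
  rw [real_inner_self_eq_norm_sq, ell_norm_gradient]
  have e : acW (U x) * (κ⁻¹ * ‖x‖⁻¹) = acW (U x) / (κ * ‖x‖) := by field_simp
  rw [e, le_div_iff₀ (by positivity)]
  nlinarith

theorem hts_A_le (hκ : 0 < κ) (hU : AcSol n κ U) (x : E n) : htsA κ U x ≤ 1 / 4 * κ⁻¹ * ‖x‖⁻¹ := by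
  unfold htsA
  have h1 : acW (U x) ≤ 1 / 4 := by
    unfold acW
    have h2 : U x ^ 2 ≤ 1 := by
      rw [← sq_abs]; exact pow_le_one₀ (abs_nonneg _) (hU.bdd x)
    nlinarith [sq_nonneg (U x)]
  have h3 : 0 ≤ κ⁻¹ * ‖x‖⁻¹ := by positivity
  nlinarith

theorem hts_G_bound (hκ : 0 < κ) (hn : 3 ≤ n) (hU : AcSol n κ U) (hx : x ≠ 0) :
    0 ≤ htsG κ U x ∧ htsG κ U x * ‖x‖ ^ 2 ≤ htsA κ U x := by
  have h1 := hts_B_le_A hκ hn hU hx
  have h2 := hts_B_nonneg hκ U x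
  have hp : 0 < ‖x‖ := norm_pos_iff.2 hx
  have h3 : (1 : ℝ) ≤ (n : ℝ) - 2 := by
    have : (3 : ℝ) ≤ n := by exact_mod_cast hn
    linarith
  have h4 : 0 < (n : ℝ) - 2 := by linarith
  have h5 : ((n : ℝ) - 2)⁻¹ ≤ 1 := inv_le_one_of_one_le₀ h3
  unfold htsG
  constructor
  · have : 0 ≤ htsA κ U x - htsB κ U x := by linarith
    positivity
  · have e : ((n : ℝ) - 2)⁻¹ * ((htsA κ U x - htsB κ U x) * (‖x‖⁻¹ * ‖x‖⁻¹)) * ‖x‖ ^ 2
        = ((n : ℝ) - 2)⁻¹ * (htsA κ U x - htsB κ U x) := by field_simp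
    rw [e]
    have h6 : 0 ≤ htsA κ U x - htsB κ U x := by linarith
    nlinarith [mul_le_mul_of_nonneg_right h5 h6]

theorem hts_gradsq (κ : ℝ) (U : E n → ℝ) (x : E n) : κ * ‖x‖ * ‖gradient U x‖ ^ 2 = 2 * htsB κ U x := by
  unfold htsB
  rw [real_inner_self_eq_norm_sq]
  ring

theorem hts_Y_bound (hκ : 0 < κ) (hn : 3 ≤ n) (hU : AcSol n κ U) (hx : x ≠ 0) (X : E n → E n) :
    ‖htsY κ U X x‖ ≤ 5 * htsA κ U x * ‖X x‖ := by
  have h1 := hts_B_le_A hκ hn hU hx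
  have h2 := hts_B_nonneg hκ U x
  obtain ⟨h3, h4⟩ := hts_G_bound hκ hn hU hx
  unfold htsY
  have t1 : ‖(htsB κ U x + htsA κ U x) • X x‖ ≤ 2 * htsA κ U x * ‖X x‖ := by
    rw [norm_smul, Real.norm_eq_abs, abs_of_nonneg (by linarith)]
    exact mul_le_mul_of_nonneg_right (by linarith) (norm_nonneg _)
  have t2 : ‖(κ * ‖x‖ * ⟪gradient U x, X x⟫) • gradient U x‖ ≤ 2 * htsA κ U x * ‖X x‖ := by
    rw [norm_smul, Real.norm_eq_abs, abs_mul, abs_of_nonneg (by positivity)]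
    have h5 := abs_real_inner_le_norm (gradient U x) (X x)
    calc κ * ‖x‖ * |⟪gradient U x, X x⟫| * ‖gradient U x‖
        ≤ κ * ‖x‖ * (‖gradient U x‖ * ‖X x‖) * ‖gradient U x‖ := by gcongr
      _ = (κ * ‖x‖ * ‖gradient U x‖ ^ 2) * ‖X x‖ := by ring
      _ = 2 * htsB κ U x * ‖X x‖ := by rw [hts_gradsq]
      _ ≤ 2 * htsA κ U x * ‖X x‖ := mul_le_mul_of_nonneg_right (by linarith) (norm_nonneg _)
  have t3 : ‖(htsG κ U x * ⟪x, X x⟫) • x‖ ≤ htsA κ U x * ‖X x‖ := by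
    rw [norm_smul, Real.norm_eq_abs, abs_mul, abs_of_nonneg h3]
    have h5 := abs_real_inner_le_norm x (X x)
    calc htsG κ U x * |⟪x, X x⟫| * ‖x‖ ≤ htsG κ U x * (‖x‖ * ‖X x‖) * ‖x‖ := by gcongr
      _ = (htsG κ U x * ‖x‖ ^ 2) * ‖X x‖ := by ring
      _ ≤ htsA κ U x * ‖X x‖ := mul_le_mul_of_nonneg_right h4 (norm_nonneg _)
  calc _ ≤ ‖(htsB κ U x + htsA κ U x) • X x - (κ * ‖x‖ * ⟪gradient U x, X x⟫) • gradient U x‖
        + ‖(htsG κ U x * ⟪x, X x⟫) • x‖ := norm_add_le _ _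
    _ ≤ ‖(htsB κ U x + htsA κ U x) • X x‖ + ‖(κ * ‖x‖ * ⟪gradient U x, X x⟫) • gradient U x‖
        + ‖(htsG κ U x * ⟪x, X x⟫) • x‖ := by gcongr; exact norm_sub_le _ _
    _ ≤ _ := by linarith

theorem hts_abs_gmtDiv_le (X : E n → E n) (x : E n) : |gmtDiv X x| ≤ n * ‖fderiv ℝ X x‖ := by
  unfold gmtDiv
  calc |∑ i, fderiv ℝ X x (eb i) i| ≤ ∑ i : Fin n, |fderiv ℝ X x (eb i) i| := Finset.abs_sum_le_sum_abs _ _
    _ ≤ ∑ _i : Fin n, ‖fderiv ℝ X x‖ := by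
        refine Finset.sum_le_sum fun i _ => ?_
        have h1 : |fderiv ℝ X x (eb i) i| ≤ ‖fderiv ℝ X x (eb i)‖ := by
          rw [← Real.norm_eq_abs]; exact PiLp.norm_apply_le _ i
        have h2 := (fderiv ℝ X x).le_opNorm (eb i)
        have h3 : ‖(eb i : E n)‖ = 1 := by simp
        rw [h3, mul_one] at h2
        exact h1.trans h2
    _ = n * ‖fderiv ℝ X x‖ := by simp

theorem hts_I_bound (hκ : 0 < κ) (hn : 3 ≤ n) (hU : AcSol n κ U) (hx : x ≠ 0) (X : E n → E n) :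
    |htsI κ U X x| ≤ (2 * n + 3) * htsA κ U x * ‖fderiv ℝ X x‖ := by
  have h1 := hts_B_le_A hκ hn hU hx
  have h2 := hts_B_nonneg hκ U x
  obtain ⟨h3, h4⟩ := hts_G_bound hκ hn hU hx
  have hL := norm_nonneg (fderiv ℝ X x)
  unfold htsI
  have t1 : |(htsB κ U x + htsA κ U x) * gmtDiv X x| ≤ 2 * n * htsA κ U x * ‖fderiv ℝ X x‖ := by
    rw [abs_mul, abs_of_nonneg (by linarith)]
    calc (htsB κ U x + htsA κ U x) * |gmtDiv X x| ≤ (2 * htsA κ U x) * (n * ‖fderiv ℝ X x‖) :=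
          mul_le_mul (by linarith) (hts_abs_gmtDiv_le X x) (abs_nonneg _) (by linarith)
      _ = _ := by ring
  have t2 : |κ * ‖x‖ * ⟪gradient U x, fderiv ℝ X x (gradient U x)⟫| ≤ 2 * htsA κ U x * ‖fderiv ℝ X x‖ := by
    rw [abs_mul, abs_of_nonneg (by positivity)]
    have h5 := abs_real_inner_le_norm (gradient U x) (fderiv ℝ X x (gradient U x))
    have h6 := (fderiv ℝ X x).le_opNorm (gradient U x)
    calc κ * ‖x‖ * |⟪gradient U x, fderiv ℝ X x (gradient U x)⟫|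
        ≤ κ * ‖x‖ * (‖gradient U x‖ * (‖fderiv ℝ X x‖ * ‖gradient U x‖)) := by
          gcongr; exact h5.trans (by gcongr)
      _ = (κ * ‖x‖ * ‖gradient U x‖ ^ 2) * ‖fderiv ℝ X x‖ := by ring
      _ = 2 * htsB κ U x * ‖fderiv ℝ X x‖ := by rw [hts_gradsq]
      _ ≤ 2 * htsA κ U x * ‖fderiv ℝ X x‖ := mul_le_mul_of_nonneg_right (by linarith) hL
  have t3 : |htsG κ U x * ⟪x, fderiv ℝ X x x⟫| ≤ htsA κ U x * ‖fderiv ℝ X x‖ := by
    rw [abs_mul, abs_of_nonneg h3]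
    have h5 := abs_real_inner_le_norm x (fderiv ℝ X x x)
    have h6 := (fderiv ℝ X x).le_opNorm x
    calc htsG κ U x * |⟪x, fderiv ℝ X x x⟫| ≤ htsG κ U x * (‖x‖ * (‖fderiv ℝ X x‖ * ‖x‖)) := by
          gcongr; exact h5.trans (by gcongr)
      _ = (htsG κ U x * ‖x‖ ^ 2) * ‖fderiv ℝ X x‖ := by ring
      _ ≤ htsA κ U x * ‖fderiv ℝ X x‖ := mul_le_mul_of_nonneg_right h4 hL
  calc _ ≤ |(htsB κ U x + htsA κ U x) * gmtDiv X x - κ * ‖x‖ * ⟪gradient U x, fderiv ℝ X x (gradient U x)⟫|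
        + |htsG κ U x * ⟪x, fderiv ℝ X x x⟫| := abs_add_le _ _
    _ ≤ |(htsB κ U x + htsA κ U x) * gmtDiv X x| + |κ * ‖x‖ * ⟪gradient U x, fderiv ℝ X x (gradient U x)⟫|
        + |htsG κ U x * ⟪x, fderiv ℝ X x x⟫| := by gcongr; exact abs_sub _ _
    _ ≤ _ := by linarith

end bounds

/-! ### integrability of `|x|⁻¹` -/

theorem hts_inv_integrableOn (hn : 2 ≤ n) (R : ℝ) : IntegrableOn (fun z : E n => ‖z‖⁻¹) (ball 0 R) := by
  have : Nonempty (Fin n) := ⟨⟨0, by omega⟩⟩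
  rw [integrableOn_fun_norm_addHaar (μ := (volume : Measure (E n))) (f := fun y : ℝ => y⁻¹)]
  have h1 : IntegrableOn (fun y : ℝ => y ^ (n - 2)) (Ioo 0 R) :=
    ((continuous_pow (n - 2)).integrableOn_Icc (a := 0) (b := R)).mono_set Ioo_subset_Icc_self
  refine h1.congr_fun (fun y hy => ?_) measurableSet_Ioo
  have hy0 : y ≠ 0 := hy.1.ne'
  simp only [finrank_euclideanSpace, Fintype.card_fin, smul_eq_mul]
  have e : n - 1 = (n - 2) + 1 := by omega
  rw [e, pow_succ]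
  field_simp

theorem hts_inv_integrable_indicator (hn : 2 ≤ n) (R c : ℝ) :
    Integrable ((ball (0 : E n) R).indicator fun z : E n => c * ‖z‖⁻¹) :=
  IntegrableOn.integrable_indicator (Integrable.const_mul (hts_inv_integrableOn hn R) c) measurableSet_ball

theorem hts_measurable_gmtDiv (Y : E n → E n) : Measurable (gmtDiv Y) := by
  unfold gmtDiv
  refine Finset.measurable_sum _ fun i _ => ?_
  exact (EuclideanSpace.proj i : E n →L[ℝ] ℝ).measurable.comp (measurable_fderiv_apply_const ℝ Y (eb i))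

/-! ### smoothness -/

section smooth

variable {U : E n → ℝ} {κ : ℝ}

theorem hts_norm_smooth : ContDiffOn ℝ ∞ (fun z : E n => ‖z‖) {0}ᶜ :=
  fun _ hz => (contDiffAt_norm ℝ hz).contDiffWithinAt

theorem hts_norm_inv_smooth : ContDiffOn ℝ ∞ (fun z : E n => ‖z‖⁻¹) {0}ᶜ :=
  hts_norm_smooth.inv fun _ hz => norm_ne_zero_iff.2 hz

theorem hts_A_smooth (hs : ContDiffOn ℝ ∞ U {0}ᶜ) : ContDiffOn ℝ ∞ (htsA κ U) {0}ᶜ := by
  unfold htsA
  exact (ht_acW_smooth.comp_contDiffOn hs).mul (contDiffOn_const.mul hts_norm_inv_smooth)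

theorem hts_B_smooth (hs : ContDiffOn ℝ ∞ U {0}ᶜ) : ContDiffOn ℝ ∞ (htsB κ U) {0}ᶜ := by
  unfold htsB
  exact contDiffOn_const.mul (hts_norm_smooth.mul ((hts_grad_smooth hs).inner ℝ (hts_grad_smooth hs)))

theorem hts_G_smooth (hs : ContDiffOn ℝ ∞ U {0}ᶜ) : ContDiffOn ℝ ∞ (htsG κ U) {0}ᶜ := by
  unfold htsG
  exact contDiffOn_const.mul (((hts_A_smooth hs).sub (hts_B_smooth hs)).mul (hts_norm_inv_smooth.mul hts_norm_inv_smooth))

theorem hts_Y_c1 (hs : ContDiffOn ℝ ∞ U {0}ᶜ) {X : E n → E n} (hX : ContDiff ℝ 1 X) :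
    ContDiffOn ℝ 1 (htsY κ U X) {0}ᶜ := by
  have h1 : (1 : WithTop ℕ∞) ≤ ∞ := by norm_cast
  have hA := (hts_A_smooth (κ := κ) hs).of_le h1
  have hB := (hts_B_smooth (κ := κ) hs).of_le h1
  have hG := (hts_G_smooth (κ := κ) hs).of_le h1
  have hg := (hts_grad_smooth hs).of_le h1
  have hr := (hts_norm_smooth (n := n)).of_le h1
  have hX' := hX.contDiffOn (s := ({0}ᶜ : Set (E n)))
  unfold htsY
  exact (((hB.add hA).smul hX').sub (((contDiffOn_const.mul hr).mul (hg.inner ℝ hX')).smul hg)).add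
    ((hG.mul (contDiffOn_id.inner ℝ hX')).smul contDiffOn_id)

end smooth

/-! ### stationarity, vertex `0` -/

theorem hts_stat {U : E n → ℝ} {κ : ℝ} (hκ : 0 < κ) (hn : 3 ≤ n) (hU : AcSol n κ U) {X : E n → E n} (hX : GmtTest univ X) :
    Integrable (htsI κ U X) ∧ ∫ z, htsI κ U X z = 0 := by
  have hn2 : (n : ℝ) - 2 ≠ 0 := by
    have : (3 : ℝ) ≤ n := by exact_mod_cast hn
    intro h; linarith
  have hae := hts_ae_ne (n := n) (by omega) 0
  have hdiv : ∀ z, z ≠ 0 → gmtDiv (htsY κ U X) z = htsI κ U X z := fun z hz =>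
    hts_div hκ.ne' hn2 hU.smooth hU.hom hz (hU.eq z hz) (hX.c1.differentiable (by norm_num) z)
  have hcs : HasCompactSupport (htsY κ U X) := by
    refine hX.cpt.mono fun z hz => ?_
    intro h0
    apply hz
    simp [htsY, h0]
  -- bounds of `X`, `DX`
  obtain ⟨L, hL⟩ := (hX.cpt.fderiv ℝ).exists_bound_of_continuous (hX.c1.continuous_fderiv (by norm_num))
  obtain ⟨S, hS⟩ := hX.cpt.exists_bound_of_continuous hX.c1.continuous
  obtain ⟨R, hR⟩ := hX.cpt.isCompact.isBounded.subset_ball (0 : E n)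
  have hL0 : 0 ≤ L := (norm_nonneg _).trans (hL 0)
  have hS0 : 0 ≤ S := (norm_nonneg _).trans (hS 0)
  have hA0 : ∀ z : E n, 0 ≤ htsA κ U z := fun z => by
    unfold htsA
    have := ht_acW_nonneg (U z)
    positivity
  have hint : Integrable (gmtDiv (htsY κ U X)) := by
    refine (hts_inv_integrable_indicator (n := n) (by omega) R ((2 * n + 3) * (1 / 4 * κ⁻¹) * L)).mono'
      (hts_measurable_gmtDiv _).aestronglyMeasurable ?_
    filter_upwards [hae] with z hz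
    rw [hdiv z hz, Real.norm_eq_abs]
    by_cases hzs : z ∈ tsupport X
    · rw [indicator_of_mem (hR hzs)]
      refine (hts_I_bound hκ hn hU hz X).trans ?_
      have h1 := hts_A_le hκ hU z
      calc (2 * (n : ℝ) + 3) * htsA κ U z * ‖fderiv ℝ X z‖ ≤ (2 * (n : ℝ) + 3) * (1 / 4 * κ⁻¹ * ‖z‖⁻¹) * L :=
            mul_le_mul (mul_le_mul_of_nonneg_left h1 (by positivity)) (hL z) (norm_nonneg _) (by positivity)
        _ = _ := by ring
    · have h1 : fderiv ℝ X z = 0 := fderiv_of_notMem_tsupport (𝕜 := ℝ) hzs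
      have h2 : htsI κ U X z = 0 := by
        unfold htsI
        rw [gmtDiv_eq_zero_of_notMem hzs, h1]
        simp
      rw [h2, abs_zero]
      refine indicator_nonneg (fun y _ => ?_) z
      positivity
  have hK : ∀ z, z ≠ 0 → ‖htsY κ U X z‖ ≤ (5 * (1 / 4 * κ⁻¹) * S) * ‖z‖⁻¹ := fun z hz => by
    refine (hts_Y_bound hκ hn hU hz X).trans ?_
    have h1 := hts_A_le hκ hU z
    calc 5 * htsA κ U z * ‖X z‖ ≤ 5 * (1 / 4 * κ⁻¹ * ‖z‖⁻¹) * S :=
          mul_le_mul (mul_le_mul_of_nonneg_left h1 (by norm_num)) (hS z) (norm_nonneg _) (by positivity)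
      _ = _ := by ring
  have h0 := hts_div_punctured hn (hts_Y_c1 hU.smooth hX.c1) hcs hK hint
  have hcongr : gmtDiv (htsY κ U X) =ᵐ[volume] htsI κ U X := by
    filter_upwards [hae] with z hz using hdiv z hz
  exact ⟨hint.congr hcongr, by rw [← integral_congr_ae hcongr]; exact h0⟩

end Claimed.Agent.R323
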