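import Claimed.Agent.R323.Ht.AcPt
import Claimed.Agent.R323.Ht.Stress

/-!
# Row 323, block C, sub-block AC, part PAIR: the exact entire stationary pair (owner helper106).   Statement = contract of helper39 (moved verbatim from `Ht/Ac.lean`).
`ht_pair`: pointwise fields from `Ht/AcPt.lean`; `stat` from `Ht/Stress.lean` (`hts_stat`, vertex `0`) by the translation `V z = U (q + z)`:
`htCon (htM n κ q U x) (DX x) = acC⁻¹ htsI κ V X(q + ·) (x - q)` (`ht_con_eq`).   Also: `ht_D_continuousOn`, `ht_M_continuousOn`, `ht_D_integrableOn_ball`, `ht_con_M`.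
-/

set_option autoImplicit false
open scoped ContDiff ENNReal NNReal RealInnerProductSpace Topology
open MeasureTheory Metric Set Filter

namespace Claimed.Agent.R323

open Claimed.Agent.Gmt

variable {n : ℕ}

theorem ht_aesm {F : Type*} [NormedAddCommGroup F] (hn : 1 ≤ n) (q : E n) {f : E n → F} (hf : ContinuousOn f {q}ᶜ) :
    AEStronglyMeasurable f (volume : Measure (E n)) := by
  have : Nonempty (Fin n) := ⟨⟨0, by omega⟩⟩
  have h1 := hf.aestronglyMeasurable (μ := (volume : Measure (E n))) (measurableSet_singleton q).compl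
  rwa [restrict_compl_singleton] at h1

section cont

variable {κ : ℝ} {q : E n} {U : E n → ℝ}

theorem ht_eps_continuous (κ : ℝ) (q : E n) : Continuous (htEps κ q) := by
  unfold htEps
  fun_prop

theorem ht_fderiv_continuousOn (h : HtAC n κ q U) : ContinuousOn (fderiv ℝ U) {q}ᶜ :=
  h.smooth.continuousOn_fderiv_of_isOpen isOpen_compl_singleton (by norm_cast)

theorem ht_W_div_continuousOn (h : HtAC n κ q U) : ContinuousOn (fun x => acW (U x) / htEps κ q x) {q}ᶜ :=
  (ht_acW_smooth.continuous.comp_continuousOn h.smooth.continuousOn).div (ht_eps_continuous κ q).continuousOn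
    fun _ hx => (ht_eps_pos h.pos hx).ne'

theorem ht_K_continuousOn (h : HtAC n κ q U) : ContinuousOn (fun x => htEps κ q x / 2 * ‖fderiv ℝ U x‖ ^ 2) {q}ᶜ :=
  ((ht_eps_continuous κ q).continuousOn.div_const 2).mul ((ht_fderiv_continuousOn h).norm.pow 2)

theorem ht_E_continuousOn (h : HtAC n κ q U) : ContinuousOn (htE κ q U) {q}ᶜ :=
  (ht_K_continuousOn h).add (ht_W_div_continuousOn h)

theorem ht_Xi_continuousOn (h : HtAC n κ q U) : ContinuousOn (htXi κ q U) {q}ᶜ :=
  (ht_W_div_continuousOn h).sub (ht_K_continuousOn h)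

theorem ht_D_continuousOn (h : HtAC n κ q U) : ContinuousOn (htD n κ q U) {q}ᶜ :=
  ((ht_E_continuousOn h).add ((ht_Xi_continuousOn h).div_const _)).div_const _

theorem ht_dir_continuousOn (q : E n) : ContinuousOn (htDir q) {q}ᶜ := by
  unfold htDir
  have h1 : Continuous fun x : E n => x - q := by fun_prop
  exact (h1.norm.continuousOn.inv₀ fun x hx => norm_ne_zero_iff.2 (sub_ne_zero.2 hx)).smul h1.continuousOn

theorem ht_smulRight_continuousOn {s : Set (E n)} {c : E n → E n →L[ℝ] ℝ} {f : E n → E n} (hc : ContinuousOn c s)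
    (hf : ContinuousOn f s) : ContinuousOn (fun x => (c x).smulRight (f x)) s := by
  have h1 : ContinuousOn (fun x => ContinuousLinearMap.smulRightL ℝ (E n) (E n) (c x) (f x)) s :=
    ((ContinuousLinearMap.smulRightL ℝ (E n) (E n)).continuous.comp_continuousOn hc).clm_apply hf
  exact h1

theorem ht_M_continuousOn (h : HtAC n κ q U) : ContinuousOn (htM n κ q U) {q}ᶜ := by
  unfold htM
  have hg : ContinuousOn (gradient U) {q}ᶜ := by
    unfold gradient
    exact (LinearIsometryEquiv.continuous _).comp_continuousOn (ht_fderiv_continuousOn h)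
  have h1 : ContinuousOn (fun x => htE κ q U x • ContinuousLinearMap.id ℝ (E n)) {q}ᶜ :=
    (ht_E_continuousOn h).smul continuousOn_const
  have h2 : ContinuousOn (fun x => htEps κ q x • (fderiv ℝ U x).smulRight (gradient U x)) {q}ᶜ :=
    (ht_eps_continuous κ q).continuousOn.smul (ht_smulRight_continuousOn (ht_fderiv_continuousOn h) hg)
  have h3 : ContinuousOn (fun x => (htXi κ q U x / ((n : ℝ) - 2)) • (innerSL ℝ (htDir q x)).smulRight (htDir q x)) {q}ᶜ :=
    ((ht_Xi_continuousOn h).div_const _).smul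
      (ht_smulRight_continuousOn ((innerSL ℝ).continuous.comp_continuousOn (ht_dir_continuousOn q)) (ht_dir_continuousOn q))
  exact ((h1.sub h2).add h3).const_smul (acC⁻¹ : ℝ)

end cont

/-! ### local integrability -/

theorem ht_inv_integrableOn (hn : 2 ≤ n) (q : E n) (R c : ℝ) : IntegrableOn (fun x : E n => c * ‖x - q‖⁻¹) (ball q R) := by
  have h1 := (hts_inv_integrable_indicator (n := n) hn R c).comp_sub_right q
  rw [← integrable_indicator_iff measurableSet_ball]
  refine h1.congr (Eventually.of_forall fun x => ?_)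
  by_cases hx : x ∈ ball q R
  · have hx' : x - q ∈ ball (0 : E n) R := by
      rw [mem_ball_zero_iff]; rwa [mem_ball, dist_eq_norm] at hx
    simp only [indicator_of_mem hx, indicator_of_mem hx']
  · have hx' : x - q ∉ ball (0 : E n) R := by
      rw [mem_ball_zero_iff]; rwa [mem_ball, dist_eq_norm] at hx
    simp only [indicator_of_notMem hx, indicator_of_notMem hx']

theorem ht_D_integrableOn_ball (hn : 3 ≤ n) {κ : ℝ} {q : E n} {U : E n → ℝ} (h : HtAC n κ q U) (R : ℝ) :
    IntegrableOn (htD n κ q U) (ball q R) := by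
  refine Integrable.mono' (ht_inv_integrableOn (by omega) q R (acC⁻¹ * κ⁻¹))
    (ht_aesm (by omega) q (ht_D_continuousOn h)).restrict (Eventually.of_forall fun x => ?_)
  rw [Real.norm_eq_abs, abs_of_nonneg (ht_D_nonneg hn h x)]
  exact ht_D_le hn h x

theorem ht_D_locallyIntegrable (hn : 3 ≤ n) {κ : ℝ} {q : E n} {U : E n → ℝ} (h : HtAC n κ q U) :
    LocallyIntegrable (htD n κ q U) := by
  intro x
  exact ⟨ball q (dist x q + 1), isOpen_ball.mem_nhds (mem_ball.2 (by linarith)), ht_D_integrableOn_ball hn h _⟩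

/-! ### the contraction -/

theorem ht_sum_inner (a : E n) (L : E n →L[ℝ] E n) : ∑ i, ⟪a, L (eb i)⟫ * ⟪a, eb i⟫ = ⟪a, L a⟫ := by
  conv_rhs => rw [← gmt_sum_eb a, map_sum, inner_sum]
  conv_rhs => rw [gmt_sum_eb a]
  refine Finset.sum_congr rfl fun i _ => ?_
  rw [map_smul, inner_smul_right, EuclideanSpace.inner_single_right]
  simp
  ring

theorem ht_con_M (κ : ℝ) (q : E n) (U : E n → ℝ) (x : E n) (L : E n →L[ℝ] E n) :
    htCon (htM n κ q U x) L = acC⁻¹ * (htE κ q U x * (∑ i, L (eb i) i) - htEps κ q x * ⟪gradient U x, L (gradient U x)⟫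
      + htXi κ q U x / ((n : ℝ) - 2) * ⟪htDir q x, L (htDir q x)⟫) := by
  unfold htCon
  have hg : ∀ w, fderiv ℝ U x w = ⟪gradient U x, w⟫ := fun w => Claimed.Agent.Lib.Ell.ell_dd_eq_inner U x w
  simp only [ht_M_inner, hg]
  rw [← ht_sum_inner (gradient U x) L, ← ht_sum_inner (htDir q x) L, ← Finset.mul_sum]
  congr 1
  simp only [Finset.mul_sum, ← Finset.sum_sub_distrib, ← Finset.sum_add_distrib]
  refine Finset.sum_congr rfl fun i _ => ?_
  have e : ⟪L (eb i), eb i⟫ = L (eb i) i := by
    rw [EuclideanSpace.inner_single_right]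
    simp
  rw [e]

theorem ht_con_eq (κ : ℝ) (q : E n) (U : E n → ℝ) (X : E n → E n) (x : E n) :
    htCon (htM n κ q U x) (fderiv ℝ X x) = acC⁻¹ * htsI κ (fun z => U (q + z)) (fun z => X (q + z)) (x - q) := by
  rw [ht_con_M]
  congr 1
  unfold htsI gmtDiv htsG htsA htsB htE htXi htEps htDir
  rw [ht_gradient_shift, fderiv_comp_add_left]
  simp only [add_sub_cancel, map_smul, inner_smul_left, inner_smul_right, conj_trivial, real_inner_self_eq_norm_sq,
    Claimed.Agent.Lib.Ell.ell_norm_gradient]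
  rw [div_eq_mul_inv (acW (U x)), mul_inv]
  ring

theorem ht_test_shift {X : E n → E n} (hX : GmtTest univ X) (q : E n) : GmtTest univ (fun z => X (q + z)) :=
  ⟨hX.c1.comp (contDiff_const.add contDiff_id), hX.cpt.comp_homeomorph (Homeomorph.addLeft q), subset_univ _⟩

theorem ht_M_tr (hn : 3 ≤ n) (κ : ℝ) (q : E n) (U : E n → ℝ) {x : E n} (hx : x ≠ q) :
    ∑ i, ⟪htM n κ q U x (eb i), eb i⟫ = ((n : ℝ) - 1) * htD n κ q U x := by
  have h0 := ht_con_M κ q U x (ContinuousLinearMap.id ℝ (E n))
  unfold htCon at h0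
  simp only [ContinuousLinearMap.id_apply] at h0
  rw [h0]
  have h1 : ∑ i : Fin n, (eb i : E n) i = n := by simp
  have h2 : ‖htDir q x‖ = 1 := by
    unfold htDir
    rw [norm_smul, norm_inv, norm_norm, inv_mul_cancel₀ (norm_ne_zero_iff.2 (sub_ne_zero.2 hx))]
  have h3 := ht_n_sub_two hn
  have h4 : (n : ℝ) - 2 ≠ 0 := by linarith
  rw [h1, real_inner_self_eq_norm_sq, real_inner_self_eq_norm_sq, h2, Claimed.Agent.Lib.Ell.ell_norm_gradient]
  unfold htD
  rw [ht_E_sub_Xi]
  have := ht_acC_pos.ne'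
  field_simp
  ring

/-- AC2: the exact entire stationary pair. -/
theorem ht_pair (hn : 3 ≤ n) {κ : ℝ} {q : E n} {U : E n → ℝ} (h : HtAC n κ q U) :
    HtPair n volume (htD n κ q U) (htM n κ q U) := by
  refine ⟨ht_aesm (by omega) q (ht_D_continuousOn h), ht_aesm (by omega) q (ht_M_continuousOn h),
    ht_D_locallyIntegrable hn h, Eventually.of_forall fun x v w => ?_, Eventually.of_forall fun x v => ht_M_nonneg hn h x v,
    Eventually.of_forall fun x v => ht_M_le hn h x v, ?_, fun X hX => ?_⟩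
  · rw [ht_M_inner, real_inner_comm (htM n κ q U x w) v, ht_M_inner, real_inner_comm v w]
    ring
  · filter_upwards [hts_ae_ne (n := n) (by omega) q] with x hx using ht_M_tr hn κ q U hx
  · simp only [ht_con_eq]
    rw [integral_const_mul, integral_sub_right_eq_self (fun z => htsI κ (fun z => U (q + z)) (fun z => X (q + z)) z) q,
      (hts_stat h.pos hn (ht_ac_shift h) (ht_test_shift hX q)).2, mul_zero]

end Claimed.Agent.R323
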