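import Claimed.Agent.R323.Ht.AcPair
import Claimed.Agent.R323.Gap.Polar

/-!
# Row 323, block C, sub-block AC, part RAD: HOMOGENEITY, LINK MASS, ENERGY.   (helper106)   Statements = contract of helper39 (moved verbatim from `Ht/Ac.lean`).
`htE`, `htXi`, `htD` are `(-1)`-homogeneous about `q` (`htr_hom_E`, `htr_hom_Xi`, `htr_hom_D`); polar coordinates `gp_polar` (`R323/Gap/Polar.lean`, helper137) give
`htr_polar`: `∫ ρ(|x|) h = gpS n h ∫_0^∞ ρ(r) r^{n-2} dr` and `htr_set`: `∫_{|x| ∈ J} h = gpS n h ∫_{J ∩ (0,∞)} r^{n-2} dr`.   `htEn n κ q U = gpS n (fun z => htD n κ q U (q + z))` (`htr_En`).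
-/

set_option autoImplicit false
open scoped ContDiff ENNReal NNReal RealInnerProductSpace Topology
open MeasureTheory Metric Set Filter

namespace Claimed.Agent.R323

open Claimed.Agent.Gmt

variable {n : ℕ}

/-! ### polar coordinates for `(-1)`-homogeneous functions -/

theorem htr_polar (hn : 2 ≤ n) {h : E n → ℝ} (hh : GpHom n (-1) h) (ρ : ℝ → ℝ) :
    ∫ x, ρ ‖x‖ * h x = gpS n h * ∫ r in Ioi (0 : ℝ), ρ r * r ^ (n - 2) := by
  rw [gp_polar (by omega) hh ρ]
  congr 1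
  refine setIntegral_congr_fun measurableSet_Ioi fun r hr => ?_
  have hr0 : r ≠ 0 := (mem_Ioi.1 hr).ne'
  have e : n - 1 = (n - 2) + 1 := by omega
  show r ^ (n - 1) * (ρ r * r ^ (-1 : ℝ)) = ρ r * r ^ (n - 2)
  rw [Real.rpow_neg_one, e, pow_succ]
  field_simp

theorem htr_set (hn : 2 ≤ n) {h : E n → ℝ} (hh : GpHom n (-1) h) {J : Set ℝ} (hJ : MeasurableSet J) :
    ∫ x in {x : E n | ‖x‖ ∈ J}, h x = gpS n h * ∫ r in Ioi (0 : ℝ) ∩ J, r ^ (n - 2) := by
  have h1 := htr_polar hn hh (J.indicator fun _ => (1 : ℝ))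
  have hm : MeasurableSet {x : E n | ‖x‖ ∈ J} := measurable_norm hJ
  have h2 : ∫ x in {x : E n | ‖x‖ ∈ J}, h x = ∫ x, (J.indicator fun _ => (1 : ℝ)) ‖x‖ * h x := by
    rw [← integral_indicator hm]
    refine integral_congr_ae (Eventually.of_forall fun x => ?_)
    by_cases hx : ‖x‖ ∈ J
    · have hx' : x ∈ {x : E n | ‖x‖ ∈ J} := hx
      simp only [indicator_of_mem hx', indicator_of_mem hx, one_mul]
    · have hx' : x ∉ {x : E n | ‖x‖ ∈ J} := hx
      simp only [indicator_of_notMem hx', indicator_of_notMem hx, zero_mul]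
  rw [h2, h1]
  congr 1
  rw [← setIntegral_indicator hJ]
  refine integral_congr_ae (Eventually.of_forall fun r => ?_)
  by_cases hr : r ∈ J
  · simp only [indicator_of_mem hr, one_mul]
  · simp only [indicator_of_notMem hr, zero_mul]

theorem htr_int_pow (hn : 2 ≤ n) {a b : ℝ} (ha : 0 ≤ a) (hab : a ≤ b) :
    ∫ r in Ioi (0 : ℝ) ∩ Ioo a b, r ^ (n - 2) = (b ^ (n - 1) - a ^ (n - 1)) / ((n : ℝ) - 1) := by
  have e : Ioi (0 : ℝ) ∩ Ioo a b = Ioo a b := by
    ext r
    simp only [mem_inter_iff, mem_Ioi, mem_Ioo]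
    constructor
    · exact fun h => h.2
    · exact fun h => ⟨lt_of_le_of_lt ha h.1, h⟩
  rw [e, ← integral_Ioc_eq_integral_Ioo, ← intervalIntegral.integral_of_le hab, integral_pow]
  have e2 : n - 2 + 1 = n - 1 := by omega
  have e3 : ((n - 2 : ℕ) : ℝ) + 1 = (n : ℝ) - 1 := by
    rw [Nat.cast_sub hn]; push_cast; ring
  rw [e2, e3]

theorem htr_int_pow_Iio (hn : 2 ≤ n) {b : ℝ} (hb : 0 ≤ b) :
    ∫ r in Ioi (0 : ℝ) ∩ Iio b, r ^ (n - 2) = b ^ (n - 1) / ((n : ℝ) - 1) := by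
  have e : Ioi (0 : ℝ) ∩ Iio b = Ioi (0 : ℝ) ∩ Ioo 0 b := by
    ext r
    simp only [mem_inter_iff, mem_Ioi, mem_Ioo, mem_Iio]
    tauto
  rw [e, htr_int_pow hn le_rfl hb, zero_pow (by omega), sub_zero]

theorem htr_ball (hn : 2 ≤ n) {h : E n → ℝ} (hh : GpHom n (-1) h) {t : ℝ} (ht : 0 ≤ t) :
    ∫ x in ball (0 : E n) t, h x = gpS n h * (t ^ (n - 1) / ((n : ℝ) - 1)) := by
  have e : ball (0 : E n) t = {x : E n | ‖x‖ ∈ Iio t} := by
    ext x; simp
  rw [e, htr_set hn hh measurableSet_Iio, htr_int_pow_Iio hn ht]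

/-! ### homogeneity -/

section hom

variable {κ : ℝ} {q : E n} {U : E n → ℝ}

theorem htr_fderiv (h : HtAC n κ q U) {t : ℝ} (ht : 0 < t) {z : E n} (hz : z ≠ 0) :
    fderiv ℝ U (q + t • z) = t⁻¹ • fderiv ℝ U (q + z) := by
  have h1 := ht_hom_fderiv (ht_ac_shift h).smooth (ht_ac_shift h).hom ht hz
  rwa [fderiv_comp_add_left, fderiv_comp_add_left] at h1

theorem htr_U (h : HtAC n κ q U) {t : ℝ} (ht : 0 < t) (z : E n) : U (q + t • z) = U (q + z) :=
  (ht_ac_shift h).hom t ht z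

theorem htr_eps (κ : ℝ) (q : E n) {t : ℝ} (ht : 0 < t) (z : E n) : htEps κ q (q + t • z) = t * htEps κ q (q + z) := by
  unfold htEps
  simp only [add_sub_cancel_left]
  rw [norm_smul, Real.norm_eq_abs, abs_of_pos ht]
  ring

theorem htr_hom_E (h : HtAC n κ q U) : GpHom n (-1) (fun z => htE κ q U (q + z)) := by
  intro t ht z hz
  have hp : htEps κ q (q + z) ≠ 0 := (ht_eps_pos h.pos (by simpa using hz)).ne'
  simp only [htE]
  rw [htr_fderiv h ht hz, htr_U h ht, htr_eps κ q ht, norm_smul, Real.norm_eq_abs, abs_of_pos (inv_pos.2 ht),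
    Real.rpow_neg_one]
  field_simp

theorem htr_hom_Xi (h : HtAC n κ q U) : GpHom n (-1) (fun z => htXi κ q U (q + z)) := by
  intro t ht z hz
  have hp : htEps κ q (q + z) ≠ 0 := (ht_eps_pos h.pos (by simpa using hz)).ne'
  simp only [htXi]
  rw [htr_fderiv h ht hz, htr_U h ht, htr_eps κ q ht, norm_smul, Real.norm_eq_abs, abs_of_pos (inv_pos.2 ht),
    Real.rpow_neg_one]
  field_simp

theorem htr_hom_D (h : HtAC n κ q U) : GpHom n (-1) (fun z => htD n κ q U (q + z)) := by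
  intro t ht z hz
  have e1 : htE κ q U (q + t • z) = t ^ (-1 : ℝ) * htE κ q U (q + z) := htr_hom_E h t ht z hz
  have e2 : htXi κ q U (q + t • z) = t ^ (-1 : ℝ) * htXi κ q U (q + z) := htr_hom_Xi h t ht z hz
  simp only [htD]
  rw [e1, e2]
  ring

theorem htr_shift_ball (f : E n → ℝ) (q : E n) (t : ℝ) : ∫ y in ball q t, f y = ∫ z in ball (0 : E n) t, f (q + z) := by
  rw [← integral_indicator measurableSet_ball, ← integral_indicator measurableSet_ball,
    ← integral_add_left_eq_self (fun y => (ball q t).indicator f y) q]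
  refine integral_congr_ae (Eventually.of_forall fun z => ?_)
  by_cases hz : z ∈ ball (0 : E n) t
  · have hz' : q + z ∈ ball q t := by
      rw [mem_ball_zero_iff] at hz; simpa [mem_ball, dist_eq_norm] using hz
    simp only [indicator_of_mem hz, indicator_of_mem hz']
  · have hz' : q + z ∉ ball q t := by
      rw [mem_ball_zero_iff] at hz; simpa [mem_ball, dist_eq_norm] using hz
    simp only [indicator_of_notMem hz, indicator_of_notMem hz']

theorem htr_n_sub_one (hn : 3 ≤ n) : (2 : ℝ) ≤ (n : ℝ) - 1 := by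
  have : (3 : ℝ) ≤ n := by exact_mod_cast hn
  linarith

/-- the link mass is the integral of `d` over the unit sphere about `q`. -/
theorem htr_En (hn : 3 ≤ n) (h : HtAC n κ q U) : htEn n κ q U = gpS n (fun z => htD n κ q U (q + z)) := by
  unfold htEn
  have h1 := htr_n_sub_one hn
  rw [htr_shift_ball, htr_ball (by omega) (htr_hom_D h) zero_le_one, one_pow]
  field_simp

end hom

/-- `∫_{ball q t} d = t^k ∫_{ball q 1} d`. -/
theorem ht_ball_vertex (hn : 3 ≤ n) {κ : ℝ} {q : E n} {U : E n → ℝ} (h : HtAC n κ q U) {t : ℝ} (ht : 0 < t) :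
    ((n : ℝ) - 1) * ∫ y in ball q t, htD n κ q U y = htEn n κ q U * t ^ (n - 1) := by
  have h1 := htr_n_sub_one hn
  rw [htr_En hn h, htr_shift_ball, htr_ball (by omega) (htr_hom_D h) ht.le]
  field_simp

/-- radial test functions: `∫ g(|x-q|) d dx = htEn ∫_0^∞ g(t) t^{n-2} dt`. -/
theorem ht_radial (hn : 3 ≤ n) {κ : ℝ} {q : E n} {U : E n → ℝ} (h : HtAC n κ q U) {g : ℝ → ℝ} (hg : Continuous g)
    (hgc : HasCompactSupport g) :
    ∫ x, g ‖x - q‖ * htD n κ q U x = htEn n κ q U * ∫ t in Ioi (0 : ℝ), g t * t ^ (n - 2) := by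
  rw [htr_En hn h, ← htr_polar (by omega) (htr_hom_D h) g,
    ← integral_add_left_eq_self (fun x => g ‖x - q‖ * htD n κ q U x) q]
  simp only [add_sub_cancel_left]

theorem htr_integrableOn (hn : 3 ≤ n) {κ : ℝ} {q : E n} {U : E n → ℝ} (h : HtAC n κ q U) {f : E n → ℝ}
    (hc : ContinuousOn f {q}ᶜ) (h0 : ∀ x, 0 ≤ f x) (hle : ∀ x, f x ≤ acC * htD n κ q U x) (R : ℝ) :
    IntegrableOn f (ball q R) := by
  refine Integrable.mono' ((ht_D_integrableOn_ball hn h R).const_mul acC) (ht_aesm (by omega) q hc).restrict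
    (Eventually.of_forall fun x => ?_)
  rw [Real.norm_eq_abs, abs_of_nonneg (h0 x)]
  exact hle x

theorem htr_Xi_le (hn : 3 ≤ n) {κ : ℝ} {q : E n} {U : E n → ℝ} (h : HtAC n κ q U) (x : E n) :
    htXi κ q U x ≤ acC * htD n κ q U x := by
  have := ht_Xi_le_D hn h x
  rwa [div_le_iff₀ ht_acC_pos, mul_comm] at this

/-- `htEn = acE + ((n-1)/(n-2)) ∫_{B_1} ξ/acC`. -/
theorem ht_en_eq (hn : 3 ≤ n) {κ : ℝ} {U : E n → ℝ} (h : HtAC n κ 0 U) :
    htEn n κ 0 U = acE n κ U + ((n : ℝ) - 1) / ((n : ℝ) - 2) * ∫ x in ball (0 : E n) 1, htXi κ 0 U x / acC := by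
  have h1 := htr_n_sub_one hn
  have h2 := ht_n_sub_two hn
  have hc := ht_acC_pos
  have hκ := h.pos
  have iE : IntegrableOn (htE κ 0 U) (ball 0 1) :=
    htr_integrableOn hn h (ht_E_continuousOn h) (ht_E_nonneg h.pos 0 U) (ht_E_le_D hn h) 1
  have iX : IntegrableOn (htXi κ 0 U) (ball 0 1) :=
    htr_integrableOn hn h (ht_Xi_continuousOn h) (ht_xi_nonneg hn h) (htr_Xi_le hn h) 1
  -- the energy
  have hf : GpHom n 0 (fun x => κ / 2 * ‖x‖ ^ 2 * ‖fderiv ℝ U x‖ ^ 2 + acW (U x) / κ) := by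
    intro t ht z hz
    have e1 := htr_fderiv h ht hz
    have e2 := htr_U h ht z
    simp only [zero_add] at e1 e2
    show κ / 2 * ‖t • z‖ ^ 2 * ‖fderiv ℝ U (t • z)‖ ^ 2 + acW (U (t • z)) / κ
      = t ^ (0 : ℝ) * (κ / 2 * ‖z‖ ^ 2 * ‖fderiv ℝ U z‖ ^ 2 + acW (U z) / κ)
    rw [e1, e2, norm_smul, norm_smul, Real.norm_eq_abs, Real.norm_eq_abs, abs_of_pos ht, abs_of_pos (inv_pos.2 ht),
      Real.rpow_zero]
    field_simp
  have hEhom : GpHom n (-1) (htE κ 0 U) := by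
    have := htr_hom_E h
    simpa using this
  have hS : gpS n (fun x => κ / 2 * ‖x‖ ^ 2 * ‖fderiv ℝ U x‖ ^ 2 + acW (U x) / κ) = gpS n (htE κ 0 U) := by
    unfold gpS
    refine integral_congr_ae (Eventually.of_forall fun w => ?_)
    have hw : ‖(w : E n)‖ = 1 := mem_sphere_zero_iff_norm.1 w.2
    simp only [htE, htEps, sub_zero, hw]
    ring
  have hacE : acE n κ U = gpS n (htE κ 0 U) / acC := by
    unfold acE
    rw [gp_ball_polar (by omega) (by
      have : (0 : ℝ) < n := by linarith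
      linarith) hf, hS]
    have : (n : ℝ) ≠ 0 := by linarith
    rw [add_zero]
    field_simp
  have hE1 : ∫ x in ball (0 : E n) 1, htE κ 0 U x = gpS n (htE κ 0 U) / ((n : ℝ) - 1) := by
    rw [htr_ball (by omega) hEhom zero_le_one, one_pow]
    ring
  unfold htEn
  have e3 : ∫ x in ball (0 : E n) 1, htD n κ 0 U x
      = (∫ x in ball (0 : E n) 1, htE κ 0 U x) / acC + (∫ x in ball (0 : E n) 1, htXi κ 0 U x / acC) / ((n : ℝ) - 2) := by
    rw [← integral_div, ← integral_div, ← integral_add (iE.div_const _) ((iX.div_const _).div_const _)]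
    refine integral_congr_ae (Eventually.of_forall fun x => ?_)
    simp only [htD]
    field_simp
  rw [e3, hE1, hacE]
  field_simp

/-- the discrepancy on the annulus controls the discrepancy on the ball (`ξ` is `(-1)`-homogeneous). -/
theorem ht_xi_annulus (hn : 3 ≤ n) {κ : ℝ} {U : E n → ℝ} (h : HtAC n κ 0 U) :
    ∫ x in ball (0 : E n) 1, htXi κ 0 U x / acC ≤ 2 * ∫ x in ball (0 : E n) 1 \ closedBall 0 (1 / 2), htXi κ 0 U x / acC := by
  have h1 := htr_n_sub_one hn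
  have hc := ht_acC_pos
  have hhom : GpHom n (-1) (fun x => htXi κ 0 U x / acC) := by
    intro t ht z hz
    have := htr_hom_Xi h t ht z hz
    simp only [zero_add] at this
    show htXi κ 0 U (t • z) / acC = t ^ (-1 : ℝ) * (htXi κ 0 U z / acC)
    rw [this]; ring
  have e : ball (0 : E n) 1 \ closedBall 0 (1 / 2) = {x : E n | ‖x‖ ∈ Ioo (1 / 2 : ℝ) 1} := by
    ext x
    simp only [Set.mem_sdiff, mem_ball_zero_iff, mem_closedBall_zero_iff, not_le, mem_ofPred_eq, mem_Ioo]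
    tauto
  have hb := htr_ball (by omega) hhom (zero_le_one' ℝ)
  rw [e, htr_set (by omega) hhom measurableSet_Ioo, htr_int_pow (by omega) (by norm_num) (by norm_num), hb, one_pow]
  have hS : 0 ≤ gpS n (fun x => htXi κ 0 U x / acC) := by
    have h3 : 0 ≤ ∫ x in ball (0 : E n) 1, htXi κ 0 U x / acC :=
      integral_nonneg fun x => div_nonneg (ht_xi_nonneg hn h x) hc.le
    rw [hb, one_pow] at h3
    have h4 : 0 < 1 / ((n : ℝ) - 1) := by positivity
    exact (mul_nonneg_iff_of_pos_right h4).1 h3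
  have h5 : ((1 : ℝ) / 2) ^ (n - 1) ≤ 1 / 2 := by
    calc ((1 : ℝ) / 2) ^ (n - 1) ≤ (1 / 2) ^ 1 := pow_le_pow_of_le_one (by norm_num) (by norm_num) (by omega)
      _ = 1 / 2 := by norm_num
  have h6 : 1 / ((n : ℝ) - 1) ≤ 2 * ((1 - (1 / 2 : ℝ) ^ (n - 1)) / ((n : ℝ) - 1)) := by
    rw [← mul_div_assoc]
    exact div_le_div_of_nonneg_right (by linarith) (by linarith)
  calc gpS n (fun x => htXi κ 0 U x / acC) * (1 / ((n : ℝ) - 1))
      ≤ gpS n (fun x => htXi κ 0 U x / acC) * (2 * ((1 - (1 / 2 : ℝ) ^ (n - 1)) / ((n : ℝ) - 1))) :=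
        mul_le_mul_of_nonneg_left h6 hS
    _ = _ := by ring

end Claimed.Agent.R323
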