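import Claimed.Agent.R323.Ht.Sp
import Claimed.Agent.R323.Ht.AcPair
import Claimed.Agent.R323.Ht.AcRad

/-!
# Row 323, block C, sub-block AC, parts BALL + LOWER.   LEAVES L-AC-BALL, L-AC-LOWER.   Statements = contract of helper39 (moved verbatim from `Ht/Ac.lean`).
* `ht_ball_le` (AC3): `ht_sp_mono` for the pair `ht_pair`: for `ρ ≥ r`: `r^{-k} ∫_{ball x r} d ≤ ρ^{-k} ∫_{ball x ρ} d ≤ ρ^{-k} ∫_{ball q (ρ + |x-q|)} d = (htEn/(n-1)) ((ρ + |x-q|)/ρ)^k` (`ht_D_nonneg`, local integrability `ht_pair.lint`, `ht_ball_vertex`); let `ρ → ∞`.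
* `ht_lower` (AC5): `s := b ε̂(x)/4`, `ε̂(x) = κ|x-q|`, `κ ≤ 1/2`.  On `ball x s`: `|y-q| ≥ (7/8)|x-q|`, so `|DU(y)| ≤ 1/ε̂(y) ≤ (8/7)/ε̂(x)` (`ht_grad`), the segment `[x,y]` avoids `q`, mean value inequality: `|U(y)| ≤ 1 - b + (8/7)(b/4) ≤ 1 - b/2`;
  so `W(U y) ≥ (b/2)²(…)/4 ≥ b²/16·…`, `d(y) ≥ W(U y)/(acC ε̂(y))` (`ht_W_le`), `ε̂(y) ≤ (9/8) ε̂(x)`.   `∫_{ball x s} d ≥ c₁(b) ε̂(x)^{-1} ω_n s^n = c₂(b) s^{n-1}`.   Then `ht_sp_mono` from `s` to `ρ ≥ ε̂(x) ≥ s`.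
-/

set_option autoImplicit false
open scoped ContDiff ENNReal NNReal RealInnerProductSpace Topology
open MeasureTheory Metric Set Filter

namespace Claimed.Agent.R323

open Claimed.Agent.Gmt

variable {n : ℕ}

/-- aux (L-AC-BALL, L-AC-LOWER): the mass density is integrable on balls -/
theorem ht_ball_integrableOn (hn : 3 ≤ n) {κ : ℝ} {q : E n} {U : E n → ℝ} (h : HtAC n κ q U) (x : E n) (r : ℝ) :
    IntegrableOn (htD n κ q U) (ball x r) :=
  ((ht_pair hn h).lint.integrableOn_isCompact (isCompact_closedBall x r)).mono_set ball_subset_closedBall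

/-- aux (L-AC-BALL, L-AC-LOWER): monotonicity of the mass ratios of the exact pair -/
theorem ht_ball_mono (hn : 3 ≤ n) {κ : ℝ} {q : E n} {U : E n → ℝ} (h : HtAC n κ q U) (x : E n) {r ρ : ℝ} (hr : 0 < r) (hρ : r ≤ ρ) :
    (r ^ (n - 1))⁻¹ * ∫ y in ball x r, htD n κ q U y ≤ (ρ ^ (n - 1))⁻¹ * ∫ y in ball x ρ, htD n κ q U y :=
  ht_sp_mono (by omega) (ht_pair hn h) x (mem_Ioi.2 hr) (mem_Ioi.2 (lt_of_lt_of_le hr hρ)) hρ

/-- AC3: the mass ratio bound at all centres and all scales. -/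
theorem ht_ball_le (hn : 3 ≤ n) {κ : ℝ} {q : E n} {U : E n → ℝ} (h : HtAC n κ q U) (x : E n) {r : ℝ} (hr : 0 < r) :
    ∫ y in ball x r, htD n κ q U y ≤ htEn n κ q U / ((n : ℝ) - 1) * r ^ (n - 1) := by
  have hn1 : (0 : ℝ) < (n : ℝ) - 1 := by
    have : (3 : ℝ) ≤ (n : ℝ) := by exact_mod_cast hn
    linarith
  obtain ⟨a, ha⟩ : ∃ a, a = ‖x - q‖ := ⟨_, rfl⟩
  have ha0 : 0 ≤ a := by rw [ha]; exact norm_nonneg _
  obtain ⟨c, hc⟩ : ∃ c, c = htEn n κ q U / ((n : ℝ) - 1) := ⟨_, rfl⟩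
  have hrk : 0 < r ^ (n - 1) := pow_pos hr _
  -- the bound at scale `ρ`
  have hstep : ∀ ρ, r ≤ ρ → (r ^ (n - 1))⁻¹ * ∫ y in ball x r, htD n κ q U y ≤ c * (1 + a / ρ) ^ (n - 1) := by
    intro ρ hρ
    have hρ0 : 0 < ρ := lt_of_lt_of_le hr hρ
    have hρk : 0 < ρ ^ (n - 1) := pow_pos hρ0 _
    refine (ht_ball_mono hn h x hr hρ).trans ?_
    have hsub : ball x ρ ⊆ ball q (ρ + a) := by
      intro y hy
      rw [mem_ball] at hy ⊢
      calc dist y q ≤ dist y x + dist x q := dist_triangle _ _ _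
        _ < ρ + a := by rw [ha, ← dist_eq_norm]; linarith
    have h1 : ∫ y in ball x ρ, htD n κ q U y ≤ ∫ y in ball q (ρ + a), htD n κ q U y :=
      setIntegral_mono_set (ht_ball_integrableOn hn h q _) (Eventually.of_forall fun y => ht_D_nonneg hn h y)
        (Eventually.of_forall hsub)
    have h2 := ht_ball_vertex hn h (t := ρ + a) (by linarith)
    have h3 : ∫ y in ball q (ρ + a), htD n κ q U y = c * (ρ + a) ^ (n - 1) := by
      rw [hc, div_mul_eq_mul_div, eq_div_iff hn1.ne', ← h2]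
      ring
    rw [h3] at h1
    calc (ρ ^ (n - 1))⁻¹ * ∫ y in ball x ρ, htD n κ q U y ≤ (ρ ^ (n - 1))⁻¹ * (c * (ρ + a) ^ (n - 1)) :=
          mul_le_mul_of_nonneg_left h1 (inv_nonneg.2 hρk.le)
      _ = c * (1 + a / ρ) ^ (n - 1) := by
          have e : 1 + a / ρ = (ρ + a) / ρ := by field_simp
          rw [e, div_pow]
          field_simp
  have hlim : Tendsto (fun ρ : ℝ => c * (1 + a / ρ) ^ (n - 1)) atTop (𝓝 (c * (1 + 0) ^ (n - 1))) :=
    ((tendsto_const_nhds.add (tendsto_const_nhds.div_atTop tendsto_id)).pow _).const_mul c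
  have hle : (r ^ (n - 1))⁻¹ * ∫ y in ball x r, htD n κ q U y ≤ c * (1 + 0) ^ (n - 1) :=
    ge_of_tendsto hlim ((eventually_ge_atTop r).mono fun ρ hρ => hstep ρ hρ)
  rw [add_zero, one_pow, mul_one, inv_mul_le_iff₀ hrk] at hle
  rw [← hc, mul_comm]
  exact hle

/-- aux (L-AC-LOWER): the pointwise lower bound of the mass density near a transition point -/
theorem ht_lower_pt (hn : 3 ≤ n) {b : ℝ} (hb : 0 < b) (hb1 : b < 1) {κ : ℝ} {q : E n} {U : E n → ℝ} (h : HtAC n κ q U)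
    (hκ : κ ≤ 1 / 2) {x : E n} (hx : x ≠ q) (hU : |U x| ≤ 1 - b) {y : E n} (hy : y ∈ ball x (b * htEps κ q x / 4)) :
    b ^ 2 / (8 * acC * htEps κ q x) ≤ htD n κ q U y := by
  obtain ⟨ρ, hρ⟩ : ∃ ρ, ρ = ‖x - q‖ := ⟨_, rfl⟩
  have hρ0 : 0 < ρ := by rw [hρ]; exact norm_pos_iff.2 (sub_ne_zero.2 hx)
  have hκ0 := h.pos
  obtain ⟨ε, hε⟩ : ∃ ε, ε = htEps κ q x := ⟨_, rfl⟩
  have hε' : ε = κ * ρ := by rw [hε, hρ]; rfl
  have hε0 : 0 < ε := by rw [hε']; positivity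
  rw [← hε] at hy ⊢
  have hs8 : b * ε / 4 ≤ ρ / 8 := by
    rw [hε']
    nlinarith [mul_pos hb hρ0, mul_pos hκ0 hρ0, mul_le_mul_of_nonneg_right hκ hρ0.le,
      mul_le_mul_of_nonneg_right hb1.le (mul_pos hκ0 hρ0).le]
  -- distances to the vertex in the small ball
  have hdist : ∀ z ∈ ball x (b * ε / 4), 7 / 8 * ρ ≤ ‖z - q‖ ∧ ‖z - q‖ ≤ 9 / 8 * ρ := by
    intro z hz
    rw [mem_ball, dist_eq_norm] at hz
    have e1 : x - q = (z - q) - (z - x) := by abel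
    have e2 : z - q = (x - q) + (z - x) := by abel
    have a1 : ρ ≤ ‖z - q‖ + ‖z - x‖ := by
      rw [hρ, e1]
      exact norm_sub_le _ _
    have a2 : ‖z - q‖ ≤ ρ + ‖z - x‖ := by
      rw [hρ, e2]
      exact norm_add_le _ _
    constructor <;> linarith
  have hne : ∀ z ∈ ball x (b * ε / 4), z ≠ q := by
    intro z hz hzq
    have := (hdist z hz).1
    rw [hzq, sub_self, norm_zero] at this
    linarith
  -- gradient bound
  have hgrad : ∀ z ∈ ball x (b * ε / 4), ‖fderiv ℝ U z‖ ≤ 8 / 7 / ε := by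
    intro z hz
    have g1 := ht_grad hn h z
    have g2 : 7 / 8 * ε ≤ htEps κ q z := by
      unfold htEps
      rw [hε']
      nlinarith [(hdist z hz).1]
    have g3 : 7 / 8 * ε * ‖fderiv ℝ U z‖ ≤ 1 :=
      (mul_le_mul_of_nonneg_right g2 (norm_nonneg _)).trans g1
    rw [le_div_iff₀ hε0]
    linarith
  have hdiff : ∀ z ∈ ball x (b * ε / 4), DifferentiableAt ℝ U z := by
    intro z hz
    exact (h.smooth.contDiffAt (isOpen_compl_singleton.mem_nhds (hne z hz))).differentiableAt (by simp)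
  have hxs : x ∈ ball x (b * ε / 4) := mem_ball_self (by positivity)
  have hmv := Convex.norm_image_sub_le_of_norm_fderiv_le (𝕜 := ℝ) hdiff hgrad (convex_ball x _) hxs hy
  have hyx : ‖y - x‖ ≤ b * ε / 4 := by
    rw [mem_ball, dist_eq_norm] at hy
    exact hy.le
  have hUy : |U y| ≤ 1 - b / 2 := by
    have m1 : ‖U y - U x‖ ≤ 8 / 7 / ε * (b * ε / 4) := hmv.trans (mul_le_mul_of_nonneg_left hyx (by positivity))
    have m2 : 8 / 7 / ε * (b * ε / 4) = 2 * b / 7 := by field_simp; ring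
    rw [m2, Real.norm_eq_abs] at m1
    have m3 : |U y| ≤ |U y - U x| + |U x| := by
      have := abs_add_le (U y - U x) (U x)
      simpa using this
    linarith
  have hW : 9 * b ^ 2 / 64 ≤ acW (U y) := by
    unfold acW
    have w1 : U y ^ 2 ≤ (1 - b / 2) ^ 2 := by
      rw [← sq_abs]
      exact pow_le_pow_left₀ (abs_nonneg _) hUy 2
    have w2 : 3 * b / 4 ≤ 1 - U y ^ 2 := by nlinarith
    have w3 : (3 * b / 4) ^ 2 ≤ (1 - U y ^ 2) ^ 2 := pow_le_pow_left₀ (by positivity) w2 2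
    nlinarith
  have hWle := ht_W_le hn h y (hne y hy)
  have hC : 0 < acC := by
    unfold acC
    positivity
  have hεy : htEps κ q y ≤ 9 / 8 * ε := by
    unfold htEps
    rw [hε']
    nlinarith [(hdist y hy).2]
  have hD0 := ht_D_nonneg hn h y
  have h5 : acC * htEps κ q y * htD n κ q U y ≤ acC * (9 / 8 * ε) * htD n κ q U y :=
    mul_le_mul_of_nonneg_right (mul_le_mul_of_nonneg_left hεy hC.le) hD0
  rw [div_le_iff₀ (by positivity)]
  nlinarith

/-- AC5: lower mass bound at transition points, at all scales `≥ ε̂(x)`. -/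
theorem ht_lower (hn : 3 ≤ n) {b : ℝ} (hb : 0 < b) (hb1 : b < 1) : ∃ c : ℝ, 0 < c ∧ ∀ (κ : ℝ) (q : E n) (U : E n → ℝ),
    HtAC n κ q U → κ ≤ 1 / 2 → ∀ x, x ≠ q → |U x| ≤ 1 - b → ∀ ρ, htEps κ q x ≤ ρ →
      c * ρ ^ (n - 1) ≤ ∫ y in ball x ρ, htD n κ q U y := by
  have hC : 0 < acC := by
    unfold acC
    positivity
  obtain ⟨om, hom⟩ : ∃ om, om = (volume (ball (0 : E n) 1)).toReal := ⟨_, rfl⟩
  have hom0 : 0 < om := by
    rw [hom]
    exact ENNReal.toReal_pos (measure_ball_pos volume _ one_pos).ne' measure_ball_lt_top.ne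
  refine ⟨b ^ 3 * om / (32 * acC), by positivity, ?_⟩
  intro κ q U h hκ x hx hU ρ hρ
  obtain ⟨ε, hε⟩ : ∃ ε, ε = htEps κ q x := ⟨_, rfl⟩
  have hε0 : 0 < ε := by
    rw [hε]
    unfold htEps
    exact mul_pos h.pos (norm_pos_iff.2 (sub_ne_zero.2 hx))
  rw [← hε] at hρ
  obtain ⟨s, hs⟩ : ∃ s, s = b * ε / 4 := ⟨_, rfl⟩
  have hs0 : 0 < s := by rw [hs]; positivity
  have hsρ : s ≤ ρ := by
    rw [hs]
    nlinarith
  have hρ0 : 0 < ρ := lt_of_lt_of_le hs0 hsρ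
  have hvol : (volume (ball x s)).toReal = s ^ n * om := by
    rw [Measure.addHaar_ball_of_pos volume x hs0, ENNReal.toReal_mul, ENNReal.toReal_ofReal (by positivity), hom,
      finrank_euclideanSpace, Fintype.card_fin]
  have hint : b ^ 2 / (8 * acC * ε) * (s ^ n * om) ≤ ∫ y in ball x s, htD n κ q U y := by
    have h1 : ∫ _y in ball x s, b ^ 2 / (8 * acC * ε) ∂volume ≤ ∫ y in ball x s, htD n κ q U y := by
      refine setIntegral_mono_on (integrableOn_const (by exact measure_ball_lt_top.ne)) (ht_ball_integrableOn hn h x s) measurableSet_ball ?_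
      intro y hy
      rw [hε]
      refine ht_lower_pt hn hb hb1 h hκ hx hU ?_
      rw [← hε, ← hs]
      exact hy
    rw [setIntegral_const, smul_eq_mul, Measure.real, hvol] at h1
    linarith
  have hmono := ht_ball_mono hn h x hs0 hsρ
  have hsk : 0 < s ^ (n - 1) := pow_pos hs0 _
  have hρk : 0 < ρ ^ (n - 1) := pow_pos hρ0 _
  have hsn : s ^ n = s ^ (n - 1) * s := by
    rw [← pow_succ]
    congr 1
    omega
  have hlow : b ^ 3 * om / (32 * acC) ≤ (s ^ (n - 1))⁻¹ * ∫ y in ball x s, htD n κ q U y := by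
    rw [le_inv_mul_iff₀ hsk]
    refine le_trans (le_of_eq ?_) hint
    have hεs : ε = 4 * s / b := by rw [hs]; field_simp
    rw [hsn, hεs]
    field_simp
    ring
  have h6 := hlow.trans hmono
  rw [le_inv_mul_iff₀ hρk] at h6
  linarith

end Claimed.Agent.R323
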