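import Claimed.Agent.R323.Ht.AcPt
import Claimed.Agent.Lib.Ell.Api

/-!
# Row 323, block C, sub-block AC, part HESS.   LEAF L-AC-HESS (whole file).   Statement = contract of helper39 (moved verbatim from `Ht/Ac.lean`).
`ht_hess` (AC4): fix `x ≠ q`, `ε := ε̂(x) = κ|x-q|`, `Ũ(y) = U(x + ε y)` on `ball 0 1`: `|x + ε y - q| ≥ |x-q|(1-κ) ≥ |x-q|/2`, `Ũ` smooth, `|Ũ| ≤ 1`, `|DŨ(y)| = ε|DU| ≤ ε/ε̂(x+εy) ≤ 2` (`ht_grad`),
`ΔŨ(y) = ε² ΔU = W'(Ũ) |x-q|²/|x+εy-q|² =: f(y)`, `|f| ≤ 4·(2/(3√3)) ≤ 2`, `f` Lipschitz on `ball 0 1` with a constant depending only on `n` (`|D f| ≤ |W''||DŨ| 4 + |W'| |D(|x-q|²/|·|²)| ≤ C`, `κ ≤ 1/2`).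
Interior `C²` estimate for the Poisson equation with Hoelder right side (`Lib/Ell/Api`, `Lib/Ell/Cc`: `ell_cc_nd` / `ell_lapdiv_*`): `|D²Ũ(0)| ≤ C_n`, and `D²Ũ(0) = ε² D²U(x)`.
-/

set_option autoImplicit false
open scoped ContDiff ENNReal NNReal RealInnerProductSpace Topology
open MeasureTheory Metric Set Filter

namespace Claimed.Agent.R323

open Claimed.Agent.Gmt Claimed.Agent.Lib.Ell

variable {n : ℕ}

/-! ### elementary facts -/

theorem hth_acW'_abs_le {s : ℝ} (hs : |s| ≤ 1) : |acW' s| ≤ 1 := by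
  unfold acW'
  have h1 := abs_le.1 hs
  have e : s ^ 3 - s = s * (s ^ 2 - 1) := by ring
  rw [e, abs_mul]
  have h2 : |s ^ 2 - 1| ≤ 1 := by
    rw [abs_le]
    constructor <;> nlinarith
  calc |s| * |s ^ 2 - 1| ≤ 1 * 1 := mul_le_mul hs h2 (abs_nonneg _) zero_le_one
    _ = 1 := one_mul 1

theorem hth_acW'_lip {s t : ℝ} (hs : |s| ≤ 1) (ht : |t| ≤ 1) : |acW' s - acW' t| ≤ 2 * |s - t| := by
  unfold acW'
  have h1 := abs_le.1 hs
  have h2 := abs_le.1 ht
  have e : s ^ 3 - s - (t ^ 3 - t) = (s ^ 2 + s * t + t ^ 2 - 1) * (s - t) := by ring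
  rw [e, abs_mul]
  refine mul_le_mul_of_nonneg_right ?_ (abs_nonneg _)
  rw [abs_le]
  constructor <;> nlinarith [sq_nonneg (s + t), sq_nonneg (s - t), sq_nonneg s, sq_nonneg t]

/-- Lipschitz bound of `R²/a²`. -/
theorem hth_ratio_lip {R a b d : ℝ} (hR : 0 < R) (ha : R / 2 ≤ a) (hb : R / 2 ≤ b) (ha' : a ≤ 3 * R / 2)
    (hb' : b ≤ 3 * R / 2) (hab : |a - b| ≤ R / 2 * d) : |R ^ 2 / a ^ 2 - R ^ 2 / b ^ 2| ≤ 24 * d := by
  have ha0 : 0 < a := by linarith
  have hb0 : 0 < b := by linarith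
  have hd : 0 ≤ d := by
    have := (abs_nonneg (a - b)).trans hab
    by_contra hcon
    rw [not_le] at hcon
    nlinarith
  have e : R ^ 2 / a ^ 2 - R ^ 2 / b ^ 2 = R ^ 2 * ((b - a) * (b + a)) / (a ^ 2 * b ^ 2) := by
    field_simp
    ring
  have h1 : R ^ 4 / 16 ≤ a ^ 2 * b ^ 2 := by
    have h2 : (R / 2) ^ 2 ≤ a ^ 2 := pow_le_pow_left₀ (by positivity) ha 2
    have h3 : (R / 2) ^ 2 ≤ b ^ 2 := pow_le_pow_left₀ (by positivity) hb 2
    calc R ^ 4 / 16 = (R / 2) ^ 2 * (R / 2) ^ 2 := by ring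
      _ ≤ a ^ 2 * b ^ 2 := mul_le_mul h2 h3 (by positivity) (by positivity)
  have hpos : 0 < a ^ 2 * b ^ 2 := by positivity
  rw [e, abs_div, abs_of_pos hpos, div_le_iff₀ hpos, abs_mul, abs_mul, abs_of_pos (by positivity : 0 < R ^ 2),
    abs_of_pos (by positivity : 0 < b + a), abs_sub_comm]
  calc R ^ 2 * (|a - b| * (b + a)) ≤ R ^ 2 * (R / 2 * d * (3 * R)) := by
        refine mul_le_mul_of_nonneg_left ?_ (by positivity)
        exact mul_le_mul hab (by linarith) (by positivity) (by positivity)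
    _ = 24 * d * (R ^ 4 / 16) := by ring
    _ ≤ 24 * d * (a ^ 2 * b ^ 2) := mul_le_mul_of_nonneg_left h1 (by positivity)

/-- the flat Laplacian is the trace of the second derivative. -/
theorem hth_tr_eq {Ω : Set (E n)} (hΩ : IsOpen Ω) {f : E n → ℝ} (hf : ContDiffOn ℝ ∞ f Ω) {x : E n} (hx : x ∈ Ω) :
    ∑ i, ellD2 f x (eb i) (eb i) = flLap f x := by
  rw [ht_flLap_eq hΩ hf hx]
  exact Finset.sum_congr rfl fun i _ => ell_d2_apply hΩ (hf.of_le (by norm_cast)) hx _ _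

theorem hth_ellTr_id (H : E n →L[ℝ] E n →L[ℝ] ℝ) :
    ellTr (ContinuousLinearMap.id ℝ (E n)) H = ∑ i, H (eb i) (eb i) := by
  rw [ellTr_eq_sum (EuclideanSpace.basisFun (Fin n) ℝ)]
  simp

/-- smooth maps are locally Hoelder. -/
theorem hth_qual_gen {W F : Type} [NormedAddCommGroup W] [InnerProductSpace ℝ W] [FiniteDimensional ℝ W]
    [NormedAddCommGroup F] [NormedSpace ℝ F]
    {g : W → F} (hg : ContDiffOn ℝ ∞ g (ball 0 1)) {t : ℝ} (ht : t < 1) :
    ∃ K', HolOn (1 / 2) K' (ball (0 : W) t) g := by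
  rcases le_or_gt t 0 with h0 | h0
  · refine ⟨0, fun x hx => ?_⟩
    rw [ball_eq_empty.2 h0] at hx
    exact hx.elim
  have h3 : ContinuousOn (fderiv ℝ g) (ball 0 1) :=
    hg.continuousOn_fderiv_of_isOpen isOpen_ball (by simp)
  have hsub : closedBall (0 : W) t ⊆ ball 0 1 := closedBall_subset_ball ht
  obtain ⟨D, hD⟩ := (isCompact_closedBall (0 : W) t).exists_bound_of_continuousOn (h3.mono hsub)
  refine ⟨2 * D, ell_hol_of_fderiv_ball (by norm_num) (by norm_num) h0 ht.le ?_ ?_⟩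
  · exact (hg.differentiableOn (by simp)).mono (ball_subset_closedBall.trans hsub)
  · exact fun x hx => hD x (ball_subset_closedBall hx)

/-- smooth functions have locally Hoelder second derivatives. -/
theorem hth_qual {u : E n → ℝ} (hu : ContDiffOn ℝ ∞ u (ball 0 1)) {t : ℝ} (ht : t < 1) :
    ∃ K', HolOn (1 / 2) K' (ball (0 : E n) t) (ellD2 u) := by
  have h1 : ContDiffOn ℝ ∞ (fderiv ℝ u) (ball 0 1) := hu.fderiv_of_isOpen isOpen_ball (by simp)
  have h2 : ContDiffOn ℝ ∞ (fderiv ℝ (fderiv ℝ u)) (ball 0 1) := h1.fderiv_of_isOpen isOpen_ball (by simp)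
  exact hth_qual_gen h2 ht

/-- AC4: Hessian bound. -/
theorem ht_hess (hn : 3 ≤ n) : ∃ C : ℝ, 0 < C ∧ ∀ (κ : ℝ) (q : E n) (U : E n → ℝ), HtAC n κ q U → κ ≤ 1 / 2 → ∀ x, x ≠ q →
    htEps κ q x ^ 2 * ‖fderiv ℝ (fderiv ℝ U) x‖ ≤ C := by
  obtain ⟨C, hC, H⟩ := ell_sch_nd (E n) (α := 1 / 2) (lam := 1) (Lam := 1) (K := 0) (r := 1 / 2) (R := 1)
    (by norm_num) (by norm_num) one_pos le_rfl le_rfl (by norm_num) (by norm_num)
  refine ⟨C * 80 + 1, by positivity, fun κ q U h hκ x hx => ?_⟩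
  have hκ0 := h.pos
  set R : ℝ := ‖x - q‖ with hRdef
  have hR : 0 < R := norm_pos_iff.2 (sub_ne_zero.2 hx)
  set ε : ℝ := htEps κ q x with hεdef
  have hεR : ε = κ * R := rfl
  have hε : 0 < ε := ht_eps_pos hκ0 hx
  have hεle : ε ≤ R / 2 := by rw [hεR]; nlinarith
  set L : E n →L[ℝ] E n := ε • ContinuousLinearMap.id ℝ (E n) with hL
  have hLa : ∀ y, L y = ε • y := fun y => rfl
  set u : E n → ℝ := fun y => U (x + L y) with hu
  have hΩ : IsOpen ({q}ᶜ : Set (E n)) := isOpen_compl_singleton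
  -- geometry
  have hlo : ∀ y ∈ ball (0 : E n) 1, R / 2 ≤ ‖x + L y - q‖ := by
    intro y hy
    rw [mem_ball, dist_zero_right] at hy
    have e : x - q = (x + L y - q) - L y := by abel
    have h1 : R ≤ ‖x + L y - q‖ + ‖L y‖ := by rw [hRdef, e]; exact norm_sub_le _ _
    have h2 : ‖L y‖ ≤ R / 2 := by
      rw [hLa, norm_smul, Real.norm_eq_abs, abs_of_pos hε]
      nlinarith [norm_nonneg y]
    linarith
  have hhi : ∀ y ∈ ball (0 : E n) 1, ‖x + L y - q‖ ≤ 3 * R / 2 := by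
    intro y hy
    rw [mem_ball, dist_zero_right] at hy
    have e : x + L y - q = (x - q) + L y := by abel
    have h1 : ‖x + L y - q‖ ≤ R + ‖L y‖ := by rw [e]; exact norm_add_le _ _
    have h2 : ‖L y‖ ≤ R / 2 := by
      rw [hLa, norm_smul, Real.norm_eq_abs, abs_of_pos hε]
      nlinarith [norm_nonneg y]
    linarith
  have hmem : ∀ y ∈ ball (0 : E n) 1, x + L y ∈ ({q}ᶜ : Set (E n)) := by
    intro y hy
    have h1 := hlo y hy
    intro hq
    rw [mem_singleton_iff] at hq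
    rw [hq, sub_self, norm_zero] at h1
    linarith
  have husm : ContDiffOn ℝ ∞ u (ball 0 1) := (ell_contDiffOn_comp_affine h.smooth x L).mono hmem
  have hU2 : ContDiffOn ℝ 2 U {q}ᶜ := h.smooth.of_le (by norm_cast)
  have hubd : ∀ y, |u y| ≤ 1 := fun y => h.bdd _
  -- the gradient
  have hDu : BdOn 2 (ball (0 : E n) 1) (fderiv ℝ u) := by
    intro y hy
    have hd : DifferentiableAt ℝ U (x + L y) := ht_diffAt hΩ h.smooth (hmem y hy)
    rw [hu, ell_fderiv_comp_affine L hd]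
    have h1 := ht_grad hn h (x + L y)
    have h2 : κ * (R / 2) ≤ htEps κ q (x + L y) := mul_le_mul_of_nonneg_left (hlo y hy) hκ0.le
    have h3 : ‖(fderiv ℝ U (x + L y)).comp L‖ ≤ ‖fderiv ℝ U (x + L y)‖ * ε := by
      refine (ContinuousLinearMap.opNorm_comp_le _ _).trans (mul_le_mul_of_nonneg_left ?_ (norm_nonneg _))
      rw [hL, norm_smul, Real.norm_eq_abs, abs_of_pos hε]
      exact mul_le_of_le_one_right hε.le ContinuousLinearMap.norm_id_le
    refine h3.trans ?_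
    have h4 : κ * (R / 2) * ‖fderiv ℝ U (x + L y)‖ ≤ 1 :=
      (mul_le_mul_of_nonneg_right h2 (norm_nonneg _)).trans h1
    rw [hεR]
    nlinarith
  -- the right side
  set g₁ : E n → ℝ := fun y => acW' (u y) with hg₁
  set g₂ : E n → ℝ := fun y => R ^ 2 / ‖x + L y - q‖ ^ 2 with hg₂
  have hb1 : BdOn 1 (ball (0 : E n) 1) g₁ := fun y _ => by
    rw [Real.norm_eq_abs]; exact hth_acW'_abs_le (hubd y)
  have hb2 : BdOn 4 (ball (0 : E n) 1) g₂ := fun y hy => by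
    have h1 := hlo y hy
    have h2 : (R / 2) ^ 2 ≤ ‖x + L y - q‖ ^ 2 := pow_le_pow_left₀ (by positivity) h1 2
    have h3 : 0 < ‖x + L y - q‖ ^ 2 := lt_of_lt_of_le (by positivity) h2
    rw [Real.norm_eq_abs, abs_of_nonneg (by positivity), hg₂]
    rw [div_le_iff₀ h3]
    nlinarith
  have hhu : HolOn (1 / 2) (2 * 2) (ball (0 : E n) 1) u :=
    ell_hol_of_fderiv_ball (by norm_num) (by norm_num) one_pos le_rfl
      (husm.differentiableOn (by simp)) hDu
  have hh1 : HolOn (1 / 2) 8 (ball (0 : E n) 1) g₁ := by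
    intro y hy z hz
    have h1 := hhu y hy z hz
    rw [Real.norm_eq_abs] at h1 ⊢
    have h2 := hth_acW'_lip (hubd y) (hubd z)
    calc |g₁ y - g₁ z| ≤ 2 * |u y - u z| := h2
      _ ≤ 2 * (2 * 2 * ‖y - z‖ ^ (1 / 2 : ℝ)) := by linarith
      _ = 8 * ‖y - z‖ ^ (1 / 2 : ℝ) := by ring
  have hh2' : HolOn 1 24 (ball (0 : E n) 1) g₂ := by
    intro y hy z hz
    rw [Real.rpow_one, Real.norm_eq_abs]
    refine hth_ratio_lip hR (hlo y hy) (hlo z hz) (hhi y hy) (hhi z hz) ?_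
    have e : (x + L y - q) - (x + L z - q) = ε • (y - z) := by
      rw [hLa, hLa, smul_sub]; abel
    have h1 : |‖x + L y - q‖ - ‖x + L z - q‖| ≤ ε * ‖y - z‖ := by
      refine (abs_norm_sub_norm_le _ _).trans (le_of_eq ?_)
      rw [e, norm_smul, Real.norm_eq_abs, abs_of_pos hε]
    exact h1.trans (mul_le_mul_of_nonneg_right hεle (norm_nonneg _))
  have hh2 : HolOn (1 / 2) 48 (ball (0 : E n) 1) g₂ := by
    have h1 := hh2'.of_exponent_le (α := 1 / 2) (d := 2) (by norm_num) (by norm_num) (by norm_num) ?_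
    · refine h1.mono subset_rfl ?_
      have h2 : (2 : ℝ) ^ ((1 : ℝ) - 1 / 2) ≤ 2 ^ (1 : ℝ) :=
        Real.rpow_le_rpow_of_exponent_le (by norm_num) (by norm_num)
      rw [Real.rpow_one] at h2
      linarith
    · intro y hy z hz
      rw [mem_ball, dist_zero_right] at hy hz
      exact (norm_sub_le _ _).trans (by linarith)
  have hfh : HolOn (1 / 2) (8 * 4 + 1 * 48) (ball (0 : E n) 1) (fun y => g₁ y * g₂ y) := hh1.mul hh2 hb1 hb2
  have hfb : BdOn 80 (ball (0 : E n) 1) (fun y => g₁ y * g₂ y) := fun y hy => by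
    have h1 := hb1 y hy
    have h2 := hb2 y hy
    rw [norm_mul]
    calc ‖g₁ y‖ * ‖g₂ y‖ ≤ 1 * 4 := mul_le_mul h1 h2 (norm_nonneg _) zero_le_one
      _ ≤ 80 := by norm_num
  -- the equation
  have heq : ∀ y ∈ ball (0 : E n) 1,
      ndOp (fun _ => ContinuousLinearMap.id ℝ (E n)) (fun _ => 0) (fun _ => 0) u y = g₁ y * g₂ y := by
    intro y hy
    have hy' := hmem y hy
    have h1 := hlo y hy
    have hp : 0 < ‖x + L y - q‖ := by linarith
    unfold ndOp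
    rw [hth_ellTr_id, map_zero, zero_mul, add_zero, add_zero]
    have e1 : ∀ i, ellD2 u y (eb i) (eb i) = ε ^ 2 * ellD2 U (x + L y) (eb i) (eb i) := fun i => by
      rw [hu, ell_d2_comp_affine hΩ hU2 L hy', hLa (eb i)]
      rw [map_smul, map_smul]
      simp only [_root_.smul_apply, smul_eq_mul]
      ring
    simp only [e1]
    rw [← Finset.mul_sum, hth_tr_eq hΩ h.smooth hy']
    have h2 := h.eq (x + L y) hy'
    show ε ^ 2 * flLap U (x + L y) = acW' (U (x + L y)) * (R ^ 2 / ‖x + L y - q‖ ^ 2)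
    rw [← h2, hεR]
    field_simp
  have hdata : NdData (1 / 2) 1 1 0 80 (ball (0 : E n) 1) (fun _ => ContinuousLinearMap.id ℝ (E n)) (fun _ => 0)
      (fun _ => 0) u (fun y => g₁ y * g₂ y) := by
    refine ⟨fun y _ => ⟨fun ξ η => rfl, fun ξ => ?_, ContinuousLinearMap.norm_id_le⟩, holOn_const _ le_rfl,
      fun y _ => by simp, holOn_const _ le_rfl, fun y _ => by simp, holOn_const _ le_rfl,
      husm.of_le (by norm_cast), fun y _ => ?_, hfb, hfh.mono subset_rfl (by norm_num), heq⟩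
    · rw [one_mul, ContinuousLinearMap.id_apply, real_inner_self_eq_norm_sq]
    · rw [Real.norm_eq_abs]; exact (hubd y).trans (by norm_num)
  have hres := (H 80 0 _ _ _ u _ (by norm_num) hdata (fun t ht => hth_qual husm ht)).2.1 0
    (mem_ball_self (by norm_num))
  have e2 : ellD2 u 0 = ε ^ 2 • fderiv ℝ (fderiv ℝ U) x := by
    ext a b
    have h0 : x + L 0 ∈ ({q}ᶜ : Set (E n)) := hmem 0 (mem_ball_self one_pos)
    rw [hu, ell_d2_comp_affine hΩ hU2 L h0, hLa a, hLa b, hLa 0, smul_zero, add_zero]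
    rw [map_smul, map_smul]
    simp only [_root_.smul_apply, smul_eq_mul, ellD2]
    ring
  have e3 := @norm_smul ℝ (E n →L[ℝ] E n →L[ℝ] ℝ) _ _ _ NormedSpace.toNormSMulClass (ε ^ 2)
    (fderiv ℝ (fderiv ℝ U) x)
  rw [e2, e3, Real.norm_eq_abs, abs_of_pos (by positivity)] at hres
  linarith

end Claimed.Agent.R323
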