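import Claimed.Agent.R323.Defs
import Claimed.Agent.Lib.Gmt.FlKer3
import Claimed.Agent.Lib.Ell.MaxP

/-!
# Row 323, block C (HT-lite), unit C0.1: MODICA'S INEQUALITY on the round sphere, ambient form.   (helper106)

`ht_modica : 0 < ε → 3 ≤ n → AcSol n ε U → x ≠ 0 → ε² |x|² |DU(x)|² / 2 ≤ W(U x)`.

Proof: `P = ε²|x|²|DU|²/2 - W(U)` is `0`-homogeneous, so it has a global maximum on `{0}ᶜ` at a point `y` of the unit sphere; there `DP = 0`, `∑ ∂ₖ∂ₖ P ≤ 0`.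
With `x·DU = 0`, `D²U x = -DU` and the equation, `ΔP(y) = ε²(n-4)|DU|² + ε²|D²U|² - W'²/ε²`, and Bessel's inequality for the rows of `D²U` against the
orthonormal pair `y, DU/|DU|` gives `|D²U|² ≥ 2|DU|² + W'²/ε⁴`.   So `ΔP(y) ≥ ε²(n-2)|DU|² > 0` if `P(y) > 0`.

KIT (reusable): `ht_dd_*`, `ht_dd2_*`, `ht_dd3` (calculus of `Lib.Ell.dd` on an arbitrary domain), `ht_flLap_eq` (`flLap` in coordinates),
`ht_hom_fderiv`, `ht_hom_euler` (homogeneity), `ht_acW_deriv`, `ht_acW'_deriv`.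
-/

set_option autoImplicit false
open scoped ContDiff RealInnerProductSpace Topology
open Metric Set Filter

namespace Claimed.Agent.R323

open Claimed.Agent.Gmt Claimed.Agent.Lib.Ell

variable {n : ℕ}

/-! ### calculus of directional derivatives on an open set -/

section kit

variable {Ω : Set (E n)} {f g : E n → ℝ} {x : E n}

theorem ht_diffAt (hΩ : IsOpen Ω) (hf : ContDiffOn ℝ ∞ f Ω) (hx : x ∈ Ω) : DifferentiableAt ℝ f x :=
  (hf.contDiffAt (hΩ.mem_nhds hx)).differentiableAt (by simp)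

theorem ht_dd_congr (hΩ : IsOpen Ω) (h : ∀ z ∈ Ω, f z = g z) (hx : x ∈ Ω) (v : E n) : dd v f x = dd v g x := by
  have : f =ᶠ[𝓝 x] g := by filter_upwards [hΩ.mem_nhds hx] with z hz using h z hz
  simp only [dd, this.fderiv_eq]

theorem ht_dd_mul (hf : DifferentiableAt ℝ f x) (hg : DifferentiableAt ℝ g x) (v : E n) :
    dd v (fun z => f z * g z) x = dd v f x * g x + f x * dd v g x := by
  simp only [dd]
  rw [fderiv_fun_mul hf hg]
  simp only [add_apply, smul_apply, smul_eq_mul]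
  ring

theorem ht_dd_add (hf : DifferentiableAt ℝ f x) (hg : DifferentiableAt ℝ g x) (v : E n) :
    dd v (fun z => f z + g z) x = dd v f x + dd v g x := by
  simp only [dd]
  rw [fderiv_fun_add hf hg]
  rfl

theorem ht_dd_sub (hf : DifferentiableAt ℝ f x) (hg : DifferentiableAt ℝ g x) (v : E n) :
    dd v (fun z => f z - g z) x = dd v f x - dd v g x := by
  simp only [dd]
  rw [fderiv_fun_sub hf hg]
  rfl

theorem ht_dd_const_mul (hf : DifferentiableAt ℝ f x) (c : ℝ) (v : E n) :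
    dd v (fun z => c * f z) x = c * dd v f x := by
  simp only [dd]
  rw [fderiv_const_mul hf]
  rfl

theorem ht_dd_sum {ι : Type} (s : Finset ι) {F : ι → E n → ℝ} (hF : ∀ i ∈ s, DifferentiableAt ℝ (F i) x) (v : E n) :
    dd v (fun z => ∑ i ∈ s, F i z) x = ∑ i ∈ s, dd v (F i) x := by
  simp only [dd]
  rw [fderiv_fun_sum hF]
  simp

theorem ht_dd_comp {φ : ℝ → ℝ} {a : ℝ} (hφ : HasDerivAt φ a (f x)) (hf : DifferentiableAt ℝ f x) (v : E n) :
    dd v (fun z => φ (f z)) x = a * dd v f x := by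
  show fderiv ℝ (φ ∘ f) x v = _
  rw [(hφ.comp_hasFDerivAt x hf.hasFDerivAt).fderiv]
  rfl

theorem ht_dd_expand (f : E n → ℝ) (x v : E n) : dd v f x = ∑ i, v i * dd (eb i) f x := by
  simp only [dd]
  conv_lhs => rw [← gmt_sum_eb v]
  simp

theorem ht_dd_coord (i : Fin n) (x v : E n) : dd v (fun z : E n => z i) x = v i := by
  simp only [dd]
  have : HasFDerivAt (fun z : E n => z i) (EuclideanSpace.proj i : E n →L[ℝ] ℝ) x :=
    (EuclideanSpace.proj i : E n →L[ℝ] ℝ).hasFDerivAt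
  rw [this.fderiv]
  rfl

theorem ht_dd_const (c : ℝ) (x v : E n) : dd v (fun _ : E n => c) x = 0 := by
  simp [dd]

/-- second directional derivative of a product. -/
theorem ht_dd2_mul (hΩ : IsOpen Ω) (hf : ContDiffOn ℝ ∞ f Ω) (hg : ContDiffOn ℝ ∞ g Ω) (hx : x ∈ Ω) (v : E n) :
    dd v (dd v (fun z => f z * g z)) x
      = dd v (dd v f) x * g x + 2 * (dd v f x * dd v g x) + f x * dd v (dd v g) x := by
  have h1 : ∀ z ∈ Ω, dd v (fun z => f z * g z) z = dd v f z * g z + f z * dd v g z := fun z hz =>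
    ht_dd_mul (ht_diffAt hΩ hf hz) (ht_diffAt hΩ hg hz) v
  rw [ht_dd_congr hΩ h1 hx]
  have hf' := ht_diffAt hΩ (hf.ell_dd_infty hΩ v) hx
  have hg' := ht_diffAt hΩ (hg.ell_dd_infty hΩ v) hx
  have hf0 := ht_diffAt hΩ hf hx
  have hg0 := ht_diffAt hΩ hg hx
  rw [ht_dd_add (hf'.fun_mul hg0) (hf0.fun_mul hg'), ht_dd_mul hf' hg0, ht_dd_mul hf0 hg']
  ring

/-- second directional derivative of a composition. -/
theorem ht_dd2_comp {φ φ' φ'' : ℝ → ℝ} (h1 : ∀ s, HasDerivAt φ (φ' s) s) (h2 : ∀ s, HasDerivAt φ' (φ'' s) s)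
    (hΩ : IsOpen Ω) (hf : ContDiffOn ℝ ∞ f Ω) (hx : x ∈ Ω) (v : E n) :
    dd v (dd v (fun z => φ (f z))) x = φ'' (f x) * dd v f x ^ 2 + φ' (f x) * dd v (dd v f) x := by
  have e1 : ∀ z ∈ Ω, dd v (fun z => φ (f z)) z = φ' (f z) * dd v f z := fun z hz =>
    ht_dd_comp (h1 _) (ht_diffAt hΩ hf hz) v
  rw [ht_dd_congr hΩ e1 hx]
  have hf' := ht_diffAt hΩ (hf.ell_dd_infty hΩ v) hx
  have hf0 := ht_diffAt hΩ hf hx
  have hc : DifferentiableAt ℝ (fun z => φ' (f z)) x :=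
    ((h2 (f x)).comp_hasFDerivAt x hf0.hasFDerivAt).differentiableAt
  rw [ht_dd_mul hc hf', ht_dd_comp (h2 _) hf0]
  ring

/-- third derivatives commute. -/
theorem ht_dd3 (hΩ : IsOpen Ω) (hf : ContDiffOn ℝ ∞ f Ω) (hx : x ∈ Ω) (a b : E n) :
    dd a (dd a (dd b f)) x = dd b (dd a (dd a f)) x := by
  have h2 : ContDiffOn ℝ 2 f Ω := hf.of_le (by norm_cast)
  have h2' : ContDiffOn ℝ 2 (dd a f) Ω := (hf.ell_dd_infty hΩ a).of_le (by norm_cast)
  rw [ell_dd_comm hΩ h2' hx b a]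
  exact ht_dd_congr hΩ (fun z hz => ell_dd_comm hΩ h2 hz a b) hx a

theorem ht_dd2_lin (hΩ : IsOpen Ω) (hf : ContDiffOn ℝ ∞ f Ω) (hg : ContDiffOn ℝ ∞ g Ω) (hx : x ∈ Ω) (c : ℝ) (v : E n) :
    dd v (dd v (fun z => c * f z - g z)) x = c * dd v (dd v f) x - dd v (dd v g) x := by
  have h1 : ∀ z ∈ Ω, dd v (fun z => c * f z - g z) z = c * dd v f z - dd v g z := fun z hz => by
    rw [ht_dd_sub ((ht_diffAt hΩ hf hz).const_mul c) (ht_diffAt hΩ hg hz), ht_dd_const_mul (ht_diffAt hΩ hf hz)]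
  rw [ht_dd_congr hΩ h1 hx]
  have hf' := ht_diffAt hΩ (hf.ell_dd_infty hΩ v) hx
  have hg' := ht_diffAt hΩ (hg.ell_dd_infty hΩ v) hx
  rw [ht_dd_sub (hf'.const_mul c) hg', ht_dd_const_mul hf']

theorem ht_dd2_sum {ι : Type} (s : Finset ι) {F : ι → E n → ℝ} (hΩ : IsOpen Ω) (hF : ∀ i ∈ s, ContDiffOn ℝ ∞ (F i) Ω)
    (hx : x ∈ Ω) (v : E n) :
    dd v (dd v (fun z => ∑ i ∈ s, F i z)) x = ∑ i ∈ s, dd v (dd v (F i)) x := by
  have h1 : ∀ z ∈ Ω, dd v (fun z => ∑ i ∈ s, F i z) z = ∑ i ∈ s, dd v (F i) z := fun z hz =>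
    ht_dd_sum s (fun i hi => ht_diffAt hΩ (hF i hi) hz) v
  rw [ht_dd_congr hΩ h1 hx]
  exact ht_dd_sum s (fun i hi => ht_diffAt hΩ ((hF i hi).ell_dd_infty hΩ v) hx) v

/-- the flat Laplacian in coordinates. -/
theorem ht_flLap_eq (hΩ : IsOpen Ω) (hf : ContDiffOn ℝ ∞ f Ω) (hx : x ∈ Ω) :
    flLap f x = ∑ k, dd (eb k) (dd (eb k) f) x := by
  unfold flLap gmtDiv
  refine Finset.sum_congr rfl fun i _ => ?_
  have hd0 : DifferentiableAt ℝ (fderiv ℝ f) x :=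
    ((hf.fderiv_of_isOpen hΩ (m := ∞) (by simp)).contDiffAt (hΩ.mem_nhds hx)).differentiableAt (by simp)
  have hd : DifferentiableAt ℝ (gradient f) x := by
    unfold gradient
    exact (LinearIsometryEquiv.differentiableAt _).comp x hd0
  have h1 : HasFDerivAt (fun x => gradient f x i)
      ((EuclideanSpace.proj i : E n →L[ℝ] ℝ).comp (fderiv ℝ (gradient f) x)) x :=
    (EuclideanSpace.proj i : E n →L[ℝ] ℝ).hasFDerivAt.comp x hd.hasFDerivAt
  have h2 : (fun x => gradient f x i) = dd (eb i) f :=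
    funext fun x => flk_gradient_apply f x i
  simp only [dd] at h2 ⊢
  rw [← h2, h1.fderiv]
  rfl

end kit

/-! ### homogeneity -/

section hom

variable {U : E n → ℝ}

theorem ht_hom_fderiv (hs : ContDiffOn ℝ ∞ U {0}ᶜ) (hh : ∀ t : ℝ, 0 < t → ∀ x, U (t • x) = U x) {t : ℝ} (ht : 0 < t)
    {x : E n} (hx : x ≠ 0) : fderiv ℝ U (t • x) = t⁻¹ • fderiv ℝ U x := by
  have hΩ : IsOpen ({0}ᶜ : Set (E n)) := isOpen_compl_singleton
  have htx : t • x ∈ ({0}ᶜ : Set (E n)) := by simp [ht.ne', hx]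
  have h1 : HasFDerivAt U (fderiv ℝ U (t • x)) (t • x) := (ht_diffAt hΩ hs htx).hasFDerivAt
  have h2 : HasFDerivAt (fun z : E n => t • z) (t • ContinuousLinearMap.id ℝ (E n)) x :=
    (hasFDerivAt_id x).const_smul t
  have h3 := h1.comp x h2
  have h4 : (U ∘ fun z : E n => t • z) = U := funext fun z => hh t ht z
  rw [h4] at h3
  rw [h3.fderiv]
  ext v
  simp [ht.ne']

theorem ht_hom_euler (hs : ContDiffOn ℝ ∞ U {0}ᶜ) (hh : ∀ t : ℝ, 0 < t → ∀ x, U (t • x) = U x)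
    {x : E n} (hx : x ≠ 0) : fderiv ℝ U x x = 0 := by
  have hΩ : IsOpen ({0}ᶜ : Set (E n)) := isOpen_compl_singleton
  have h1 : HasFDerivAt U (fderiv ℝ U x) ((1 : ℝ) • x) := by
    rw [one_smul]; exact (ht_diffAt hΩ hs hx).hasFDerivAt
  have h2 : HasDerivAt (fun t : ℝ => t • x) x 1 := by simpa using (hasDerivAt_id (1 : ℝ)).smul_const x
  have h3 : HasDerivAt (fun t : ℝ => U (t • x)) (fderiv ℝ U x x) 1 := h1.comp_hasDerivAt 1 h2
  have h4 : (fun t : ℝ => U (t • x)) =ᶠ[𝓝 1] fun _ => U x := by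
    filter_upwards [lt_mem_nhds (zero_lt_one' ℝ)] with t ht using hh t ht x
  exact h3.unique ((hasDerivAt_const (1 : ℝ) (U x)).congr_of_eventuallyEq h4)

end hom

/-! ### the function `P` -/

/-- `|z|²` in coordinates. -/
noncomputable def htN (z : E n) : ℝ := ∑ i, z i * z i

/-- `|DU|²` in coordinates. -/
noncomputable def htQ (U : E n → ℝ) (z : E n) : ℝ := ∑ i, dd (eb i) U z * dd (eb i) U z

/-- `P = ε²|z|²|DU|²/2 - W(U)`. -/
noncomputable def htP (ε : ℝ) (U : E n → ℝ) (z : E n) : ℝ := ε ^ 2 / 2 * (htN z * htQ U z) - acW (U z)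

theorem htN_eq (z : E n) : htN z = ‖z‖ ^ 2 := by
  rw [EuclideanSpace.norm_sq_eq]
  simp [htN, pow_two]

theorem htQ_eq (U : E n → ℝ) (z : E n) : htQ U z = ‖fderiv ℝ U z‖ ^ 2 := by
  rw [← ell_norm_gradient, EuclideanSpace.norm_sq_eq]
  simp only [htQ, dd, flk_gradient_apply, Real.norm_eq_abs, sq_abs]
  exact Finset.sum_congr rfl fun i _ => (pow_two _).symm

theorem ht_coord_smooth (i : Fin n) : ContDiff ℝ ∞ (fun z : E n => z i) :=
  (EuclideanSpace.proj i : E n →L[ℝ] ℝ).contDiff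

theorem htN_smooth : ContDiff ℝ ∞ (htN : E n → ℝ) := by
  unfold htN
  exact ContDiff.sum fun i _ => (ht_coord_smooth i).mul (ht_coord_smooth i)

theorem ht_dd_N (z v : E n) : dd v htN z = 2 * ∑ i, z i * v i := by
  unfold htN
  have hc : ∀ i : Fin n, DifferentiableAt ℝ (fun z : E n => z i) z := fun i =>
    (ht_coord_smooth i).differentiable (by simp) z
  rw [ht_dd_sum _ (fun i _ => (hc i).fun_mul (hc i)), Finset.mul_sum]
  refine Finset.sum_congr rfl fun i _ => ?_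
  rw [ht_dd_mul (hc i) (hc i), ht_dd_coord]
  ring

theorem ht_dd2_N (z v : E n) : dd v (dd v htN) z = 2 * ∑ i, v i * v i := by
  have e : dd v (htN : E n → ℝ) = fun z => 2 * ∑ i, z i * v i := funext fun z => ht_dd_N z v
  rw [e]
  have hc : ∀ i : Fin n, DifferentiableAt ℝ (fun z : E n => z i) z := fun i =>
    (ht_coord_smooth i).differentiable (by simp) z
  have hc' : ∀ i : Fin n, DifferentiableAt ℝ (fun z : E n => z i * v i) z := fun i => (hc i).mul_const _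
  rw [ht_dd_const_mul (DifferentiableAt.fun_sum fun i _ => hc' i), ht_dd_sum _ (fun i _ => hc' i)]
  congr 1
  refine Finset.sum_congr rfl fun i _ => ?_
  rw [ht_dd_mul (hc i) (differentiableAt_const _), ht_dd_coord, ht_dd_const]
  ring

theorem ht_eb_sum (k : Fin n) (a : Fin n → ℝ) : ∑ i, a i * (eb k : E n) i = a k := by
  simp

section Pcalc

variable {U : E n → ℝ} {x : E n}

theorem htQ_smooth (hs : ContDiffOn ℝ ∞ U {0}ᶜ) : ContDiffOn ℝ ∞ (htQ U) {0}ᶜ := by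
  unfold htQ
  exact ContDiffOn.sum fun i _ =>
    (hs.ell_dd_infty isOpen_compl_singleton (eb i)).mul (hs.ell_dd_infty isOpen_compl_singleton (eb i))

theorem ht_dd_Q (hs : ContDiffOn ℝ ∞ U {0}ᶜ) (hx : x ≠ 0) (v : E n) :
    dd v (htQ U) x = 2 * ∑ i, dd (eb i) U x * dd v (dd (eb i) U) x := by
  have hΩ : IsOpen ({0}ᶜ : Set (E n)) := isOpen_compl_singleton
  have hd : ∀ i : Fin n, DifferentiableAt ℝ (dd (eb i) U) x := fun i => ht_diffAt hΩ (hs.ell_dd_infty hΩ (eb i)) hx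
  unfold htQ
  rw [ht_dd_sum _ (fun i _ => (hd i).fun_mul (hd i)), Finset.mul_sum]
  refine Finset.sum_congr rfl fun i _ => ?_
  rw [ht_dd_mul (hd i) (hd i)]
  ring

theorem ht_dd2_Q (hs : ContDiffOn ℝ ∞ U {0}ᶜ) (hx : x ≠ 0) (v : E n) :
    dd v (dd v (htQ U)) x
      = 2 * ∑ i, (dd v (dd (eb i) U) x ^ 2 + dd (eb i) U x * dd v (dd v (dd (eb i) U)) x) := by
  have hΩ : IsOpen ({0}ᶜ : Set (E n)) := isOpen_compl_singleton
  have hd : ∀ i : Fin n, ContDiffOn ℝ ∞ (dd (eb i) U) {0}ᶜ := fun i => hs.ell_dd_infty hΩ (eb i)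
  unfold htQ
  rw [ht_dd2_sum _ hΩ (fun i _ => (hd i).mul (hd i)) hx, Finset.mul_sum]
  refine Finset.sum_congr rfl fun i _ => ?_
  rw [ht_dd2_mul hΩ (hd i) (hd i) hx]
  ring

theorem ht_acW_deriv (s : ℝ) : HasDerivAt acW (acW' s) s := by
  unfold acW acW'
  have h1 : HasDerivAt (fun s : ℝ => 1 - s ^ 2) (-(2 * s)) s := by
    simpa using ((hasDerivAt_pow 2 s).const_sub 1)
  have h2 : HasDerivAt (fun s : ℝ => (1 - s ^ 2) ^ 2 / 4) ((2 : ℕ) * (1 - s ^ 2) ^ (2 - 1) * -(2 * s) / 4) s :=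
    (h1.fun_pow 2).div_const 4
  have e : s ^ 3 - s = (2 : ℕ) * (1 - s ^ 2) ^ (2 - 1) * -(2 * s) / 4 := by
    push_cast
    ring
  rw [e]
  exact h2

theorem ht_acW'_deriv (s : ℝ) : HasDerivAt acW' (3 * s ^ 2 - 1) s := by
  unfold acW'
  have := (hasDerivAt_pow 3 s).fun_sub (hasDerivAt_id' s)
  simpa using this

theorem ht_acW_smooth : ContDiff ℝ ∞ acW := by
  unfold acW
  fun_prop

theorem htP_smooth (ε : ℝ) (hs : ContDiffOn ℝ ∞ U {0}ᶜ) : ContDiffOn ℝ ∞ (htP ε U) {0}ᶜ := by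
  unfold htP
  exact (contDiffOn_const.mul (htN_smooth.contDiffOn.mul (htQ_smooth hs))).sub (ht_acW_smooth.comp_contDiffOn hs)

theorem ht_dd_P (ε : ℝ) (hs : ContDiffOn ℝ ∞ U {0}ᶜ) (hx : x ≠ 0) (v : E n) :
    dd v (htP ε U) x = ε ^ 2 / 2 * (dd v htN x * htQ U x + htN x * dd v (htQ U) x) - acW' (U x) * dd v U x := by
  have hΩ : IsOpen ({0}ᶜ : Set (E n)) := isOpen_compl_singleton
  have hN : DifferentiableAt ℝ (htN : E n → ℝ) x := htN_smooth.differentiable (by simp) x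
  have hQ : DifferentiableAt ℝ (htQ U) x := ht_diffAt hΩ (htQ_smooth hs) hx
  have hU : DifferentiableAt ℝ U x := ht_diffAt hΩ hs hx
  have hW : DifferentiableAt ℝ (fun z => acW (U z)) x :=
    ((ht_acW_deriv (U x)).comp_hasFDerivAt x hU.hasFDerivAt).differentiableAt
  unfold htP
  rw [ht_dd_sub ((hN.fun_mul hQ).const_mul _) hW, ht_dd_const_mul (hN.fun_mul hQ), ht_dd_mul hN hQ,
    ht_dd_comp (ht_acW_deriv _) hU]

theorem ht_dd2_P (ε : ℝ) (hs : ContDiffOn ℝ ∞ U {0}ᶜ) (hx : x ≠ 0) (v : E n) :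
    dd v (dd v (htP ε U)) x
      = ε ^ 2 / 2 * (dd v (dd v htN) x * htQ U x + 2 * (dd v htN x * dd v (htQ U) x) + htN x * dd v (dd v (htQ U)) x)
        - ((3 * U x ^ 2 - 1) * dd v U x ^ 2 + acW' (U x) * dd v (dd v U) x) := by
  have hΩ : IsOpen ({0}ᶜ : Set (E n)) := isOpen_compl_singleton
  unfold htP
  have hW : ContDiffOn ℝ ∞ (fun z => acW (U z)) {0}ᶜ := ht_acW_smooth.comp_contDiffOn hs
  rw [ht_dd2_lin hΩ (htN_smooth.contDiffOn.mul (htQ_smooth hs)) hW hx,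
    ht_dd2_mul hΩ htN_smooth.contDiffOn (htQ_smooth hs) hx,
    ht_dd2_comp ht_acW_deriv ht_acW'_deriv hΩ hs hx]

end Pcalc

/-! ### linear algebra -/

theorem ht_bessel2 (w y u : Fin n → ℝ) {Q : ℝ} (hQ : 0 < Q) (hy : ∑ i, y i * y i = 1) (hyu : ∑ i, y i * u i = 0)
    (hu : ∑ i, u i * u i = Q) : (∑ i, w i * y i) ^ 2 + (∑ i, w i * u i) ^ 2 / Q ≤ ∑ i, w i * w i := by
  obtain ⟨a, ha⟩ : ∃ a, a = ∑ i, w i * y i := ⟨_, rfl⟩
  obtain ⟨b, hb⟩ : ∃ b, b = (∑ i, w i * u i) / Q := ⟨_, rfl⟩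
  have h0 : 0 ≤ ∑ i, (w i - a * y i - b * u i) ^ 2 := Finset.sum_nonneg fun i _ => sq_nonneg _
  have h1 : ∑ i, (w i - a * y i - b * u i) ^ 2 = ∑ i, w i * w i + a ^ 2 * ∑ i, y i * y i + b ^ 2 * ∑ i, u i * u i
      - 2 * a * ∑ i, w i * y i - 2 * b * ∑ i, w i * u i + 2 * a * b * ∑ i, y i * u i := by
    simp only [Finset.mul_sum, ← Finset.sum_add_distrib, ← Finset.sum_sub_distrib]
    exact Finset.sum_congr rfl fun i _ => by ring
  have hb' : ∑ i, w i * u i = b * Q := by rw [hb]; field_simp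
  rw [h1, hy, hyu, hu, ← ha, hb'] at h0
  rw [← ha, hb']
  have : (b * Q) ^ 2 / Q = b ^ 2 * Q := by field_simp
  rw [this]
  nlinarith

theorem ht_hess_lower (y u : Fin n → ℝ) (h : Fin n → Fin n → ℝ) {Q c : ℝ} (hQ : 0 < Q) (hy : ∑ i, y i * y i = 1)
    (hyu : ∑ i, y i * u i = 0) (hu : ∑ i, u i * u i = Q)
    (h1 : ∀ k, ∑ i, h k i * y i = - u k) (h2 : ∀ k, ∑ i, h k i * u i = c * u k - Q * y k) :
    2 * Q + c ^ 2 ≤ ∑ k, ∑ i, h k i * h k i := by
  have hk : ∀ k, (u k) ^ 2 + (c * u k - Q * y k) ^ 2 / Q ≤ ∑ i, h k i * h k i := fun k => by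
    have := ht_bessel2 (h k) y u hQ hy hyu hu
    rw [h1, h2] at this
    simpa using this
  have e : ∑ k, ((u k) ^ 2 + (c * u k - Q * y k) ^ 2 / Q) = 2 * Q + c ^ 2 := by
    have e1 : ∑ k, ((u k) ^ 2 + (c * u k - Q * y k) ^ 2 / Q)
        = ∑ k, u k * u k + (c ^ 2 / Q) * ∑ k, u k * u k - 2 * c * ∑ k, y k * u k + Q * ∑ k, y k * y k := by
      simp only [Finset.mul_sum, ← Finset.sum_add_distrib, ← Finset.sum_sub_distrib]
      refine Finset.sum_congr rfl fun i _ => ?_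
      field_simp
      ring
    rw [e1, hy, hyu, hu]
    field_simp
    ring
  rw [← e]
  exact Finset.sum_le_sum fun k _ => hk k

theorem ht_alg {ε : ℝ} (hε : 0 < ε) (y u d2 : Fin n → ℝ) (h t : Fin n → Fin n → ℝ) {Q L w1 w2 : ℝ}
    (hQ : 0 < Q) (hy : ∑ i, y i * y i = 1) (hyu : ∑ i, y i * u i = 0) (hu : ∑ i, u i * u i = Q)
    (hc : ∀ k, ∑ i, y i * h k i = - u k) (hsym : ∀ k i, h k i = h i k)
    (he : ∀ k, ε ^ 2 * (y k * Q + ∑ i, u i * h k i) = w1 * u k)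
    (hf : ε ^ 2 * L = w1) (hL : ∑ k, d2 k = L)
    (hg : ∀ i, ε ^ 2 * (2 * y i * L + ∑ k, t k i) = w2 * u i)
    (hlap : ∑ k, (ε ^ 2 * (Q + 4 * (y k * ∑ i, u i * h k i) + ∑ i, (h k i * h k i + u i * t k i))
      - (w2 * (u k * u k) + w1 * d2 k)) ≤ 0) :
    ((n : ℝ) - 2) * Q ≤ 0 := by
  have hε2 : 0 < ε ^ 2 := by positivity
  have S1 : ∑ k, y k * ∑ i, u i * h k i = - Q := by
    calc ∑ k, y k * ∑ i, u i * h k i = ∑ k, ∑ i, u i * (y k * h i k) := by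
          refine Finset.sum_congr rfl fun k _ => ?_
          rw [Finset.mul_sum]
          refine Finset.sum_congr rfl fun i _ => ?_
          rw [hsym k i]; ring
      _ = ∑ i, ∑ k, u i * (y k * h i k) := Finset.sum_comm
      _ = ∑ i, u i * (- u i) := by
          refine Finset.sum_congr rfl fun i _ => ?_
          rw [← Finset.mul_sum, hc]
      _ = - Q := by
          rw [← hu, ← Finset.sum_neg_distrib]
          exact Finset.sum_congr rfl fun i _ => by ring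
  have S2 : ε ^ 2 * ∑ k, ∑ i, u i * t k i = w2 * Q := by
    calc ε ^ 2 * ∑ k, ∑ i, u i * t k i = ε ^ 2 * ∑ i, ∑ k, u i * t k i := by rw [Finset.sum_comm]
      _ = ∑ i, u i * (ε ^ 2 * ∑ k, t k i) := by
          rw [Finset.mul_sum]
          refine Finset.sum_congr rfl fun i _ => ?_
          rw [← Finset.mul_sum]; ring
      _ = ∑ i, (w2 * (u i * u i) - 2 * ε ^ 2 * L * (y i * u i)) := by
          refine Finset.sum_congr rfl fun i _ => ?_
          have := hg i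
          have e : ε ^ 2 * ∑ k, t k i = w2 * u i - ε ^ 2 * (2 * y i * L) := by linarith
          rw [e]; ring
      _ = w2 * Q := by
          rw [Finset.sum_sub_distrib, ← Finset.mul_sum, ← Finset.mul_sum, hu, hyu]; ring
  have H : 2 * Q + (w1 / ε ^ 2) ^ 2 ≤ ∑ k, ∑ i, h k i * h k i := by
    refine ht_hess_lower y u h hQ hy hyu hu (fun k => ?_) (fun k => ?_)
    · rw [← hc k]; exact Finset.sum_congr rfl fun i _ => by ring
    · have := he k
      have e : ∑ i, h k i * u i = ∑ i, u i * h k i := Finset.sum_congr rfl fun i _ => by ring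
      rw [e]
      field_simp
      linarith
  have E : ∑ k, (ε ^ 2 * (Q + 4 * (y k * ∑ i, u i * h k i) + ∑ i, (h k i * h k i + u i * t k i))
      - (w2 * (u k * u k) + w1 * d2 k))
      = ε ^ 2 * ((n : ℝ) * Q + 4 * ∑ k, y k * ∑ i, u i * h k i + ∑ k, ∑ i, h k i * h k i)
        + ε ^ 2 * ∑ k, ∑ i, u i * t k i - (w2 * ∑ k, u k * u k + w1 * ∑ k, d2 k) := by
    simp only [Finset.sum_sub_distrib, Finset.sum_add_distrib, ← Finset.mul_sum, Finset.sum_const, Finset.card_univ,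
      Fintype.card_fin, nsmul_eq_mul]
    ring
  rw [E, S1, S2, hu, hL] at hlap
  have hw : w1 * L = ε ^ 2 * (w1 / ε ^ 2) ^ 2 := by
    rw [← hf]; field_simp
  have h3 : ε ^ 2 * (((n : ℝ) - 2) * Q) ≤ 0 := by nlinarith
  by_contra hcon
  rw [not_le] at hcon
  nlinarith


/-! ### the maximum principle -/

section main

variable {U : E n → ℝ}

theorem ht_acW_nonneg (s : ℝ) : 0 ≤ acW s := by
  unfold acW
  positivity

theorem ht_modica_core {ε : ℝ} (hε : 0 < ε) (hn : 3 ≤ n) (hs : ContDiffOn ℝ ∞ U {0}ᶜ)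
    (hh : ∀ t : ℝ, 0 < t → ∀ x, U (t • x) = U x)
    (heq : ∀ x, x ≠ 0 → ε ^ 2 * ‖x‖ ^ 2 * flLap U x = acW' (U x)) {y : E n} (hy : ‖y‖ = 1)
    (hmax : IsLocalMax (htP ε U) y) : htP ε U y ≤ 0 := by
  have hΩ : IsOpen ({0}ᶜ : Set (E n)) := isOpen_compl_singleton
  have hy0 : y ≠ 0 := by
    intro h; rw [h, norm_zero] at hy; exact zero_ne_one hy
  have hyΩ : y ∈ ({0}ᶜ : Set (E n)) := hy0
  have hsd : ∀ v : E n, ContDiffOn ℝ ∞ (dd v U) {0}ᶜ := fun v => hs.ell_dd_infty hΩ v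
  have hsdd : ∀ v w : E n, ContDiffOn ℝ ∞ (dd w (dd v U)) {0}ᶜ := fun v w => (hsd v).ell_dd_infty hΩ w
  by_contra hP
  rw [not_le] at hP
  have hN : htN y = 1 := by rw [htN_eq, hy]; norm_num
  have hQ : 0 < htQ U y := by
    have h1 := ht_acW_nonneg (U y)
    unfold htP at hP
    rw [hN, one_mul] at hP
    have h2 : 0 < ε ^ 2 / 2 * htQ U y := by linarith
    have h3 : 0 < ε ^ 2 / 2 := by positivity
    exact (mul_pos_iff_of_pos_left h3).1 h2
  -- Euler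
  have hE : ∀ z ∈ ({0}ᶜ : Set (E n)), ∑ i, z i * dd (eb i) U z = 0 := fun z hz => by
    rw [← ht_dd_expand]
    exact ht_hom_euler hs hh hz
  have hc : ∀ k, ∑ i, y i * dd (eb k) (dd (eb i) U) y = - dd (eb k) U y := fun k => by
    have h1 : dd (eb k) (fun z : E n => ∑ i, z i * dd (eb i) U z) y = 0 := by
      rw [ht_dd_congr hΩ hE hyΩ, ht_dd_const]
    have hc0 : ∀ i : Fin n, DifferentiableAt ℝ (fun z : E n => z i) y := fun i =>
      (ht_coord_smooth i).differentiable (by simp) y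
    have hd : ∀ i : Fin n, DifferentiableAt ℝ (dd (eb i) U) y := fun i => ht_diffAt hΩ (hsd _) hyΩ
    rw [ht_dd_sum _ (fun i _ => (hc0 i).fun_mul (hd i))] at h1
    have h2 : ∀ i : Fin n, dd (eb k) (fun z : E n => z i * dd (eb i) U z) y
        = dd (eb i) U y * (eb k : E n) i + y i * dd (eb k) (dd (eb i) U) y := fun i => by
      rw [ht_dd_mul (hc0 i) (hd i), ht_dd_coord]; ring
    simp only [h2, Finset.sum_add_distrib, ht_eb_sum] at h1
    linarith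
  have hsym : ∀ k i : Fin n, dd (eb k) (dd (eb i) U) y = dd (eb i) (dd (eb k) U) y := fun k i =>
    ell_dd_comm hΩ (hs.of_le (by norm_cast)) hyΩ _ _
  -- the equation
  have heq' : ∀ z ∈ ({0}ᶜ : Set (E n)), ε ^ 2 * (htN z * ∑ k, dd (eb k) (dd (eb k) U) z) = acW' (U z) := fun z hz => by
    rw [← heq z hz, ht_flLap_eq hΩ hs hz, htN_eq]; ring
  have hLs : ContDiffOn ℝ ∞ (fun z => ∑ k, dd (eb k) (dd (eb k) U) z) {0}ᶜ :=
    ContDiffOn.sum fun k _ => hsdd _ _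
  have hg : ∀ i, ε ^ 2 * (2 * y i * (∑ k, dd (eb k) (dd (eb k) U) y) + ∑ k, dd (eb k) (dd (eb k) (dd (eb i) U)) y)
      = (3 * U y ^ 2 - 1) * dd (eb i) U y := fun i => by
    have h1 := ht_dd_congr hΩ heq' hyΩ (eb i)
    have hNd : DifferentiableAt ℝ (htN : E n → ℝ) y := htN_smooth.differentiable (by simp) y
    have hLd := ht_diffAt hΩ hLs hyΩ
    rw [ht_dd_const_mul (hNd.fun_mul hLd), ht_dd_mul hNd hLd, ht_dd_comp (ht_acW'_deriv _) (ht_diffAt hΩ hs hyΩ),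
      ht_dd_N, ht_eb_sum, hN, ht_dd_sum _ (fun k _ => ht_diffAt hΩ (hsdd _ _) hyΩ)] at h1
    rw [← h1]
    have h2 : ∀ k : Fin n, dd (eb k) (dd (eb k) (dd (eb i) U)) y = dd (eb i) (dd (eb k) (dd (eb k) U)) y := fun k =>
      ht_dd3 hΩ hs hyΩ _ _
    simp only [h2]
    ring
  have he : ∀ k, ε ^ 2 * (y k * htQ U y + ∑ i, dd (eb i) U y * dd (eb k) (dd (eb i) U) y)
      = acW' (U y) * dd (eb k) U y := fun k => by
    have h1 : dd (eb k) (htP ε U) y = 0 := by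
      simp only [dd, hmax.fderiv_eq_zero]; rfl
    rw [ht_dd_P ε hs hy0, ht_dd_N, ht_eb_sum, hN, ht_dd_Q hs hy0] at h1
    linarith
  have hlap : ∑ k, dd (eb k) (dd (eb k) (htP ε U)) y ≤ 0 := by
    refine Finset.sum_nonpos fun k _ => ?_
    have hP2 : ContDiffOn ℝ 2 (htP ε U) {0}ᶜ := (htP_smooth ε hs).of_le (by norm_cast)
    rw [← ell_d2_apply hΩ hP2 hyΩ]
    exact ell_d2_nonpos_of_isLocalMax (hP2.contDiffAt (hΩ.mem_nhds hyΩ)) hmax _
  have hfin := ht_alg hε (fun i => y i) (fun i => dd (eb i) U y) (fun k => dd (eb k) (dd (eb k) U) y)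
    (fun k i => dd (eb k) (dd (eb i) U) y) (fun k i => dd (eb k) (dd (eb k) (dd (eb i) U)) y)
    (Q := htQ U y) (L := ∑ k, dd (eb k) (dd (eb k) U) y) (w1 := acW' (U y)) (w2 := 3 * U y ^ 2 - 1)
    hQ hN (hE y hyΩ) rfl hc hsym he (by have := heq' y hyΩ; rw [hN, one_mul] at this; exact this) rfl hg (by
      refine le_of_eq_of_le (Finset.sum_congr rfl fun k _ => ?_) hlap
      rw [ht_dd2_P ε hs hy0, ht_dd2_N, ht_eb_sum, ht_dd_N, ht_eb_sum, hN, ht_dd_Q hs hy0, ht_dd2_Q hs hy0]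
      have e1 : (eb k : E n) k = 1 := by simp
      have e2 : ∑ i, (dd (eb k) (dd (eb i) U) y ^ 2 + dd (eb i) U y * dd (eb k) (dd (eb k) (dd (eb i) U)) y)
          = ∑ i, (dd (eb k) (dd (eb i) U) y * dd (eb k) (dd (eb i) U) y
            + dd (eb i) U y * dd (eb k) (dd (eb k) (dd (eb i) U)) y) :=
        Finset.sum_congr rfl fun i _ => by ring
      rw [e1, e2]
      ring)
  have hn' : (3 : ℝ) ≤ n := by exact_mod_cast hn
  nlinarith

theorem htP_hom (ε : ℝ) (hs : ContDiffOn ℝ ∞ U {0}ᶜ) (hh : ∀ t : ℝ, 0 < t → ∀ x, U (t • x) = U x) {t : ℝ} (ht : 0 < t)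
    {x : E n} (hx : x ≠ 0) : htP ε U (t • x) = htP ε U x := by
  unfold htP
  rw [htN_eq, htN_eq, htQ_eq, htQ_eq, ht_hom_fderiv hs hh ht hx, hh t ht, norm_smul, norm_smul, Real.norm_eq_abs,
    Real.norm_eq_abs, abs_of_pos ht, abs_of_pos (inv_pos.2 ht)]
  congr 2
  field_simp

/-- **Modica's inequality** on the round sphere of dimension `n - 1 ≥ 2`, ambient form. -/
theorem ht_modica_raw {ε : ℝ} (hε : 0 < ε) (hn : 3 ≤ n) (hs : ContDiffOn ℝ ∞ U {0}ᶜ)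
    (hh : ∀ t : ℝ, 0 < t → ∀ x, U (t • x) = U x)
    (heq : ∀ x, x ≠ 0 → ε ^ 2 * ‖x‖ ^ 2 * flLap U x = acW' (U x)) {x : E n} (hx : x ≠ 0) :
    ε ^ 2 * ‖x‖ ^ 2 * ‖fderiv ℝ U x‖ ^ 2 / 2 ≤ acW (U x) := by
  have hΩ : IsOpen ({0}ᶜ : Set (E n)) := isOpen_compl_singleton
  have hsub : sphere (0 : E n) 1 ⊆ {0}ᶜ := fun z hz h0 => by
    rw [mem_sphere_zero_iff_norm, h0, norm_zero] at hz; exact zero_ne_one hz
  have hne : (sphere (0 : E n) 1).Nonempty := by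
    refine ⟨‖x‖⁻¹ • x, ?_⟩
    rw [mem_sphere_zero_iff_norm, norm_smul, norm_inv, norm_norm, inv_mul_cancel₀ (norm_ne_zero_iff.2 hx)]
  obtain ⟨y, hy, hymax⟩ := (isCompact_sphere (0 : E n) 1).exists_isMaxOn hne ((htP_smooth ε hs).continuousOn.mono hsub)
  have hall : ∀ z : E n, z ≠ 0 → htP ε U z ≤ htP ε U y := fun z hz => by
    have h1 : ‖z‖⁻¹ • z ∈ sphere (0 : E n) 1 := by
      rw [mem_sphere_zero_iff_norm, norm_smul, norm_inv, norm_norm, inv_mul_cancel₀ (norm_ne_zero_iff.2 hz)]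
    have h2 : htP ε U (‖z‖⁻¹ • z) ≤ htP ε U y := hymax h1
    rw [htP_hom ε hs hh (inv_pos.2 (norm_pos_iff.2 hz)) hz] at h2
    exact h2
  have hloc : IsLocalMax (htP ε U) y := by
    filter_upwards [hΩ.mem_nhds (hsub hy)] with z hz using hall z hz
  have h1 := ht_modica_core hε hn hs hh heq (mem_sphere_zero_iff_norm.1 hy) hloc
  have h2 := hall x hx
  unfold htP at h1 h2
  rw [htN_eq x, htQ_eq U x] at h2
  linarith

theorem ht_modica {ε : ℝ} (hε : 0 < ε) (hn : 3 ≤ n) (hU : AcSol n ε U) {x : E n} (hx : x ≠ 0) :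
    ε ^ 2 * ‖x‖ ^ 2 * ‖fderiv ℝ U x‖ ^ 2 / 2 ≤ acW (U x) :=
  ht_modica_raw hε hn hU.smooth hU.hom hU.eq hx

end main

end Claimed.Agent.R323
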