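import Claimed.Agent.R323.Ht.Defs
import Claimed.Agent.R323.Ht.Modica

/-!
# Row 323, block C, sub-block AC, part PT: POINTWISE FACTS (owner helper106).   Statements = contract of helper39 (moved verbatim from `Ht/Ac.lean`).
`V z = U (q + z)` is an `AcSol` (`ht_ac_shift`), so `ht_modica` gives `ht_xi_nonneg`; the rest is algebra:  `e - ξ = ε̂|DU|²`, `acC d = e + ξ/(n-2)`,
`acC ⟪M v,v⟫ = e|v|² - ε̂ (DU v)² + (ξ/(n-2)) ⟪x̂,v⟫²`, `Φ' = √(2W)` on `[-1,1]`, `W ≤ 1/4`.   At `x = q` everything vanishes (division by `0`).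
-/

set_option autoImplicit false
open scoped ContDiff ENNReal NNReal RealInnerProductSpace Topology
open MeasureTheory Metric Set Filter

namespace Claimed.Agent.R323

open Claimed.Agent.Gmt

variable {n : ℕ}

theorem ht_ac_of_sol {ε : ℝ} {U : E n → ℝ} (hε : 0 < ε) (h : AcSol n ε U) : HtAC n ε 0 U := by
  refine ⟨hε, h.smooth, fun t ht x => ?_, h.bdd, fun x hx => ?_⟩
  · simpa using h.hom t ht x
  · simpa using h.eq x hx

/-! ### translation to the vertex `0` -/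

theorem ht_gradient_shift (U : E n → ℝ) (q z : E n) : gradient (fun z => U (q + z)) z = gradient U (q + z) := by
  unfold gradient
  rw [fderiv_comp_add_left]

theorem ht_flLap_shift (U : E n → ℝ) (q z : E n) : flLap (fun z => U (q + z)) z = flLap U (q + z) := by
  unfold flLap
  have e : gradient (fun z => U (q + z)) = fun z => gradient U (q + z) := funext fun z => ht_gradient_shift U q z
  rw [e]
  unfold gmtDiv
  rw [fderiv_comp_add_left]

/-- the translate of an `HtAC` to the vertex `0` is an `AcSol`. -/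
theorem ht_ac_shift {κ : ℝ} {q : E n} {U : E n → ℝ} (h : HtAC n κ q U) : AcSol n κ (fun z => U (q + z)) := by
  refine ⟨?_, fun t ht z => ?_, fun z => h.bdd _, fun z hz => ?_⟩
  · refine h.smooth.comp (contDiff_const.add contDiff_id).contDiffOn (fun z hz => ?_)
    simpa using hz
  · have := h.hom t ht (q + z)
    simpa using this
  · have h1 := h.eq (q + z) (by simpa using hz)
    rw [ht_flLap_shift]
    simpa using h1

theorem ht_eps_nonneg {κ : ℝ} (hκ : 0 < κ) (q x : E n) : 0 ≤ htEps κ q x :=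
  mul_nonneg hκ.le (norm_nonneg _)

theorem ht_eps_pos {κ : ℝ} (hκ : 0 < κ) {q x : E n} (hx : x ≠ q) : 0 < htEps κ q x :=
  mul_pos hκ (norm_pos_iff.2 (sub_ne_zero.2 hx))

theorem ht_eps_self (κ : ℝ) (q : E n) : htEps κ q q = 0 := by simp [htEps]

theorem ht_acC_pos : 0 < acC := by
  unfold acC
  positivity

/-- Modica's inequality, vertex `q`, at every point. -/
theorem ht_modica_q (hn : 3 ≤ n) {κ : ℝ} {q : E n} {U : E n → ℝ} (h : HtAC n κ q U) (x : E n) :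
    htEps κ q x ^ 2 * ‖fderiv ℝ U x‖ ^ 2 / 2 ≤ acW (U x) := by
  by_cases hx : x = q
  · rw [hx, ht_eps_self]
    simpa using ht_acW_nonneg (U q)
  · have h1 := ht_modica h.pos hn (ht_ac_shift h) (x := x - q) (sub_ne_zero.2 hx)
    rw [fderiv_comp_add_left] at h1
    simp only [add_sub_cancel] at h1
    unfold htEps
    rw [mul_pow]
    exact h1

theorem ht_acW_le {s : ℝ} (hs : |s| ≤ 1) : acW s ≤ 1 / 4 := by
  unfold acW
  have h1 : s ^ 2 ≤ 1 := by
    rw [← sq_abs]; exact pow_le_one₀ (abs_nonneg s) hs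
  have h2 : 0 ≤ s ^ 2 := sq_nonneg s
  nlinarith

/-- AC1: Modica's inequality. -/
theorem ht_xi_nonneg (hn : 3 ≤ n) {κ : ℝ} {q : E n} {U : E n → ℝ} (h : HtAC n κ q U) (x : E n) : 0 ≤ htXi κ q U x := by
  by_cases hx : x = q
  · simp [htXi, hx, ht_eps_self]
  · have h1 := ht_modica_q hn h x
    have h2 := ht_eps_pos h.pos hx
    unfold htXi
    rw [sub_nonneg, le_div_iff₀ h2]
    nlinarith

theorem ht_E_sub_Xi (κ : ℝ) (q : E n) (U : E n → ℝ) (x : E n) :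
    htE κ q U x = htEps κ q x * ‖fderiv ℝ U x‖ ^ 2 + htXi κ q U x := by
  unfold htE htXi
  ring

theorem ht_E_nonneg {κ : ℝ} (hκ : 0 < κ) (q : E n) (U : E n → ℝ) (x : E n) : 0 ≤ htE κ q U x := by
  unfold htE
  have h1 := ht_eps_nonneg hκ q x
  have h2 := ht_acW_nonneg (U x)
  positivity

theorem ht_n_sub_two (hn : 3 ≤ n) : (1 : ℝ) ≤ (n : ℝ) - 2 := by
  have : (3 : ℝ) ≤ n := by exact_mod_cast hn
  linarith

theorem ht_acC_mul_D (κ : ℝ) (q : E n) (U : E n → ℝ) (x : E n) :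
    acC * htD n κ q U x = htE κ q U x + htXi κ q U x / ((n : ℝ) - 2) := by
  unfold htD
  have := ht_acC_pos.ne'
  field_simp

/-- pointwise facts used everywhere (they hold at EVERY point, also at `q` where everything vanishes). -/
theorem ht_D_nonneg (hn : 3 ≤ n) {κ : ℝ} {q : E n} {U : E n → ℝ} (h : HtAC n κ q U) (x : E n) : 0 ≤ htD n κ q U x := by
  unfold htD
  have h1 := ht_E_nonneg h.pos q U x
  have h2 := ht_xi_nonneg hn h x
  have h3 := ht_n_sub_two hn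
  have h4 := ht_acC_pos
  have h5 : 0 < (n : ℝ) - 2 := by linarith
  positivity

/-- the bilinear form of the stress tensor. -/
theorem ht_M_inner (κ : ℝ) (q : E n) (U : E n → ℝ) (x v w : E n) :
    ⟪htM n κ q U x v, w⟫ = acC⁻¹ * (htE κ q U x * ⟪v, w⟫ - htEps κ q x * (fderiv ℝ U x v * fderiv ℝ U x w)
      + htXi κ q U x / ((n : ℝ) - 2) * (⟪htDir q x, v⟫ * ⟪htDir q x, w⟫)) := by
  have hg : ⟪gradient U x, w⟫ = fderiv ℝ U x w := (Claimed.Agent.Lib.Ell.ell_dd_eq_inner U x w).symm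
  simp only [htM, smul_apply, add_apply, sub_apply, ContinuousLinearMap.id_apply, ContinuousLinearMap.smulRight_apply,
    innerSL_apply_apply, inner_smul_left, inner_add_left, inner_sub_left, hg, conj_trivial]

theorem ht_dir_norm_le (q x : E n) : ‖htDir q x‖ ≤ 1 := by
  unfold htDir
  rw [norm_smul, norm_inv, norm_norm]
  by_cases h : ‖x - q‖ = 0
  · simp [h]
  · rw [inv_mul_cancel₀ h]

theorem ht_M_lower (hn : 3 ≤ n) {κ : ℝ} {q : E n} {U : E n → ℝ} (h : HtAC n κ q U) (x v : E n) :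
    htXi κ q U x / acC * ‖v‖ ^ 2 ≤ ⟪htM n κ q U x v, v⟫ := by
  rw [ht_M_inner, ht_E_sub_Xi, real_inner_self_eq_norm_sq]
  have h1 := ht_eps_nonneg h.pos q x
  have h2 := ht_xi_nonneg hn h x
  have h3 := ht_n_sub_two hn
  have h4 := ht_acC_pos
  have h5 : fderiv ℝ U x v * fderiv ℝ U x v ≤ ‖fderiv ℝ U x‖ ^ 2 * ‖v‖ ^ 2 := by
    have := (fderiv ℝ U x).le_opNorm v
    rw [Real.norm_eq_abs] at this
    rw [← mul_pow, ← pow_two, ← sq_abs]
    exact pow_le_pow_left₀ (abs_nonneg _) this 2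
  have h6 : 0 ≤ htXi κ q U x / ((n : ℝ) - 2) * (⟪htDir q x, v⟫ * ⟪htDir q x, v⟫) :=
    mul_nonneg (div_nonneg h2 (by linarith)) (mul_self_nonneg _)
  rw [div_mul_eq_mul_div, div_eq_inv_mul]
  refine mul_le_mul_of_nonneg_left ?_ (inv_pos.2 h4).le
  nlinarith [mul_le_mul_of_nonneg_left h5 h1]

theorem ht_M_nonneg (hn : 3 ≤ n) {κ : ℝ} {q : E n} {U : E n → ℝ} (h : HtAC n κ q U) (x v : E n) :
    0 ≤ ⟪htM n κ q U x v, v⟫ := by
  refine le_trans ?_ (ht_M_lower hn h x v)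
  have h2 := ht_xi_nonneg hn h x
  have h4 := ht_acC_pos
  positivity

theorem ht_M_le (hn : 3 ≤ n) {κ : ℝ} {q : E n} {U : E n → ℝ} (h : HtAC n κ q U) (x v : E n) :
    ⟪htM n κ q U x v, v⟫ ≤ htD n κ q U x * ‖v‖ ^ 2 := by
  rw [ht_M_inner, real_inner_self_eq_norm_sq]
  have h1 := ht_eps_nonneg h.pos q x
  have h2 := ht_xi_nonneg hn h x
  have h3 := ht_n_sub_two hn
  have h4 := ht_acC_pos
  have h5 : ⟪htDir q x, v⟫ * ⟪htDir q x, v⟫ ≤ ‖v‖ ^ 2 := by
    have h6 := abs_real_inner_le_norm (htDir q x) v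
    have h7 : |⟪htDir q x, v⟫| ≤ ‖v‖ :=
      h6.trans (mul_le_of_le_one_left (norm_nonneg _) (ht_dir_norm_le q x))
    rw [← pow_two, ← sq_abs]
    exact pow_le_pow_left₀ (abs_nonneg _) h7 2
  have h8 : 0 ≤ htXi κ q U x / ((n : ℝ) - 2) := div_nonneg h2 (by linarith)
  have h9 : htD n κ q U x * ‖v‖ ^ 2 = acC⁻¹ * ((htE κ q U x + htXi κ q U x / ((n : ℝ) - 2)) * ‖v‖ ^ 2) := by
    unfold htD
    field_simp
  rw [h9]
  refine mul_le_mul_of_nonneg_left ?_ (inv_pos.2 h4).le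
  nlinarith [mul_le_mul_of_nonneg_left h5 h8, mul_nonneg h1 (mul_self_nonneg (fderiv ℝ U x v))]

/-- the tilt density controls the discrepancy. -/
theorem ht_Xi_le_M (hn : 3 ≤ n) {κ : ℝ} {q : E n} {U : E n → ℝ} (h : HtAC n κ q U) (x v : E n) (hv : ‖v‖ = 1) :
    htXi κ q U x / acC ≤ ⟪htM n κ q U x v, v⟫ := by
  have := ht_M_lower hn h x v
  rwa [hv, one_pow, mul_one] at this

/-- the formula for the tilt density. -/
theorem ht_M_apply (κ : ℝ) (q : E n) (U : E n → ℝ) (x v : E n) (hv : ‖v‖ = 1) :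
    ⟪htM n κ q U x v, v⟫ = (htEps κ q x * (‖fderiv ℝ U x‖ ^ 2 - fderiv ℝ U x v ^ 2) + htXi κ q U x
      + htXi κ q U x / ((n : ℝ) - 2) * ⟪htDir q x, v⟫ ^ 2) / acC := by
  rw [ht_M_inner, ht_E_sub_Xi, real_inner_self_eq_norm_sq, hv, div_eq_inv_mul]
  ring

theorem ht_Xi_le_D (hn : 3 ≤ n) {κ : ℝ} {q : E n} {U : E n → ℝ} (h : HtAC n κ q U) (x : E n) :
    htXi κ q U x / acC ≤ htD n κ q U x := by
  unfold htD
  have h1 := ht_eps_nonneg h.pos q x
  have h2 := ht_xi_nonneg hn h x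
  have h3 := ht_n_sub_two hn
  have h8 : 0 ≤ htXi κ q U x / ((n : ℝ) - 2) := div_nonneg h2 (by linarith)
  refine div_le_div_of_nonneg_right ?_ ht_acC_pos.le
  rw [ht_E_sub_Xi]
  nlinarith [mul_nonneg h1 (sq_nonneg ‖fderiv ℝ U x‖)]

theorem ht_E_le_D (hn : 3 ≤ n) {κ : ℝ} {q : E n} {U : E n → ℝ} (h : HtAC n κ q U) (x : E n) :
    htE κ q U x ≤ acC * htD n κ q U x := by
  rw [ht_acC_mul_D]
  have h2 := ht_xi_nonneg hn h x
  have h3 := ht_n_sub_two hn
  have h8 : 0 ≤ htXi κ q U x / ((n : ℝ) - 2) := div_nonneg h2 (by linarith)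
  linarith

theorem ht_phi_deriv (s : ℝ) : HasDerivAt htPhi ((1 - s ^ 2) / Real.sqrt 2) s := by
  unfold htPhi
  have h1 : HasDerivAt (fun s : ℝ => s - s ^ 3 / 3) (1 - s ^ 2) s := by
    have := (hasDerivAt_id' s).fun_sub ((hasDerivAt_pow 3 s).div_const 3)
    have e : (1 : ℝ) - s ^ 2 = 1 - ((3 : ℕ) : ℝ) * s ^ (3 - 1) / 3 := by
      push_cast
      ring
    rw [e]
    exact this
  exact h1.div_const _

/-- `|D_v Φ(U)| ≤ acC d |v|`. -/
theorem ht_dPhi_le (hn : 3 ≤ n) {κ : ℝ} {q : E n} {U : E n → ℝ} (h : HtAC n κ q U) (x v : E n) (hx : x ≠ q) :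
    |fderiv ℝ (fun z => htPhi (U z)) x v| ≤ acC * htD n κ q U x * ‖v‖ := by
  have hU : DifferentiableAt ℝ U x := ht_diffAt isOpen_compl_singleton h.smooth hx
  have h1 := (ht_phi_deriv (U x)).comp_hasFDerivAt x hU.hasFDerivAt
  have e : (fun z => htPhi (U z)) = htPhi ∘ U := rfl
  rw [e, h1.fderiv, smul_apply, smul_eq_mul, abs_mul]
  have h2 := ht_eps_pos h.pos hx
  have h3 : |fderiv ℝ U x v| ≤ ‖fderiv ℝ U x‖ * ‖v‖ := by
    have := (fderiv ℝ U x).le_opNorm v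
    rwa [Real.norm_eq_abs] at this
  obtain ⟨a, ha⟩ : ∃ a, a = |(1 - U x ^ 2) / Real.sqrt 2| := ⟨_, rfl⟩
  have ha0 : 0 ≤ a := by rw [ha]; exact abs_nonneg _
  have ha2 : a ^ 2 = 2 * acW (U x) := by
    rw [ha, sq_abs, div_pow, Real.sq_sqrt (by norm_num)]
    unfold acW
    ring
  have h4 : a * ‖fderiv ℝ U x‖ ≤ htE κ q U x := by
    unfold htE
    have h5 : acW (U x) / htEps κ q x = a ^ 2 / (2 * htEps κ q x) := by
      rw [ha2]; field_simp
    rw [h5]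
    have h6 : 0 ≤ (htEps κ q x * ‖fderiv ℝ U x‖ - a) ^ 2 := sq_nonneg _
    have h7 : htEps κ q x / 2 * ‖fderiv ℝ U x‖ ^ 2 + a ^ 2 / (2 * htEps κ q x) - a * ‖fderiv ℝ U x‖
        = (htEps κ q x * ‖fderiv ℝ U x‖ - a) ^ 2 / (2 * htEps κ q x) := by
      field_simp
      ring
    have h8 : 0 ≤ (htEps κ q x * ‖fderiv ℝ U x‖ - a) ^ 2 / (2 * htEps κ q x) := by positivity
    linarith
  rw [← ha]
  calc a * |fderiv ℝ U x v| ≤ a * (‖fderiv ℝ U x‖ * ‖v‖) := mul_le_mul_of_nonneg_left h3 ha0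
    _ = (a * ‖fderiv ℝ U x‖) * ‖v‖ := by ring
    _ ≤ (acC * htD n κ q U x) * ‖v‖ := mul_le_mul_of_nonneg_right (h4.trans (ht_E_le_D hn h x)) (norm_nonneg _)

/-- `W(U) ≤ acC ε̂ d`. -/
theorem ht_W_le (hn : 3 ≤ n) {κ : ℝ} {q : E n} {U : E n → ℝ} (h : HtAC n κ q U) (x : E n) (hx : x ≠ q) :
    acW (U x) ≤ acC * htEps κ q x * htD n κ q U x := by
  have h2 := ht_eps_pos h.pos hx
  have h3 := ht_E_le_D hn h x
  have h4 : acW (U x) / htEps κ q x ≤ htE κ q U x := by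
    unfold htE
    have : 0 ≤ htEps κ q x / 2 * ‖fderiv ℝ U x‖ ^ 2 := by positivity
    linarith
  rw [div_le_iff₀ h2] at h4
  nlinarith

/-- AC4: gradient bound. -/
theorem ht_grad (hn : 3 ≤ n) {κ : ℝ} {q : E n} {U : E n → ℝ} (h : HtAC n κ q U) (x : E n) :
    htEps κ q x * ‖fderiv ℝ U x‖ ≤ 1 := by
  have h1 := ht_modica_q hn h x
  have h2 := ht_acW_le (h.bdd x)
  have h3 : (htEps κ q x * ‖fderiv ℝ U x‖) ^ 2 ≤ 1 ^ 2 := by
    rw [mul_pow]; linarith
  exact (pow_le_pow_iff_left₀ (mul_nonneg (ht_eps_nonneg h.pos q x) (norm_nonneg _)) zero_le_one (by norm_num)).1 h3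

/-- upper bound of the mass density: `d ≤ 1/(acC κ |x - q|)`. -/
theorem ht_D_le (hn : 3 ≤ n) {κ : ℝ} {q : E n} {U : E n → ℝ} (h : HtAC n κ q U) (x : E n) :
    htD n κ q U x ≤ acC⁻¹ * κ⁻¹ * ‖x - q‖⁻¹ := by
  by_cases hx : x = q
  · simp [htD, htE, htXi, hx, ht_eps_self]
  · have h2 := ht_eps_pos h.pos hx
    have h1 := ht_modica_q hn h x
    have h3 := ht_acW_le (h.bdd x)
    have h4 := ht_n_sub_two hn
    have h5 := ht_xi_nonneg hn h x
    have hW := ht_acW_nonneg (U x)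
    have h6 : htXi κ q U x / ((n : ℝ) - 2) ≤ htXi κ q U x := div_le_self h5 h4
    have h7 : htEps κ q x / 2 * ‖fderiv ℝ U x‖ ^ 2 ≤ acW (U x) / htEps κ q x := by
      rw [le_div_iff₀ h2]; nlinarith
    have h8 : acW (U x) / htEps κ q x ≤ (1 / 4) / htEps κ q x := div_le_div_of_nonneg_right h3 h2.le
    have h9 : htE κ q U x + htXi κ q U x / ((n : ℝ) - 2) ≤ (htEps κ q x)⁻¹ := by
      have e1 : htE κ q U x + htXi κ q U x = 2 * (acW (U x) / htEps κ q x) := by unfold htE htXi; ring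
      have e2 : (1 / 4) / htEps κ q x = (1 / 4) * (htEps κ q x)⁻¹ := by rw [div_eq_mul_inv]
      have e3 : 0 < (htEps κ q x)⁻¹ := inv_pos.2 h2
      linarith
    unfold htD
    rw [div_eq_inv_mul, mul_assoc]
    refine mul_le_mul_of_nonneg_left ?_ (inv_pos.2 ht_acC_pos).le
    refine h9.trans (le_of_eq ?_)
    unfold htEps
    rw [mul_inv]

end Claimed.Agent.R323
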