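import Claimed.Agent.R323.Ht.AcRad
import Claimed.Agent.Lib.Gmt.BvIsoDil

/-!
# Row 323, block C, sub-block AC, part TR: COVARIANCE under `y ↦ x₀ + r O y`.   LEAF L-AC-TR (whole file).   Statements = contract of helper39 (moved verbatim from `Ht/Ac.lean`).
`V = htTr O x₀ r U = U ∘ T`, `T y = x₀ + r • O y`, `q' = htTrq O x₀ r q`, `T q' = q`, `T y - q = r • O (y - q')`, so `|T y - q| = r |y - q'|`.
* `fderiv V y = r • (fderiv U (T y)) ∘ O` at EVERY `y` (`T` is an affine equivalence: `fderiv_comp_add_left`, `ContinuousLinearEquiv.comp_right_fderiv`, no differentiability needed),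
  so `‖fderiv V y‖ = r ‖fderiv U (T y)‖`, `gradient V y = r • O.symm (gradient U (T y))`.
* `flLap V y = r² flLap U (T y)` for `T y ≠ q`: `flLap = ∑ᵢ D²(eᵢ,eᵢ)` (`ht_flLap_eq` in `Ht/Modica.lean`) is a trace, independent of the orthonormal basis (`Lib/Ell.ellTr_eq_sum`, or `LinearMap.trace_conj'`, `Lib/Gmt/BvIsoDil.gmtDiv_eq_trace`).
  Model proof of the trace step: `Lib/Gmt/BvIsoDil.gmtDiv_gmtAPull` (import it); at `y = q'` all densities vanish (`htEps = 0`: `div_zero`, `zero_mul`).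
* `ht_tr_integral`: `x = T y`, `dx = r^n dy` (`MeasureTheory.Measure.integral_comp_smul`, `LinearIsometryEquiv.measurePreserving`, `integral_add_left_eq_self`), with `ht_tr_D`.
* `ht_tr_En`: `T` maps `ball q' 1` onto `ball q r`; `ht_ball_vertex`-type scaling is NOT needed if you apply `ht_tr_integral`-like change of variables and then the homogeneity `htD (q + t(x-q)) = t⁻¹ htD x`; you may import `Ht/AcRad.lean` (it does not import this file).
-/

set_option autoImplicit false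
open scoped ContDiff ENNReal NNReal RealInnerProductSpace Topology
open MeasureTheory Metric Set Filter

namespace Claimed.Agent.R323

open Claimed.Agent.Gmt

variable {n : ℕ}

/-! ### the affine map -/

theorem ht_tr_sub (q : E n) (O : E n ≃ₗᵢ[ℝ] E n) (x₀ : E n) {r : ℝ} (hr : 0 < r) (y : E n) :
    x₀ + r • O y - q = r • O (y - htTrq O x₀ r q) := by
  unfold htTrq
  rw [map_sub, LinearIsometryEquiv.apply_symm_apply, smul_sub, smul_smul, mul_inv_cancel₀ hr.ne', one_smul]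
  abel

theorem ht_tr_norm_sub (q : E n) (O : E n ≃ₗᵢ[ℝ] E n) (x₀ : E n) {r : ℝ} (hr : 0 < r) (y : E n) :
    ‖x₀ + r • O y - q‖ = r * ‖y - htTrq O x₀ r q‖ := by
  rw [ht_tr_sub q O x₀ hr, norm_smul, Real.norm_of_nonneg hr.le, LinearIsometryEquiv.norm_map]

theorem ht_tr_ne (q : E n) (O : E n ≃ₗᵢ[ℝ] E n) (x₀ : E n) {r : ℝ} (hr : 0 < r) {y : E n} (hy : y ≠ htTrq O x₀ r q) :
    x₀ + r • O y ≠ q := by
  intro h
  have h1 := ht_tr_norm_sub q O x₀ hr y
  rw [h, sub_self, norm_zero] at h1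
  have h2 : ‖y - htTrq O x₀ r q‖ = 0 := by
    rcases mul_eq_zero.1 h1.symm with h3 | h3
    · exact absurd h3 hr.ne'
    · exact h3
  exact hy (sub_eq_zero.1 (norm_eq_zero.1 h2))

/-- derivative of `U ∘ T` (at EVERY point). -/
theorem ht_tr_fderiv (O : E n ≃ₗᵢ[ℝ] E n) (x₀ : E n) {r : ℝ} (hr : 0 < r) (U : E n → ℝ) (y : E n) :
    fderiv ℝ (htTr O x₀ r U) y = r • (fderiv ℝ U (x₀ + r • O y)).comp (O.toContinuousLinearEquiv : E n →L[ℝ] E n) := by
  set iso : E n ≃L[ℝ] E n := O.toContinuousLinearEquiv.trans (ContinuousLinearEquiv.smulLeft (Units.mk0 r hr.ne')) with hiso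
  have hiso' : ∀ z, iso z = r • O z := fun z => rfl
  have e1 : htTr O x₀ r U = (fun z => U (x₀ + z)) ∘ iso := by
    funext z
    simp only [Function.comp, hiso', htTr]
  rw [e1, iso.comp_right_fderiv, fderiv_comp_add_left]
  ext v
  simp only [ContinuousLinearMap.comp_apply, ContinuousLinearEquiv.coe_coe, hiso', map_smul, smul_eq_mul,
    _root_.smul_apply]
  rfl

theorem ht_tr_fderiv_apply (O : E n ≃ₗᵢ[ℝ] E n) (x₀ : E n) {r : ℝ} (hr : 0 < r) (U : E n → ℝ) (y v : E n) :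
    fderiv ℝ (htTr O x₀ r U) y v = r * fderiv ℝ U (x₀ + r • O y) (O v) := by
  rw [ht_tr_fderiv O x₀ hr]
  rfl

theorem ht_tr_norm_fderiv (O : E n ≃ₗᵢ[ℝ] E n) (x₀ : E n) {r : ℝ} (hr : 0 < r) (U : E n → ℝ) (y : E n) :
    ‖fderiv ℝ (htTr O x₀ r U) y‖ = r * ‖fderiv ℝ U (x₀ + r • O y)‖ := by
  rw [ht_tr_fderiv O x₀ hr, norm_smul, Real.norm_of_nonneg hr.le]
  congr 1
  exact ContinuousLinearMap.opNorm_comp_linearIsometryEquiv _ O

theorem ht_tr_gradient (O : E n ≃ₗᵢ[ℝ] E n) (x₀ : E n) {r : ℝ} (hr : 0 < r) (U : E n → ℝ) (y : E n) :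
    gradient (htTr O x₀ r U) y = r • O.symm (gradient U (x₀ + r • O y)) := by
  refine ext_inner_right ℝ fun v => ?_
  unfold gradient
  rw [InnerProductSpace.toDual_symm_apply, ht_tr_fderiv_apply O x₀ hr, inner_smul_left, ← O.inner_map_map,
    LinearIsometryEquiv.apply_symm_apply, InnerProductSpace.toDual_symm_apply]
  rfl

theorem ht_tr_flLap (O : E n ≃ₗᵢ[ℝ] E n) (x₀ : E n) {r : ℝ} (hr : 0 < r) {U : E n → ℝ} {y : E n}
    (hG : DifferentiableAt ℝ (gradient U) (x₀ + r • O y)) :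
    flLap (htTr O x₀ r U) y = r ^ 2 * flLap U (x₀ + r • O y) := by
  unfold flLap
  have e : gradient (htTr O x₀ r U) = fun y => r • O.symm (gradient U (x₀ + r • O y)) :=
    funext fun y => ht_tr_gradient O x₀ hr U y
  rw [e, gmtDiv_eq_trace, gmtDiv_eq_trace]
  set Oc : E n ≃L[ℝ] E n := O.toContinuousLinearEquiv with hOc
  have h1 : HasFDerivAt (fun y => x₀ + r • O y) (r • (Oc : E n →L[ℝ] E n)) y :=
    (HasFDerivAt.const_smul (f := fun y => O y) Oc.hasFDerivAt r).const_add x₀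
  have h2 : HasFDerivAt (fun y => gradient U (x₀ + r • O y))
      ((fderiv ℝ (gradient U) (x₀ + r • O y)).comp (r • (Oc : E n →L[ℝ] E n))) y :=
    HasFDerivAt.comp (g := gradient U) (f := fun y => x₀ + r • O y) y hG.hasFDerivAt h1
  have h3 : HasFDerivAt (fun y => r • O.symm (gradient U (x₀ + r • O y)))
      (r • ((Oc.symm : E n →L[ℝ] E n).comp ((fderiv ℝ (gradient U) (x₀ + r • O y)).comp (r • (Oc : E n →L[ℝ] E n))))) y :=
    HasFDerivAt.const_smul (f := fun y => O.symm (gradient U (x₀ + r • O y))) (Oc.symm.hasFDerivAt.comp y h2) r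
  rw [h3.fderiv]
  have e2 : ((r • ((Oc.symm : E n →L[ℝ] E n).comp ((fderiv ℝ (gradient U) (x₀ + r • O y)).comp (r • (Oc : E n →L[ℝ] E n)))) :
      E n →L[ℝ] E n) : E n →ₗ[ℝ] E n) =
      (r ^ 2) • (Oc.symm.toLinearEquiv.conj (fderiv ℝ (gradient U) (x₀ + r • O y) : E n →ₗ[ℝ] E n)) := by
    ext v
    simp [LinearEquiv.conj_apply, smul_smul, sq]
  rw [e2, map_smul, LinearMap.trace_conj', smul_eq_mul]

theorem ht_tr_ac {κ : ℝ} {q : E n} {U : E n → ℝ} (h : HtAC n κ q U) (O : E n ≃ₗᵢ[ℝ] E n) (x₀ : E n) {r : ℝ} (hr : 0 < r) :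
    HtAC n κ (htTrq O x₀ r q) (htTr O x₀ r U) := by
  refine ⟨h.pos, ?_, fun t ht x => ?_, fun x => h.bdd _, fun x hx => ?_⟩
  · have hT : ContDiff ℝ ∞ (fun y : E n => x₀ + r • O y) :=
      contDiff_const.add (ContDiff.const_smul (f := fun y => O y) r O.toContinuousLinearEquiv.contDiff)
    exact h.smooth.comp hT.contDiffOn (fun y hy => ht_tr_ne q O x₀ hr hy)
  · have h1 := h.hom t ht (x₀ + r • O x)
    unfold htTr
    rw [← h1]
    congr 1
    have h2 := ht_tr_sub q O x₀ hr x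
    have h3 := ht_tr_sub q O x₀ hr (htTrq O x₀ r q + t • (x - htTrq O x₀ r q))
    rw [add_sub_cancel_left, map_smul, smul_comm, ← h2] at h3
    rw [← h3]
    abel
  · have hx' := ht_tr_ne q O x₀ hr hx
    have hop : IsOpen ({q}ᶜ : Set (E n)) := isOpen_compl_singleton
    have hd0 : DifferentiableAt ℝ (fderiv ℝ U) (x₀ + r • O x) :=
      ((h.smooth.fderiv_of_isOpen hop (m := ∞) (by simp)).contDiffAt (hop.mem_nhds hx')).differentiableAt (by simp)
    have hd : DifferentiableAt ℝ (gradient U) (x₀ + r • O x) := by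
      unfold gradient
      exact (LinearIsometryEquiv.differentiableAt _).comp _ hd0
    rw [ht_tr_flLap O x₀ hr hd]
    have h1 := h.eq _ hx'
    rw [ht_tr_norm_sub q O x₀ hr] at h1
    unfold htTr
    rw [← h1]
    ring

theorem ht_tr_eps (κ : ℝ) (q : E n) (O : E n ≃ₗᵢ[ℝ] E n) (x₀ : E n) {r : ℝ} (hr : 0 < r) (y : E n) :
    r * htEps κ (htTrq O x₀ r q) y = htEps κ q (x₀ + r • O y) := by
  unfold htEps
  rw [ht_tr_norm_sub q O x₀ hr]
  ring

theorem ht_tr_eps' (κ : ℝ) (q : E n) (O : E n ≃ₗᵢ[ℝ] E n) (x₀ : E n) {r : ℝ} (hr : 0 < r) (y : E n) :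
    htEps κ (htTrq O x₀ r q) y = htEps κ q (x₀ + r • O y) / r := by
  rw [← ht_tr_eps κ q O x₀ hr y]
  field_simp

theorem ht_tr_E (κ : ℝ) (q : E n) (U : E n → ℝ) (O : E n ≃ₗᵢ[ℝ] E n) (x₀ : E n) {r : ℝ} (hr : 0 < r)
    (y : E n) : htE κ (htTrq O x₀ r q) (htTr O x₀ r U) y = r * htE κ q U (x₀ + r • O y) := by
  unfold htE
  rw [ht_tr_eps' κ q O x₀ hr, ht_tr_norm_fderiv O x₀ hr, div_div_eq_mul_div]
  unfold htTr
  field_simp

theorem ht_tr_Xi {κ : ℝ} {q : E n} {U : E n → ℝ} (h : HtAC n κ q U) (O : E n ≃ₗᵢ[ℝ] E n) (x₀ : E n) {r : ℝ} (hr : 0 < r)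
    (y : E n) : htXi κ (htTrq O x₀ r q) (htTr O x₀ r U) y = r * htXi κ q U (x₀ + r • O y) := by
  unfold htXi
  rw [ht_tr_eps' κ q O x₀ hr, ht_tr_norm_fderiv O x₀ hr, div_div_eq_mul_div]
  unfold htTr
  field_simp

theorem ht_tr_D {κ : ℝ} {q : E n} {U : E n → ℝ} (h : HtAC n κ q U) (O : E n ≃ₗᵢ[ℝ] E n) (x₀ : E n) {r : ℝ} (hr : 0 < r)
    (y : E n) : htD n κ (htTrq O x₀ r q) (htTr O x₀ r U) y = r * htD n κ q U (x₀ + r • O y) := by
  unfold htD
  rw [ht_tr_E κ q U O x₀ hr, ht_tr_Xi h O x₀ hr]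
  ring

theorem ht_tr_dir (q : E n) (O : E n ≃ₗᵢ[ℝ] E n) (x₀ : E n) {r : ℝ} (hr : 0 < r) (y : E n) :
    htDir q (x₀ + r • O y) = O (htDir (htTrq O x₀ r q) y) := by
  unfold htDir
  rw [ht_tr_norm_sub q O x₀ hr, ht_tr_sub q O x₀ hr, map_smul, smul_smul, mul_inv, mul_comm r⁻¹, mul_assoc,
    inv_mul_cancel₀ hr.ne', mul_one]

theorem ht_tr_M {κ : ℝ} {q : E n} {U : E n → ℝ} (h : HtAC n κ q U) (O : E n ≃ₗᵢ[ℝ] E n) (x₀ : E n) {r : ℝ} (hr : 0 < r)
    (y v w : E n) : ⟪htM n κ (htTrq O x₀ r q) (htTr O x₀ r U) y v, w⟫ = r * ⟪htM n κ q U (x₀ + r • O y) (O v), O w⟫ := by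
  rw [ht_M_inner, ht_M_inner, ht_tr_E κ q U O x₀ hr, ht_tr_Xi h O x₀ hr, ht_tr_eps' κ q O x₀ hr, ht_tr_fderiv_apply O x₀ hr,
    ht_tr_fderiv_apply O x₀ hr, ht_tr_dir q O x₀ hr, O.inner_map_map, O.inner_map_map, O.inner_map_map]
  field_simp

/-- the affine change of variables `x = x₀ + r • O y`. -/
theorem ht_tr_cov (O : E n ≃ₗᵢ[ℝ] E n) (x₀ : E n) {r : ℝ} (hr : 0 < r) (F : E n → ℝ) :
    r ^ n * ∫ y, F (x₀ + r • O y) = ∫ x, F x := by
  have h1 : ∫ y, F (x₀ + r • O y) = ∫ z, F (x₀ + r • z) :=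
    (LinearIsometryEquiv.measurePreserving O).integral_comp O.toHomeomorph.measurableEmbedding (fun z => F (x₀ + r • z))
  have h2 : ∫ z, F (x₀ + r • z) = |(r ^ n)⁻¹| • ∫ w, F (x₀ + w) := by
    have := Measure.integral_comp_smul (volume : Measure (E n)) (fun w => F (x₀ + w)) r
    simpa using this
  rw [h1, h2, integral_add_left_eq_self F x₀, abs_of_pos (by positivity), smul_eq_mul]
  field_simp

/-- change of variables for integrals against the mass density. -/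
theorem ht_tr_integral (hn : 3 ≤ n) {κ : ℝ} {q : E n} {U : E n → ℝ} (h : HtAC n κ q U) (O : E n ≃ₗᵢ[ℝ] E n) (x₀ : E n) {r : ℝ} (hr : 0 < r)
    (g : E n → ℝ) : r ^ (n - 1) * ∫ y, g y * htD n κ (htTrq O x₀ r q) (htTr O x₀ r U) y =
      ∫ x, g (O.symm (r⁻¹ • (x - x₀))) * htD n κ q U x := by
  rw [← ht_tr_cov O x₀ hr (fun x => g (O.symm (r⁻¹ • (x - x₀))) * htD n κ q U x)]
  have e : r ^ n = r ^ (n - 1) * r := by
    rw [← pow_succ]; congr 1; omega
  rw [e, mul_assoc]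
  refine congrArg (fun t => r ^ (n - 1) * t) ?_
  rw [← integral_const_mul]
  refine integral_congr_ae (Eventually.of_forall fun y => ?_)
  simp only [ht_tr_D h O x₀ hr y, add_sub_cancel_left, smul_smul, inv_mul_cancel₀ hr.ne', one_smul,
    LinearIsometryEquiv.symm_apply_apply]
  ring

theorem ht_tr_En (hn : 3 ≤ n) {κ : ℝ} {q : E n} {U : E n → ℝ} (h : HtAC n κ q U) (O : E n ≃ₗᵢ[ℝ] E n) (x₀ : E n) {r : ℝ} (hr : 0 < r) :
    htEn n κ (htTrq O x₀ r q) (htTr O x₀ r U) = htEn n κ q U := by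
  have h1 := ht_tr_integral hn h O x₀ hr ((ball (htTrq O x₀ r q) 1).indicator fun _ => (1 : ℝ))
  have h2 : ∫ y, (ball (htTrq O x₀ r q) 1).indicator (fun _ => (1 : ℝ)) y * htD n κ (htTrq O x₀ r q) (htTr O x₀ r U) y
      = ∫ y in ball (htTrq O x₀ r q) 1, htD n κ (htTrq O x₀ r q) (htTr O x₀ r U) y := by
    rw [← integral_indicator measurableSet_ball]
    refine integral_congr_ae (Eventually.of_forall fun y => ?_)
    by_cases hy : y ∈ ball (htTrq O x₀ r q) 1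
    · simp only [indicator_of_mem hy, one_mul]
    · simp only [indicator_of_notMem hy, zero_mul]
  have h3 : ∫ x, (ball (htTrq O x₀ r q) 1).indicator (fun _ => (1 : ℝ)) (O.symm (r⁻¹ • (x - x₀))) * htD n κ q U x
      = ∫ x in ball q r, htD n κ q U x := by
    rw [← integral_indicator measurableSet_ball]
    refine integral_congr_ae (Eventually.of_forall fun x => ?_)
    have hiff : O.symm (r⁻¹ • (x - x₀)) ∈ ball (htTrq O x₀ r q) 1 ↔ x ∈ ball q r := by
      unfold htTrq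
      rw [mem_ball, mem_ball, dist_eq_norm, dist_eq_norm, ← map_sub, LinearIsometryEquiv.norm_map, ← smul_sub,
        norm_smul, norm_inv, Real.norm_eq_abs, abs_of_pos hr, sub_sub_sub_cancel_right, inv_mul_lt_iff₀ hr, mul_one]
    by_cases hx : x ∈ ball q r
    · simp only [indicator_of_mem hx, indicator_of_mem (hiff.2 hx), one_mul]
    · simp only [indicator_of_notMem hx, indicator_of_notMem (fun hh => hx (hiff.1 hh)), zero_mul]
  rw [h2, h3] at h1
  have h4 := ht_ball_vertex hn h hr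
  have hp : 0 < r ^ (n - 1) := by positivity
  have h5 : htEn n κ (htTrq O x₀ r q) (htTr O x₀ r U) * r ^ (n - 1) = htEn n κ q U * r ^ (n - 1) := by
    rw [← h4, ← h1]
    unfold htEn
    ring
  exact mul_right_cancel₀ hp.ne' h5

end Claimed.Agent.R323
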