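import Claimed.Agent.R323.Ht.AcBasic

/-!
# Row 323, block C, sub-block AC: `ht_clear`, `ht_wells` of `Ht/Ac.lean` (AC6), from `Ht/WellsAC.lean`.   (helper101)
Also: continuity and local integrability of the densities off the vertex (`htXi_contOn`, `htD_contOn`, `hta_D_intOn`, `hta_E_intOn`).
-/

set_option autoImplicit false
open scoped ContDiff ENNReal NNReal RealInnerProductSpace Topology
open MeasureTheory Metric Set Filter

namespace Claimed.Agent.R323

open Claimed.Agent.Gmt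

variable {n : ℕ}

theorem htXi_contOn {κ : ℝ} {q : E n} {U : E n → ℝ} (h : HtAC n κ q U) : ContinuousOn (htXi κ q U) {q}ᶜ := by
  unfold htXi acW
  refine ContinuousOn.sub ?_ ((((htEps_cont κ q).continuousOn.div_const 2).mul ((ht_wells_fderivC h).norm.pow 2)))
  refine ContinuousOn.div (((continuousOn_const.sub (h.smooth.continuousOn.pow 2)).pow 2).div_const 4)
    (htEps_cont κ q).continuousOn fun x hx => (htEps_pos h.pos hx).ne'

theorem htD_contOn {κ : ℝ} {q : E n} {U : E n → ℝ} (h : HtAC n κ q U) : ContinuousOn (htD n κ q U) {q}ᶜ := by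
  unfold htD
  exact (((htE_contOn h).add ((htXi_contOn h).div_const _)).div_const _)

theorem hta_closedBall_sub {q x : E n} {r : ℝ} (hq : r < ‖x - q‖) : closedBall x r ⊆ ({q}ᶜ : Set (E n)) := fun y hy => by
  simp only [mem_compl_iff, mem_singleton_iff]
  rintro rfl
  rw [mem_closedBall, dist_eq_norm, norm_sub_rev] at hy
  linarith

theorem hta_E_intOn {κ : ℝ} {q : E n} {U : E n → ℝ} (h : HtAC n κ q U) {x : E n} {r : ℝ} (hq : r < ‖x - q‖) :
    IntegrableOn (htE κ q U) (ball x r) :=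
  (((htE_contOn h).mono (hta_closedBall_sub hq)).integrableOn_compact (isCompact_closedBall x r)).mono_set
    ball_subset_closedBall

theorem hta_D_intOn {κ : ℝ} {q : E n} {U : E n → ℝ} (h : HtAC n κ q U) {x : E n} {r : ℝ} (hq : r < ‖x - q‖) :
    IntegrableOn (htD n κ q U) (ball x r) :=
  (((htD_contOn h).mono (hta_closedBall_sub hq)).integrableOn_compact (isCompact_closedBall x r)).mono_set
    ball_subset_closedBall

theorem hta_pow_div {r : ℝ} (hr : 0 < r) (hn : 3 ≤ n) : r ^ n / r ^ 2 = r ^ (n - 2) := by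
  have : n = (n - 2) + 2 := by omega
  rw [div_eq_iff (by positivity)]
  conv_lhs => rw [this]
  rw [pow_add]

/-- AC6a: clearing out (one Caccioppoli step); `1/2` instead of `3/4` is enough. -/
theorem hta_clear' (hn : 3 ≤ n) : ∃ C : ℝ, 0 < C ∧ ∀ (κ : ℝ) (q : E n) (U : E n → ℝ), HtAC n κ q U → ∀ (x : E n) (r : ℝ), 0 < r →
    2 * r ≤ ‖x - q‖ → (∀ y ∈ ball x r, 1 / 2 ≤ |U y|) →
      ∫ y in ball x (r / 2), htD n κ q U y ≤ C * htEps κ q x * r ^ (n - 2) := by
  obtain ⟨C, hC0, hC⟩ := ht_wells_ball n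
  have hc := ht_wells_acC_pos
  refine ⟨2 / acC * C * (3 / 2) + 1, by positivity, fun κ q U h x r hr hq hU => ?_⟩
  have hqb : q ∉ ball x r := by
    rw [mem_ball, dist_eq_norm, norm_sub_rev]
    linarith
  have h1 := hC κ q U h x r hr hqb hU
  rw [mul_div_assoc, hta_pow_div hr hn] at h1
  have hlt : r / 2 < ‖x - q‖ := by linarith
  have h2 : ∫ y in ball x (r / 2), htD n κ q U y ≤ ∫ y in ball x (r / 2), 2 / acC * htE κ q U y :=
    setIntegral_mono (hta_D_intOn h hlt) ((hta_E_intOn h hlt).const_mul _)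
      fun y => (ht_wells_D_bounds hn h.pos q U y).2
  rw [integral_const_mul] at h2
  have h3 : κ * (‖x - q‖ + r) ≤ 3 / 2 * htEps κ q x := by
    unfold htEps
    nlinarith [h.pos]
  have hp : 0 ≤ htEps κ q x := htEps_nonneg h.pos q x
  have hr2 : 0 ≤ r ^ (n - 2) := by positivity
  calc ∫ y in ball x (r / 2), htD n κ q U y ≤ 2 / acC * (C * (κ * (‖x - q‖ + r)) * r ^ (n - 2)) :=
        h2.trans (mul_le_mul_of_nonneg_left h1 (by positivity))
    _ ≤ 2 / acC * (C * (3 / 2 * htEps κ q x) * r ^ (n - 2)) := by gcongr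
    _ ≤ (2 / acC * C * (3 / 2) + 1) * htEps κ q x * r ^ (n - 2) := by
        have : 0 ≤ htEps κ q x * r ^ (n - 2) := mul_nonneg hp hr2
        nlinarith

theorem hta_clear (hn : 3 ≤ n) : ∃ C : ℝ, 0 < C ∧ ∀ (κ : ℝ) (q : E n) (U : E n → ℝ), HtAC n κ q U → ∀ (x : E n) (r : ℝ), 0 < r →
    2 * r ≤ ‖x - q‖ → (∀ y ∈ ball x r, 3 / 4 ≤ |U y|) →
      ∫ y in ball x (r / 2), htD n κ q U y ≤ C * htEps κ q x * r ^ (n - 2) := by
  obtain ⟨C, hC0, hC⟩ := hta_clear' hn
  exact ⟨C, hC0, fun κ q U h x r hr hq hU => hC κ q U h x r hr hq fun y hy => le_trans (by norm_num) (hU y hy)⟩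

/-- the Dirichlet integral of a scaled cut-off, weighted with `ε̂`. -/
theorem hta_cut_int {κ : ℝ} (hκ : 0 < κ) (q x : E n) {r M : ℝ} (hr : 0 < r) {ζ : E n → ℝ} (z1 : ContDiff ℝ 1 ζ)
    (z2 : HasCompactSupport ζ) (z3 : tsupport ζ ⊆ ball x r) (z6 : ∀ y, ‖fderiv ℝ ζ y‖ ≤ M / r) :
    ∫ y, htEps κ q y * ‖fderiv ℝ ζ y‖ ^ 2 ≤ (κ * (‖x - q‖ + r)) * (M / r) ^ 2 * (gmtOm n * r ^ n) := by
  have hv : (volume (ball x r)).toReal = gmtOm n * r ^ n := by
    have := gmtVolB_univ x hr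
    unfold gmtVolB at this
    rwa [univ_inter] at this
  have e1 : ∫ y, htEps κ q y * ‖fderiv ℝ ζ y‖ ^ 2 = ∫ y in ball x r, htEps κ q y * ‖fderiv ℝ ζ y‖ ^ 2 := by
    refine (setIntegral_eq_integral_of_forall_compl_eq_zero fun y hy => ?_).symm
    have : fderiv ℝ ζ y = 0 := fderiv_of_notMem_tsupport (𝕜 := ℝ) fun h' => hy (z3 h')
    simp [this]
  rw [e1]
  have e2 : ∫ _y in ball x r, (κ * (‖x - q‖ + r)) * (M / r) ^ 2
      = (κ * (‖x - q‖ + r)) * (M / r) ^ 2 * (gmtOm n * r ^ n) := by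
    rw [setIntegral_const, smul_eq_mul, Measure.real, hv]
    ring
  rw [← e2]
  refine setIntegral_mono_on ?_ (integrableOn_const measure_ball_lt_top.ne) measurableSet_ball fun y hy => ?_
  · have hcont : Continuous fun y => htEps κ q y * ‖fderiv ℝ ζ y‖ ^ 2 :=
      (htEps_cont κ q).mul ((z1.continuous_fderiv one_ne_zero).norm.pow 2)
    refine (hcont.integrable_of_hasCompactSupport (z2.mono' fun y hy => ?_)).integrableOn
    by_contra hy'
    apply hy
    have : fderiv ℝ ζ y = 0 := fderiv_of_notMem_tsupport (𝕜 := ℝ) hy'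
    simp [this]
  · have h1 : htEps κ q y ≤ κ * (‖x - q‖ + r) := by
      unfold htEps
      refine mul_le_mul_of_nonneg_left ?_ hκ.le
      rw [mem_ball, dist_eq_norm] at hy
      calc ‖y - q‖ = ‖(x - q) + (y - x)‖ := by congr 1; abel
        _ ≤ ‖x - q‖ + ‖y - x‖ := norm_add_le _ _
        _ ≤ ‖x - q‖ + r := by linarith
    have h2 : ‖fderiv ℝ ζ y‖ ^ 2 ≤ (M / r) ^ 2 := pow_le_pow_left₀ (norm_nonneg _) (z6 y) 2
    exact mul_le_mul h1 h2 (sq_nonneg _) ((htEps_nonneg hκ q y).trans h1)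

/-- AC6b: small energy near the wells. -/
theorem hta_wells (hn : 3 ≤ n) : ∃ C : ℝ, 0 < C ∧ ∀ (κ : ℝ) (q : E n) (U : E n → ℝ), HtAC n κ q U → ∀ (x : E n) (r b : ℝ), 0 < r →
    4 * r ≤ ‖x - q‖ → 0 < b → b ≤ 1 / 4 →
      ∫ y in ball x r ∩ {y | 1 - b ≤ |U y|}, htD n κ q U y ≤
        C * b * ((∫ y in ball x (2 * r), htD n κ q U y) + htEps κ q x * r ^ (n - 2)) := by
  obtain ⟨M, hM0, hM⟩ := ht_wells_cut n
  have hc := ht_wells_acC_pos
  have hom := gmtOm_nonneg n
  set K : ℝ := 3 / 2 * M ^ 2 * gmtOm n * 2 ^ n / 4 with hK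
  have hK0 : 0 ≤ K := by positivity
  refine ⟨72 + 20 / acC * K + 1, by positivity, fun κ q U h x r b hr hq hb0 hb1 => ?_⟩
  have h2r : 0 < 2 * r := by linarith
  obtain ⟨ζ, z1, z2, z3, z4, z5, z6⟩ := hM x (2 * r) h2r
  have hlt : 2 * r < ‖x - q‖ := by linarith
  have hqt : q ∉ tsupport ζ := fun h' => by
    have := z3 h'
    rw [mem_ball, dist_eq_norm, norm_sub_rev] at this
    linarith
  have hnear := ht_wells_near' h z1 z2 hqt hb0 hb1
  set S : Set (E n) := {y | 1 - b ≤ |U y|} with hS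
  have hSm : MeasurableSet S := ht_wells_measU h _
  have i1 : Integrable fun y => ζ y ^ 2 * htE κ q U y := ht_wells_int z1.continuous z2 hqt (htE_contOn h)
  have hE0 : ∀ y, 0 ≤ ζ y ^ 2 * htE κ q U y := fun y => mul_nonneg (sq_nonneg _) (htE_nonneg h.pos q U y)
  -- left side
  have l1 : ∫ y in ball x r ∩ S, htD n κ q U y ≤ 2 / acC * ∫ y in S, ζ y ^ 2 * htE κ q U y := by
    have a1 : ∫ y in ball x r ∩ S, htD n κ q U y ≤ ∫ y in ball x r ∩ S, 2 / acC * (ζ y ^ 2 * htE κ q U y) := by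
      refine setIntegral_mono_on ((hta_D_intOn h (by linarith : r < ‖x - q‖)).mono_set inter_subset_left)
        (i1.const_mul _).integrableOn (measurableSet_ball.inter hSm) fun y hy => ?_
      have : ζ y = 1 := z5 y (by simpa using hy.1)
      rw [this]
      simpa using (ht_wells_D_bounds hn h.pos q U y).2
    rw [integral_const_mul] at a1
    refine a1.trans (mul_le_mul_of_nonneg_left ?_ (by positivity))
    exact setIntegral_mono_set i1.integrableOn (Eventually.of_forall hE0) (LE.le.eventuallyLE inter_subset_right)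
  -- the energy on the right
  have l2 : ∫ y, ζ y ^ 2 * htE κ q U y ≤ acC * ∫ y in ball x (2 * r), htD n κ q U y := by
    have a1 : ∫ y, ζ y ^ 2 * htE κ q U y = ∫ y in ball x (2 * r), ζ y ^ 2 * htE κ q U y := by
      refine (setIntegral_eq_integral_of_forall_compl_eq_zero fun y hy => ?_).symm
      rw [image_eq_zero_of_notMem_tsupport fun h' => hy (z3 h')]
      simp
    rw [a1, ← integral_const_mul]
    refine setIntegral_mono i1.integrableOn ((hta_D_intOn h hlt).const_mul _) fun y => ?_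
    have b1 : ζ y ^ 2 ≤ 1 := by
      have := z4 y
      nlinarith [this.1, this.2]
    calc ζ y ^ 2 * htE κ q U y ≤ 1 * htE κ q U y := mul_le_mul_of_nonneg_right b1 (htE_nonneg h.pos q U y)
      _ ≤ acC * htD n κ q U y := by rw [one_mul]; exact hta_E_le_D hn h y
  -- the cut-off term
  have l3 : ∫ y, htEps κ q y * ‖fderiv ℝ ζ y‖ ^ 2 ≤ K * (htEps κ q x * r ^ (n - 2)) := by
    refine (hta_cut_int h.pos q x h2r z1 z2 z3 z6).trans ?_
    have a1 : κ * (‖x - q‖ + 2 * r) ≤ 3 / 2 * htEps κ q x := by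
      unfold htEps
      nlinarith [h.pos]
    have a2 : (M / (2 * r)) ^ 2 * (gmtOm n * (2 * r) ^ n) = M ^ 2 * gmtOm n * 2 ^ n / 4 * r ^ (n - 2) := by
      rw [← hta_pow_div hr hn, mul_pow]
      field_simp
      ring
    rw [mul_assoc, a2]
    have a3 : 0 ≤ M ^ 2 * gmtOm n * 2 ^ n / 4 * r ^ (n - 2) := by positivity
    calc κ * (‖x - q‖ + 2 * r) * (M ^ 2 * gmtOm n * 2 ^ n / 4 * r ^ (n - 2))
        ≤ 3 / 2 * htEps κ q x * (M ^ 2 * gmtOm n * 2 ^ n / 4 * r ^ (n - 2)) := mul_le_mul_of_nonneg_right a1 a3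
      _ = K * (htEps κ q x * r ^ (n - 2)) := by rw [hK]; ring
  set I := ∫ y in ball x (2 * r), htD n κ q U y with hI
  have hI0 : 0 ≤ I := setIntegral_nonneg measurableSet_ball fun y _ => hta_D_nonneg hn h y
  set T := htEps κ q x * r ^ (n - 2) with hT
  have hT0 : 0 ≤ T := mul_nonneg (htEps_nonneg h.pos q x) (by positivity)
  have m1 : ∫ y in S, ζ y ^ 2 * htE κ q U y ≤ b * (36 * (acC * I) + 10 * (K * T)) := by
    refine hnear.trans (mul_le_mul_of_nonneg_left ?_ hb0.le)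
    linarith
  calc ∫ y in ball x r ∩ S, htD n κ q U y ≤ 2 / acC * (b * (36 * (acC * I) + 10 * (K * T))) :=
        l1.trans (mul_le_mul_of_nonneg_left m1 (by positivity))
    _ = b * (72 * I + 20 / acC * K * T) := by
        field_simp
        ring
    _ ≤ (72 + 20 / acC * K + 1) * b * (I + T) := by
        have c1 : 0 ≤ 20 / acC * K := by positivity
        have c2 : 72 * I + 20 / acC * K * T ≤ (72 + 20 / acC * K + 1) * (I + T) := by nlinarith
        calc b * (72 * I + 20 / acC * K * T) ≤ b * ((72 + 20 / acC * K + 1) * (I + T)) :=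
              mul_le_mul_of_nonneg_left c2 hb0.le
          _ = _ := by ring

end Claimed.Agent.R323
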