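import Claimed.Agent.R323.Ht.Sp
import Claimed.Agent.R323.Ht.AcPt
import Claimed.Agent.R323.Ht.AcPair
import Claimed.Agent.R323.Ht.AcTr
import Claimed.Agent.R323.Ht.AcRad
import Claimed.Agent.R323.Ht.AcBall
import Claimed.Agent.R323.Ht.AcHess
import Claimed.Agent.R323.Ht.AcWell

/-!
# Row 323, block C, sub-block AC: FACTS AT THE `ε`-LEVEL.  CONTRACT.   (sub-architect: helper137; WELLS: helper101; contracts: helper39)
Plan: `origin/helper39:notes/r323/C39.md` section 2.   `k = n - 1`, `ε̂ = htEps κ q x = κ|x-q|`, `x̂ = htDir q x`.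

SPLIT (helper106, 20:10Z): the statements were moved VERBATIM into `Ht/AcPt` (pointwise), `Ht/AcPair` (`ht_pair`), `Ht/AcTr` (covariance), `Ht/AcRad` (homogeneity, link mass), `Ht/AcBall` (`ht_ball_le`, `ht_lower`), `Ht/AcHess` (`ht_hess`); this file imports them and keeps `ht_clear`, `ht_wells` (helper101).

* `ht_xi_nonneg` (AC1; vertex 0: `Ht/Modica.lean` `ht_modica`, helper106, PROVED; translate): `P = ε̂²|DU|²/2 - W(U)` is `0`-homogeneous about `q`, so it attains its max on the unit sphere about `q`, at a LOCAL max `y` of `P` on the open set `{q}ᶜ`.   If `P(y) > 0` then `DU(y) ≠ 0`.  With `x·DU = 0`, `D²U x = -DU` (`q = 0`):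
  `ΔP = κ²(n-4)|DU|² + κ²r²|D²U|² - W'²/(κ²r²)`;  `DP(y) = 0` gives `D²U(ν,ν) = W'/(κ²r²)`, `ν = DU/|DU|`;  `|D²U|² ≥ 2|DU|²/r² + D²U(ν,ν)²`  (entries `(x̂,ν)`, `(ν,x̂)`, `(ν,ν)`).  So `ΔP(y) ≥ κ²(n-2)|DU|² > 0`, against `Lib/Ell.ell_d2_nonpos_of_isLocalMax`.
* `ht_pair` (AC2): on `{q}ᶜ`: `div(e I - ε̂ DU⊗DU) = -ξ x̂/|x-q|`, `div(ξ x̂⊗x̂) = (n-2) ξ x̂/|x-q|` (`ξ` is `(-1)`-homogeneous).  Across `q`: cut-off `1 - χ(|x-q|/δ)`, `|M| ≤ d ≤ C/(κ|x-q|)`, error `≤ C δ^{n-2}/κ → 0`.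
* `ht_ball_le` (AC3): `ht_sp_mono` + `ball x ρ ⊆ ball q (ρ + |x-q|)` + scaling `∫_{ball q t} d = t^k ∫_{ball q 1} d`, `ρ → ∞`.
* `ht_hess` (AC4): `Ũ(y) = U(x + ε̂(x) y)` solves `ΔŨ = W'(Ũ)/|x̂ + κ y|²` on `B_1`, `|Ũ| ≤ 1`, `|DŨ| ≤ 2`: `Lib/Ell.ell_cc_nd`.
* `ht_lower` (AC5): `|U| ≤ 1 - b/2` on `B_{b ε̂/4}(x)`; there `d ≥ W(U)/(ε̂ acC)`; then `ht_sp_mono`.
* `ht_clear`, `ht_wells` (AC6): helper101, `R323/Ht/Wells.lean` (barrier-free; test functions `η² g(U)`).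
-/

set_option autoImplicit false
open scoped ContDiff ENNReal NNReal RealInnerProductSpace Topology
open MeasureTheory Metric Set Filter

namespace Claimed.Agent.R323

open Claimed.Agent.Gmt

variable {n : ℕ}

/-- AC6a: clearing out (one Caccioppoli step). -/
theorem ht_clear (hn : 3 ≤ n) : ∃ C : ℝ, 0 < C ∧ ∀ (κ : ℝ) (q : E n) (U : E n → ℝ), HtAC n κ q U → ∀ (x : E n) (r : ℝ), 0 < r →
    2 * r ≤ ‖x - q‖ → (∀ y ∈ ball x r, 3 / 4 ≤ |U y|) →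
      ∫ y in ball x (r / 2), htD n κ q U y ≤ C * htEps κ q x * r ^ (n - 2) :=
  hta_clear hn

/-- AC6b: small energy near the wells.   (STATEMENT REPAIRED by helper101: parentheses around the integral; `∫ y in s, f y + c` parses as `∫ y in s, (f y + c)`,
which made the old statement scale-breaking and false.) -/
theorem ht_wells (hn : 3 ≤ n) : ∃ C : ℝ, 0 < C ∧ ∀ (κ : ℝ) (q : E n) (U : E n → ℝ), HtAC n κ q U → ∀ (x : E n) (r b : ℝ), 0 < r →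
    4 * r ≤ ‖x - q‖ → 0 < b → b ≤ 1 / 4 →
      ∫ y in ball x r ∩ {y | 1 - b ≤ |U y|}, htD n κ q U y ≤
        C * b * ((∫ y in ball x (2 * r), htD n κ q U y) + htEps κ q x * r ^ (n - 2)) :=
  hta_wells hn

end Claimed.Agent.R323
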