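import Claimed.Agent.Lib.Gmt.BvBasicA
import Claimed.Agent.Lib.Gmt.FlDefs

/-!
# Row 323, block C (HT-lite): energy near the wells and clearing out, WITHOUT barrier, covering or decay.   (helper101)

Setting `HtWell Ω ε a U η A`: `Ω ⊆ E n` an arbitrary domain, `U` of class `C²` on `Ω`, `|U| ≤ 1` on `Ω`, `a ≥ 0` continuous on `Ω`,
`ε² ΔU = a W'(U)` on `Ω` with `W(s) = (1-s²)²/4`, `W'(s) = s³ - s`; `η ∈ C¹_c(Ω)`; `A ≥ 0` with `|∇η·∇U| ≤ A |∇U|` (standard choice `A = |∇η|`: `ht_well_std`).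
`D = ∫ η² |∇U|²`, `G = ∫ A²`.

* `ht_well_weak`  : `∫ (η² g(U) ΔU + η² g'(U) |∇U|² + 2 η g(U) ∇η·∇U) = 0` for `g ∈ C¹(ℝ)`.
* `ht_well_T1`    : `∫ η² a U²(1-U²) ≤ ε² (2 D + G)`.
* `ht_well_grad`  : `∫_{U ≥ 1-b} η² |∇U|² ≤ b (10 D + 6 G)`  (`0 < b ≤ 1/4`).
* `ht_well_pot`   : `∫_{U ≥ 1-b} η² a W(U) ≤ 2 b ε² (2 D + G)`.
* `ht_well_main`  : `∫_{|U| ≥ 1-b} η² (ε|∇U|²/2 + a W(U)/ε) ≤ 2 b ε (9 D + 5 G)`.
* `ht_well_clear` : if `|U| ≥ 1/2` on `Ω` then `∫ η² (ε|∇U|²/2 + a W(U)/ε) ≤ 72 ε G`.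
The versions for the class `HtAC` (weights `ε̂ = κ|x-q|`) are in `Ht/WellsAC.lean`.
-/

set_option autoImplicit false
open scoped ContDiff ENNReal RealInnerProductSpace Topology
open MeasureTheory Metric Set Filter

namespace Claimed.Agent.R323

open Claimed.Agent.Gmt

variable {n : ℕ}

/-- cut-off times a function which is continuous on `Ω` is continuous. -/
theorem ht_well_cont {Ω : Set (E n)} (hΩ : IsOpen Ω) {η f : E n → ℝ} (hη : Continuous η)
    (hs : tsupport η ⊆ Ω) (hf : ContinuousOn f Ω) : Continuous fun x => η x * f x := by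
  rw [continuous_iff_continuousAt]
  intro x
  by_cases hx : x ∈ Ω
  · exact hη.continuousAt.mul (hf.continuousAt (hΩ.mem_nhds hx))
  · have hx' : x ∉ tsupport η := fun h => hx (hs h)
    have h0 : (fun y => η y * f y) =ᶠ[𝓝 x] fun _ => (0 : ℝ) := by
      filter_upwards [(isClosed_tsupport η).isOpen_compl.mem_nhds hx'] with y hy
      rw [image_eq_zero_of_notMem_tsupport hy, zero_mul]
    exact continuousAt_const.congr h0.symm

/-- and integrable. -/
theorem ht_well_int {Ω : Set (E n)} (hΩ : IsOpen Ω) {η f : E n → ℝ} (hη : Continuous η)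
    (hc : HasCompactSupport η) (hs : tsupport η ⊆ Ω) (hf : ContinuousOn f Ω) :
    Integrable fun x => η x * f x :=
  (ht_well_cont hΩ hη hs hf).integrable_of_hasCompactSupport hc.mul_right

theorem ht_well_gradC {Ω : Set (E n)} (hΩ : IsOpen Ω) {U : E n → ℝ} (hU : ContDiffOn ℝ 2 U Ω) :
    ContDiffOn ℝ 1 (gradient U) Ω := by
  have h1 : ContDiffOn ℝ 1 (fderiv ℝ U) Ω := hU.fderiv_of_isOpen hΩ (by norm_num)
  exact ((InnerProductSpace.toDual ℝ (E n)).symm.toContinuousLinearEquiv.contDiff).comp_contDiffOn h1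

theorem ht_well_lapC {Ω : Set (E n)} (hΩ : IsOpen Ω) {U : E n → ℝ} (hU : ContDiffOn ℝ 2 U Ω) :
    ContinuousOn (flLap U) Ω := by
  have h1 : ContinuousOn (fderiv ℝ (gradient U)) Ω :=
    (ht_well_gradC hΩ hU).continuousOn_fderiv_of_isOpen hΩ le_rfl
  unfold flLap gmtDiv
  refine continuousOn_finsetSum _ fun i _ => ?_
  have h2 : ContinuousOn (fun x => fderiv ℝ (gradient U) x (eb i)) Ω := h1.clm_apply continuousOn_const
  exact (EuclideanSpace.proj i : E n →L[ℝ] ℝ).continuous.comp_continuousOn h2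


theorem ht_well_inner_grad (f : E n → ℝ) (x v : E n) : ⟪gradient f x, v⟫ = fderiv ℝ f x v := by
  unfold gradient
  rw [InnerProductSpace.toDual_symm_apply]

/-- the test field `η² g(U) ∇U`. -/
theorem ht_well_field {Ω : Set (E n)} (hΩ : IsOpen Ω) {U η : E n → ℝ} {g g' : ℝ → ℝ}
    (hU : ContDiffOn ℝ 2 U Ω) (hη : ContDiff ℝ 1 η) (hc : HasCompactSupport η) (hs : tsupport η ⊆ Ω)
    (hg : ∀ s, HasDerivAt g (g' s) s) (hg' : Continuous g') :
    GmtTest Ω (fun x => ((η x) ^ 2 * g (U x)) • gradient U x) := by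
  have hgC : ContDiff ℝ 1 g := by
    rw [contDiff_one_iff_deriv]
    refine ⟨fun s => (hg s).differentiableAt, ?_⟩
    have : deriv g = g' := funext fun s => (hg s).deriv
    rw [this]
    exact hg'
  have hsupp : Function.support (fun x => ((η x) ^ 2 * g (U x)) • gradient U x) ⊆ Function.support η := by
    intro x hx
    by_contra h
    apply hx
    have : η x = 0 := by simpa using h
    simp [this]
  refine ⟨?_, hc.mono hsupp, (closure_mono hsupp).trans hs⟩
  rw [contDiff_iff_contDiffAt]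
  intro x
  by_cases hx : x ∈ Ω
  · have hU1 : ContDiffAt ℝ 1 U x := (hU.contDiffAt (hΩ.mem_nhds hx)).of_le (by norm_num)
    have hG1 : ContDiffAt ℝ 1 (gradient U) x := (ht_well_gradC hΩ hU).contDiffAt (hΩ.mem_nhds hx)
    exact ((hη.contDiffAt.pow 2).mul (hgC.contDiffAt.comp x hU1)).smul hG1
  · have hx' : x ∉ tsupport η := fun h => hx (hs h)
    have h0 : (fun y => ((η y) ^ 2 * g (U y)) • gradient U y) =ᶠ[𝓝 x] fun _ => (0 : E n) := by
      filter_upwards [(isClosed_tsupport η).isOpen_compl.mem_nhds hx'] with y hy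
      rw [image_eq_zero_of_notMem_tsupport hy]
      simp
    exact contDiffAt_const.congr_of_eventuallyEq h0

/-- its divergence. -/
theorem ht_well_div {Ω : Set (E n)} (hΩ : IsOpen Ω) {U η : E n → ℝ} {g g' : ℝ → ℝ}
    (hU : ContDiffOn ℝ 2 U Ω) (hη : ContDiff ℝ 1 η) (hs : tsupport η ⊆ Ω)
    (hg : ∀ s, HasDerivAt g (g' s) s) (x : E n) :
    gmtDiv (fun x => ((η x) ^ 2 * g (U x)) • gradient U x) x
      = (η x) ^ 2 * g (U x) * flLap U x + (η x) ^ 2 * g' (U x) * ‖gradient U x‖ ^ 2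
        + 2 * η x * g (U x) * ⟪gradient η x, gradient U x⟫ := by
  by_cases hx : x ∈ Ω
  · have hU1 : HasFDerivAt U (fderiv ℝ U x) x :=
      ((hU.contDiffAt (hΩ.mem_nhds hx)).differentiableAt (by norm_num)).hasFDerivAt
    have hη1 : HasFDerivAt η (fderiv ℝ η x) x := (hη.differentiable (by norm_num) x).hasFDerivAt
    have hG1 : DifferentiableAt ℝ (gradient U) x :=
      ((ht_well_gradC hΩ hU).contDiffAt (hΩ.mem_nhds hx)).differentiableAt (by norm_num)
    have hgU : HasFDerivAt (fun y => g (U y)) (g' (U x) • fderiv ℝ U x) x :=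
      (hg (U x)).comp_hasFDerivAt x hU1
    have hφ : HasFDerivAt (fun y => (η y) ^ 2 * g (U y))
        (η x ^ 2 • g' (U x) • fderiv ℝ U x + g (U x) • (2 • η x ^ (2 - 1)) • fderiv ℝ η x) x :=
      (hη1.pow 2).mul hgU
    rw [gmtDiv_smul hφ.differentiableAt hG1, hφ.fderiv]
    simp only [add_apply, smul_apply, smul_eq_mul]
    rw [← ht_well_inner_grad U x, ← ht_well_inner_grad η x, real_inner_self_eq_norm_sq]
    unfold flLap
    simp
    ring
  · have hx' : x ∉ tsupport η := fun h => hx (hs h)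
    have h0 : (fun y => ((η y) ^ 2 * g (U y)) • gradient U y) =ᶠ[𝓝 x] fun _ => (0 : E n) := by
      filter_upwards [(isClosed_tsupport η).isOpen_compl.mem_nhds hx'] with y hy
      rw [image_eq_zero_of_notMem_tsupport hy]
      simp
    have h1 : fderiv ℝ (fun y => ((η y) ^ 2 * g (U y)) • gradient U y) x = 0 := by
      rw [h0.fderiv_eq]
      simp
    unfold gmtDiv
    rw [h1, image_eq_zero_of_notMem_tsupport hx']
    simp

/-- **weak identity** with the test function `η² g(U)`. -/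
theorem ht_well_weak {Ω : Set (E n)} (hΩ : IsOpen Ω) {U η : E n → ℝ} {g g' : ℝ → ℝ}
    (hU : ContDiffOn ℝ 2 U Ω) (hη : ContDiff ℝ 1 η) (hc : HasCompactSupport η) (hs : tsupport η ⊆ Ω)
    (hg : ∀ s, HasDerivAt g (g' s) s) (hg' : Continuous g') :
    ∫ x, ((η x) ^ 2 * g (U x) * flLap U x + (η x) ^ 2 * g' (U x) * ‖gradient U x‖ ^ 2
        + 2 * η x * g (U x) * ⟪gradient η x, gradient U x⟫) = 0 := by
  have h := integral_gmtDiv_eq_zero (ht_well_field hΩ hU hη hc hs hg hg')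
  rw [← h]
  exact integral_congr_ae (Eventually.of_forall fun x => (ht_well_div hΩ hU hη hs hg x).symm)


/-- the hypotheses (unbundled `AcLoc` + a cut-off). -/
structure HtWell (Ω : Set (E n)) (ε : ℝ) (a U η A : E n → ℝ) : Prop where
  op : IsOpen Ω
  U2 : ContDiffOn ℝ 2 U Ω
  bd : ∀ x ∈ Ω, |U x| ≤ 1
  aC : ContinuousOn a Ω
  a0 : ∀ x ∈ Ω, 0 ≤ a x
  eq : ∀ x ∈ Ω, ε ^ 2 * flLap U x = a x * (U x ^ 3 - U x)
  η1 : ContDiff ℝ 1 η
  ηc : HasCompactSupport η
  ηs : tsupport η ⊆ Ω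
  A0 : ∀ x, 0 ≤ A x
  intG : Integrable fun x => A x ^ 2
  cs : ∀ x ∈ Ω, |⟪gradient η x, gradient U x⟫| ≤ A x * ‖gradient U x‖

namespace HtWell

variable {Ω : Set (E n)} {ε : ℝ} {a U η A : E n → ℝ}

theorem eta_zero (h : HtWell Ω ε a U η A) {x : E n} (hx : x ∉ Ω) : η x = 0 :=
  image_eq_zero_of_notMem_tsupport fun h' => hx (h.ηs h')

theorem int_sq (h : HtWell Ω ε a U η A) {f : E n → ℝ} (hf : ContinuousOn f Ω) :
    Integrable fun x => (η x) ^ 2 * f x := by
  have h1 := ht_well_int h.op h.η1.continuous h.ηc h.ηs (h.η1.continuous.continuousOn.mul hf)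
  refine h1.congr (Eventually.of_forall fun x => ?_)
  simp only [Pi.mul_apply]
  ring

theorem int_one (h : HtWell Ω ε a U η A) {f : E n → ℝ} (hf : ContinuousOn f Ω) :
    Integrable fun x => η x * f x :=
  ht_well_int h.op h.η1.continuous h.ηc h.ηs hf

theorem UC (h : HtWell Ω ε a U η A) : ContinuousOn U Ω := h.U2.continuousOn

theorem gC (h : HtWell Ω ε a U η A) : ContinuousOn (gradient U) Ω := (ht_well_gradC h.op h.U2).continuousOn

theorem gηC (h : HtWell Ω ε a U η A) : Continuous (gradient η) := by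
  have h1 : Continuous (fderiv ℝ η) := h.η1.continuous_fderiv one_ne_zero
  exact (InnerProductSpace.toDual ℝ (E n)).symm.continuous.comp h1

theorem intD (h : HtWell Ω ε a U η A) : Integrable fun x => (η x) ^ 2 * ‖gradient U x‖ ^ 2 :=
  h.int_sq (h.gC.norm.pow 2)

/-- integrability of the integrand of the weak identity. -/
theorem intF (h : HtWell Ω ε a U η A) {g g' : ℝ → ℝ} (hg : Continuous g) (hg' : Continuous g') :
    Integrable fun x => ((η x) ^ 2 * g (U x) * flLap U x + (η x) ^ 2 * g' (U x) * ‖gradient U x‖ ^ 2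
        + 2 * η x * g (U x) * ⟪gradient η x, gradient U x⟫) := by
  have h1 := h.int_sq ((hg.comp_continuousOn h.UC).mul (ht_well_lapC h.op h.U2))
  have h2 := h.int_sq ((hg'.comp_continuousOn h.UC).mul (h.gC.norm.pow 2))
  have h3 := h.int_one ((continuousOn_const (c := (2 : ℝ))).mul ((hg.comp_continuousOn h.UC).mul
    (h.gηC.continuousOn.inner h.gC)))
  refine ((h1.add h2).add h3).congr (Eventually.of_forall fun x => ?_)
  simp only [Pi.add_apply, Pi.mul_apply, Pi.pow_apply, Function.comp_apply]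
  ring

theorem neg (h : HtWell Ω ε a U η A) : HtWell Ω ε a (fun x => - U x) η A where
  op := h.op
  U2 := h.U2.neg
  bd := fun x hx => by rw [abs_neg]; exact h.bd x hx
  aC := h.aC
  a0 := h.a0
  eq := fun x hx => by
    have h1 : gradient (fun x => - U x) = fun x => - gradient U x := by
      funext y
      unfold gradient
      rw [fderiv_fun_neg, map_neg]
    have h2 : flLap (fun x => - U x) x = - flLap U x := by
      unfold flLap
      rw [h1, gmtDiv_neg]
    rw [h2]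
    have := h.eq x hx
    linear_combination -this
  η1 := h.η1
  ηc := h.ηc
  ηs := h.ηs
  A0 := h.A0
  intG := h.intG
  cs := fun x hx => by
    have h1 : gradient (fun x => - U x) x = - gradient U x := by
      unfold gradient
      rw [fderiv_fun_neg, map_neg]
    rw [h1, inner_neg_right, abs_neg, norm_neg]
    exact h.cs x hx

end HtWell

/-- **T1.**  `∫ η² a U²(1-U²) ≤ ε² (2 D + G)`. -/
theorem ht_well_T1 {Ω : Set (E n)} {ε : ℝ} {a U η A : E n → ℝ} (h : HtWell Ω ε a U η A) :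
    ∫ x, (η x) ^ 2 * (a x * (U x ^ 2 * (1 - U x ^ 2)))
      ≤ ε ^ 2 * (2 * (∫ x, (η x) ^ 2 * ‖gradient U x‖ ^ 2) + ∫ x, A x ^ 2) := by
  have hw := ht_well_weak (g := fun s => s) (g' := fun _ => 1) h.op h.U2 h.η1 h.ηc h.ηs
    (fun s => hasDerivAt_id s) continuous_const
  have hF := h.intF (g := fun s => s) (g' := fun _ => 1) continuous_id continuous_const
  set F : E n → ℝ := fun x => ((η x) ^ 2 * U x * flLap U x + (η x) ^ 2 * 1 * ‖gradient U x‖ ^ 2
        + 2 * η x * U x * ⟪gradient η x, gradient U x⟫) with hFdef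
  have hA : Integrable fun x => (η x) ^ 2 * (a x * (U x ^ 2 * (1 - U x ^ 2))) :=
    h.int_sq (h.aC.mul ((h.UC.pow 2).mul (continuousOn_const.sub (h.UC.pow 2))))
  have i1 : Integrable fun x => 2 * ((η x) ^ 2 * ‖gradient U x‖ ^ 2) := h.intD.const_mul 2
  have i2 : Integrable fun x => 2 * ((η x) ^ 2 * ‖gradient U x‖ ^ 2) + A x ^ 2 := i1.add h.intG
  have i3 : Integrable fun x => ε ^ 2 * (2 * ((η x) ^ 2 * ‖gradient U x‖ ^ 2) + A x ^ 2) :=
    i2.const_mul _
  have i4 : Integrable fun x => ε ^ 2 * F x := hF.const_mul _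
  have hR : Integrable fun x => ε ^ 2 * (2 * ((η x) ^ 2 * ‖gradient U x‖ ^ 2) + A x ^ 2)
      - ε ^ 2 * F x := i3.sub i4
  have hpt : ∀ x, (η x) ^ 2 * (a x * (U x ^ 2 * (1 - U x ^ 2)))
      ≤ ε ^ 2 * (2 * ((η x) ^ 2 * ‖gradient U x‖ ^ 2) + A x ^ 2) - ε ^ 2 * F x := by
    intro x
    by_cases hx : x ∈ Ω
    · have he := h.eq x hx
      have hb := abs_le.1 (h.bd x hx)
      have hU2 : U x ^ 2 ≤ 1 := by nlinarith [hb.1, hb.2]
      have hcs : |⟪gradient η x, gradient U x⟫| ≤ A x * ‖gradient U x‖ := h.cs x hx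
      set p := ⟪gradient η x, gradient U x⟫
      set A := A x
      set B := ‖gradient U x‖
      have hA0 : 0 ≤ A := h.A0 x
      have hB0 : 0 ≤ B := norm_nonneg _
      have h1 : 2 * η x * U x * p ≤ (η x) ^ 2 * B ^ 2 + A ^ 2 := by
        have h2 : |η x * U x * p| ≤ |η x| * B * A := by
          rw [abs_mul, abs_mul]
          have : |U x| ≤ 1 := h.bd x hx
          calc |η x| * |U x| * |p| ≤ |η x| * 1 * (A * B) := by gcongr
            _ = |η x| * B * A := by ring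
        have h3 : η x * U x * p ≤ |η x| * B * A := (le_abs_self _).trans h2
        have h4 : (η x) ^ 2 = |η x| ^ 2 := (sq_abs _).symm
        rw [h4]
        nlinarith [sq_nonneg (|η x| * B - A)]
      have h5 : ε ^ 2 * F x = (η x) ^ 2 * U x * (a x * (U x ^ 3 - U x))
          + ε ^ 2 * ((η x) ^ 2 * B ^ 2 + 2 * η x * U x * p) := by
        rw [← he]
        simp only [hFdef]
        ring
      rw [h5]
      have hε : 0 ≤ ε ^ 2 := sq_nonneg _
      nlinarith [mul_le_mul_of_nonneg_left h1 hε]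
    · have h0 := h.eta_zero hx
      simp only [hFdef, h0]
      have : 0 ≤ ε ^ 2 * A x ^ 2 := by positivity
      simpa using this
  have := integral_mono hA hR hpt
  rw [integral_sub i3 i4, integral_const_mul, integral_const_mul, integral_add i1 h.intG,
    integral_const_mul, hw] at this
  simpa using this


/-- `s ↦ ((s-c)_+)²` is `C¹` with derivative `2 (s-c)_+`. -/
theorem ht_well_sqpos (c s : ℝ) : HasDerivAt (fun s => (max (s - c) 0) ^ 2) (2 * max (s - c) 0) s := by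
  rcases lt_trichotomy s c with h | h | h
  · have h0 : (fun s => (max (s - c) 0) ^ 2) =ᶠ[𝓝 s] fun _ => (0 : ℝ) := by
      filter_upwards [Iio_mem_nhds h] with t ht
      rw [max_eq_right (by linarith [mem_Iio.1 ht])]
      simp
    rw [max_eq_right (by linarith)]
    simpa using (hasDerivAt_const s (0 : ℝ)).congr_of_eventuallyEq h0
  · subst h
    rw [sub_self, max_self, mul_zero, hasDerivAt_iff_isLittleO]
    have h1 : (fun t => (max (t - s) 0) ^ 2 - (max (s - s) 0) ^ 2 - (t - s) • (0 : ℝ))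
        =O[𝓝 s] fun t => ‖t - s‖ ^ 2 := by
      refine Asymptotics.IsBigO.of_bound 1 (Eventually.of_forall fun t => ?_)
      simp only [sub_self, max_self, smul_zero, sub_zero, one_mul, Real.norm_eq_abs, abs_pow, abs_abs]
      have : |max (t - s) 0| ≤ |t - s| := by
        rcases le_total (t - s) 0 with h | h
        · rw [max_eq_right h]; simp
        · rw [max_eq_left h]
      simpa using pow_le_pow_left₀ (abs_nonneg _) this 2
    exact h1.trans_isLittleO (Asymptotics.isLittleO_pow_sub_sub s (m := 2) (by norm_num))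
  · have h0 : (fun s => (max (s - c) 0) ^ 2) =ᶠ[𝓝 s] fun s => (s - c) ^ 2 := by
      filter_upwards [Ioi_mem_nhds h] with t ht
      rw [max_eq_left (by linarith [mem_Ioi.1 ht])]
    rw [max_eq_left (by linarith)]
    have h1 : HasDerivAt (fun s => (s - c) ^ 2) (2 * (s - c)) s := by
      have h2 : HasDerivAt (fun s => (s - c) ^ 2) ((2 : ℕ) * (s - c) ^ (2 - 1) * 1) s :=
        ((hasDerivAt_id' s).sub_const c).fun_pow 2
      simpa using h2
    exact h1.congr_of_eventuallyEq h0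

theorem ht_well_meas {Ω : Set (E n)} (hΩ : IsOpen Ω) {U : E n → ℝ} (hU : ContinuousOn U Ω) (c : ℝ) :
    MeasurableSet {x | x ∈ Ω ∧ c ≤ U x} := by
  have h1 : IsOpen (Ω ∩ U ⁻¹' Iio c) := hU.isOpen_inter_preimage hΩ isOpen_Iio
  have h2 : {x | x ∈ Ω ∧ c ≤ U x} = Ω \ (Ω ∩ U ⁻¹' Iio c) := by
    ext x
    simp only [mem_ofPred_eq, Set.mem_sdiff, mem_inter_iff, mem_preimage, mem_Iio, not_and, not_lt]
    tauto
  rw [h2]
  exact hΩ.measurableSet.diff h1.measurableSet

/-- **T2.**  `∫_{U ≥ 1-b} η² |∇U|² ≤ b (10 D + 6 G)`. -/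
theorem ht_well_grad {Ω : Set (E n)} {ε : ℝ} {a U η A : E n → ℝ} (h : HtWell Ω ε a U η A) (hε : 0 < ε)
    {b : ℝ} (hb0 : 0 < b) (hb1 : b ≤ 1 / 4) :
    ∫ x in {x | x ∈ Ω ∧ 1 - b ≤ U x}, (η x) ^ 2 * ‖gradient U x‖ ^ 2
      ≤ b * (10 * (∫ x, (η x) ^ 2 * ‖gradient U x‖ ^ 2) + 6 * ∫ x, A x ^ 2) := by
  set c : ℝ := 1 - 2 * b with hc
  set g : ℝ → ℝ := fun s => (max (s - c) 0) ^ 2 with hg
  set g' : ℝ → ℝ := fun s => 2 * max (s - c) 0 with hg'
  have hgc : Continuous g := ((continuous_id.sub continuous_const).max continuous_const).pow 2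
  have hgc' : Continuous g' := continuous_const.mul ((continuous_id.sub continuous_const).max continuous_const)
  have hw := ht_well_weak (g := g) (g' := g') h.op h.U2 h.η1 h.ηc h.ηs (fun s => ht_well_sqpos c s) hgc'
  have hF := h.intF hgc hgc'
  set F : E n → ℝ := fun x => ((η x) ^ 2 * g (U x) * flLap U x + (η x) ^ 2 * g' (U x) * ‖gradient U x‖ ^ 2
        + 2 * η x * g (U x) * ⟪gradient η x, gradient U x⟫) with hFdef
  set S : Set (E n) := {x | x ∈ Ω ∧ 1 - b ≤ U x} with hS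
  have hSm : MeasurableSet S := ht_well_meas h.op h.UC _
  have hT1 := ht_well_T1 h
  have hA : Integrable fun x => (η x) ^ 2 * (a x * (U x ^ 2 * (1 - U x ^ 2))) :=
    h.int_sq (h.aC.mul ((h.UC.pow 2).mul (continuousOn_const.sub (h.UC.pow 2))))
  have iL : Integrable (S.indicator fun x => (η x) ^ 2 * ‖gradient U x‖ ^ 2) := h.intD.indicator hSm
  have iL' : Integrable fun x => 2 * b * ε ^ 2 * S.indicator (fun x => (η x) ^ 2 * ‖gradient U x‖ ^ 2) x :=
    iL.const_mul _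
  have i1 : Integrable fun x => ε ^ 2 * F x := hF.const_mul _
  have i2 : Integrable fun x => 8 * b ^ 2 * ((η x) ^ 2 * (a x * (U x ^ 2 * (1 - U x ^ 2)))) := hA.const_mul _
  have i3 : Integrable fun x => (η x) ^ 2 * ‖gradient U x‖ ^ 2 + A x ^ 2 := h.intD.add h.intG
  have i4 : Integrable fun x => 4 * b ^ 2 * ε ^ 2 * ((η x) ^ 2 * ‖gradient U x‖ ^ 2 + A x ^ 2) :=
    i3.const_mul _
  have i5 : Integrable fun x => ε ^ 2 * F x + 8 * b ^ 2 * ((η x) ^ 2 * (a x * (U x ^ 2 * (1 - U x ^ 2)))) :=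
    i1.add i2
  have hpt : ∀ x, 2 * b * ε ^ 2 * S.indicator (fun x => (η x) ^ 2 * ‖gradient U x‖ ^ 2) x
      ≤ ε ^ 2 * F x + 8 * b ^ 2 * ((η x) ^ 2 * (a x * (U x ^ 2 * (1 - U x ^ 2))))
        + 4 * b ^ 2 * ε ^ 2 * ((η x) ^ 2 * ‖gradient U x‖ ^ 2 + A x ^ 2) := by
    intro x
    by_cases hx : x ∈ Ω
    · have he := h.eq x hx
      have hb := abs_le.1 (h.bd x hx)
      have ha := h.a0 x hx
      have hcs : |⟪gradient η x, gradient U x⟫| ≤ A x * ‖gradient U x‖ := h.cs x hx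
      set p := ⟪gradient η x, gradient U x⟫
      set A := A x
      set B := ‖gradient U x‖
      set u := U x
      set t := η x
      have hA0 : 0 ≤ A := h.A0 x
      have hB0 : 0 ≤ B := norm_nonneg _
      have hε2 : 0 < ε ^ 2 := by positivity
      -- bounds for g
      have hg0 : 0 ≤ g u := by simp only [hg]; positivity
      have hg4 : g u ≤ 4 * b ^ 2 := by
        simp only [hg]
        have h1 : max (u - c) 0 ≤ 2 * b := max_le (by rw [hc]; linarith [hb.2]) (by linarith)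
        have h2 : 0 ≤ max (u - c) 0 := le_max_right _ _
        nlinarith
      -- the cross term
      have h1 : -(2 * t * p) ≤ t ^ 2 * B ^ 2 + A ^ 2 := by
        have h2 : |t * p| ≤ |t| * B * A := by
          rw [abs_mul]
          calc |t| * |p| ≤ |t| * (A * B) := by gcongr
            _ = |t| * B * A := by ring
        have h3 : -(t * p) ≤ |t| * B * A := (neg_le_abs _).trans h2
        have h4 : t ^ 2 = |t| ^ 2 := (sq_abs _).symm
        rw [h4]
        nlinarith [sq_nonneg (|t| * B - A)]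
      have h1' : 0 ≤ t ^ 2 * B ^ 2 + A ^ 2 := by positivity
      have hcross : -(2 * t * g u * p) ≤ 4 * b ^ 2 * (t ^ 2 * B ^ 2 + A ^ 2) := by
        calc -(2 * t * g u * p) = g u * (-(2 * t * p)) := by ring
          _ ≤ g u * (t ^ 2 * B ^ 2 + A ^ 2) := mul_le_mul_of_nonneg_left h1 hg0
          _ ≤ 4 * b ^ 2 * (t ^ 2 * B ^ 2 + A ^ 2) := mul_le_mul_of_nonneg_right hg4 h1'
      -- the potential term
      have hpot : g u * (u * (1 - u ^ 2)) ≤ 8 * b ^ 2 * (u ^ 2 * (1 - u ^ 2)) := by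
        have hq : 0 ≤ 1 - u ^ 2 := by nlinarith [hb.1, hb.2]
        rcases le_or_gt u c with hu | hu
        · have : g u = 0 := by
            simp only [hg]
            rw [max_eq_right (by linarith)]
            simp
          rw [this, zero_mul]
          positivity
        · have hu2 : (1 : ℝ) / 2 ≤ u := by rw [hc] at hu; linarith
          have h3 : u * (1 - u ^ 2) ≤ 2 * (u ^ 2 * (1 - u ^ 2)) := by nlinarith [mul_nonneg hq (by linarith : (0:ℝ) ≤ u)]
          have h4 : 0 ≤ u ^ 2 * (1 - u ^ 2) := by positivity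
          calc g u * (u * (1 - u ^ 2)) ≤ g u * (2 * (u ^ 2 * (1 - u ^ 2))) := mul_le_mul_of_nonneg_left h3 hg0
            _ ≤ 4 * b ^ 2 * (2 * (u ^ 2 * (1 - u ^ 2))) := mul_le_mul_of_nonneg_right hg4 (by positivity)
            _ = 8 * b ^ 2 * (u ^ 2 * (1 - u ^ 2)) := by ring
      have hpot' : t ^ 2 * a x * (g u * (u * (1 - u ^ 2))) ≤ t ^ 2 * a x * (8 * b ^ 2 * (u ^ 2 * (1 - u ^ 2))) :=
        mul_le_mul_of_nonneg_left hpot (by positivity)
      -- the left side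
      have hleft : 2 * b * S.indicator (fun x => (η x) ^ 2 * ‖gradient U x‖ ^ 2) x ≤ t ^ 2 * g' u * B ^ 2 := by
        by_cases hxS : x ∈ S
        · rw [indicator_of_mem hxS]
          have h5 : 2 * b ≤ g' u := by
            simp only [hg']
            have : b ≤ max (u - c) 0 := le_max_of_le_left (by rw [hc]; linarith [hxS.2])
            linarith
          have h6 : 0 ≤ t ^ 2 * B ^ 2 := by positivity
          calc 2 * b * (t ^ 2 * B ^ 2) ≤ g' u * (t ^ 2 * B ^ 2) := mul_le_mul_of_nonneg_right h5 h6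
            _ = t ^ 2 * g' u * B ^ 2 := by ring
        · rw [indicator_of_notMem hxS, mul_zero]
          have : 0 ≤ g' u := by simp only [hg']; positivity
          positivity
      have h5 : ε ^ 2 * F x = t ^ 2 * g u * (a x * (u ^ 3 - u))
          + ε ^ 2 * (t ^ 2 * g' u * B ^ 2 + 2 * t * g u * p) := by
        rw [← he]
        simp only [hFdef]
        ring
      rw [h5]
      have k1 := mul_le_mul_of_nonneg_left hleft hε2.le
      have k2 := mul_le_mul_of_nonneg_left hcross hε2.le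
      nlinarith [k1, k2, hpot']
    · have h0 := h.eta_zero hx
      have hxS : x ∉ S := fun h' => hx h'.1
      rw [indicator_of_notMem hxS]
      simp only [hFdef, h0]
      have : 0 ≤ 4 * b ^ 2 * ε ^ 2 * A x ^ 2 := by positivity
      simpa using this
  have i6 : Integrable fun x => ε ^ 2 * F x + 8 * b ^ 2 * ((η x) ^ 2 * (a x * (U x ^ 2 * (1 - U x ^ 2))))
        + 4 * b ^ 2 * ε ^ 2 * ((η x) ^ 2 * ‖gradient U x‖ ^ 2 + A x ^ 2) := i5.add i4
  have := integral_mono iL' i6 hpt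
  rw [integral_add i5 i4, integral_add i1 i2, integral_const_mul, integral_const_mul, integral_const_mul,
    integral_const_mul, integral_add h.intD h.intG, hw, integral_indicator hSm] at this
  set D := ∫ x, (η x) ^ 2 * ‖gradient U x‖ ^ 2
  set G := ∫ x, A x ^ 2
  set L := ∫ x in S, (η x) ^ 2 * ‖gradient U x‖ ^ 2
  set T := ∫ x, (η x) ^ 2 * (a x * (U x ^ 2 * (1 - U x ^ 2)))
  have hε2 : 0 < ε ^ 2 := by positivity
  have h7 : 2 * b * ε ^ 2 * L ≤ 2 * b * ε ^ 2 * (b * (10 * D + 6 * G)) := by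
    have : 8 * b ^ 2 * T ≤ 8 * b ^ 2 * (ε ^ 2 * (2 * D + G)) := mul_le_mul_of_nonneg_left hT1 (by positivity)
    nlinarith
  exact le_of_mul_le_mul_left h7 (by positivity)


/-- potential part: `∫_{U ≥ 1-b} η² a W(U) ≤ 2 b ε² (2 D + G)`. -/
theorem ht_well_pot {Ω : Set (E n)} {ε : ℝ} {a U η A : E n → ℝ} (h : HtWell Ω ε a U η A)
    {b : ℝ} (hb0 : 0 < b) (hb1 : b ≤ 1 / 4) :
    ∫ x in {x | x ∈ Ω ∧ 1 - b ≤ U x}, (η x) ^ 2 * (a x * ((1 - U x ^ 2) ^ 2 / 4))
      ≤ 2 * b * (ε ^ 2 * (2 * (∫ x, (η x) ^ 2 * ‖gradient U x‖ ^ 2) + ∫ x, A x ^ 2)) := by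
  set S : Set (E n) := {x | x ∈ Ω ∧ 1 - b ≤ U x} with hS
  have hSm : MeasurableSet S := ht_well_meas h.op h.UC _
  have hT1 := ht_well_T1 h
  have hA : Integrable fun x => (η x) ^ 2 * (a x * (U x ^ 2 * (1 - U x ^ 2))) :=
    h.int_sq (h.aC.mul ((h.UC.pow 2).mul (continuousOn_const.sub (h.UC.pow 2))))
  have hW : Integrable fun x => (η x) ^ 2 * (a x * ((1 - U x ^ 2) ^ 2 / 4)) :=
    h.int_sq (h.aC.mul (((continuousOn_const.sub (h.UC.pow 2)).pow 2).div_const 4))
  have i1 : Integrable fun x => 2 * b * ((η x) ^ 2 * (a x * (U x ^ 2 * (1 - U x ^ 2)))) := hA.const_mul _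
  have hpt : ∀ x, S.indicator (fun x => (η x) ^ 2 * (a x * ((1 - U x ^ 2) ^ 2 / 4))) x
      ≤ 2 * b * ((η x) ^ 2 * (a x * (U x ^ 2 * (1 - U x ^ 2)))) := by
    intro x
    by_cases hxS : x ∈ S
    · rw [indicator_of_mem hxS]
      have hx := hxS.1
      have hb := abs_le.1 (h.bd x hx)
      have ha := h.a0 x hx
      have hu : 1 - b ≤ U x := hxS.2
      set u := U x
      have hq : 0 ≤ 1 - u ^ 2 := by nlinarith [hb.1, hb.2]
      have hq2 : 1 - u ^ 2 ≤ 2 * b := by nlinarith [hb.2]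
      have hu2 : (1 : ℝ) / 4 ≤ u ^ 2 := by nlinarith
      have h1 : (1 - u ^ 2) ^ 2 / 4 ≤ 2 * b * (u ^ 2 * (1 - u ^ 2)) := by
        have h2 : (1 - u ^ 2) ^ 2 ≤ 2 * b * (1 - u ^ 2) := by nlinarith
        have h3 : b * (1 - u ^ 2) * (1 / 4) ≤ b * (1 - u ^ 2) * u ^ 2 :=
          mul_le_mul_of_nonneg_left hu2 (by positivity)
        nlinarith
      have h4 : 0 ≤ (η x) ^ 2 * a x := by positivity
      calc (η x) ^ 2 * (a x * ((1 - u ^ 2) ^ 2 / 4)) = (η x) ^ 2 * a x * ((1 - u ^ 2) ^ 2 / 4) := by ring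
        _ ≤ (η x) ^ 2 * a x * (2 * b * (u ^ 2 * (1 - u ^ 2))) := mul_le_mul_of_nonneg_left h1 h4
        _ = 2 * b * ((η x) ^ 2 * (a x * (u ^ 2 * (1 - u ^ 2)))) := by ring
    · rw [indicator_of_notMem hxS]
      by_cases hx : x ∈ Ω
      · have hb := abs_le.1 (h.bd x hx)
        have ha := h.a0 x hx
        have hq : 0 ≤ 1 - U x ^ 2 := by nlinarith [hb.1, hb.2]
        positivity
      · rw [h.eta_zero hx]
        simp
  have := integral_mono (hW.indicator hSm) i1 hpt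
  rw [integral_indicator hSm, integral_const_mul] at this
  exact this.trans (mul_le_mul_of_nonneg_left hT1 (by positivity))

/-- **energy near the well `+1`**: `∫_{U ≥ 1-b} η² (ε|∇U|²/2 + a W(U)/ε) ≤ b ε (9 D + 5 G)`. -/
theorem ht_well_plus {Ω : Set (E n)} {ε : ℝ} {a U η A : E n → ℝ} (h : HtWell Ω ε a U η A) (hε : 0 < ε)
    {b : ℝ} (hb0 : 0 < b) (hb1 : b ≤ 1 / 4) :
    ∫ x in {x | x ∈ Ω ∧ 1 - b ≤ U x},
        (η x) ^ 2 * (ε / 2 * ‖gradient U x‖ ^ 2 + a x * ((1 - U x ^ 2) ^ 2 / 4) / ε)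
      ≤ b * ε * (9 * (∫ x, (η x) ^ 2 * ‖gradient U x‖ ^ 2) + 5 * ∫ x, A x ^ 2) := by
  have h1 := ht_well_grad h hε hb0 hb1
  have h2 := ht_well_pot h hb0 hb1
  set S : Set (E n) := {x | x ∈ Ω ∧ 1 - b ≤ U x} with hS
  have hW : Integrable fun x => (η x) ^ 2 * (a x * ((1 - U x ^ 2) ^ 2 / 4)) :=
    h.int_sq (h.aC.mul (((continuousOn_const.sub (h.UC.pow 2)).pow 2).div_const 4))
  have i1 : IntegrableOn (fun x => ε / 2 * ((η x) ^ 2 * ‖gradient U x‖ ^ 2)) S :=
    (h.intD.const_mul _).integrableOn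
  have i2 : IntegrableOn (fun x => ε⁻¹ * ((η x) ^ 2 * (a x * ((1 - U x ^ 2) ^ 2 / 4)))) S :=
    (hW.const_mul _).integrableOn
  have h3 : ∫ x in S, (η x) ^ 2 * (ε / 2 * ‖gradient U x‖ ^ 2 + a x * ((1 - U x ^ 2) ^ 2 / 4) / ε)
      = ε / 2 * (∫ x in S, (η x) ^ 2 * ‖gradient U x‖ ^ 2)
        + ε⁻¹ * ∫ x in S, (η x) ^ 2 * (a x * ((1 - U x ^ 2) ^ 2 / 4)) := by
    rw [← integral_const_mul, ← integral_const_mul, ← integral_add i1 i2]
    refine integral_congr_ae (Eventually.of_forall fun x => ?_)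
    simp only
    field_simp
  rw [h3]
  set D := ∫ x, (η x) ^ 2 * ‖gradient U x‖ ^ 2
  set G := ∫ x, A x ^ 2
  have k1 := mul_le_mul_of_nonneg_left h1 (by positivity : (0 : ℝ) ≤ ε / 2)
  have k2 := mul_le_mul_of_nonneg_left h2 (by positivity : (0 : ℝ) ≤ ε⁻¹)
  have k3 : ε⁻¹ * (2 * b * (ε ^ 2 * (2 * D + G))) = 2 * b * ε * (2 * D + G) := by
    field_simp
  rw [k3] at k2
  nlinarith

/-- **energy near both wells**: `∫_{|U| ≥ 1-b} η² (ε|∇U|²/2 + a W(U)/ε) ≤ 2 b ε (9 D + 5 G)`. -/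
theorem ht_well_main {Ω : Set (E n)} {ε : ℝ} {a U η A : E n → ℝ} (h : HtWell Ω ε a U η A) (hε : 0 < ε)
    {b : ℝ} (hb0 : 0 < b) (hb1 : b ≤ 1 / 4) :
    ∫ x in {x | x ∈ Ω ∧ 1 - b ≤ |U x|},
        (η x) ^ 2 * (ε / 2 * ‖gradient U x‖ ^ 2 + a x * ((1 - U x ^ 2) ^ 2 / 4) / ε)
      ≤ 2 * (b * ε * (9 * (∫ x, (η x) ^ 2 * ‖gradient U x‖ ^ 2) + 5 * ∫ x, A x ^ 2)) := by
  have h1 := ht_well_plus h hε hb0 hb1
  have h2 := ht_well_plus h.neg hε hb0 hb1
  have hgn : ∀ x, ‖gradient (fun x => - U x) x‖ = ‖gradient U x‖ := by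
    intro x
    unfold gradient
    rw [fderiv_fun_neg, map_neg, norm_neg]
  simp only [hgn, neg_sq] at h2
  set f : E n → ℝ := fun x => (η x) ^ 2 * (ε / 2 * ‖gradient U x‖ ^ 2 + a x * ((1 - U x ^ 2) ^ 2 / 4) / ε) with hf
  set S₁ : Set (E n) := {x | x ∈ Ω ∧ 1 - b ≤ U x}
  set S₂ : Set (E n) := {x | x ∈ Ω ∧ 1 - b ≤ - U x}
  have hsub : {x | x ∈ Ω ∧ 1 - b ≤ |U x|} ⊆ S₁ ∪ S₂ := by
    rintro x ⟨hx, hu⟩
    rcases le_abs.1 hu with h' | h'
    · exact Or.inl ⟨hx, h'⟩
    · exact Or.inr ⟨hx, h'⟩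
  have hfi : Integrable f := by
    have hW : Integrable fun x => (η x) ^ 2 * (a x * ((1 - U x ^ 2) ^ 2 / 4)) :=
      h.int_sq (h.aC.mul (((continuousOn_const.sub (h.UC.pow 2)).pow 2).div_const 4))
    refine ((h.intD.const_mul (ε / 2)).add (hW.const_mul ε⁻¹)).congr (Eventually.of_forall fun x => ?_)
    simp only [hf, Pi.add_apply]
    field_simp
  have hf0 : ∀ x, 0 ≤ f x := by
    intro x
    by_cases hx : x ∈ Ω
    · have ha := h.a0 x hx
      simp only [hf]
      positivity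
    · simp only [hf, h.eta_zero hx]
      simp
  have hm₁ : MeasurableSet S₁ := ht_well_meas h.op h.UC _
  have hm₂ : MeasurableSet S₂ := ht_well_meas h.op h.UC.neg _
  have hdisj : Disjoint S₁ S₂ := by
    rw [Set.disjoint_left]
    rintro x ⟨_, h1⟩ ⟨_, h2⟩
    linarith
  calc ∫ x in {x | x ∈ Ω ∧ 1 - b ≤ |U x|}, f x ≤ ∫ x in S₁ ∪ S₂, f x :=
        setIntegral_mono_set hfi.integrableOn (Eventually.of_forall hf0) (LE.le.eventuallyLE hsub)
    _ = (∫ x in S₁, f x) + ∫ x in S₂, f x :=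
        setIntegral_union hdisj hm₂ hfi.integrableOn hfi.integrableOn
    _ ≤ _ := by linarith

/-- **clearing out** (Caccioppoli): if `|U| ≥ 1/2` on `Ω` then `∫ η² (ε|∇U|²/2 + a W(U)/ε) ≤ 72 ε G`.
Test function `g(U)`, `g(s) = (s³-s)(5-4s²)`: `g W' ≥ W`, `g' ≥ 1/2`, `g² ≤ 9` on `1/2 ≤ |s| ≤ 1` (both signs at once). -/
theorem ht_well_clear {Ω : Set (E n)} {ε : ℝ} {a U η A : E n → ℝ} (h : HtWell Ω ε a U η A) (hε : 0 < ε)
    (hU : ∀ x ∈ Ω, 1 / 2 ≤ |U x|) :
    ∫ x, (η x) ^ 2 * (ε / 2 * ‖gradient U x‖ ^ 2 + a x * ((1 - U x ^ 2) ^ 2 / 4) / ε)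
      ≤ 72 * ε * ∫ x, A x ^ 2 := by
  set g : ℝ → ℝ := fun s => (s ^ 3 - s) * (5 - 4 * s ^ 2) with hg
  set g' : ℝ → ℝ := fun s => -20 * s ^ 4 + 27 * s ^ 2 - 5 with hg'
  have hgc : Continuous g := by simp only [hg]; fun_prop
  have hgc' : Continuous g' := by simp only [hg']; fun_prop
  have hgd : ∀ s, HasDerivAt g (g' s) s := by
    intro s
    have h1 : HasDerivAt (fun s : ℝ => s ^ 3 - s) (3 * s ^ 2 - 1) s := by
      have := (hasDerivAt_pow 3 s).fun_sub (hasDerivAt_id' s)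
      simpa using this
    have h2 : HasDerivAt (fun s : ℝ => 5 - 4 * s ^ 2) (-(4 * (2 * s))) s := by
      have := ((hasDerivAt_pow 2 s).const_mul 4).const_sub 5
      simpa using this
    have h3 : HasDerivAt g ((3 * s ^ 2 - 1) * (5 - 4 * s ^ 2) + (s ^ 3 - s) * (-(4 * (2 * s)))) s := h1.fun_mul h2
    have h4 : g' s = (3 * s ^ 2 - 1) * (5 - 4 * s ^ 2) + (s ^ 3 - s) * (-(4 * (2 * s))) := by
      simp only [hg']
      ring
    rw [h4]
    exact h3
  have hw := ht_well_weak (g := g) (g' := g') h.op h.U2 h.η1 h.ηc h.ηs hgd hgc'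
  have hF := h.intF hgc hgc'
  set F : E n → ℝ := fun x => ((η x) ^ 2 * g (U x) * flLap U x + (η x) ^ 2 * g' (U x) * ‖gradient U x‖ ^ 2
        + 2 * η x * g (U x) * ⟪gradient η x, gradient U x⟫) with hFdef
  have hW : Integrable fun x => (η x) ^ 2 * (a x * ((1 - U x ^ 2) ^ 2 / 4)) :=
    h.int_sq (h.aC.mul (((continuousOn_const.sub (h.UC.pow 2)).pow 2).div_const 4))
  have i1 : Integrable fun x => ε ^ 2 * F x := hF.const_mul _
  have i2 : Integrable fun x => 36 * ε ^ 2 * A x ^ 2 := h.intG.const_mul _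
  have i3 : Integrable fun x => ε ^ 2 / 4 * ((η x) ^ 2 * ‖gradient U x‖ ^ 2) := h.intD.const_mul _
  have hpt : ∀ x, (η x) ^ 2 * (a x * ((1 - U x ^ 2) ^ 2 / 4)) + ε ^ 2 / 4 * ((η x) ^ 2 * ‖gradient U x‖ ^ 2)
      ≤ ε ^ 2 * F x + 36 * ε ^ 2 * A x ^ 2 := by
    intro x
    by_cases hx : x ∈ Ω
    · have he := h.eq x hx
      have hb := h.bd x hx
      have ha := h.a0 x hx
      have hu := hU x hx
      have hcs := h.cs x hx
      have hA0 := h.A0 x
      set p := ⟪gradient η x, gradient U x⟫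
      set A := A x
      set B := ‖gradient U x‖
      set u := U x
      set t := η x
      have hB0 : 0 ≤ B := norm_nonneg _
      have hε2 : 0 < ε ^ 2 := by positivity
      set w := u ^ 2 with hw'
      have hw1 : w ≤ 1 := by
        rw [hw', ← sq_abs]
        nlinarith [abs_nonneg u]
      have hw4 : 1 / 4 ≤ w := by
        rw [hw', ← sq_abs]
        nlinarith [abs_nonneg u]
      -- `g W' ≥ W`
      have k1 : (1 - w) ^ 2 / 4 ≤ g u * (u ^ 3 - u) := by
        have e1 : g u * (u ^ 3 - u) = (1 - w) ^ 2 * (w * (5 - 4 * w)) := by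
          simp only [hg, hw']
          ring
        rw [e1]
        have e2 : 1 / 4 ≤ w * (5 - 4 * w) := by nlinarith
        nlinarith [sq_nonneg (1 - w)]
      -- `g' ≥ 1/2`
      have k2 : 1 / 2 ≤ g' u := by
        have e1 : g' u = -20 * w ^ 2 + 27 * w - 5 := by
          simp only [hg', hw']
          ring
        rw [e1]
        nlinarith
      -- `g² ≤ 9`
      have k3 : g u ^ 2 ≤ 9 := by
        have e1 : g u ^ 2 = w * ((1 - w) * (5 - 4 * w)) ^ 2 := by
          simp only [hg, hw']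
          ring
        rw [e1]
        have e2 : (1 - w) * (5 - 4 * w) ≤ 3 := by nlinarith
        have e3 : 0 ≤ (1 - w) * (5 - 4 * w) := mul_nonneg (by linarith) (by linarith)
        have e4 : ((1 - w) * (5 - 4 * w)) ^ 2 ≤ 9 := by nlinarith
        nlinarith [sq_nonneg ((1 - w) * (5 - 4 * w))]
      -- the cross term
      have k4 : -(2 * t * g u * p) ≤ t ^ 2 * B ^ 2 / 4 + 36 * A ^ 2 := by
        have h2 : |t * g u * p| ≤ |t| * B * (|g u| * A) := by
          rw [abs_mul, abs_mul]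
          calc |t| * |g u| * |p| ≤ |t| * |g u| * (A * B) := by gcongr
            _ = |t| * B * (|g u| * A) := by ring
        have h3 : -(t * g u * p) ≤ |t| * B * (|g u| * A) := (neg_le_abs _).trans h2
        have h4 : t ^ 2 = |t| ^ 2 := (sq_abs _).symm
        have h5 : (|g u| * A) ^ 2 ≤ 9 * A ^ 2 := by
          rw [mul_pow, sq_abs]
          exact mul_le_mul_of_nonneg_right k3 (sq_nonneg _)
        rw [h4]
        nlinarith [sq_nonneg (|t| * B / 2 - 2 * (|g u| * A))]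
      have h5 : ε ^ 2 * F x = t ^ 2 * a x * (g u * (u ^ 3 - u))
          + ε ^ 2 * (t ^ 2 * g' u * B ^ 2 + 2 * t * g u * p) := by
        have : ε ^ 2 * F x = t ^ 2 * g u * (ε ^ 2 * flLap U x)
          + ε ^ 2 * (t ^ 2 * g' u * B ^ 2 + 2 * t * g u * p) := by
          simp only [hFdef]
          ring
        rw [this, he]
        ring
      rw [h5]
      have m1 : t ^ 2 * a x * ((1 - w) ^ 2 / 4) ≤ t ^ 2 * a x * (g u * (u ^ 3 - u)) :=
        mul_le_mul_of_nonneg_left k1 (by positivity)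
      have m2 : t ^ 2 * B ^ 2 * (1 / 2) ≤ t ^ 2 * B ^ 2 * g' u := mul_le_mul_of_nonneg_left k2 (by positivity)
      have m3 := mul_le_mul_of_nonneg_left k4 hε2.le
      have m4 := mul_le_mul_of_nonneg_left m2 hε2.le
      nlinarith [m1, m3, m4]
    · have h0 := h.eta_zero hx
      simp only [hFdef, h0]
      have : 0 ≤ 36 * ε ^ 2 * A x ^ 2 := by positivity
      simpa using this
  have i4 : Integrable fun x => (η x) ^ 2 * (a x * ((1 - U x ^ 2) ^ 2 / 4))
      + ε ^ 2 / 4 * ((η x) ^ 2 * ‖gradient U x‖ ^ 2) := hW.add i3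
  have i5 : Integrable fun x => ε ^ 2 * F x + 36 * ε ^ 2 * A x ^ 2 := i1.add i2
  have := integral_mono i4 i5 hpt
  rw [integral_add hW i3, integral_add i1 i2, integral_const_mul, integral_const_mul, integral_const_mul, hw] at this
  have h3 : ∫ x, (η x) ^ 2 * (ε / 2 * ‖gradient U x‖ ^ 2 + a x * ((1 - U x ^ 2) ^ 2 / 4) / ε)
      = ε / 2 * (∫ x, (η x) ^ 2 * ‖gradient U x‖ ^ 2)
        + ε⁻¹ * ∫ x, (η x) ^ 2 * (a x * ((1 - U x ^ 2) ^ 2 / 4)) := by
    rw [← integral_const_mul, ← integral_const_mul, ← integral_add (h.intD.const_mul _) (hW.const_mul _)]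
    refine integral_congr_ae (Eventually.of_forall fun x => ?_)
    simp only
    field_simp
  rw [h3]
  set D := ∫ x, (η x) ^ 2 * ‖gradient U x‖ ^ 2
  set G := ∫ x, A x ^ 2
  set P := ∫ x, (η x) ^ 2 * (a x * ((1 - U x ^ 2) ^ 2 / 4))
  have hP0 : 0 ≤ P := by
    refine integral_nonneg fun x => ?_
    by_cases hx : x ∈ Ω
    · have ha := h.a0 x hx
      positivity
    · simp only [h.eta_zero hx]
      simp
  have hD0 : 0 ≤ D := integral_nonneg fun x => by positivity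
  have k1 := mul_le_mul_of_nonneg_left this (by positivity : (0 : ℝ) ≤ 2 * ε⁻¹)
  have k2 : 2 * ε⁻¹ * (P + ε ^ 2 / 4 * D) = 2 * (ε⁻¹ * P) + ε / 2 * D := by
    field_simp
    ring
  have k3 : 2 * ε⁻¹ * (ε ^ 2 * 0 + 36 * ε ^ 2 * G) = 72 * ε * G := by
    field_simp
    ring
  rw [k2, k3] at k1
  have : 0 ≤ ε⁻¹ * P := by positivity
  linarith

/-- the standard choice `A = |∇η|`. -/
theorem ht_well_std {Ω : Set (E n)} {ε : ℝ} {a U η : E n → ℝ} (hΩ : IsOpen Ω) (hU : ContDiffOn ℝ 2 U Ω)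
    (hb : ∀ x ∈ Ω, |U x| ≤ 1) (haC : ContinuousOn a Ω) (ha0 : ∀ x ∈ Ω, 0 ≤ a x)
    (heq : ∀ x ∈ Ω, ε ^ 2 * flLap U x = a x * (U x ^ 3 - U x))
    (hη : ContDiff ℝ 1 η) (hc : HasCompactSupport η) (hs : tsupport η ⊆ Ω) :
    HtWell Ω ε a U η (fun x => ‖gradient η x‖) where
  op := hΩ
  U2 := hU
  bd := hb
  aC := haC
  a0 := ha0
  eq := heq
  η1 := hη
  ηc := hc
  ηs := hs
  A0 := fun x => norm_nonneg _
  intG := by
    have h1 : Continuous (fderiv ℝ η) := hη.continuous_fderiv one_ne_zero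
    have h2 : Continuous (gradient η) := (InnerProductSpace.toDual ℝ (E n)).symm.continuous.comp h1
    refine (h2.norm.pow 2).integrable_of_hasCompactSupport ?_
    refine hc.mono' fun x hx => ?_
    by_contra hx'
    apply hx
    have : fderiv ℝ η x = 0 := fderiv_of_notMem_tsupport (𝕜 := ℝ) hx'
    simp [gradient, this]
  cs := fun x _ => abs_real_inner_le_norm _ _

end Claimed.Agent.R323
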