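import Claimed.Agent.R323.Ht.Defs
import Claimed.Agent.R323.Ht.Wells

/-!
# Row 323, block C (HT-lite), AC6 = P5 + P6: near-well energy and clearing out for the class `HtAC`.   (helper101)

`ε̂ = htEps κ q x = κ|x-q|`, `e = htE κ q U x`.   `ζ ∈ C¹_c`, vertex `q ∉ tsupport ζ`.
* `ht_wells_near`  : `∫_{|U| ≥ 1-b} ζ² e ≤ 2 b (9 ∫ ζ² ε̂|DU|² + 5 ∫ ε̂|Dζ|²)`     (`0 < b ≤ 1/4`).
* `ht_wells_near'` : `∫_{|U| ≥ 1-b} ζ² e ≤ b (36 ∫ ζ² e + 10 ∫ ε̂|Dζ|²)`.
* `ht_wells_clear` : `|U| ≥ 1/2` on the domain `Ω ⊇ tsupport ζ`, `q ∉ Ω`  ⟹  `∫ ζ² e ≤ 72 ∫ ε̂|Dζ|²`.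
* `ht_wells_ball`, `ht_wells_ball_mu` : `|U| ≥ 1/2` on `B_r(x) ∌ q`  ⟹  `∫_{B_{r/2}(x)} e`, `htMu (B_{r/2}(x)) ≤ C_n κ(|x-q|+r) rⁿ/r²`.
* kit: `ht_wells_euler`, `ht_wells_cut` (scaled cut-offs), `htE_contOn`, `htE_nonneg`, `htEps_*`, `ht_wells_xi_abs` (`|ξ| ≤ e`),
  `ht_wells_D_bounds` (`0 ≤ d ≤ 2e/acC`, `n ≥ 3`), `ht_wells_measU`, `ht_wells_int`.
Proof: `Ht/Wells.lean` with `ε = κ`, `a = |x-q|⁻²`, `η = ζ √|x-q|`, `A = √|x-q| |Dζ|` (the radial part of `Dη` is orthogonal to `DU`: Euler).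
-/

set_option autoImplicit false
open scoped ContDiff ENNReal RealInnerProductSpace Topology
open MeasureTheory Metric Set Filter

namespace Claimed.Agent.R323

open Claimed.Agent.Gmt

variable {n : ℕ}

theorem ht_wells_norm_grad (f : E n → ℝ) (x : E n) : ‖gradient f x‖ = ‖fderiv ℝ f x‖ := by
  unfold gradient
  rw [LinearIsometryEquiv.norm_map]

/-- Euler's relation about the vertex. -/
theorem ht_wells_euler {κ : ℝ} {q : E n} {U : E n → ℝ} (h : HtAC n κ q U) {x : E n} (hx : x ≠ q) :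
    fderiv ℝ U x (x - q) = 0 := by
  have hd : DifferentiableAt ℝ U x :=
    (h.smooth.contDiffAt (isOpen_compl_singleton.mem_nhds hx)).differentiableAt (by simp)
  have h1 : HasFDerivAt U (fderiv ℝ U x) (q + (1 : ℝ) • (x - q)) := by
    rw [one_smul, add_sub_cancel]; exact hd.hasFDerivAt
  have h2 : HasDerivAt (fun t : ℝ => q + t • (x - q)) (x - q) 1 := by
    simpa using ((hasDerivAt_id (1 : ℝ)).smul_const (x - q)).const_add q
  have h3 : HasDerivAt (fun t : ℝ => U (q + t • (x - q))) (fderiv ℝ U x (x - q)) 1 := h1.comp_hasDerivAt 1 h2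
  have h4 : (fun t : ℝ => U (q + t • (x - q))) =ᶠ[𝓝 1] fun _ => U x := by
    filter_upwards [lt_mem_nhds (zero_lt_one' ℝ)] with t ht using h.hom t ht x
  exact h3.unique ((hasDerivAt_const (1 : ℝ) (U x)).congr_of_eventuallyEq h4)

/-- the weight `ρ = √|x-q|`. -/
noncomputable def htRho (q x : E n) : ℝ := Real.sqrt ‖x - q‖

theorem htRho_sq (q x : E n) : htRho q x ^ 2 = ‖x - q‖ := Real.sq_sqrt (norm_nonneg _)

theorem htRho_nonneg (q x : E n) : 0 ≤ htRho q x := Real.sqrt_nonneg _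

theorem htRho_cont (q : E n) : Continuous (htRho q) :=
  Real.continuous_sqrt.comp (continuous_id.sub continuous_const).norm

theorem htRho_contDiffAt (q : E n) {x : E n} (hx : x ≠ q) : ContDiffAt ℝ 1 (htRho q) x := by
  have h0 : x - q ≠ 0 := sub_ne_zero.2 hx
  have h1 : ContDiffAt ℝ 1 (fun y : E n => ‖y - q‖) x := (contDiffAt_id.sub contDiffAt_const).norm ℝ h0
  exact h1.sqrt (norm_ne_zero_iff.2 h0)

/-- the derivative of the weight is radial. -/
theorem htRho_fderiv (q : E n) {x : E n} (hx : x ≠ q) : ∃ c : ℝ, ∀ v, fderiv ℝ (htRho q) x v = c * ⟪x - q, v⟫ := by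
  have h0 : x - q ≠ 0 := sub_ne_zero.2 hx
  have hpos : 0 < ‖x - q‖ := norm_pos_iff.2 h0
  have h1 : HasFDerivAt (fun y : E n => ‖y - q‖ ^ 2) (2 • (innerSL ℝ (x - q)).comp (ContinuousLinearMap.id ℝ (E n))) x :=
    ((hasFDerivAt_id x).sub_const q).norm_sq
  have h2 : HasDerivAt (fun s : ℝ => Real.sqrt (Real.sqrt s))
      (1 / (2 * Real.sqrt (‖x - q‖ ^ 2)) / (2 * Real.sqrt (Real.sqrt (‖x - q‖ ^ 2)))) (‖x - q‖ ^ 2) := by
    have hs : ‖x - q‖ ^ 2 ≠ 0 := by positivity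
    refine (Real.hasDerivAt_sqrt hs).sqrt ?_
    rw [Real.sqrt_sq hpos.le]
    exact hpos.ne'
  have h3 := h2.comp_hasFDerivAt x h1
  have h4 : (fun s : ℝ => Real.sqrt (Real.sqrt s)) ∘ (fun y : E n => ‖y - q‖ ^ 2) = htRho q := by
    funext y
    simp only [Function.comp_apply, htRho]
    rw [Real.sqrt_sq (norm_nonneg _)]
  rw [h4] at h3
  refine ⟨(1 / (2 * Real.sqrt (‖x - q‖ ^ 2)) / (2 * Real.sqrt (Real.sqrt (‖x - q‖ ^ 2)))) * 2, fun v => ?_⟩
  rw [h3.fderiv]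
  simp only [smul_apply, ContinuousLinearMap.comp_apply, ContinuousLinearMap.id_apply, innerSL_apply_apply,
    smul_eq_mul, nsmul_eq_mul, Nat.cast_ofNat]
  ring

/-- the data of `Ht/Wells.lean`. -/
theorem ht_wells_data {κ : ℝ} {q : E n} {U : E n → ℝ} (h : HtAC n κ q U) {Ω : Set (E n)} (hΩ : IsOpen Ω) (hq : q ∉ Ω)
    {ζ : E n → ℝ} (hζ : ContDiff ℝ 1 ζ) (hc : HasCompactSupport ζ) (hs : tsupport ζ ⊆ Ω) :
    HtWell Ω κ (fun x => (‖x - q‖ ^ 2)⁻¹) U (fun x => ζ x * htRho q x) (fun x => htRho q x * ‖fderiv ℝ ζ x‖) where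
  op := hΩ
  U2 := (h.smooth.mono fun x hx => by
    simp only [mem_compl_iff, mem_singleton_iff]
    rintro rfl
    exact hq hx).of_le (by norm_cast)
  bd := fun x _ => h.bdd x
  aC := by
    refine ContinuousOn.inv₀ (by fun_prop) fun x hx => ?_
    have : x - q ≠ 0 := sub_ne_zero.2 (by rintro rfl; exact hq hx)
    positivity
  a0 := fun x _ => by positivity
  eq := fun x hx => by
    have hxq : x ≠ q := by rintro rfl; exact hq hx
    have h0 : x - q ≠ 0 := sub_ne_zero.2 hxq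
    have hpos : 0 < ‖x - q‖ := norm_pos_iff.2 h0
    have he := h.eq x hxq
    unfold acW' at he
    rw [← he]
    field_simp
  η1 := by
    rw [contDiff_iff_contDiffAt]
    intro x
    by_cases hx : x ∈ Ω
    · exact hζ.contDiffAt.mul (htRho_contDiffAt q (by rintro rfl; exact hq hx))
    · have hx' : x ∉ tsupport ζ := fun h => hx (hs h)
      have h0 : (fun y => ζ y * htRho q y) =ᶠ[𝓝 x] fun _ => (0 : ℝ) := by
        filter_upwards [(isClosed_tsupport ζ).isOpen_compl.mem_nhds hx'] with y hy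
        rw [image_eq_zero_of_notMem_tsupport hy, zero_mul]
      exact contDiffAt_const.congr_of_eventuallyEq h0
  ηc := hc.mul_right
  ηs := (tsupport_mul_subset_left (f := ζ) (g := htRho q)).trans hs
  A0 := fun x => mul_nonneg (htRho_nonneg q x) (norm_nonneg _)
  intG := by
    have h1 : Continuous (fderiv ℝ ζ) := hζ.continuous_fderiv one_ne_zero
    refine (((htRho_cont q).mul h1.norm).pow 2).integrable_of_hasCompactSupport ?_
    refine hc.mono' fun x hx => ?_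
    by_contra hx'
    apply hx
    have : fderiv ℝ ζ x = 0 := fderiv_of_notMem_tsupport (𝕜 := ℝ) hx'
    simp [this]
  cs := fun x hx => by
    have hxq : x ≠ q := by rintro rfl; exact hq hx
    obtain ⟨c, hc'⟩ := htRho_fderiv q hxq
    have hd1 : DifferentiableAt ℝ ζ x := hζ.differentiable one_ne_zero x
    have hd2 : DifferentiableAt ℝ (htRho q) x := (htRho_contDiffAt q hxq).differentiableAt one_ne_zero
    have h1 : ⟪gradient (fun x => ζ x * htRho q x) x, gradient U x⟫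
        = htRho q x * ⟪gradient ζ x, gradient U x⟫ := by
      rw [ht_well_inner_grad, ht_well_inner_grad, fderiv_fun_mul hd1 hd2]
      simp only [add_apply, smul_apply, smul_eq_mul]
      rw [hc', real_inner_comm, ht_well_inner_grad, ht_wells_euler h hxq]
      ring
    rw [h1, abs_mul, abs_of_nonneg (htRho_nonneg q x), mul_assoc, ← ht_wells_norm_grad ζ]
    exact mul_le_mul_of_nonneg_left (abs_real_inner_le_norm _ _) (htRho_nonneg q x)

/-- the weighted integrand is `ζ² e`. -/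
theorem ht_wells_dens {κ : ℝ} (hκ : 0 < κ) (q : E n) (U ζ : E n → ℝ) (hq : ζ q = 0) (x : E n) :
    (ζ x * htRho q x) ^ 2 * (κ / 2 * ‖gradient U x‖ ^ 2 + (‖x - q‖ ^ 2)⁻¹ * ((1 - U x ^ 2) ^ 2 / 4) / κ)
      = ζ x ^ 2 * htE κ q U x := by
  by_cases hx : x = q
  · subst hx
    simp [hq]
  · have hpos : 0 < ‖x - q‖ := norm_pos_iff.2 (sub_ne_zero.2 hx)
    rw [mul_pow, htRho_sq, ht_wells_norm_grad]
    unfold htE htEps acW
    field_simp

theorem ht_wells_measU {κ : ℝ} {q : E n} {U : E n → ℝ} (h : HtAC n κ q U) (c : ℝ) :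
    MeasurableSet {x | c ≤ |U x|} := by
  have h1 : MeasurableSet {x | x ∈ ({q}ᶜ : Set (E n)) ∧ c ≤ |U x|} :=
    ht_well_meas isOpen_compl_singleton h.smooth.continuousOn.abs c
  have h2 : {x | c ≤ |U x|} = {x | x ∈ ({q}ᶜ : Set (E n)) ∧ c ≤ |U x|} ∪ ({x | c ≤ |U x|} ∩ {q}) := by
    ext x
    simp only [mem_ofPred_eq, mem_compl_iff, mem_singleton_iff, mem_union, mem_inter_iff]
    tauto
  rw [h2]
  exact h1.union (Set.Subsingleton.measurableSet (subsingleton_singleton.anti inter_subset_right))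

/-- `ζ² f` is integrable for `f` continuous off the vertex. -/
theorem ht_wells_int {q : E n} {ζ f : E n → ℝ} (hζ : Continuous ζ) (hc : HasCompactSupport ζ) (hq : q ∉ tsupport ζ)
    (hf : ContinuousOn f {q}ᶜ) : Integrable fun x => ζ x ^ 2 * f x := by
  have h1 := ht_well_int (Ω := {q}ᶜ) isOpen_compl_singleton hζ hc (fun x hx => by
    simp only [mem_compl_iff, mem_singleton_iff]
    rintro rfl
    exact hq hx) (hζ.continuousOn.mul hf)
  refine h1.congr (Eventually.of_forall fun x => ?_)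
  simp only [Pi.mul_apply]
  ring

theorem ht_wells_fderivC {κ : ℝ} {q : E n} {U : E n → ℝ} (h : HtAC n κ q U) : ContinuousOn (fderiv ℝ U) {q}ᶜ :=
  (h.smooth.of_le (m := 1) (by norm_cast)).continuousOn_fderiv_of_isOpen isOpen_compl_singleton le_rfl

theorem htEps_cont (κ : ℝ) (q : E n) : Continuous (htEps κ q) := by
  unfold htEps
  fun_prop

theorem htEps_pos {κ : ℝ} (hκ : 0 < κ) {q x : E n} (hx : x ≠ q) : 0 < htEps κ q x :=
  mul_pos hκ (norm_pos_iff.2 (sub_ne_zero.2 hx))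

theorem htEps_nonneg {κ : ℝ} (hκ : 0 < κ) (q x : E n) : 0 ≤ htEps κ q x := mul_nonneg hκ.le (norm_nonneg _)

theorem htE_contOn {κ : ℝ} {q : E n} {U : E n → ℝ} (h : HtAC n κ q U) : ContinuousOn (htE κ q U) {q}ᶜ := by
  unfold htE acW
  refine ((((htEps_cont κ q).continuousOn.div_const 2).mul ((ht_wells_fderivC h).norm.pow 2))).add ?_
  refine ContinuousOn.div (((continuousOn_const.sub (h.smooth.continuousOn.pow 2)).pow 2).div_const 4)
    (htEps_cont κ q).continuousOn fun x hx => (htEps_pos h.pos hx).ne'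

theorem htE_nonneg {κ : ℝ} (hκ : 0 < κ) (q : E n) (U : E n → ℝ) (x : E n) : 0 ≤ htE κ q U x := by
  have := htEps_nonneg hκ q x
  unfold htE acW
  positivity

/-- **AC6 / P6 (energy near the wells).** -/
theorem ht_wells_near {κ : ℝ} {q : E n} {U : E n → ℝ} (h : HtAC n κ q U) {ζ : E n → ℝ} (hζ : ContDiff ℝ 1 ζ)
    (hc : HasCompactSupport ζ) (hq : q ∉ tsupport ζ) {b : ℝ} (hb0 : 0 < b) (hb1 : b ≤ 1 / 4) :
    ∫ x in {x | 1 - b ≤ |U x|}, ζ x ^ 2 * htE κ q U x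
      ≤ 2 * b * (9 * (∫ x, ζ x ^ 2 * (htEps κ q x * ‖fderiv ℝ U x‖ ^ 2))
          + 5 * ∫ x, htEps κ q x * ‖fderiv ℝ ζ x‖ ^ 2) := by
  have hs : tsupport ζ ⊆ ({q}ᶜ : Set (E n)) := fun x hx => by
    simp only [mem_compl_iff, mem_singleton_iff]
    rintro rfl
    exact hq hx
  have hq0 : ζ q = 0 := image_eq_zero_of_notMem_tsupport hq
  have hm := ht_well_main (ht_wells_data h isOpen_compl_singleton (by simp) hζ hc hs) h.pos hb0 hb1
  simp only [ht_wells_dens h.pos q U ζ hq0] at hm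
  have e1 : ∫ x in {x | 1 - b ≤ |U x|}, ζ x ^ 2 * htE κ q U x
      = ∫ x in {x | x ∈ ({q}ᶜ : Set (E n)) ∧ 1 - b ≤ |U x|}, ζ x ^ 2 * htE κ q U x := by
    refine setIntegral_eq_of_subset_of_forall_sdiff_eq_zero (ht_wells_measU h _) (fun x hx => hx.2) fun x hx => ?_
    have : x = q := by
      by_contra hne
      exact hx.2 ⟨hne, hx.1⟩
    rw [this, hq0]
    simp
  rw [e1]
  refine hm.trans (le_of_eq ?_)
  have e2 : ∫ x, (ζ x * htRho q x) ^ 2 * ‖gradient U x‖ ^ 2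
      = κ⁻¹ * ∫ x, ζ x ^ 2 * (htEps κ q x * ‖fderiv ℝ U x‖ ^ 2) := by
    rw [← integral_const_mul]
    refine integral_congr_ae (Eventually.of_forall fun x => ?_)
    simp only
    rw [mul_pow, htRho_sq, ht_wells_norm_grad]
    unfold htEps
    have := h.pos
    field_simp
  have e3 : ∫ x, (htRho q x * ‖fderiv ℝ ζ x‖) ^ 2 = κ⁻¹ * ∫ x, htEps κ q x * ‖fderiv ℝ ζ x‖ ^ 2 := by
    rw [← integral_const_mul]
    refine integral_congr_ae (Eventually.of_forall fun x => ?_)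
    simp only
    rw [mul_pow, htRho_sq]
    unfold htEps
    have := h.pos
    field_simp
  rw [e2, e3]
  have := h.pos
  field_simp

/-- the same with the full energy on the right. -/
theorem ht_wells_near' {κ : ℝ} {q : E n} {U : E n → ℝ} (h : HtAC n κ q U) {ζ : E n → ℝ} (hζ : ContDiff ℝ 1 ζ)
    (hc : HasCompactSupport ζ) (hq : q ∉ tsupport ζ) {b : ℝ} (hb0 : 0 < b) (hb1 : b ≤ 1 / 4) :
    ∫ x in {x | 1 - b ≤ |U x|}, ζ x ^ 2 * htE κ q U x
      ≤ b * (36 * (∫ x, ζ x ^ 2 * htE κ q U x) + 10 * ∫ x, htEps κ q x * ‖fderiv ℝ ζ x‖ ^ 2) := by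
  have h1 := ht_wells_near h hζ hc hq hb0 hb1
  have i1 : Integrable fun x => ζ x ^ 2 * (htEps κ q x * ‖fderiv ℝ U x‖ ^ 2) :=
    ht_wells_int hζ.continuous hc hq ((htEps_cont κ q).continuousOn.mul ((ht_wells_fderivC h).norm.pow 2))
  have i2 : Integrable fun x => 2 * (ζ x ^ 2 * htE κ q U x) :=
    (ht_wells_int hζ.continuous hc hq (htE_contOn h)).const_mul 2
  have h2 : ∫ x, ζ x ^ 2 * (htEps κ q x * ‖fderiv ℝ U x‖ ^ 2) ≤ 2 * ∫ x, ζ x ^ 2 * htE κ q U x := by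
    rw [← integral_const_mul]
    refine integral_mono i1 i2 fun x => ?_
    have h3 : htEps κ q x * ‖fderiv ℝ U x‖ ^ 2 ≤ 2 * htE κ q U x := by
      have h4 := htEps_nonneg h.pos q x
      have h5 : 0 ≤ acW (U x) / htEps κ q x := by unfold acW; positivity
      unfold htE
      linarith
    have := mul_le_mul_of_nonneg_left h3 (sq_nonneg (ζ x))
    simp only
    linarith
  have := mul_le_mul_of_nonneg_left h2 (by positivity : (0 : ℝ) ≤ 18 * b)
  linarith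

/-- **AC6 / P5 (clearing out, Caccioppoli).** -/
theorem ht_wells_clear {κ : ℝ} {q : E n} {U : E n → ℝ} (h : HtAC n κ q U) {Ω : Set (E n)} (hΩ : IsOpen Ω) (hqΩ : q ∉ Ω)
    (hU : ∀ x ∈ Ω, 1 / 2 ≤ |U x|) {ζ : E n → ℝ} (hζ : ContDiff ℝ 1 ζ) (hc : HasCompactSupport ζ) (hs : tsupport ζ ⊆ Ω) :
    ∫ x, ζ x ^ 2 * htE κ q U x ≤ 72 * ∫ x, htEps κ q x * ‖fderiv ℝ ζ x‖ ^ 2 := by
  have hq0 : ζ q = 0 := image_eq_zero_of_notMem_tsupport fun h' => hqΩ (hs h')
  have hm := ht_well_clear (ht_wells_data h hΩ hqΩ hζ hc hs) h.pos hU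
  simp only [ht_wells_dens h.pos q U ζ hq0] at hm
  refine hm.trans (le_of_eq ?_)
  have e3 : ∫ x, (htRho q x * ‖fderiv ℝ ζ x‖) ^ 2 = κ⁻¹ * ∫ x, htEps κ q x * ‖fderiv ℝ ζ x‖ ^ 2 := by
    rw [← integral_const_mul]
    refine integral_congr_ae (Eventually.of_forall fun x => ?_)
    simp only
    rw [mul_pow, htRho_sq]
    unfold htEps
    have := h.pos
    field_simp
  rw [e3]
  have := h.pos
  field_simp

/-- scaled cut-off functions. -/
theorem ht_wells_cut (n : ℕ) : ∃ M : ℝ, 0 ≤ M ∧ ∀ (x : E n) (r : ℝ), 0 < r → ∃ ζ : E n → ℝ, ContDiff ℝ 1 ζ ∧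
    HasCompactSupport ζ ∧ tsupport ζ ⊆ ball x r ∧ (∀ y, ζ y ∈ Icc (0 : ℝ) 1) ∧ (∀ y ∈ ball x (r / 2), ζ y = 1) ∧
    ∀ y, ‖fderiv ℝ ζ y‖ ≤ M / r := by
  obtain ⟨χ, h1, h2, h3, h4, h5⟩ := gmt_exists_cutoff (isCompact_closedBall (0 : E n) (1 / 2))
    (isOpen_ball (x := (0 : E n)) (ε := 1)) (closedBall_subset_ball (by norm_num))
  have hχ1 : ContDiff ℝ 1 χ := h1.of_le (by norm_cast)
  obtain ⟨M, hM⟩ := (hχ1.continuous_fderiv one_ne_zero).bounded_above_of_compact_support (h2.fderiv ℝ)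
  have hM0 : 0 ≤ M := (norm_nonneg _).trans (hM 0)
  refine ⟨M, hM0, fun x r hr => ?_⟩
  have hr' : r⁻¹ ≠ 0 := inv_ne_zero hr.ne'
  set φ : E n ≃ₜ E n := (Homeomorph.subRight x).trans (Homeomorph.smulOfNeZero r⁻¹ hr') with hφ
  have hφa : ∀ y, φ y = r⁻¹ • (y - x) := fun y => rfl
  have hts : tsupport (χ ∘ φ) = φ ⁻¹' tsupport χ := tsupport_comp_eq_preimage χ φ
  have hnorm : ∀ y, ‖φ y‖ = ‖y - x‖ / r := fun y => by
    rw [hφa, norm_smul, Real.norm_eq_abs, abs_of_pos (inv_pos.2 hr), div_eq_inv_mul]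
  have hφd : ∀ y, HasFDerivAt φ (r⁻¹ • ContinuousLinearMap.id ℝ (E n)) y := fun y =>
    ((hasFDerivAt_id y).sub_const x).const_smul r⁻¹
  refine ⟨χ ∘ φ, ?_, h2.comp_isClosedEmbedding φ.isClosedEmbedding, ?_, fun y => h4 _, fun y hy => ?_, fun y => ?_⟩
  · exact hχ1.comp ((contDiff_id.sub contDiff_const).const_smul r⁻¹)
  · rw [hts]
    intro y hy
    have := h3 hy
    rw [mem_ball_zero_iff, hnorm, div_lt_one hr] at this
    rwa [mem_ball, dist_eq_norm]
  · refine h5.self_of_nhdsSet _ ?_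
    rw [mem_closedBall_zero_iff, hnorm, div_le_iff₀ hr]
    rw [mem_ball, dist_eq_norm] at hy
    linarith
  · have hd : HasFDerivAt (χ ∘ φ) ((fderiv ℝ χ (φ y)).comp (r⁻¹ • ContinuousLinearMap.id ℝ (E n))) y :=
      ((hχ1.differentiable one_ne_zero (φ y)).hasFDerivAt).comp y (hφd y)
    rw [hd.fderiv]
    have e : (fderiv ℝ χ (φ y)).comp (r⁻¹ • ContinuousLinearMap.id ℝ (E n)) = r⁻¹ • fderiv ℝ χ (φ y) := by
      ext v
      simp
    rw [e, norm_smul, Real.norm_eq_abs, abs_of_pos (inv_pos.2 hr), div_eq_inv_mul]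
    exact mul_le_mul_of_nonneg_left (hM _) (inv_pos.2 hr).le

/-- **P5 on balls**: `|U| ≥ 1/2` on `B_r(x) ∌ q`  ⟹  `∫_{B_{r/2}(x)} e ≤ C_n (sup_{B_r(x)} ε̂) rⁿ / r²`. -/
theorem ht_wells_ball (n : ℕ) : ∃ C : ℝ, 0 ≤ C ∧ ∀ (κ : ℝ) (q : E n) (U : E n → ℝ), HtAC n κ q U →
    ∀ (x : E n) (r : ℝ), 0 < r → q ∉ ball x r → (∀ y ∈ ball x r, 1 / 2 ≤ |U y|) →
    ∫ y in ball x (r / 2), htE κ q U y ≤ C * (κ * (‖x - q‖ + r)) * r ^ n / r ^ 2 := by
  obtain ⟨M, hM0, hM⟩ := ht_wells_cut n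
  refine ⟨72 * M ^ 2 * gmtOm n, by have := gmtOm_nonneg n; positivity, fun κ q U h x r hr hq hU => ?_⟩
  obtain ⟨ζ, z1, z2, z3, z4, z5, z6⟩ := hM x r hr
  have hc := ht_wells_clear h isOpen_ball hq hU z1 z2 z3
  have hqt : q ∉ tsupport ζ := fun h' => hq (z3 h')
  have i1 : Integrable fun y => ζ y ^ 2 * htE κ q U y := ht_wells_int z1.continuous z2 hqt (htE_contOn h)
  have l1 : ∫ y in ball x (r / 2), htE κ q U y ≤ ∫ y, ζ y ^ 2 * htE κ q U y := by
    have e1 : ∫ y in ball x (r / 2), htE κ q U y = ∫ y in ball x (r / 2), ζ y ^ 2 * htE κ q U y := by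
      refine setIntegral_congr_fun measurableSet_ball fun y hy => ?_
      rw [z5 y hy]
      ring
    rw [e1]
    exact setIntegral_le_integral i1 (Eventually.of_forall fun y => mul_nonneg (sq_nonneg _) (htE_nonneg h.pos q U y))
  have l2 : ∫ y, htEps κ q y * ‖fderiv ℝ ζ y‖ ^ 2 ≤ (κ * (‖x - q‖ + r)) * (M / r) ^ 2 * (gmtOm n * r ^ n) := by
    have hv : (volume (ball x r)).toReal = gmtOm n * r ^ n := by
      have := gmtVolB_univ x hr
      unfold gmtVolB at this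
      rwa [univ_inter] at this
    have e1 : ∫ y, htEps κ q y * ‖fderiv ℝ ζ y‖ ^ 2 = ∫ y in ball x r, htEps κ q y * ‖fderiv ℝ ζ y‖ ^ 2 := by
      refine (setIntegral_eq_integral_of_forall_compl_eq_zero fun y hy => ?_).symm
      have : fderiv ℝ ζ y = 0 := fderiv_of_notMem_tsupport (𝕜 := ℝ) fun h' => hy (z3 h')
      simp [this]
    rw [e1]
    have e2 : ∫ _y in ball x r, (κ * (‖x - q‖ + r)) * (M / r) ^ 2
        = (κ * (‖x - q‖ + r)) * (M / r) ^ 2 * (gmtOm n * r ^ n) := by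
      rw [setIntegral_const, smul_eq_mul, Measure.real, hv]
      ring
    rw [← e2]
    refine setIntegral_mono_on ?_ (integrableOn_const measure_ball_lt_top.ne) measurableSet_ball fun y hy => ?_
    · have hcont : Continuous fun y => htEps κ q y * ‖fderiv ℝ ζ y‖ ^ 2 :=
        (htEps_cont κ q).mul ((z1.continuous_fderiv one_ne_zero).norm.pow 2)
      refine (hcont.integrable_of_hasCompactSupport (z2.mono' fun y hy => ?_)).integrableOn
      by_contra hy'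
      apply hy
      have : fderiv ℝ ζ y = 0 := fderiv_of_notMem_tsupport (𝕜 := ℝ) hy'
      simp [this]
    · have h1 : htEps κ q y ≤ κ * (‖x - q‖ + r) := by
        unfold htEps
        refine mul_le_mul_of_nonneg_left ?_ h.pos.le
        rw [mem_ball, dist_eq_norm] at hy
        calc ‖y - q‖ = ‖(x - q) + (y - x)‖ := by congr 1; abel
          _ ≤ ‖x - q‖ + ‖y - x‖ := norm_add_le _ _
          _ ≤ ‖x - q‖ + r := by linarith
      have h2 : ‖fderiv ℝ ζ y‖ ^ 2 ≤ (M / r) ^ 2 := pow_le_pow_left₀ (norm_nonneg _) (z6 y) 2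
      exact mul_le_mul h1 h2 (sq_nonneg _) ((htEps_nonneg h.pos q y).trans h1)
  calc ∫ y in ball x (r / 2), htE κ q U y ≤ 72 * ((κ * (‖x - q‖ + r)) * (M / r) ^ 2 * (gmtOm n * r ^ n)) := by linarith
    _ = 72 * M ^ 2 * gmtOm n * (κ * (‖x - q‖ + r)) * r ^ n / r ^ 2 := by
      field_simp

theorem ht_wells_acC_pos : 0 < acC := by
  unfold acC
  positivity

theorem ht_wells_xi_abs {κ : ℝ} (hκ : 0 < κ) (q : E n) (U : E n → ℝ) (x : E n) : |htXi κ q U x| ≤ htE κ q U x := by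
  have h4 := htEps_nonneg hκ q x
  have h5 : 0 ≤ acW (U x) / htEps κ q x := by unfold acW; positivity
  have h6 : 0 ≤ htEps κ q x / 2 * ‖fderiv ℝ U x‖ ^ 2 := by positivity
  unfold htXi htE
  rw [abs_le]
  constructor <;> linarith

/-- `0 ≤ d ≤ 2 e / acC` (no Modica needed). -/
theorem ht_wells_D_bounds (hn : 3 ≤ n) {κ : ℝ} (hκ : 0 < κ) (q : E n) (U : E n → ℝ) (x : E n) :
    0 ≤ htD n κ q U x ∧ htD n κ q U x ≤ 2 / acC * htE κ q U x := by
  have h1 := abs_le.1 (ht_wells_xi_abs hκ q U x)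
  have h0 := htE_nonneg hκ q U x
  have hn' : (1 : ℝ) ≤ (n : ℝ) - 2 := by
    have : (3 : ℝ) ≤ n := by exact_mod_cast hn
    linarith
  have hc := ht_wells_acC_pos
  have h2 : |htXi κ q U x / ((n : ℝ) - 2)| ≤ htE κ q U x := by
    rw [abs_div, abs_of_pos (by linarith : (0 : ℝ) < (n : ℝ) - 2)]
    exact (div_le_self (abs_nonneg _) hn').trans (ht_wells_xi_abs hκ q U x)
  have h3 := abs_le.1 h2
  unfold htD
  constructor
  · exact div_nonneg (by linarith) hc.le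
  · rw [div_le_iff₀ hc]
    have : 2 / acC * htE κ q U x * acC = 2 * htE κ q U x := by field_simp
    rw [this]
    linarith

/-- **P5 for the mass measure.** -/
theorem ht_wells_ball_mu (n : ℕ) (hn : 3 ≤ n) : ∃ C : ℝ, 0 ≤ C ∧ ∀ (κ : ℝ) (q : E n) (U : E n → ℝ), HtAC n κ q U →
    ∀ (x : E n) (r : ℝ), 0 < r → q ∉ ball x r → (∀ y ∈ ball x r, 1 / 2 ≤ |U y|) →
    htMu n κ q U (ball x (r / 2)) ≤ ENNReal.ofReal (C * (κ * (‖x - q‖ + r)) * r ^ n / r ^ 2) := by
  obtain ⟨C, hC0, hC⟩ := ht_wells_ball n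
  have hc := ht_wells_acC_pos
  refine ⟨2 / acC * C, by positivity, fun κ q U h x r hr hq hU => ?_⟩
  have h1 := hC κ q U h x r hr hq hU
  have hsub : closedBall x (r / 2) ⊆ ({q}ᶜ : Set (E n)) := fun y hy => by
    simp only [mem_compl_iff, mem_singleton_iff]
    rintro rfl
    exact hq (closedBall_subset_ball (by linarith) hy)
  have hi : IntegrableOn (htE κ q U) (ball x (r / 2)) :=
    (((htE_contOn h).mono hsub).integrableOn_compact (isCompact_closedBall x (r / 2))).mono_set ball_subset_closedBall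
  unfold htMu
  rw [withDensity_apply _ measurableSet_ball]
  calc ∫⁻ y in ball x (r / 2), ENNReal.ofReal (htD n κ q U y)
      ≤ ∫⁻ y in ball x (r / 2), ENNReal.ofReal (2 / acC * htE κ q U y) :=
        lintegral_mono fun y => ENNReal.ofReal_le_ofReal (ht_wells_D_bounds hn h.pos q U y).2
    _ = ENNReal.ofReal (∫ y in ball x (r / 2), 2 / acC * htE κ q U y) :=
        (ofReal_integral_eq_lintegral_ofReal (hi.const_mul _)
          (Eventually.of_forall fun y => mul_nonneg (by positivity) (htE_nonneg h.pos q U y))).symm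
    _ ≤ _ := by
        refine ENNReal.ofReal_le_ofReal ?_
        rw [integral_const_mul]
        have := mul_le_mul_of_nonneg_left h1 (by positivity : (0 : ℝ) ≤ 2 / acC)
        refine this.trans (le_of_eq ?_)
        ring

end Claimed.Agent.R323
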