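import Claimed.Agent.R323.Ht.Modica
import Claimed.Agent.R323.Ht.WellsAC
import Claimed.Agent.Lib.Gmt.BvMoll

/-!
# Row 323, block C, sub-block AC: the POINTWISE facts of `Ht/Ac.lean`.   (helper101)
`hta_ac_of_sol`, `hta_sol_of_ac` (translate the vertex to `0`), `hta_xi_nonneg` (Modica for `HtAC`), `hta_D_nonneg`, `hta_E_le_D` (`e ≤ acC d`), `hta_Xi_le_D`,
`hta_dPhi_le`, `hta_W_le`, `hta_grad`, `hta_grad'` (`ε̂ |DU| ≤ √(2W) ≤ 1/√2`: in the form `ε̂² |DU|² ≤ 2 W ≤ 1/2`).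
-/

set_option autoImplicit false
open scoped ContDiff ENNReal NNReal RealInnerProductSpace Topology
open MeasureTheory Metric Set Filter

namespace Claimed.Agent.R323

open Claimed.Agent.Gmt

variable {n : ℕ}

theorem hta_ac_of_sol {ε : ℝ} {U : E n → ℝ} (hε : 0 < ε) (h : AcSol n ε U) : HtAC n ε 0 U where
  pos := hε
  smooth := h.smooth
  hom := fun t ht x => by simpa using h.hom t ht x
  bdd := h.bdd
  eq := fun x hx => by simpa using h.eq x hx

theorem hta_fderiv_tr (U : E n → ℝ) (q x : E n) : fderiv ℝ (fun y => U (q + y)) x = fderiv ℝ U (q + x) :=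
  fderiv_comp_add_left q

theorem hta_flLap_tr (U : E n → ℝ) (q x : E n) : flLap (fun y => U (q + y)) x = flLap U (q + x) := by
  have h1 : gradient (fun y => U (q + y)) = fun y => gradient U (y + q) := by
    funext y
    unfold gradient
    rw [hta_fderiv_tr, add_comm]
  unfold flLap
  rw [h1, gmtDiv_translate, add_comm]

/-- translate the vertex to the origin. -/
theorem hta_sol_of_ac {κ : ℝ} {q : E n} {U : E n → ℝ} (h : HtAC n κ q U) : AcSol n κ (fun y => U (q + y)) where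
  smooth := by
    refine h.smooth.comp (contDiff_const.add contDiff_id).contDiffOn fun y hy => ?_
    simpa using hy
  hom := fun t ht x => by
    have := h.hom t ht (q + x)
    simpa using this
  bdd := fun x => h.bdd _
  eq := fun x hx => by
    have := h.eq (q + x) (by simpa using hx)
    rw [hta_flLap_tr]
    simpa using this

/-- Modica in the form `ε̂² |DU|² ≤ 2 W(U)`. -/
theorem hta_modica (hn : 3 ≤ n) {κ : ℝ} {q : E n} {U : E n → ℝ} (h : HtAC n κ q U) (x : E n) :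
    htEps κ q x ^ 2 * ‖fderiv ℝ U x‖ ^ 2 ≤ 2 * acW (U x) := by
  by_cases hx : x = q
  · subst hx
    have := ht_acW_nonneg (U x)
    simp [htEps]
    linarith
  · have h1 := ht_modica h.pos hn (hta_sol_of_ac h) (x := x - q) (sub_ne_zero.2 hx)
    rw [hta_fderiv_tr] at h1
    simp only [add_sub_cancel] at h1
    unfold htEps
    nlinarith

/-- AC1: Modica's inequality. -/
theorem hta_xi_nonneg (hn : 3 ≤ n) {κ : ℝ} {q : E n} {U : E n → ℝ} (h : HtAC n κ q U) (x : E n) : 0 ≤ htXi κ q U x := by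
  by_cases hx : x = q
  · subst hx
    simp [htXi, htEps]
  · have hp := htEps_pos h.pos hx
    have h1 := hta_modica hn h x
    unfold htXi
    rw [sub_nonneg, le_div_iff₀ hp]
    nlinarith

theorem hta_D_nonneg (hn : 3 ≤ n) {κ : ℝ} {q : E n} {U : E n → ℝ} (h : HtAC n κ q U) (x : E n) : 0 ≤ htD n κ q U x :=
  (ht_wells_D_bounds hn h.pos q U x).1

theorem hta_n2 (hn : 3 ≤ n) : (1 : ℝ) ≤ (n : ℝ) - 2 := by
  have : (3 : ℝ) ≤ n := by exact_mod_cast hn
  linarith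

/-- `e ≤ acC d`. -/
theorem hta_E_le_D (hn : 3 ≤ n) {κ : ℝ} {q : E n} {U : E n → ℝ} (h : HtAC n κ q U) (x : E n) :
    htE κ q U x ≤ acC * htD n κ q U x := by
  have h1 := hta_xi_nonneg hn h x
  have h2 := hta_n2 hn
  have hc := ht_wells_acC_pos
  have h3 : 0 ≤ htXi κ q U x / ((n : ℝ) - 2) := div_nonneg h1 (by linarith)
  unfold htD
  rw [mul_div_cancel₀ _ hc.ne']
  linarith

theorem hta_Xi_le_D (hn : 3 ≤ n) {κ : ℝ} {q : E n} {U : E n → ℝ} (h : HtAC n κ q U) (x : E n) :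
    htXi κ q U x / acC ≤ htD n κ q U x := by
  have hc := ht_wells_acC_pos
  rw [div_le_iff₀ hc, mul_comm]
  exact ((le_abs_self _).trans (ht_wells_xi_abs h.pos q U x)).trans (hta_E_le_D hn h x)

/-- `W(U) ≤ acC ε̂ d`. -/
theorem hta_W_le (hn : 3 ≤ n) {κ : ℝ} {q : E n} {U : E n → ℝ} (h : HtAC n κ q U) (x : E n) (hx : x ≠ q) :
    acW (U x) ≤ acC * htEps κ q x * htD n κ q U x := by
  have hp := htEps_pos h.pos hx
  have h1 := hta_E_le_D hn h x
  have h2 : acW (U x) / htEps κ q x ≤ htE κ q U x := by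
    unfold htE
    have : 0 ≤ htEps κ q x / 2 * ‖fderiv ℝ U x‖ ^ 2 := by positivity
    linarith
  rw [div_le_iff₀ hp] at h2
  nlinarith

theorem hta_acW_le (s : ℝ) (hs : |s| ≤ 1) : acW s ≤ 1 / 4 := by
  have h1 : s ^ 2 ≤ 1 := by
    rw [← sq_abs]
    nlinarith [abs_nonneg s]
  unfold acW
  nlinarith [sq_nonneg s]

/-- AC4: gradient bound. -/
theorem hta_grad (hn : 3 ≤ n) {κ : ℝ} {q : E n} {U : E n → ℝ} (h : HtAC n κ q U) (x : E n) :
    htEps κ q x * ‖fderiv ℝ U x‖ ≤ 1 := by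
  have h1 := hta_modica hn h x
  have h2 := hta_acW_le (U x) (h.bdd x)
  have h3 : (htEps κ q x * ‖fderiv ℝ U x‖) ^ 2 ≤ 1 ^ 2 := by
    rw [mul_pow]
    linarith
  exact (pow_le_pow_iff_left₀ (mul_nonneg (htEps_nonneg h.pos q x) (norm_nonneg _)) (by norm_num) (by norm_num)).1 h3

theorem hta_htPhi_deriv (s : ℝ) : HasDerivAt htPhi ((1 - s ^ 2) / Real.sqrt 2) s := by
  unfold htPhi
  have h1 : HasDerivAt (fun s : ℝ => s - s ^ 3 / 3) (1 - s ^ 2) s := by
    have h2 : HasDerivAt (fun s : ℝ => s - s ^ 3 / 3) (1 - (3 : ℕ) * s ^ (3 - 1) / 3) s :=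
      (hasDerivAt_id' s).fun_sub ((hasDerivAt_pow 3 s).div_const 3)
    have e : (1 : ℝ) - (3 : ℕ) * s ^ (3 - 1) / 3 = 1 - s ^ 2 := by
      norm_num
    rwa [e] at h2
  exact h1.div_const _

/-- `|D_v Φ(U)| ≤ acC d |v|`. -/
theorem hta_dPhi_le (hn : 3 ≤ n) {κ : ℝ} {q : E n} {U : E n → ℝ} (h : HtAC n κ q U) (x v : E n) (hx : x ≠ q) :
    |fderiv ℝ (fun z => htPhi (U z)) x v| ≤ acC * htD n κ q U x * ‖v‖ := by
  have hd : DifferentiableAt ℝ U x :=
    (h.smooth.contDiffAt (isOpen_compl_singleton.mem_nhds hx)).differentiableAt (by simp)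
  have h1 : HasFDerivAt (fun z => htPhi (U z)) (((1 - U x ^ 2) / Real.sqrt 2) • fderiv ℝ U x) x :=
    (hta_htPhi_deriv (U x)).comp_hasFDerivAt x hd.hasFDerivAt
  rw [h1.fderiv]
  simp only [smul_apply, smul_eq_mul]
  have hp := htEps_pos h.pos hx
  have hE := hta_E_le_D hn h x
  have hv : |fderiv ℝ U x v| ≤ ‖fderiv ℝ U x‖ * ‖v‖ := (fderiv ℝ U x).le_opNorm v
  have hs2 : 0 < Real.sqrt 2 := by positivity
  have hsq : Real.sqrt 2 ^ 2 = 2 := Real.sq_sqrt (by norm_num)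
  set B := ‖fderiv ℝ U x‖
  set e := htEps κ q x
  set w := (1 - U x ^ 2) / Real.sqrt 2 with hw
  have hB0 : 0 ≤ B := norm_nonneg _
  -- `w² = 2 W`
  have hw2 : w ^ 2 = 2 * acW (U x) := by
    rw [hw, div_pow, hsq]
    unfold acW
    ring
  -- `|w| B ≤ e B²/2 + W/e`
  have hy : |w| * B ≤ htE κ q U x := by
    have e1 : htE κ q U x = e / 2 * B ^ 2 + w ^ 2 / (2 * e) := by
      rw [hw2]
      have : htE κ q U x = e / 2 * B ^ 2 + acW (U x) / e := rfl
      rw [this]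
      field_simp
    rw [e1, ← sq_abs w]
    have e2 : e / 2 * B ^ 2 + |w| ^ 2 / (2 * e) - |w| * B = (e * B - |w|) ^ 2 / (2 * e) := by
      field_simp
      ring
    have e3 : 0 ≤ (e * B - |w|) ^ 2 / (2 * e) := by positivity
    linarith
  rw [abs_mul]
  calc |w| * |fderiv ℝ U x v| ≤ |w| * (B * ‖v‖) := mul_le_mul_of_nonneg_left hv (abs_nonneg _)
    _ = |w| * B * ‖v‖ := by ring
    _ ≤ acC * htD n κ q U x * ‖v‖ := mul_le_mul_of_nonneg_right (hy.trans hE) (norm_nonneg _)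

end Claimed.Agent.R323
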