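import Claimed.Agent.R323.Defs

/-!
# Row 323, block C (HT-lite): DEFINITIONS.   Architect: helper39.   Plan: `origin/helper39:notes/r323/C39.md`.

`n` = ambient dimension (`= m + 2`), `k = n - 1` = dimension of the interfaces.
* `HtAC n κ q U`: `U` is a translate/dilate of a solution on the sphere: `0`-homogeneous about the VERTEX `q`, `κ²|x-q|² ΔU = W'(U)`.
  `AcSol n ε U = HtAC n ε 0 U`.   Local parameter `htEps κ q x = κ |x - q|`.
* `htE` energy density, `htXi = W/ε̂ - ε̂|DU|²/2` discrepancy (`≥ 0`: Modica), `htD = (e + ξ/(n-2))/acC` MASS density,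
  `htM = (e I - ε̂ DU⊗DU + (ξ/(n-2)) x̂⊗x̂)/acC` stress tensor:   `0 ≤ M ≤ d`, `tr M = (n-1) d`, `div M = 0` on ALL of `E n` (helper137).
* `HtPair n lam d M`: abstract entire stationary pair.   Instances: (`volume`, `htD`, `htM`); limits (`μ`, `1`, `A`).
* `HtSeq n a Ω κ q U`: a sequence of data with `ε̂ → 0` locally uniformly in `Ω`, vertices away from compact subsets of `Ω`, `limsup` of the link masses `≤ a`.
* `HtK n a`: the class of entire limits.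
-/

set_option autoImplicit false
open scoped ContDiff ENNReal NNReal RealInnerProductSpace Topology
open MeasureTheory Metric Set Filter

namespace Claimed.Agent.R323

open Claimed.Agent.Gmt

variable {n : ℕ}

/-- `Φ(s) = ∫_0^s √(2W) = (s - s³/3)/√2`;  `Φ(1) - Φ(-1) = acC`. -/
noncomputable def htPhi (s : ℝ) : ℝ := (s - s ^ 3 / 3) / Real.sqrt 2

/-- translates/dilates of Allen-Cahn solutions on the sphere (vertex `q`). -/
structure HtAC (n : ℕ) (κ : ℝ) (q : E n) (U : E n → ℝ) : Prop where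
  pos : 0 < κ
  smooth : ContDiffOn ℝ ∞ U {q}ᶜ
  hom : ∀ t : ℝ, 0 < t → ∀ x, U (q + t • (x - q)) = U x
  bdd : ∀ x, |U x| ≤ 1
  eq : ∀ x, x ≠ q → κ ^ 2 * ‖x - q‖ ^ 2 * flLap U x = acW' (U x)

/-- the local parameter `ε̂(x) = κ |x - q|`. -/
noncomputable def htEps (κ : ℝ) (q x : E n) : ℝ := κ * ‖x - q‖

/-- the radial direction `x̂ = (x - q)/|x - q|`. -/
noncomputable def htDir (q x : E n) : E n := ‖x - q‖⁻¹ • (x - q)

/-- energy density `e = ε̂ |DU|²/2 + W(U)/ε̂`. -/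
noncomputable def htE (κ : ℝ) (q : E n) (U : E n → ℝ) (x : E n) : ℝ :=
  htEps κ q x / 2 * ‖fderiv ℝ U x‖ ^ 2 + acW (U x) / htEps κ q x

/-- discrepancy `ξ = W(U)/ε̂ - ε̂ |DU|²/2` (nonnegative by Modica's inequality). -/
noncomputable def htXi (κ : ℝ) (q : E n) (U : E n → ℝ) (x : E n) : ℝ :=
  acW (U x) / htEps κ q x - htEps κ q x / 2 * ‖fderiv ℝ U x‖ ^ 2

/-- mass density `d = (e + ξ/(n-2))/acC`. -/
noncomputable def htD (n : ℕ) (κ : ℝ) (q : E n) (U : E n → ℝ) (x : E n) : ℝ :=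
  (htE κ q U x + htXi κ q U x / ((n : ℝ) - 2)) / acC

/-- stress tensor `M = (e I - ε̂ DU ⊗ DU + (ξ/(n-2)) x̂ ⊗ x̂)/acC`. -/
noncomputable def htM (n : ℕ) (κ : ℝ) (q : E n) (U : E n → ℝ) (x : E n) : E n →L[ℝ] E n :=
  acC⁻¹ • (htE κ q U x • ContinuousLinearMap.id ℝ (E n)
    - htEps κ q x • (fderiv ℝ U x).smulRight (gradient U x)
    + (htXi κ q U x / ((n : ℝ) - 2)) • (innerSL ℝ (htDir q x)).smulRight (htDir q x))

/-- the mass measure `d dx`. -/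
noncomputable def htMu (n : ℕ) (κ : ℝ) (q : E n) (U : E n → ℝ) : Measure (E n) :=
  volume.withDensity fun x => ENNReal.ofReal (htD n κ q U x)

/-- the discrepancy measure `ξ dx / acC`. -/
noncomputable def htZe (κ : ℝ) (q : E n) (U : E n → ℝ) : Measure (E n) :=
  volume.withDensity fun x => ENNReal.ofReal (htXi κ q U x / acC)

/-- the total mass of the link: `(n-1) ∫_{B_1(q)} d`  (`= acE + (normalised discrepancy)/(n-2)`). -/
noncomputable def htEn (n : ℕ) (κ : ℝ) (q : E n) (U : E n → ℝ) : ℝ :=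
  ((n : ℝ) - 1) * ∫ x in ball q 1, htD n κ q U x

/-- `tr (M ∘ L) = ∑_{ij} M_{ij} L_{ij}` for symmetric `M`. -/
noncomputable def htCon (M L : E n →L[ℝ] E n) : ℝ := ∑ i, ⟪M (L (eb i)), eb i⟫

/-- **entire stationary pairs**: `0 ≤ M ≤ d`, `tr M = (n-1) d`, `div (M lam) = 0`. -/
structure HtPair (n : ℕ) (lam : Measure (E n)) (d : E n → ℝ) (M : E n → E n →L[ℝ] E n) : Prop where
  md : AEStronglyMeasurable d lam
  mM : AEStronglyMeasurable M lam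
  lint : LocallyIntegrable d lam
  symm : ∀ᵐ x ∂lam, ∀ v w : E n, ⟪M x v, w⟫ = ⟪v, M x w⟫
  nonneg : ∀ᵐ x ∂lam, ∀ v : E n, 0 ≤ ⟪M x v, v⟫
  le : ∀ᵐ x ∂lam, ∀ v : E n, ⟪M x v, v⟫ ≤ d x * ‖v‖ ^ 2
  tr : ∀ᵐ x ∂lam, ∑ i, ⟪M x (eb i), eb i⟫ = ((n : ℝ) - 1) * d x
  stat : ∀ X, GmtTest univ X → ∫ x, htCon (M x) (fderiv ℝ X x) ∂lam = 0

/-- radial kernels: smooth, antitone, `1` near `0`, `0` on `[1,∞)`. -/
structure HtKer (φ : ℝ → ℝ) : Prop where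
  smooth : ContDiff ℝ ∞ φ
  anti : Antitone φ
  one : ∃ a > 0, ∀ s ≤ a, φ s = 1
  zero : ∀ s, 1 ≤ s → φ s = 0

/-- the standard kernels: `1` on `(-∞, 1-δ]`, `0` on `[1,∞)`. -/
noncomputable def htKer (δ s : ℝ) : ℝ := Real.smoothTransition ((1 - s) / δ)

/-- smoothed mass ratio. -/
noncomputable def htI (n : ℕ) (lam : Measure (E n)) (d : E n → ℝ) (φ : ℝ → ℝ) (x : E n) (ρ : ℝ) : ℝ :=
  (ρ ^ (n - 1))⁻¹ * ∫ y, φ (‖y - x‖ / ρ) * d y ∂lam

/-- sharp mass ratio. -/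
noncomputable def htR (n : ℕ) (lam : Measure (E n)) (d : E n → ℝ) (x : E n) (ρ : ℝ) : ℝ :=
  (ρ ^ (n - 1))⁻¹ * ∫ y in ball x ρ, d y ∂lam

/-- the change of variables `y ↦ x₀ + r O y`. -/
noncomputable def htTr (O : E n ≃ₗᵢ[ℝ] E n) (x₀ : E n) (r : ℝ) (U : E n → ℝ) : E n → ℝ :=
  fun y => U (x₀ + r • O y)

/-- the new vertex. -/
noncomputable def htTrq (O : E n ≃ₗᵢ[ℝ] E n) (x₀ : E n) (r : ℝ) (q : E n) : E n := O.symm (r⁻¹ • (q - x₀))

/-- the limit function of a set: `-1` on `S`, `+1` off `S`  (so `D Φ(U_i) → acC ν_S |Dχ_S|`, `ν_S` = OUTER normal). -/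
noncomputable def htSgn (S : Set (E n)) (x : E n) : ℝ := 1 - 2 * gmtChi S x

/-- a sequence of data: `ε̂ → 0` locally uniformly in `Ω`, vertices away from compact subsets of `Ω`, `limsup` link mass `≤ a`. -/
structure HtSeq (n : ℕ) (a : ℝ) (Ω : Set (E n)) (κ : ℕ → ℝ) (q : ℕ → E n) (U : ℕ → E n → ℝ) : Prop where
  ac : ∀ i, HtAC n (κ i) (q i) (U i)
  en : ∀ δ > 0, ∀ᶠ i in atTop, htEn n (κ i) (q i) (U i) ≤ a + δ
  kap : Tendsto κ atTop (𝓝 0)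
  small : ∀ K, IsCompact K → K ⊆ Ω → ∀ δ > 0, ∀ᶠ i in atTop, ∀ x ∈ K, htEps (κ i) (q i) x ≤ δ
  away : ∀ K, IsCompact K → K ⊆ Ω → ∃ c > 0, ∀ᶠ i in atTop, ∀ x ∈ K, c ≤ ‖x - q i‖

/-- a convergent sequence of data: masses `→ μ`, tensors `→ A μ`, discrepancies `→ ζ`, `U_i → htSgn S` in `L¹_loc`. -/
structure HtConv (n : ℕ) (κ : ℕ → ℝ) (q : ℕ → E n) (U : ℕ → E n → ℝ) (μ ζ : Measure (E n))
    (A : E n → E n →L[ℝ] E n) (S : Set (E n)) : Prop where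
  mS : MeasurableSet S
  mA : Measurable A
  symm : ∀ x v w, ⟪A x v, w⟫ = ⟪v, A x w⟫
  bdd : ∃ C : ℝ, ∀ x, ‖A x‖ ≤ C
  fin : ∀ K, IsCompact K → μ K ≠ ⊤
  finZ : ∀ K, IsCompact K → ζ K ≠ ⊤
  wk : GmtWk univ (fun i => htMu n (κ i) (q i) (U i)) μ
  wkZ : GmtWk univ (fun i => htZe (κ i) (q i) (U i)) ζ
  wkM : ∀ v : E n, ∀ g : E n → ℝ, Continuous g → HasCompactSupport g →
    Tendsto (fun i => ∫ x, g x * ⟪htM n (κ i) (q i) (U i) x v, v⟫) atTop (𝓝 (∫ x, g x * ⟪A x v, v⟫ ∂μ))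
  l1 : GmtConvF univ U (htSgn S)

/-- **the class of entire limits** with link masses `≤ a`. -/
def HtK (n : ℕ) (a : ℝ) (S : Set (E n)) : Prop :=
  MeasurableSet S ∧ ∃ (κ : ℕ → ℝ) (q : ℕ → E n) (U : ℕ → E n → ℝ), HtSeq n a univ κ q U ∧ GmtConvF univ U (htSgn S)

/-- the orthogonal projection onto `e^⊥`. -/
noncomputable def htProj (e : E n) : E n →L[ℝ] E n :=
  ContinuousLinearMap.id ℝ (E n) - (innerSL ℝ e).smulRight e

end Claimed.Agent.R323
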