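import Claimed.Agent.R323.Ht.FlatC

/-!
# Row 323, block C, unit FL: TONELLI AND THE ABSTRACT FLAT LEMMA (step H of `FL115.md`).   Cutter: helper105.   Prefix `htf_`.
EXIT: `htf_main : HtfSit d 𝔭 u eh ρ f → ∃ sg = ±1, ∫⁻_{htfC d} ofReal (ρ - sg ∂_tΦ(u)/acC) ≤ ofReal 𝔭.s`.
LEAVES  L-FL-D1 … L-FL-D3.   Replace `sorry` IN PLACE, statements verbatim, helpers above the theorem (prefix `htf_`).
-/

set_option autoImplicit false
open scoped ContDiff ENNReal NNReal RealInnerProductSpace Topology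
open MeasureTheory Metric Set Filter

namespace Claimed.Agent.R323

open Claimed.Agent.Gmt

variable {d : ℕ} {𝔭 : HtfPar} {u eh ρ f : E (d + 1) → ℝ}

/-! ### LEAF L-FL-D1 : measurability, the integral of `htfF` -/

/-- (`measurable_fderiv_apply_const`, `hu.pow_const`, …) -/
theorem htf_measurable_V (hu : Measurable u) : Measurable (htfDPhi u) := by
  unfold htfDPhi htfDt
  exact (((measurable_const.sub (hu.pow_const 2)).div_const _).mul (measurable_fderiv_apply_const ℝ u (gmtEn d)))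

/-- `htfC d ⊆ ball 0 5`, `{‖hor‖ < 2, |ver| < 4} ⊆ ball 0 5`  (`fl_norm_sq`: `‖y‖² < 4 + 16 < 25`). -/
theorem htf_cyl_sub {y : E (d + 1)} (h1 : ‖gmtHor y‖ < 2) (h2 : |gmtVer y| < 4) : y ∈ ball (0 : E (d + 1)) 5 := by
  rw [mem_ball_zero_iff]
  have h3 := fl_norm_sq y
  have h4 : ‖gmtHor y‖ ^ 2 < 4 := by nlinarith [norm_nonneg (gmtHor y)]
  have h5 : gmtVer y ^ 2 < 16 := by
    rw [← sq_abs]
    nlinarith [abs_nonneg (gmtVer y)]
  by_contra hcon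
  push Not at hcon
  nlinarith

/-- PLAN.  `htf_tonelli` (`r = 2`, `h = 4`) for `F = htfBad.indicator (ofReal |V|)` (measurable: `htf_isOpen_bad`, `htf_measurable_V`): `∫⁻_{ball 0 2} htfF = ∫⁻_{cyl} F ≤ ∫⁻ F = ∫⁻_{Bad} ofReal |V| ≤ ∫⁻_{Bad} ofReal (acC ρ) = acC μ(Bad)`
(`htf_V_le` on `Bad ⊆ ball 0 6 ⊆ Ω`, `ENNReal.ofReal_mul`, `lintegral_const_mul`, `htf_ms_apply`), `htf_bad_le`. -/
theorem htf_F_int (h : HtfSit d 𝔭 u eh ρ f) : ∫⁻ z in ball (0 : E d) 2, htfF 𝔭 u f z ≤ ENNReal.ofReal (acC * 𝔭.β₁ d) := by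
  have hn := h.num
  have hA := htf_acC_pos
  have hBm : MeasurableSet (htfBad (htfMs f) 𝔭.γ 𝔭.R₁) := (htf_isOpen_bad _ _ _).measurableSet
  have hFm : Measurable ((htfBad (htfMs f) 𝔭.γ 𝔭.R₁).indicator fun y => ENNReal.ofReal |htfDPhi u y|) :=
    ((htf_measurable_V h.mu).abs.ennreal_ofReal).indicator hBm
  have hsub : htfBad (htfMs f) 𝔭.γ 𝔭.R₁ ⊆ ball (0 : E (d + 1)) 𝔭.R := by
    intro y hy
    have h6 : y ∈ ball (0 : E (d + 1)) 6 := hy.1
    refine ball_subset_ball ?_ h6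
    linarith [hn.n9, hn.n7, hn.n4, hn.r₁_pos]
  unfold htfF
  rw [← htf_tonelli hFm]
  calc ∫⁻ y in {y : E (d + 1) | ‖gmtHor y‖ < 2 ∧ |gmtVer y| < 4},
        (htfBad (htfMs f) 𝔭.γ 𝔭.R₁).indicator (fun y => ENNReal.ofReal |htfDPhi u y|) y
      ≤ ∫⁻ y, (htfBad (htfMs f) 𝔭.γ 𝔭.R₁).indicator (fun y => ENNReal.ofReal |htfDPhi u y|) y := setLIntegral_le_lintegral _ _
    _ = ∫⁻ y in htfBad (htfMs f) 𝔭.γ 𝔭.R₁, ENNReal.ofReal |htfDPhi u y| := lintegral_indicator hBm _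
    _ ≤ ∫⁻ y in htfBad (htfMs f) 𝔭.γ 𝔭.R₁, ENNReal.ofReal acC * ENNReal.ofReal (ρ y) := by
        refine setLIntegral_mono' hBm fun y hy => ?_
        rw [← ENNReal.ofReal_mul hA.le]
        exact ENNReal.ofReal_le_ofReal (htf_V_le h (hsub hy))
    _ = ENNReal.ofReal acC * htfMs ρ (htfBad (htfMs f) 𝔭.γ 𝔭.R₁) := by
        rw [lintegral_const_mul' _ _ ENNReal.ofReal_ne_top, htf_ms_apply ρ hBm]
    _ ≤ ENNReal.ofReal acC * ENNReal.ofReal (𝔭.β₁ d) := by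
        gcongr
        exact htf_bad_le h
    _ = _ := by rw [← ENNReal.ofReal_mul hA.le]

/-! ### LEAF L-FL-D2 : the three parts of the cylinder -/

theorem htf_six_le_R (hn : HtfNum d 𝔭) : (6 : ℝ) ≤ 𝔭.R := by
  have h1 := hn.n9
  have h2 := hn.n7
  have h3 := hn.n4
  have h4 := hn.r₁_pos
  linarith

theorem htf_measurableSet_C (d : ℕ) : MeasurableSet (htfC d) :=
  (measurableSet_lt fl_continuous_hor.norm.measurable measurable_const).inter
    (measurableSet_lt fl_continuous_ver.abs.measurable measurable_const)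

/-- PLAN.  `htfC d ⊆ htfBad ∪ (ball 0 6 ∩ {1-b ≤ |u|}) ∪ htfG` (`htf_cyl_sub`).   `F = ofReal (|V| - sp V) ≤ ofReal (2 acC ρ)` on `Ω` (`htf_V_le`, `|sp V| = |V|`).   `∫⁻_C F ≤ ∫⁻_{Bad} F + ∫⁻_{wells} F + ∫⁻_{C ∩ G} F`
(`lintegral_mono_set`, `lintegral_union_le`), the first two `≤ 2 acC β₁`, `2 acC β₂` (`htf_bad_le`, `wells`, `htf_ms_apply`), the third `= ∫⁻_C G.indicator F = ∫⁻_{ball 0 2} htfV sp` (`htf_tonelli`, `r = h = 2`; `htf_measurableSet_G`). -/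
theorem htf_split (h : HtfSit d 𝔭 u eh ρ f) {sp : ℝ} (hsp : sp = 1 ∨ sp = -1) :
    ∫⁻ y in htfC d, ENNReal.ofReal (|htfDPhi u y| - sp * htfDPhi u y) ≤
      ENNReal.ofReal (2 * acC * (𝔭.β₁ d + 𝔭.β₂)) + ∫⁻ z in ball (0 : E d) 2, htfV 𝔭 u f sp z := by
  have hc := htf_acC_pos
  have hn := h.num
  have hβ₁ : 0 ≤ 𝔭.β₁ d := by
    unfold HtfPar.β₁
    have := hn.C₀_pos
    have := hn.δ_nonneg
    have := hn.γ_pos
    positivity
  have hβ₂ := hn.β₂_nonneg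
  have hR : (6 : ℝ) ≤ 𝔭.R := htf_six_le_R hn
  set F : E (d + 1) → ℝ≥0∞ := fun y => ENNReal.ofReal (|htfDPhi u y| - sp * htfDPhi u y) with hF
  have hFm : Measurable F :=
    ((htf_measurable_V h.mu).abs.sub ((htf_measurable_V h.mu).const_mul sp)).ennreal_ofReal
  -- the bound on a subset of `ball 0 6`
  have key : ∀ S : Set (E (d + 1)), MeasurableSet S → S ⊆ ball 0 6 →
      ∫⁻ y in S, F y ≤ ENNReal.ofReal (2 * acC) * htfMs ρ S := by
    intro S hS hS6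
    have h1 : ∀ y, F y = ENNReal.ofReal (2 * acC) *
        ENNReal.ofReal ((|htfDPhi u y| - sp * htfDPhi u y) / (2 * acC)) := by
      intro y
      rw [← ENNReal.ofReal_mul (by positivity), mul_div_cancel₀ _ (by positivity)]
    simp_rw [h1]
    rw [lintegral_const_mul' _ _ ENNReal.ofReal_ne_top]
    gcongr
    refine htf_ms_le hS fun y hy => ?_
    have hy' : y ∈ ball (0 : E (d + 1)) 𝔭.R := ball_subset_ball hR (hS6 hy)
    have h2 := htf_V_le h hy'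
    have h3 : -(sp * htfDPhi u y) ≤ |htfDPhi u y| := by
      rcases hsp with rfl | rfl
      · rw [one_mul]; exact neg_le_abs _
      · rw [neg_one_mul, neg_neg]; exact le_abs_self _
    rw [div_le_iff₀ (by positivity)]
    nlinarith
  have hBm : MeasurableSet (htfBad (htfMs f) 𝔭.γ 𝔭.R₁) := (htf_isOpen_bad _ _ _).measurableSet
  have hWm : MeasurableSet (ball (0 : E (d + 1)) 6 ∩ {y | 1 - 𝔭.b ≤ |u y|}) :=
    measurableSet_ball.inter (measurableSet_le measurable_const h.mu.abs)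
  have hGm := htf_measurableSet_G h
  have hsub : htfC d ⊆ (htfBad (htfMs f) 𝔭.γ 𝔭.R₁ ∪ (ball (0 : E (d + 1)) 6 ∩ {y | 1 - 𝔭.b ≤ |u y|})) ∪
      (htfG 𝔭 u f ∩ htfC d) := by
    intro y hy
    have hy6 : y ∈ ball (0 : E (d + 1)) 6 :=
      ball_subset_ball (by norm_num) (htf_cyl_sub hy.1 (hy.2.trans (by norm_num)))
    by_cases hg : htfGood (htfMs f) 𝔭.γ 𝔭.R₁ y
    · by_cases hu : |u y| < 1 - 𝔭.b
      · exact Or.inr ⟨⟨hy6, hg, hu⟩, hy⟩
      · exact Or.inl (Or.inr ⟨hy6, not_lt.1 hu⟩)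
    · exact Or.inl (Or.inl ⟨hy6, hg⟩)
  have h3 : ∫⁻ y in htfG 𝔭 u f ∩ htfC d, F y = ∫⁻ z in ball (0 : E d) 2, htfV 𝔭 u f sp z := by
    rw [← setLIntegral_indicator hGm]
    exact htf_tonelli (hFm.indicator hGm)
  calc ∫⁻ y in htfC d, F y
      ≤ ∫⁻ y in (htfBad (htfMs f) 𝔭.γ 𝔭.R₁ ∪ (ball (0 : E (d + 1)) 6 ∩ {y | 1 - 𝔭.b ≤ |u y|})) ∪
          (htfG 𝔭 u f ∩ htfC d), F y := lintegral_mono_set hsub
    _ ≤ ((∫⁻ y in htfBad (htfMs f) 𝔭.γ 𝔭.R₁, F y) + (∫⁻ y in ball (0 : E (d + 1)) 6 ∩ {y | 1 - 𝔭.b ≤ |u y|}, F y)) +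
          ∫⁻ y in htfG 𝔭 u f ∩ htfC d, F y :=
        (lintegral_union_le _ _ _).trans (add_le_add (lintegral_union_le _ _ _) le_rfl)
    _ ≤ (ENNReal.ofReal (2 * acC) * ENNReal.ofReal (𝔭.β₁ d) + ENNReal.ofReal (2 * acC) * ENNReal.ofReal 𝔭.β₂) +
          ∫⁻ z in ball (0 : E d) 2, htfV 𝔭 u f sp z := by
        rw [h3]
        refine add_le_add (add_le_add ?_ ?_) le_rfl
        · exact (key _ hBm fun y hy => hy.1).trans (mul_le_mul_right (htf_bad_le h) _)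
        · exact (key _ hWm fun y hy => hy.1).trans (mul_le_mul_right h.wells _)
    _ = _ := by
        rw [← mul_add, ← ENNReal.ofReal_add hβ₁ hβ₂, ← ENNReal.ofReal_mul (by positivity)]

/-! ### LEAF L-FL-D3 : from the wrong variation to the oriented excess -/

/-- PLAN.  on `htfC d ⊆ Ω`: `ρ - sp V/acC ≤ (|V| - sp V)/acC + 2 f` (`htf_rho_le`).   `∫⁻_C ofReal (..) ≤ acC⁻¹ ∫⁻_C ofReal (|V| - sp V) + 2 τ(C) ≤ X/acC + 2δ`  (`ENNReal.ofReal_add_le`, `lintegral_add_left`, `lintegral_const_mul`, `tilt`, `htf_ms_apply`, `measure_mono`). -/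
theorem htf_excess (h : HtfSit d 𝔭 u eh ρ f) {sp X : ℝ} (hX : 0 ≤ X)
    (hV : ∫⁻ y in htfC d, ENNReal.ofReal (|htfDPhi u y| - sp * htfDPhi u y) ≤ ENNReal.ofReal X) :
    ∫⁻ y in htfC d, ENNReal.ofReal (ρ y - sp * htfDPhi u y / acC) ≤ ENNReal.ofReal (X / acC + 2 * 𝔭.δ) := by
  have hc := htf_acC_pos
  have hn := h.num
  have hR : (6 : ℝ) ≤ 𝔭.R := htf_six_le_R hn
  have hCm := htf_measurableSet_C d
  have hCR : htfC d ⊆ ball (0 : E (d + 1)) 𝔭.R := fun y hy =>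
    ball_subset_ball (by linarith) (htf_cyl_sub hy.1 (hy.2.trans (by norm_num)))
  have hVm : Measurable fun y => ENNReal.ofReal (|htfDPhi u y| - sp * htfDPhi u y) :=
    ((htf_measurable_V h.mu).abs.sub ((htf_measurable_V h.mu).const_mul sp)).ennreal_ofReal
  have h1 : ∀ y ∈ htfC d, ENNReal.ofReal (ρ y - sp * htfDPhi u y / acC) ≤
      ENNReal.ofReal acC⁻¹ * ENNReal.ofReal (|htfDPhi u y| - sp * htfDPhi u y) +
        ENNReal.ofReal 2 * ENNReal.ofReal (f y) := by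
    intro y hy
    have h2 := htf_rho_le h (hCR hy)
    rw [← ENNReal.ofReal_mul (by positivity), ← ENNReal.ofReal_mul (by norm_num)]
    refine le_trans (ENNReal.ofReal_le_ofReal ?_) ENNReal.ofReal_add_le
    have h3 : ρ y ≤ acC⁻¹ * |htfDPhi u y| + 2 * f y := by
      have : acC⁻¹ * (acC * ρ y) ≤ acC⁻¹ * (|htfDPhi u y| + 2 * (acC * f y)) :=
        mul_le_mul_of_nonneg_left h2 (by positivity)
      have e1 : acC⁻¹ * (acC * ρ y) = ρ y := by field_simp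
      have e2 : acC⁻¹ * (|htfDPhi u y| + 2 * (acC * f y)) = acC⁻¹ * |htfDPhi u y| + 2 * f y := by
        field_simp
      linarith
    have e3 : sp * htfDPhi u y / acC = acC⁻¹ * (sp * htfDPhi u y) := by
      rw [div_eq_mul_inv, mul_comm]
    rw [e3, mul_sub]
    linarith
  calc ∫⁻ y in htfC d, ENNReal.ofReal (ρ y - sp * htfDPhi u y / acC)
      ≤ ∫⁻ y in htfC d, (ENNReal.ofReal acC⁻¹ * ENNReal.ofReal (|htfDPhi u y| - sp * htfDPhi u y) +
        ENNReal.ofReal 2 * ENNReal.ofReal (f y)) := setLIntegral_mono' hCm h1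
    _ = ENNReal.ofReal acC⁻¹ * (∫⁻ y in htfC d, ENNReal.ofReal (|htfDPhi u y| - sp * htfDPhi u y)) +
        ENNReal.ofReal 2 * (∫⁻ y in htfC d, ENNReal.ofReal (f y)) := by
        rw [lintegral_add_left (hVm.const_mul _), lintegral_const_mul' _ _ ENNReal.ofReal_ne_top,
          lintegral_const_mul' _ _ ENNReal.ofReal_ne_top]
    _ ≤ ENNReal.ofReal acC⁻¹ * ENNReal.ofReal X + ENNReal.ofReal 2 * ENNReal.ofReal 𝔭.δ := by
        refine add_le_add (mul_le_mul_right hV _) (mul_le_mul_right ?_ _)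
        rw [← htf_ms_apply f hCm]
        exact (measure_mono hCR).trans h.tilt
    _ = _ := by
        rw [← ENNReal.ofReal_mul (by positivity), ← ENNReal.ofReal_mul (by norm_num),
          ← ENNReal.ofReal_add (by positivity) (by have := hn.δ_nonneg; positivity), div_eq_mul_inv,
          mul_comm X]

/-! ### assembly -/

theorem htf_beta_nonneg (hn : HtfNum d 𝔭) : 0 ≤ 𝔭.β₁ d := by
  unfold HtfPar.β₁
  have := hn.C₀_pos
  have := hn.δ_nonneg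
  have := hn.γ_pos
  positivity

/-- the conclusion from the line lemma -/
theorem htf_main_of_line (h : HtfSit d 𝔭 u eh ρ f) {sp : ℝ} (hsp : sp = 1 ∨ sp = -1)
    (hL : ∀ z : E d, ‖z‖ < 2 → htfV 𝔭 u f sp z ≤ ENNReal.ofReal (2 * acC / htfcΦ) * htfF 𝔭 u f z) :
    ∫⁻ y in htfC d, ENNReal.ofReal (ρ y - sp * htfDPhi u y / acC) ≤ ENNReal.ofReal 𝔭.s := by
  have hA := htf_acC_pos
  have hc : 0 < htfcΦ := by
    rw [htf_cPhi]
    positivity
  have hβ := htf_beta_nonneg h.num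
  have hβ₂ := h.num.β₂_nonneg
  have h1 : ∫⁻ z in ball (0 : E d) 2, htfV 𝔭 u f sp z ≤ ENNReal.ofReal (2 * acC / htfcΦ * (acC * 𝔭.β₁ d)) := by
    calc ∫⁻ z in ball (0 : E d) 2, htfV 𝔭 u f sp z
        ≤ ∫⁻ z in ball (0 : E d) 2, ENNReal.ofReal (2 * acC / htfcΦ) * htfF 𝔭 u f z :=
          setLIntegral_mono' measurableSet_ball fun z hz => hL z (by simpa using hz)
      _ ≤ ENNReal.ofReal (2 * acC / htfcΦ) * ∫⁻ z in ball (0 : E d) 2, htfF 𝔭 u f z := by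
          rw [lintegral_const_mul' _ _ ENNReal.ofReal_ne_top]
      _ ≤ ENNReal.ofReal (2 * acC / htfcΦ) * ENNReal.ofReal (acC * 𝔭.β₁ d) := by
          gcongr
          exact htf_F_int h
      _ = ENNReal.ofReal (2 * acC / htfcΦ * (acC * 𝔭.β₁ d)) := by
          rw [← ENNReal.ofReal_mul (by positivity)]
  have h2 : ∫⁻ y in htfC d, ENNReal.ofReal (|htfDPhi u y| - sp * htfDPhi u y) ≤
      ENNReal.ofReal (2 * acC * (𝔭.β₁ d + 𝔭.β₂) + 2 * acC / htfcΦ * (acC * 𝔭.β₁ d)) := by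
    refine (htf_split h hsp).trans ?_
    rw [ENNReal.ofReal_add (by positivity) (by positivity)]
    gcongr
  have h3 := htf_excess h (by positivity) h2
  refine h3.trans (ENNReal.ofReal_le_ofReal ?_)
  have h4 := h.num.n15
  have h5 : (2 * acC * (𝔭.β₁ d + 𝔭.β₂) + 2 * acC / htfcΦ * (acC * 𝔭.β₁ d)) / acC =
      2 * (𝔭.β₁ d + 𝔭.β₂) + 2 * (acC / htfcΦ * 𝔭.β₁ d) := by
    field_simp
  rw [h5]
  linarith

/-- **THE ABSTRACT FLAT LEMMA.** -/
theorem htf_main (h : HtfSit d 𝔭 u eh ρ f) :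
    ∃ sg : ℝ, (sg = 1 ∨ sg = -1) ∧ ∫⁻ y in htfC d, ENNReal.ofReal (ρ y - sg * htfDPhi u y / acC) ≤ ENNReal.ofReal 𝔭.s := by
  by_cases hne : ∃ x, x ∈ htfG 𝔭 u f
  · obtain ⟨x, hx⟩ := hne
    obtain ⟨sp, hsp1, hsp⟩ := htf_sign h hx
    exact ⟨sp, hsp1, htf_main_of_line h hsp1 fun z hz => htf_line h hx hsp1 hsp hz⟩
  · refine ⟨1, Or.inl rfl, htf_main_of_line h (Or.inl rfl) fun z _ => ?_⟩
    rw [htf_V_empty 1 fun t _ hG => hne ⟨_, hG⟩]
    exact zero_le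

end Claimed.Agent.R323
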