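import Claimed.Agent.R323.Ht.Defs

/-!
# Row 323, block C, QFL: the two PURE ONE-DIMENSIONAL LEMMAS.      (helper115; `origin/helper115:notes/r323/FL115.md`, steps (C2), (G))

* `hfo_profile` : a function `g` on `[-L ε, L ε]` with `0 ≤ W(g) - c² g'²/2 ≤ w` (`c ∈ [ε/2, 2ε]`), `|g 0| ≤ 1 - b`, is strictly monotone and runs from `∓(1-b₁)` to `±(1-b₁)` within `|t| ≤ (8/b₁) ε`.
* `hfo_cross` : a `C¹` function which goes from `≥ c` to `≤ -c` (or back) carries the variation `Φ(c) - Φ(-c)` on the set `{|g| < c}`.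
-/

set_option autoImplicit false
open scoped Topology
open MeasureTheory Set Filter

namespace Claimed.Agent.R323

/-- lower bound of `z = 1 - g²` by Gronwall, to the right -/
theorem hfo_gron_right {z z' : ℝ → ℝ} {K l : ℝ} (hz : ∀ t ∈ Icc (0 : ℝ) l, HasDerivAt z (z' t) t)
    (hd : ∀ t ∈ Icc (0 : ℝ) l, -(K * z t) ≤ z' t) {t : ℝ} (ht : t ∈ Icc (0 : ℝ) l) :
    z 0 * Real.exp (-(K * t)) ≤ z t := by
  have hmono : MonotoneOn (fun s => z s * Real.exp (K * s)) (Icc (0 : ℝ) l) := by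
    have hder : ∀ s ∈ Icc (0 : ℝ) l, HasDerivAt (fun s => z s * Real.exp (K * s))
        (z' s * Real.exp (K * s) + z s * (Real.exp (K * s) * K)) s := by
      intro s hs
      have h1 : HasDerivAt (fun s : ℝ => K * s) K s := by simpa using (hasDerivAt_id s).const_mul K
      exact (hz s hs).mul h1.exp
    refine monotoneOn_of_deriv_nonneg (convex_Icc 0 l) ?_ ?_ ?_
    · exact fun s hs => (hder s hs).continuousAt.continuousWithinAt
    · intro s hs
      rw [interior_Icc] at hs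
      exact (hder s (Ioo_subset_Icc_self hs)).differentiableAt.differentiableWithinAt
    · intro s hs
      rw [interior_Icc] at hs
      have hs' := Ioo_subset_Icc_self hs
      rw [(hder s hs').deriv]
      have h2 := hd s hs'
      have h3 := Real.exp_pos (K * s)
      nlinarith
  have h0 : (0 : ℝ) ∈ Icc (0 : ℝ) l := ⟨le_rfl, ht.1.trans ht.2⟩
  have h := hmono h0 ht ht.1
  simp only [mul_zero, Real.exp_zero, mul_one] at h
  rw [Real.exp_neg]
  have h3 := Real.exp_pos (K * t)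
  rw [← div_eq_mul_inv, div_le_iff₀ h3]
  exact h

/-- the same to the left -/
theorem hfo_gron_left {z z' : ℝ → ℝ} {K l : ℝ} (hz : ∀ t ∈ Icc (-l) (0 : ℝ), HasDerivAt z (z' t) t)
    (hd : ∀ t ∈ Icc (-l) (0 : ℝ), z' t ≤ K * z t) {t : ℝ} (ht : t ∈ Icc (-l) (0 : ℝ)) :
    z 0 * Real.exp (K * t) ≤ z t := by
  have h := hfo_gron_right (z := fun s => z (-s)) (z' := fun s => -z' (-s)) (K := K) (l := l)
    (fun s hs => by
      have hs' : -s ∈ Icc (-l) (0 : ℝ) := ⟨by linarith [hs.2], by linarith [hs.1]⟩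
      have h1 : HasDerivAt (fun s : ℝ => -s) (-1) s := hasDerivAt_neg s
      have h2 := (hz (-s) hs').comp s h1
      have e : z' (-s) * -1 = -z' (-s) := by ring
      rw [e] at h2
      exact h2)
    (fun s hs => by
      have hs' : -s ∈ Icc (-l) (0 : ℝ) := ⟨by linarith [hs.2], by linarith [hs.1]⟩
      have := hd (-s) hs'
      linarith)
    (t := -t) ⟨by linarith [ht.2], by linarith [ht.1]⟩
  simpa using h

/-- bound of the derivative from `c² g'²/2 ≤ W(g)` -/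
theorem hfo_abs_deriv_le {ep c g g' : ℝ} (hep : 0 < ep) (hc : ep / 2 ≤ c) (hb : |g| ≤ 1)
    (h0 : 0 ≤ acW g - c ^ 2 * g' ^ 2 / 2) : |g'| ≤ 2 * (1 - g ^ 2) / ep := by
  have hz : 0 ≤ 1 - g ^ 2 := by
    have := sq_le_one_iff_abs_le_one g |>.2 hb
    linarith
  unfold acW at h0
  have hc0 : 0 < c := by linarith
  have h1 : (ep / 2) ^ 2 ≤ c ^ 2 := by nlinarith
  have h2 : (ep / 2) ^ 2 * g' ^ 2 ≤ c ^ 2 * g' ^ 2 := mul_le_mul_of_nonneg_right h1 (sq_nonneg _)
  have h3 : (ep * g') ^ 2 ≤ (2 * (1 - g ^ 2)) ^ 2 := by nlinarith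
  have h4 : |ep * g'| ≤ |2 * (1 - g ^ 2)| := sq_le_sq.1 h3
  rw [abs_mul, abs_of_pos hep, abs_of_nonneg (a := 2 * (1 - g ^ 2)) (by linarith)] at h4
  rw [le_div_iff₀ hep]
  linarith

/-- **Gronwall**: `1 - g² ≥ b e^{-4L}` on the whole window. -/
theorem hfo_z_lower {g c g' : ℝ → ℝ} {ep L b : ℝ} (hep : 0 < ep)
    (hg : ∀ t ∈ Icc (-(L * ep)) (L * ep), HasDerivAt g (g' t) t)
    (hc1 : ∀ t ∈ Icc (-(L * ep)) (L * ep), ep / 2 ≤ c t)
    (hb : ∀ t ∈ Icc (-(L * ep)) (L * ep), |g t| ≤ 1)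
    (h0 : ∀ t ∈ Icc (-(L * ep)) (L * ep), 0 ≤ acW (g t) - c t ^ 2 * g' t ^ 2 / 2)
    (hg0 : |g 0| ≤ 1 - b) (hb0 : 0 ≤ b) (hb' : b ≤ 1) {t : ℝ} (ht : t ∈ Icc (-(L * ep)) (L * ep)) :
    b * Real.exp (-(4 * L)) ≤ 1 - g t ^ 2 := by
  have hder : ∀ s ∈ Icc (-(L * ep)) (L * ep), HasDerivAt (fun s => 1 - g s ^ 2) (-(2 * g s * g' s)) s := by
    intro s hs
    have h1 := ((hg s hs).pow 2).const_sub 1
    have e : -(((2 : ℕ) : ℝ) * g s ^ (2 - 1) * g' s) = -(2 * g s * g' s) := by norm_num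
    rw [e] at h1
    exact h1
  have hbd : ∀ s ∈ Icc (-(L * ep)) (L * ep), |2 * g s * g' s| ≤ 4 / ep * (1 - g s ^ 2) := by
    intro s hs
    have h1 := hfo_abs_deriv_le hep (hc1 s hs) (hb s hs) (h0 s hs)
    rw [abs_mul, abs_mul, abs_two]
    have h2 := hb s hs
    have h3 : 0 ≤ |g' s| := abs_nonneg _
    have h4 : 2 * |g s| * |g' s| ≤ 2 * 1 * (2 * (1 - g s ^ 2) / ep) := by
      have : 0 ≤ |g s| := abs_nonneg _
      have h5 : 0 ≤ 2 * (1 - g s ^ 2) / ep := h3.trans h1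
      nlinarith
    have e : 2 * 1 * (2 * (1 - g s ^ 2) / ep) = 4 / ep * (1 - g s ^ 2) := by ring
    linarith
  have hz0 : b ≤ 1 - g 0 ^ 2 := by
    have h1 : g 0 ^ 2 ≤ (1 - b) ^ 2 := by
      rw [← sq_abs (g 0)]
      have : 0 ≤ |g 0| := abs_nonneg _
      nlinarith
    nlinarith
  have hL0 : 0 ≤ L * ep := by
    have := ht.1.trans ht.2
    linarith
  have hexp : ∀ u : ℝ, u ≤ 4 * L → Real.exp (-(4 * L)) ≤ Real.exp (-u) := fun u hu =>
    Real.exp_le_exp.2 (by linarith)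
  rcases le_total 0 t with h | h
  · have h1 := hfo_gron_right (z := fun s => 1 - g s ^ 2) (z' := fun s => -(2 * g s * g' s)) (K := 4 / ep)
      (l := L * ep) (fun s hs => hder s ⟨by linarith [hs.1], hs.2⟩)
      (fun s hs => by
        have := hbd s ⟨by linarith [hs.1], hs.2⟩
        have h2 := (abs_le.1 this).2
        linarith) (t := t) ⟨h, ht.2⟩
    have h2 : 4 / ep * t ≤ 4 * L := by
      rw [div_mul_eq_mul_div, div_le_iff₀ hep]
      nlinarith [ht.2]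
    have h3 := hexp _ h2
    have h4 : b * Real.exp (-(4 * L)) ≤ (1 - g 0 ^ 2) * Real.exp (-(4 / ep * t)) :=
      mul_le_mul hz0 h3 (Real.exp_pos _).le (hb0.trans hz0)
    exact h4.trans h1
  · have h1 := hfo_gron_left (z := fun s => 1 - g s ^ 2) (z' := fun s => -(2 * g s * g' s)) (K := 4 / ep)
      (l := L * ep) (fun s hs => hder s ⟨hs.1, by linarith [hs.2]⟩)
      (fun s hs => by
        have := hbd s ⟨hs.1, by linarith [hs.2]⟩
        have h2 := (abs_le.1 this).1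
        linarith) (t := t) ⟨ht.1, h⟩
    have h2 : -(4 / ep * t) ≤ 4 * L := by
      have : 4 / ep * (-t) ≤ 4 * L := by
        rw [div_mul_eq_mul_div, div_le_iff₀ hep]
        nlinarith [ht.1]
      linarith
    have h3 := hexp _ h2
    rw [neg_neg] at h3
    have h4 : b * Real.exp (-(4 * L)) ≤ (1 - g 0 ^ 2) * Real.exp (4 / ep * t) :=
      mul_le_mul hz0 h3 (Real.exp_pos _).le (hb0.trans hz0)
    exact h4.trans h1

/-- an increasing function with speed `≥ v` while `|G| ≤ a` leaves `[-a,a]` in time `2/v` (`a ≤ 1`). -/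
theorem hfo_run {G G' : ℝ → ℝ} {l a v T : ℝ} (hG : ∀ t ∈ Icc (-l) l, HasDerivAt G (G' t) t)
    (hpos : ∀ t ∈ Icc (-l) l, 0 < G' t) (hv : ∀ t ∈ Icc (-l) l, |G t| ≤ a → v ≤ G' t)
    (h0 : |G 0| ≤ a) (ha : a ≤ 1) (hT : 2 ≤ v * T) (hT0 : 0 ≤ T) :
    (∀ t ∈ Icc T l, a ≤ G t) ∧ (∀ t ∈ Icc (-l) (-T), G t ≤ -a) := by
  have hcont : ContinuousOn G (Icc (-l) l) := fun t ht => (hG t ht).continuousAt.continuousWithinAt
  have hmono : StrictMonoOn G (Icc (-l) l) := by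
    refine strictMonoOn_of_deriv_pos (convex_Icc _ _) hcont ?_
    intro t ht
    rw [interior_Icc] at ht
    rw [(hG t (Ioo_subset_Icc_self ht)).deriv]
    exact hpos t (Ioo_subset_Icc_self ht)
  have h0' := abs_le.1 h0
  constructor
  · intro t ht
    by_contra hcon
    rw [not_le] at hcon
    have ht0 : 0 ≤ t := hT0.trans ht.1
    have hsub : Icc (0 : ℝ) t ⊆ Icc (-l) l := fun s hs => ⟨by linarith [hs.1, ht.2], hs.2.trans ht.2⟩
    have hm := Convex.mul_sub_le_image_sub_of_le_deriv (convex_Icc (0 : ℝ) t) (hcont.mono hsub)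
      (fun s hs => by
        rw [interior_Icc] at hs
        exact (hG s (hsub (Ioo_subset_Icc_self hs))).differentiableAt.differentiableWithinAt) (C := v)
      (fun s hs => by
        rw [interior_Icc] at hs
        have hs' := hsub (Ioo_subset_Icc_self hs)
        rw [(hG s hs').deriv]
        refine hv s hs' (abs_le.2 ⟨?_, ?_⟩)
        · have := hmono.monotoneOn (hsub ⟨le_rfl, ht0⟩) hs' hs.1.le
          linarith
        · have := hmono.monotoneOn hs' (hsub ⟨ht0, le_rfl⟩) hs.2.le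
          linarith) 0 ⟨le_rfl, ht0⟩ t ⟨ht0, le_rfl⟩ ht0
    have hv0 : 0 ≤ v := by
      by_contra h
      rw [not_le] at h
      nlinarith
    have : v * T ≤ v * (t - 0) := by
      rw [sub_zero]
      exact mul_le_mul_of_nonneg_left ht.1 hv0
    linarith
  · intro t ht
    by_contra hcon
    rw [not_le] at hcon
    have ht0 : t ≤ 0 := by linarith [ht.2]
    have hsub : Icc t (0 : ℝ) ⊆ Icc (-l) l := fun s hs => ⟨ht.1.trans hs.1, by linarith [hs.2, ht.1]⟩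
    have hm := Convex.mul_sub_le_image_sub_of_le_deriv (convex_Icc t (0 : ℝ)) (hcont.mono hsub)
      (fun s hs => by
        rw [interior_Icc] at hs
        exact (hG s (hsub (Ioo_subset_Icc_self hs))).differentiableAt.differentiableWithinAt) (C := v)
      (fun s hs => by
        rw [interior_Icc] at hs
        have hs' := hsub (Ioo_subset_Icc_self hs)
        rw [(hG s hs').deriv]
        refine hv s hs' (abs_le.2 ⟨?_, ?_⟩)
        · have := hmono.monotoneOn (hsub ⟨le_rfl, ht0⟩) hs' hs.1.le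
          linarith
        · have := hmono.monotoneOn hs' (hsub ⟨ht0, le_rfl⟩) hs.2.le
          linarith) t ⟨le_rfl, ht0⟩ 0 ⟨ht0, le_rfl⟩ ht0
    have hv0 : 0 ≤ v := by
      by_contra h
      rw [not_le] at h
      nlinarith
    have : v * T ≤ v * (0 - t) := mul_le_mul_of_nonneg_left (by linarith [ht.2]) hv0
    linarith

/-- a continuous function without zeros on an interval containing `0` has the sign of its value at `0`. -/
theorem hfo_sign {f : ℝ → ℝ} {l : ℝ} (hf : ContinuousOn f (Icc (-l) l)) (hne : ∀ t ∈ Icc (-l) l, f t ≠ 0)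
    (h0 : 0 < f 0) {t : ℝ} (ht : t ∈ Icc (-l) l) : 0 < f t := by
  by_contra hcon
  rw [not_lt] at hcon
  have hl : (0 : ℝ) ∈ Icc (-l) l := ⟨by linarith [ht.1, ht.2], by linarith [ht.1, ht.2]⟩
  have hsub : uIcc 0 t ⊆ Icc (-l) l := ordConnected_Icc.uIcc_subset hl ht
  have h1 := intermediate_value_uIcc (hf.mono hsub)
  have h2 : (0 : ℝ) ∈ uIcc (f 0) (f t) := by
    rw [uIcc_comm, uIcc_of_le (hcon.trans h0.le)]
    exact ⟨hcon, h0.le⟩
  obtain ⟨s, hs, hs0⟩ := h1 h2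
  exact hne s (hsub hs) hs0

/-- **(C2) THE PROFILE LEMMA.** -/
theorem hfo_profile {g c g' : ℝ → ℝ} {ep L b b1 w : ℝ} (hep : 0 < ep)
    (hg : ∀ t ∈ Icc (-(L * ep)) (L * ep), HasDerivAt g (g' t) t)
    (hg'c : ContinuousOn g' (Icc (-(L * ep)) (L * ep)))
    (hc1 : ∀ t ∈ Icc (-(L * ep)) (L * ep), ep / 2 ≤ c t) (hc2 : ∀ t ∈ Icc (-(L * ep)) (L * ep), c t ≤ 2 * ep)
    (hb : ∀ t ∈ Icc (-(L * ep)) (L * ep), |g t| ≤ 1)
    (h0 : ∀ t ∈ Icc (-(L * ep)) (L * ep), 0 ≤ acW (g t) - c t ^ 2 * g' t ^ 2 / 2)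
    (hw : ∀ t ∈ Icc (-(L * ep)) (L * ep), acW (g t) - c t ^ 2 * g' t ^ 2 / 2 ≤ w)
    (hg0 : |g 0| ≤ 1 - b) (hb1 : 0 < b1) (hb1b : b1 ≤ b) (hb' : b ≤ 1) (hL : 8 / b1 ≤ L)
    (hw1 : w < (b * Real.exp (-(4 * L))) ^ 2 / 4) (hw2 : w ≤ b1 ^ 2 / 8) :
    ∃ σ : ℝ, (σ = 1 ∨ σ = -1) ∧ (∀ t ∈ Icc (-(L * ep)) (L * ep), 0 < σ * g' t) ∧
      (∀ t ∈ Icc (8 / b1 * ep) (L * ep), 1 - b1 ≤ σ * g t) ∧
      (∀ t ∈ Icc (-(L * ep)) (-(8 / b1 * ep)), σ * g t ≤ -(1 - b1)) := by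
  have hb0 : 0 ≤ b := hb1.le.trans hb1b
  have hLpos : 0 < L := lt_of_lt_of_le (by positivity) hL
  have hl0 : (0 : ℝ) ∈ Icc (-(L * ep)) (L * ep) := by
    have : 0 < L * ep := mul_pos hLpos hep
    exact ⟨by linarith, by linarith⟩
  -- no critical point
  have hne : ∀ t ∈ Icc (-(L * ep)) (L * ep), g' t ≠ 0 := by
    intro t ht h
    have h1 := hfo_z_lower hep hg hc1 hb h0 hg0 hb0 hb' ht
    have h2 := hw t ht
    rw [h] at h2
    unfold acW at h2
    have h3 : 0 ≤ b * Real.exp (-(4 * L)) := mul_nonneg hb0 (Real.exp_pos _).le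
    nlinarith
  -- the speed in the transition region
  have hsp : ∀ t ∈ Icc (-(L * ep)) (L * ep), |g t| ≤ 1 - b1 → b1 / (4 * ep) ≤ |g' t| := by
    intro t ht hgt
    have h2 := hw t ht
    unfold acW at h2
    have h3 : b1 ≤ 1 - g t ^ 2 := by
      have h1 : g t ^ 2 ≤ (1 - b1) ^ 2 := by
        rw [← sq_abs (g t)]
        have : 0 ≤ |g t| := abs_nonneg _
        nlinarith
      nlinarith [hb1b.trans hb']
    have h4 : b1 ^ 2 ≤ (1 - g t ^ 2) ^ 2 := by nlinarith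
    have h5 : b1 ^ 2 / 8 ≤ c t ^ 2 * g' t ^ 2 / 2 := by linarith
    have hc0 : 0 ≤ c t := by linarith [hc1 t ht]
    have h6 : c t ^ 2 ≤ (2 * ep) ^ 2 := by nlinarith [hc2 t ht]
    have h7 : c t ^ 2 * g' t ^ 2 ≤ (2 * ep) ^ 2 * g' t ^ 2 := mul_le_mul_of_nonneg_right h6 (sq_nonneg _)
    have h8 : b1 ^ 2 ≤ (4 * ep * g' t) ^ 2 := by nlinarith
    have h9 : |b1| ≤ |4 * ep * g' t| := sq_le_sq.1 h8
    rw [abs_of_pos hb1, abs_mul, abs_of_pos (a := 4 * ep) (by linarith)] at h9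
    rw [div_le_iff₀ (by linarith)]
    linarith
  have hT : 2 ≤ b1 / (4 * ep) * (8 / b1 * ep) := by
    have : b1 / (4 * ep) * (8 / b1 * ep) = 2 := by
      field_simp
      norm_num
    linarith
  have hT0 : 0 ≤ 8 / b1 * ep := by positivity
  have hg0' : |g 0| ≤ 1 - b1 := by linarith
  rcases lt_or_gt_of_ne (hne 0 hl0) with hneg | hpos
  · -- decreasing
    have hs : ∀ t ∈ Icc (-(L * ep)) (L * ep), 0 < -g' t := fun t ht =>
      hfo_sign (f := fun t => -g' t) hg'c.neg (fun s hs h => hne s hs (by linarith)) (by linarith) ht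
    obtain ⟨h1, h2⟩ := hfo_run (G := fun t => -g t) (G' := fun t => -g' t) (l := L * ep) (a := 1 - b1)
      (v := b1 / (4 * ep)) (T := 8 / b1 * ep) (fun t ht => (hg t ht).neg) hs
      (fun t ht ha => by
        rw [abs_neg] at ha
        have := hsp t ht ha
        rwa [abs_of_neg (by linarith [hs t ht])] at this)
      (by rwa [abs_neg]) (by linarith) hT hT0
    refine ⟨-1, Or.inr rfl, fun t ht => by linarith [hs t ht], fun t ht => by linarith [h1 t ht],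
      fun t ht => by linarith [h2 t ht]⟩
  · have hs : ∀ t ∈ Icc (-(L * ep)) (L * ep), 0 < g' t := fun t ht => hfo_sign hg'c hne hpos ht
    obtain ⟨h1, h2⟩ := hfo_run (G := g) (G' := g') (l := L * ep) (a := 1 - b1)
      (v := b1 / (4 * ep)) (T := 8 / b1 * ep) hg hs
      (fun t ht ha => by
        have := hsp t ht ha
        rwa [abs_of_pos (hs t ht)] at this)
      hg0' (by linarith) hT hT0
    refine ⟨1, Or.inl rfl, fun t ht => by linarith [hs t ht], fun t ht => by linarith [h1 t ht],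
      fun t ht => by linarith [h2 t ht]⟩

theorem hfo_phi_hasDerivAt (s : ℝ) : HasDerivAt htPhi ((1 - s ^ 2) / Real.sqrt 2) s := by
  unfold htPhi
  have h1 : HasDerivAt (fun s : ℝ => s - s ^ 3 / 3) (1 - s ^ 2) s := by
    have h2 := (hasDerivAt_id s).sub ((hasDerivAt_pow 3 s).div_const 3)
    have e : (1 : ℝ) - ((3 : ℕ) : ℝ) * s ^ (3 - 1) / 3 = 1 - s ^ 2 := by norm_num
    rw [e] at h2
    exact h2
  exact h1.div_const _

theorem hfo_phi_neg (s : ℝ) : htPhi (-s) = -htPhi s := by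
  unfold htPhi
  ring

/-- **(G) THE CROSSING LEMMA** (downwards). -/
theorem hfo_cross_down {g g' : ℝ → ℝ} {a b c : ℝ} (hab : a ≤ b) (hc : 0 < c)
    (hg : ∀ t ∈ Icc a b, HasDerivAt g (g' t) t) (hg' : ContinuousOn g' (Icc a b))
    (ha : c ≤ g a) (hb : g b ≤ -c) :
    2 * htPhi c ≤ ∫ t in Icc a b ∩ {t | |g t| < c}, |(1 - g t ^ 2) / Real.sqrt 2 * g' t| := by
  have hcont : ContinuousOn g (Icc a b) := fun t ht => (hg t ht).continuousAt.continuousWithinAt
  -- last exit from `{g ≥ c}`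
  have hAc : IsCompact (Icc a b ∩ g ⁻¹' Ici c) :=
    isCompact_Icc.of_isClosed_subset (hcont.preimage_isClosed_of_isClosed isClosed_Icc isClosed_Ici)
      inter_subset_left
  have hAn : (Icc a b ∩ g ⁻¹' Ici c).Nonempty := ⟨a, ⟨le_rfl, hab⟩, ha⟩
  obtain ⟨t1, ht1⟩ : ∃ t1, t1 = sSup (Icc a b ∩ g ⁻¹' Ici c) := ⟨_, rfl⟩
  have h1m : t1 ∈ Icc a b ∩ g ⁻¹' Ici c := ht1 ▸ hAc.sSup_mem hAn
  have h1u : ∀ t ∈ Icc a b, c ≤ g t → t ≤ t1 := fun t ht hct =>
    ht1 ▸ le_csSup hAc.bddAbove ⟨ht, hct⟩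
  have h1I : t1 ∈ Icc a b := h1m.1
  have h1c : c ≤ g t1 := h1m.2
  -- first entrance in `{g ≤ -c}` after `t1`
  have hsub1 : Icc t1 b ⊆ Icc a b := Icc_subset_Icc_left h1I.1
  have hBc : IsCompact (Icc t1 b ∩ g ⁻¹' Iic (-c)) :=
    isCompact_Icc.of_isClosed_subset
      ((hcont.mono hsub1).preimage_isClosed_of_isClosed isClosed_Icc isClosed_Iic) inter_subset_left
  have hBn : (Icc t1 b ∩ g ⁻¹' Iic (-c)).Nonempty := ⟨b, ⟨h1I.2, le_rfl⟩, hb⟩
  obtain ⟨t2, ht2⟩ : ∃ t2, t2 = sInf (Icc t1 b ∩ g ⁻¹' Iic (-c)) := ⟨_, rfl⟩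
  have h2m : t2 ∈ Icc t1 b ∩ g ⁻¹' Iic (-c) := ht2 ▸ hBc.sInf_mem hBn
  have h2l : ∀ t ∈ Icc t1 b, g t ≤ -c → t2 ≤ t := fun t ht hct =>
    ht2 ▸ csInf_le hBc.bddBelow ⟨ht, hct⟩
  have h2I : t2 ∈ Icc t1 b := h2m.1
  have h2c : g t2 ≤ -c := h2m.2
  have h12 : t1 < t2 := by
    rcases h2I.1.lt_or_eq with h | h
    · exact h
    · rw [← h] at h2c
      linarith
  have hsub : Icc t1 t2 ⊆ Icc a b := fun t ht => ⟨h1I.1.trans ht.1, ht.2.trans h2I.2⟩
  -- values at the end points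
  have e1 : g t1 = c := by
    by_contra hne
    have hlt : c < g t1 := lt_of_le_of_ne h1c (Ne.symm hne)
    have hiv := intermediate_value_Ioo' h12.le (hcont.mono hsub)
    obtain ⟨s, hs, hsc⟩ := hiv (show c ∈ Ioo (g t2) (g t1) from ⟨by linarith, hlt⟩)
    have := h1u s (hsub (Ioo_subset_Icc_self hs)) hsc.ge
    linarith [hs.1]
  have e2 : g t2 = -c := by
    by_contra hne
    have hlt : g t2 < -c := lt_of_le_of_ne h2c hne
    have hiv := intermediate_value_Ioo' h12.le (hcont.mono hsub)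
    obtain ⟨s, hs, hsc⟩ := hiv (show -c ∈ Ioo (g t2) (g t1) from ⟨hlt, by linarith⟩)
    have := h2l s ⟨hs.1.le, hs.2.le.trans h2I.2⟩ hsc.le
    linarith [hs.2]
  have hin : Ioo t1 t2 ⊆ Icc a b ∩ {t | |g t| < c} := by
    intro t ht
    refine ⟨hsub (Ioo_subset_Icc_self ht), show |g t| < c from abs_lt.2 ⟨?_, ?_⟩⟩
    · by_contra h
      rw [not_lt] at h
      have := h2l t ⟨ht.1.le, ht.2.le.trans h2I.2⟩ h
      linarith [ht.2]
    · by_contra h
      rw [not_lt] at h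
      have := h1u t (hsub (Ioo_subset_Icc_self ht)) h
      linarith [ht.1]
  -- the integrand
  have hFc : ContinuousOn (fun t => (1 - g t ^ 2) / Real.sqrt 2 * g' t) (Icc a b) :=
    (((continuousOn_const.sub (hcont.pow 2)).div_const _)).mul hg'
  have hFi : IntegrableOn (fun t => |(1 - g t ^ 2) / Real.sqrt 2 * g' t|) (Icc a b) :=
    (hFc.abs).integrableOn_Icc
  have hmono : ∫ t in Ioo t1 t2, |(1 - g t ^ 2) / Real.sqrt 2 * g' t| ≤
      ∫ t in Icc a b ∩ {t | |g t| < c}, |(1 - g t ^ 2) / Real.sqrt 2 * g' t| :=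
    setIntegral_mono_set (hFi.mono_set inter_subset_left)
      (Eventually.of_forall fun t => abs_nonneg _) (LE.le.eventuallyLE hin)
  have hftc : ∫ t in t1..t2, (1 - g t ^ 2) / Real.sqrt 2 * g' t = htPhi (g t2) - htPhi (g t1) := by
    refine intervalIntegral.integral_eq_sub_of_hasDerivAt (f := fun t => htPhi (g t)) ?_ ?_
    · intro t ht
      rw [uIcc_of_le h12.le] at ht
      exact (hfo_phi_hasDerivAt (g t)).comp t (hg t (hsub ht))
    · refine ContinuousOn.intervalIntegrable ?_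
      rw [uIcc_of_le h12.le]
      exact hFc.mono hsub
  have habs := intervalIntegral.abs_integral_le_integral_abs (μ := volume)
    (f := fun t => (1 - g t ^ 2) / Real.sqrt 2 * g' t) h12.le
  rw [hftc, e1, e2, hfo_phi_neg, intervalIntegral.integral_of_le h12.le,
    integral_Ioc_eq_integral_Ioo] at habs
  have h3 : |(-htPhi c - htPhi c)| = |2 * htPhi c| := by
    rw [← abs_neg]
    congr 1
    ring
  rw [h3] at habs
  exact (le_abs_self _).trans (habs.trans hmono)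

/-- **(G) THE CROSSING LEMMA** (both directions): `σ g` goes from `≥ c` to `≤ -c`. -/
theorem hfo_cross {g g' : ℝ → ℝ} {a b c σ : ℝ} (hσ : σ = 1 ∨ σ = -1) (hab : a ≤ b) (hc : 0 < c)
    (hg : ∀ t ∈ Icc a b, HasDerivAt g (g' t) t) (hg' : ContinuousOn g' (Icc a b))
    (ha : c ≤ σ * g a) (hb : σ * g b ≤ -c) :
    2 * htPhi c ≤ ∫ t in Icc a b ∩ {t | |g t| < c}, |(1 - g t ^ 2) / Real.sqrt 2 * g' t| := by
  rcases hσ with rfl | rfl
  · exact hfo_cross_down hab hc hg hg' (by linarith) (by linarith)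
  · have h := hfo_cross_down (g := fun t => -g t) (g' := fun t => -g' t) hab hc (fun t ht => (hg t ht).neg)
      hg'.neg (by linarith) (by linarith)
    simpa [abs_neg] using h

/-- the same with time reversed: `σ g` goes from `≤ -c` to `≥ c`. -/
theorem hfo_cross' {g g' : ℝ → ℝ} {a b c σ : ℝ} (hσ : σ = 1 ∨ σ = -1) (hab : a ≤ b) (hc : 0 < c)
    (hg : ∀ t ∈ Icc a b, HasDerivAt g (g' t) t) (hg' : ContinuousOn g' (Icc a b))
    (ha : σ * g a ≤ -c) (hb : c ≤ σ * g b) :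
    2 * htPhi c ≤ ∫ t in Icc a b ∩ {t | |g t| < c}, |(1 - g t ^ 2) / Real.sqrt 2 * g' t| :=
  hfo_cross (σ := -σ) (by rcases hσ with rfl | rfl <;> simp) hab hc hg hg' (by linarith) (by linarith)

/-- the total variation of `Φ ∘ g` along a monotone piece is at most `acC`. -/
theorem hfo_mono_var {g g' : ℝ → ℝ} {a b σ : ℝ} (hσ : σ = 1 ∨ σ = -1) (hab : a ≤ b)
    (hg : ∀ t ∈ Icc a b, HasDerivAt g (g' t) t) (hg' : ContinuousOn g' (Icc a b))
    (hb : ∀ t ∈ Icc a b, |g t| ≤ 1) (hpos : ∀ t ∈ Icc a b, 0 ≤ σ * g' t) :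
    ∫ t in Icc a b, |(1 - g t ^ 2) / Real.sqrt 2 * g' t| ≤ acC := by
  have hcont : ContinuousOn g (Icc a b) := fun t ht => (hg t ht).continuousAt.continuousWithinAt
  have hFc : ContinuousOn (fun t => (1 - g t ^ 2) / Real.sqrt 2 * g' t) (Icc a b) :=
    (((continuousOn_const.sub (hcont.pow 2)).div_const _)).mul hg'
  have hs2 : 0 < Real.sqrt 2 := Real.sqrt_pos.2 (by norm_num)
  have heq : ∀ t ∈ Icc a b, |(1 - g t ^ 2) / Real.sqrt 2 * g' t| = σ * ((1 - g t ^ 2) / Real.sqrt 2 * g' t) := by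
    intro t ht
    have h1 : 0 ≤ (1 - g t ^ 2) / Real.sqrt 2 := by
      have := (sq_le_one_iff_abs_le_one (g t)).2 (hb t ht)
      exact div_nonneg (by linarith) hs2.le
    have h2 : 0 ≤ σ * ((1 - g t ^ 2) / Real.sqrt 2 * g' t) := by
      have := mul_nonneg h1 (hpos t ht)
      nlinarith
    rcases hσ with rfl | rfl
    · rw [one_mul] at h2 ⊢
      exact abs_of_nonneg h2
    · rw [← abs_neg]
      have e : -((1 - g t ^ 2) / Real.sqrt 2 * g' t) = -1 * ((1 - g t ^ 2) / Real.sqrt 2 * g' t) := by ring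
      rw [e]
      exact abs_of_nonneg h2
  rw [setIntegral_congr_fun measurableSet_Icc heq, integral_const_mul, integral_Icc_eq_integral_Ioc,
    ← intervalIntegral.integral_of_le hab]
  have hftc : ∫ t in a..b, (1 - g t ^ 2) / Real.sqrt 2 * g' t = htPhi (g b) - htPhi (g a) := by
    refine intervalIntegral.integral_eq_sub_of_hasDerivAt (f := fun t => htPhi (g t)) ?_ ?_
    · intro t ht
      rw [uIcc_of_le hab] at ht
      exact (hfo_phi_hasDerivAt (g t)).comp t (hg t ht)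
    · refine ContinuousOn.intervalIntegrable ?_
      rw [uIcc_of_le hab]
      exact hFc
  rw [hftc]
  have hbd : ∀ s : ℝ, |s| ≤ 1 → |htPhi s| ≤ acC / 2 := by
    intro s hs
    obtain ⟨h1, h2⟩ := abs_le.1 hs
    unfold htPhi acC
    rw [abs_div, abs_of_pos hs2, div_le_iff₀ hs2]
    have e : 2 * Real.sqrt 2 / 3 / 2 * Real.sqrt 2 = 2 / 3 := by
      have := Real.mul_self_sqrt (show (0 : ℝ) ≤ 2 by norm_num)
      nlinarith
    rw [e, abs_le]
    constructor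
    · nlinarith [mul_nonneg (mul_self_nonneg (1 + s)) (show 0 ≤ 2 - s by linarith)]
    · nlinarith [mul_nonneg (mul_self_nonneg (1 - s)) (show 0 ≤ 2 + s by linarith)]
  have h1 := abs_le.1 (hbd (g a) (hb a ⟨le_rfl, hab⟩))
  have h2 := abs_le.1 (hbd (g b) (hb b ⟨hab, le_rfl⟩))
  rcases hσ with rfl | rfl <;> linarith [h1.1, h1.2, h2.1, h2.2]

theorem hfo_phi_half : 2 * htPhi (1 / 2) = 11 / 16 * acC := by
  unfold htPhi acC
  have hs2 : 0 < Real.sqrt 2 := Real.sqrt_pos.2 (by norm_num)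
  have := Real.mul_self_sqrt (show (0 : ℝ) ≤ 2 by norm_num)
  field_simp
  nlinarith

theorem hfo_phi_near {β : ℝ} (h0 : 0 ≤ β) : (1 - 3 / 2 * β ^ 2) * acC ≤ 2 * htPhi (1 - β) := by
  unfold htPhi acC
  have hs2 : 0 < Real.sqrt 2 := Real.sqrt_pos.2 (by norm_num)
  have h2 := Real.mul_self_sqrt (show (0 : ℝ) ≤ 2 by norm_num)
  have e1 : 2 * ((1 - β - (1 - β) ^ 3 / 3) / Real.sqrt 2) = 2 * (1 - β - (1 - β) ^ 3 / 3) / Real.sqrt 2 := by ring
  rw [e1, le_div_iff₀ hs2]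
  have e : (1 - 3 / 2 * β ^ 2) * (2 * Real.sqrt 2 / 3) * Real.sqrt 2 = (1 - 3 / 2 * β ^ 2) * (4 / 3) := by
    have : (1 - 3 / 2 * β ^ 2) * (2 * Real.sqrt 2 / 3) * Real.sqrt 2
        = (1 - 3 / 2 * β ^ 2) * (2 / 3) * (Real.sqrt 2 * Real.sqrt 2) := by ring
    rw [this, h2]
    ring
  rw [e]
  nlinarith [pow_nonneg h0 3]

theorem hfo_acC_pos : 0 < acC := by
  unfold acC
  have hs2 : 0 < Real.sqrt 2 := Real.sqrt_pos.2 (by norm_num)
  positivity

end Claimed.Agent.R323
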