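import Claimed.Agent.R323.Ht.FlatDefs
import Claimed.Agent.R323.Ht.FlatOde

/-!
# Row 323, block C, unit FL: CHOICE OF THE CONSTANTS (`HtfNum` is satisfiable).   helper115.   Prefix `htf_num`.
Order (`FL115.md`, CONSTANTS): `Θ, s` → `a = s₁ = σ = s₂`, `M = 48/a`, `τ₀ = 1/4`, `R₁ = 36 M`, `R = 6 + R₁` → `b` → `x`, `Λ = 8/(b x)` (`ϱ = Λ ε`, `r₁ = ϱ + L₀`), `L = 4(Λ + 8/b)` (`w = L ε`) → `c` → `γ` → `δ`.
EXIT: `htf_num`.
-/

set_option autoImplicit false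
open scoped ContDiff ENNReal NNReal RealInnerProductSpace Topology
open MeasureTheory Metric Set Filter

namespace Claimed.Agent.R323

open Claimed.Agent.Gmt

theorem htf_num_om_pos (k : ℕ) : 0 < gmtOm k :=
  ENNReal.toReal_pos (measure_ball_pos volume 0 one_pos).ne' measure_ball_lt_top.ne

theorem htf_num_cPhi : htfcΦ = 11 / 16 * acC := by
  unfold htfcΦ
  rw [hfo_phi_neg]
  have := hfo_phi_half
  linarith

/-- a continuous function which is positive at `0` is positive at some small positive point. -/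
theorem htf_num_ev {f : ℝ → ℝ} (hf : Continuous f) (h0 : 0 < f 0) {u : ℝ} (hu : 0 < u) : ∃ a, 0 < a ∧ a ≤ u ∧ 0 < f a := by
  have h1 : ∀ᶠ a in 𝓝 (0 : ℝ), 0 < f a := hf.continuousAt.eventually (lt_mem_nhds h0)
  have h2 : ∀ᶠ a in 𝓝[>] (0 : ℝ), 0 < f a := h1.filter_mono nhdsWithin_le_nhds
  have h3 : ∀ᶠ a in 𝓝[>] (0 : ℝ), a ∈ Ioc (0 : ℝ) u := Ioc_mem_nhdsGT hu
  obtain ⟨a, ha, hb⟩ := (h2.and h3).exists
  exact ⟨a, hb.1, hb.2, ha⟩

theorem htf_num_geo (d : ℕ) {Θ : ℝ} (hΘ : Θ < 2) :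
    ∃ a : ℝ, 0 < a ∧ a ≤ 1 / 2 ∧ Θ * (1 + 2 * a) ^ d < 2 * (1 - a) * (1 - a) ^ d := by
  obtain ⟨a, h1, h2, h3⟩ := htf_num_ev (f := fun a => 2 * (1 - a) * (1 - a) ^ d - Θ * (1 + 2 * a) ^ d) (by fun_prop)
    (by simp; linarith) (show (0 : ℝ) < 1 / 2 by norm_num)
  exact ⟨a, h1, h2, by simpa using h3⟩

theorem htf_num_gam {C₂ l M C₀ η γ₁ : ℝ} (hη : 0 < η) (hγ₁ : 0 < γ₁) :
    ∃ γ : ℝ, 0 < γ ∧ γ ≤ γ₁ ∧ C₂ * (γ * l + M * Real.sqrt (γ * C₀)) < η := by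
  obtain ⟨a, h1, h2, h3⟩ := htf_num_ev (f := fun γ => η - C₂ * (γ * l + M * Real.sqrt (γ * C₀))) (by fun_prop)
    (by simpa using hη) hγ₁
  exact ⟨a, h1, h2, by simpa using h3⟩

theorem htf_num_x (d : ℕ) {a b : ℝ} (h : 6 * b ^ 2 < a) : ∃ x : ℝ, 0 < x ∧ (1 - a) * (1 + x) ^ d ≤ 1 - 6 * b ^ 2 := by
  obtain ⟨x, h1, -, h3⟩ := htf_num_ev (f := fun x => 1 - 6 * b ^ 2 - (1 - a) * (1 + x) ^ d) (by fun_prop)
    (by simp; linarith) one_pos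
  exact ⟨x, h1, by have h4 : 0 < 1 - 6 * b ^ 2 - (1 - a) * (1 + x) ^ d := h3; linarith⟩

set_option maxHeartbeats 1000000 in
/-- **the constants of the flat lemma exist.**   Inputs: `Θ < 2` (`C₀ = Θ ω_d`), `s`, the Lipschitz constant `C₁`, the constant `C₂` of the two-point lemma, the lower ratio `ch` at the points with `|u| ≤ 1/2`,
the constant `Cw` of the wells (`β₂ = Cw b`).   Outputs: `δ, R, b` (independent of `ε ≤ δ`). -/
theorem htf_num (d : ℕ) (hd : 1 ≤ d) {Θ s C₁ C₂ ch Cw : ℝ} (hΘ0 : 0 < Θ) (hΘ : Θ < 2) (hs : 0 < s) (hC₁ : 1 ≤ C₁)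
    (hch : 0 < ch) (hCw : 0 ≤ Cw) :
    ∃ δ R b : ℝ, 0 < δ ∧ δ ≤ 1 / 8 ∧ 42 ≤ R ∧ 0 < b ∧ b ≤ 1 / 4 ∧ ∀ ε, 0 < ε → ε ≤ δ →
      ∃ 𝔭 : HtfPar, HtfNum d 𝔭 ∧ 𝔭.R = R ∧ 𝔭.ε = ε ∧ 𝔭.C₁ = C₁ ∧ 𝔭.b = b ∧ 𝔭.C₂ = C₂ ∧ 𝔭.C₀ = Θ * gmtOm d ∧
        𝔭.τ₀ = 1 / 4 ∧ 𝔭.ch = ch ∧ 𝔭.δ = δ ∧ 𝔭.β₂ = Cw * b ∧ 𝔭.s = s := by
  have hω := htf_num_om_pos d
  have hω1 := htf_num_om_pos (d + 1)
  have hac := hfo_acC_pos
  have hcΦ : 0 < htfcΦ := by rw [htf_num_cPhi]; positivity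
  obtain ⟨a, ha0, ha1, hgeo⟩ := htf_num_geo d hΘ
  -- M
  obtain ⟨M, hM⟩ : ∃ M : ℝ, M = 48 / a := ⟨_, rfl⟩
  have hMa : a * M = 48 := by rw [hM]; field_simp
  have hM96 : 96 ≤ M := by rw [hM, le_div_iff₀ ha0]; linarith
  have hM0 : 0 < M := by linarith
  -- b
  have hq : 0 < ch * (1 / 4 : ℝ) ^ d := by positivity
  have hCw1 : 0 < Cw + 1 := by linarith
  obtain ⟨b, hb⟩ : ∃ b : ℝ, b = min (1 / 4) (min (a / 12) (min (ch * (1 / 4 : ℝ) ^ d / (4 * (Cw + 1))) (s / (8 * (Cw + 1))))) :=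
    ⟨_, rfl⟩
  have hb0 : 0 < b := by
    rw [hb]
    refine lt_min (by norm_num) (lt_min (by positivity) (lt_min (by positivity) (by positivity)))
  have hb1 : b ≤ 1 / 4 := by rw [hb]; exact min_le_left _ _
  have hb2 : b ≤ a / 12 := by rw [hb]; exact (min_le_right _ _).trans (min_le_left _ _)
  have hb3 : b ≤ ch * (1 / 4 : ℝ) ^ d / (4 * (Cw + 1)) := by
    rw [hb]; exact (min_le_right _ _).trans ((min_le_right _ _).trans (min_le_left _ _))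
  have hb4 : b ≤ s / (8 * (Cw + 1)) := by
    rw [hb]; exact (min_le_right _ _).trans ((min_le_right _ _).trans (min_le_right _ _))
  have hb5 : 6 * b ^ 2 < a := by
    have : b ^ 2 ≤ 1 / 4 * b := by
      rw [sq]; exact mul_le_mul_of_nonneg_right hb1 hb0.le
    linarith
  have hb6 : Cw * b ≤ ch * (1 / 4 : ℝ) ^ d / 4 := by
    rw [le_div_iff₀ (by positivity)] at hb3
    have e : b * (4 * (Cw + 1)) = 4 * (Cw * b) + 4 * b := by ring
    linarith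
  have hb7 : Cw * b ≤ s / 8 := by
    rw [le_div_iff₀ (by positivity)] at hb4
    have e : b * (8 * (Cw + 1)) = 8 * (Cw * b) + 8 * b := by ring
    linarith
  -- x, Λ, L
  obtain ⟨x, hx0, hx⟩ := htf_num_x d hb5
  obtain ⟨Λ, hΛ⟩ : ∃ Λ : ℝ, Λ = 8 / (b * x) := ⟨_, rfl⟩
  have hΛ0 : 0 < Λ := by rw [hΛ]; positivity
  have hΛx : Λ * x = 8 / b := by rw [hΛ]; field_simp
  obtain ⟨L, hL⟩ : ∃ L : ℝ, L = 4 * (Λ + 8 / b) := ⟨_, rfl⟩
  have h8b : 32 ≤ 8 / b := by rw [le_div_iff₀ hb0]; linarith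
  have hL128 : 128 ≤ L := by rw [hL]; linarith
  have hL0 : 0 < L := by linarith
  -- c
  obtain ⟨c, hc⟩ : ∃ c : ℝ, c = min ((b * Real.exp (-(4 * L))) ^ 2 / 32) ((b / (2 * Λ)) ^ 2) := ⟨_, rfl⟩
  have hc0 : 0 < c := by
    rw [hc]
    exact lt_min (by positivity) (by positivity)
  have hc1 : 32 * c ≤ (b * Real.exp (-(4 * L))) ^ 2 := by
    have : c ≤ (b * Real.exp (-(4 * L))) ^ 2 / 32 := by rw [hc]; exact min_le_left _ _
    linarith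
  have hc2 : c ≤ (b / (2 * Λ)) ^ 2 := by rw [hc]; exact min_le_right _ _
  have hc3 : Real.sqrt c ≤ b / (2 * Λ) := by
    rw [Real.sqrt_le_left (by positivity)]
    exact hc2
  -- γ
  have hden : 0 < (2 * L) ^ d * (4 * acC * (2 * C₁) ^ (d + 1)) := by positivity
  obtain ⟨γ, hγ0, hγ1, hγ2⟩ := htf_num_gam (C₂ := C₂) (l := Real.log (4 * M)) (M := M) (C₀ := Θ * gmtOm d)
    (η := gmtOm d * (2 * (1 - a) * (1 - a) ^ d - Θ * (1 + 2 * a) ^ d))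
    (γ₁ := gmtOm (d + 1) * c ^ (d + 2) / ((2 * L) ^ d * (4 * acC * (2 * C₁) ^ (d + 1))))
    (mul_pos hω (by linarith)) (by positivity)
  rw [le_div_iff₀ hden] at hγ1
  -- δ
  obtain ⟨K, hK⟩ : ∃ K : ℝ, K = 6 ^ d * (Θ * gmtOm d) / γ := ⟨_, rfl⟩
  have hK0 : 0 < K := by rw [hK]; positivity
  have hT : 0 < 2 + 2 * K + 2 * (acC / htfcΦ) * K := by positivity
  obtain ⟨δ, hδ⟩ : ∃ δ : ℝ, δ = min (1 / 8) (min (1 / (4 * L)) (min (s / 4 / (2 + 2 * K + 2 * (acC / htfcΦ) * K))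
      (ch * (1 / 4 : ℝ) ^ d / (4 * (K + 1))))) := ⟨_, rfl⟩
  have hδ0 : 0 < δ := by
    rw [hδ]
    refine lt_min (by norm_num) (lt_min (by positivity) (lt_min (by positivity) (by positivity)))
  have hδ1 : δ ≤ 1 / 8 := by rw [hδ]; exact min_le_left _ _
  have hδ2 : δ ≤ 1 / (4 * L) := by rw [hδ]; exact (min_le_right _ _).trans (min_le_left _ _)
  have hδ3 : δ ≤ s / 4 / (2 + 2 * K + 2 * (acC / htfcΦ) * K) := by
    rw [hδ]; exact (min_le_right _ _).trans ((min_le_right _ _).trans (min_le_left _ _))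
  have hδ4 : δ ≤ ch * (1 / 4 : ℝ) ^ d / (4 * (K + 1)) := by
    rw [hδ]; exact (min_le_right _ _).trans ((min_le_right _ _).trans (min_le_right _ _))
  rw [le_div_iff₀ (by positivity)] at hδ2 hδ3 hδ4
  have hδ5 : K * δ ≤ ch * (1 / 4 : ℝ) ^ d / 4 := by
    have e : δ * (4 * (K + 1)) = 4 * (K * δ) + 4 * δ := by ring
    linarith
  refine ⟨δ, 6 + 36 * M, b, hδ0, hδ1, by linarith, hb0, hb1, ?_⟩
  intro ε hε0 hε
  have hw : L * ε ≤ 1 / 4 := by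
    have h1 : L * ε ≤ L * δ := mul_le_mul_of_nonneg_left hε hL0.le
    have e : δ * (4 * L) = 4 * (L * δ) := by ring
    linarith
  have hβ₁ : 6 ^ d * (Θ * gmtOm d) * δ / γ = K * δ := by rw [hK]; ring
  refine ⟨{ R := 6 + 36 * M, ε := ε, C₁ := C₁, b := b, c := c, w := L * ε, ϱ := Λ * ε, r₁ := (Λ + 8 / b) * ε, s₁ := a, γ := γ,
            R₁ := 36 * M, M := M, s₂ := a, σ := a, C₂ := C₂, C₀ := Θ * gmtOm d, τ₀ := 1 / 4, ch := ch, δ := δ, β₂ := Cw * b,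
            s := s }, ?_, rfl, rfl, rfl, rfl, rfl, rfl, rfl, rfl, rfl, rfl, rfl⟩
  constructor
  case d_pos => exact hd
  case ε_pos => exact hε0
  case C₁_pos => show 0 < C₁; linarith
  case b_pos => exact hb0
  case b_le => exact hb1
  case c_pos => exact hc0
  case γ_pos => exact hγ0
  case δ_nonneg => exact hδ0.le
  case β₂_nonneg => show 0 ≤ Cw * b; positivity
  case ϱ_pos => show 0 < Λ * ε; positivity
  case r₁_pos => show 0 < (Λ + 8 / b) * ε; positivity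
  case C₀_pos => show 0 < Θ * gmtOm d; positivity
  case n1 =>
    show γ * (2 * (L * ε)) ^ d * (4 * acC * (2 * C₁) ^ (d + 1)) ≤ gmtOm (d + 1) * c ^ (d + 2) * ε ^ d
    have e : γ * (2 * (L * ε)) ^ d * (4 * acC * (2 * C₁) ^ (d + 1))
        = γ * ((2 * L) ^ d * (4 * acC * (2 * C₁) ^ (d + 1))) * ε ^ d := by
      rw [show 2 * (L * ε) = 2 * L * ε by ring, mul_pow]; ring
    rw [e]
    exact mul_le_mul_of_nonneg_right hγ1 (by positivity)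
  case n1' =>
    show ε ≤ 2 * C₁ * (L * ε)
    have h1 : 1 ≤ 2 * C₁ * L := by
      have : 1 * 128 ≤ C₁ * L := mul_le_mul hC₁ hL128 (by norm_num) (by linarith)
      linarith
    have h2 : 1 * ε ≤ 2 * C₁ * L * ε := mul_le_mul_of_nonneg_right h1 hε0.le
    have e : 2 * C₁ * (L * ε) = 2 * C₁ * L * ε := by ring
    linarith
  case n2 =>
    show 32 * c ≤ (b * Real.exp (-(4 * (L * ε) / ε))) ^ 2
    have : 4 * (L * ε) / ε = 4 * L := by field_simp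
    rw [this]
    exact hc1
  case n3 =>
    show (Λ * ε) ^ 2 + (8 * ε / b) ^ 2 ≤ ((Λ + 8 / b) * ε) ^ 2
    have e : (Λ + 8 / b) * ε = Λ * ε + 8 * ε / b := by ring
    rw [e]
    have h1 : 0 ≤ Λ * ε := by positivity
    have h2 : 0 ≤ 8 * ε / b := by positivity
    have h3 := mul_nonneg h1 h2
    have e2 : (Λ * ε + 8 * ε / b) ^ 2 = (Λ * ε) ^ 2 + (8 * ε / b) ^ 2 + 2 * (Λ * ε * (8 * ε / b)) := by ring
    linarith
  case n4 =>
    show 4 * ((Λ + 8 / b) * ε) ≤ L * ε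
    rw [hL]; linarith
  case w_le => show L * ε ≤ 1; linarith
  case n5 =>
    show 2 * (Λ * ε) * Real.sqrt c ≤ b * ε
    have h1 : 2 * Λ * Real.sqrt c ≤ b := by
      have := mul_le_mul_of_nonneg_left hc3 (show 0 ≤ 2 * Λ by positivity)
      have e : 2 * Λ * (b / (2 * Λ)) = b := by field_simp
      linarith
    have h2 := mul_le_mul_of_nonneg_right h1 hε0.le
    have e : 2 * (Λ * ε) * Real.sqrt c = 2 * Λ * Real.sqrt c * ε := by ring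
    linarith
  case n6 =>
    show (1 - a) * ((Λ + 8 / b) * ε) ^ d ≤ (1 - 6 * b ^ 2) * (Λ * ε) ^ d
    have e : (Λ + 8 / b) * ε = (1 + x) * (Λ * ε) := by rw [← hΛx]; ring
    rw [e, mul_pow, ← mul_assoc]
    exact mul_le_mul_of_nonneg_right hx (by positivity)
  case n7 => show 2 * (L * ε) ≤ 36 * M; linarith
  case n7' => exact le_rfl
  case n9 => exact le_rfl
  case M_ge => show 1 ≤ M; linarith
  case s₂_pos => exact ha0
  case σ_pos => exact ha0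
  case σ_le => exact ha1
  case n10 =>
    show Θ * gmtOm d * (1 + a + 2 / M) ^ d < 2 * ((1 - a) * gmtOm d) * (1 - a) ^ d
      - C₂ * (γ * Real.log (4 * M) + M * Real.sqrt (γ * (Θ * gmtOm d)))
    have h2M : 2 / M ≤ a := by
      rw [div_le_iff₀ hM0]; linarith
    have h1 : (1 + a + 2 / M) ^ d ≤ (1 + 2 * a) ^ d := by
      apply pow_le_pow_left₀ (by positivity)
      linarith
    have h2 : Θ * gmtOm d * (1 + a + 2 / M) ^ d ≤ Θ * gmtOm d * (1 + 2 * a) ^ d :=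
      mul_le_mul_of_nonneg_left h1 (by positivity)
    have e : gmtOm d * (2 * (1 - a) * (1 - a) ^ d - Θ * (1 + 2 * a) ^ d)
        = 2 * ((1 - a) * gmtOm d) * (1 - a) ^ d - Θ * gmtOm d * (1 + 2 * a) ^ d := by ring
    linarith
  case τ₀_pos => show (0 : ℝ) < 1 / 4; norm_num
  case τ₀_le => exact le_rfl
  case n12 =>
    show 4 * ((Λ + 8 / b) * ε) ≤ 1 / 4
    rw [hL] at hw; linarith
  case n12' =>
    show 12 ≤ a * M * (1 / 4)
    rw [hMa]; norm_num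
  case n13 =>
    show 6 ^ d * (Θ * gmtOm d) * δ / γ + Cw * b < ch * (1 / 4 : ℝ) ^ d
    rw [hβ₁]; linarith
  case n15 =>
    show 2 * δ + 2 * (6 ^ d * (Θ * gmtOm d) * δ / γ + Cw * b) + 2 * (acC / htfcΦ * (6 ^ d * (Θ * gmtOm d) * δ / γ)) ≤ s
    rw [hβ₁]
    have e : δ * (2 + 2 * K + 2 * (acC / htfcΦ) * K) = 2 * δ + 2 * (K * δ) + 2 * (acC / htfcΦ * (K * δ)) := by ring
    linarith

end Claimed.Agent.R323
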