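import Claimed.Agent.R323.Ht.Defs

/-!
# Row 323, block C, sub-block SP, unit L2/L3: `A x` IS A HYPERPLANE PROJECTION ALMOST EVERYWHERE.   CONTRACT + LEAVES.
Architect: helper178.   Everything here is Mathlib + `Ht/Defs.lean` (`HtPair`, `htCon`, `htProj`).   `k = n - 1`.

EXITS (consumed by `Ht/Sp.lean`: `ht_sp_leb`, `ht_sp_null`; and by LIM): `hsp_leb`, `hsp_null`, `hsp_tilt`.

ROUTE (no tangent measures).  `x` = Lebesgue point of `A` with lower density `c₀` and upper density `C₀`.  Suppose `A₀ = A x` is injective, hence onto, with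
a bounded right inverse (`hsp_rinv`).  `g` = bump, `1` on `closedBall 0 (ρ/2)`, `0` off `closedBall 0 ρ`;  `G(h) = ∫ g((y-x)/r - h) dμ(y)`.
* `hsp_stat_scalar`: `stat` for `X = g • w`:  `∫ Dg(y)[M y w] = 0`.
* `hsp_shift`: `|G(A₀ w) - G(0)| ≤ L |w| ∫_{closedBall x 2r} |A - A₀| dμ`  (derivative in `t` of `G(t A₀ w)`: `hsp_shift_deriv`, then the mean value inequality).
* `hsp_avg` (Tonelli): `∫_{|h| ≤ 1} G(h) dh ≤ μ(closedBall x 2r) |closedBall 0 ρ|`.
* `hsp_point_ineq`: `μ(closedBall x (ρ r/2)) - L b ∫_{closedBall x 2r} |A - A₀| ≤ μ(closedBall x 2r) ρ^n`.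
* `hsp_point`: divide by `r^k`, `r → 0`: `c₀ (ρ/2)^k ≤ C₀ 2^k ρ^(k+1)`: false for `ρ` small.
* `hsp_proj_of_null`: symmetric, `0 ≤ B ≤ 1`, `tr B = n - 1`, `B e = 0`, `|e| = 1`  ⟹  `B = htProj e`.
-/

set_option autoImplicit false
open scoped ContDiff ENNReal NNReal RealInnerProductSpace Topology
open MeasureTheory Metric Set Filter

namespace Claimed.Agent.R323

open Claimed.Agent.Gmt

variable {n : ℕ}

/-! ### linear algebra -/

/-- LEAF L-323-SP-P2.   Polarisation: `⟪B v, w⟫ = (q(v+w) - q(v-w))/4 ≤ c |v+w|²/4`.  For `v ≠ 0`, `B v ≠ 0` take `w = (|v|/|B v|) B v`:  `|v| |B v| ≤ c |v|²`.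
`ContinuousLinearMap.opNorm_le_bound`. -/
theorem hsp_norm_le {B : E n →L[ℝ] E n} {c : ℝ} (hc : 0 ≤ c) (hs : ∀ v w : E n, ⟪B v, w⟫ = ⟪v, B w⟫)
    (h0 : ∀ v : E n, 0 ≤ ⟪B v, v⟫) (h1 : ∀ v : E n, ⟪B v, v⟫ ≤ c * ‖v‖ ^ 2) : ‖B‖ ≤ c := by
  have pol : ∀ v w : E n, ⟪B v, w⟫ ≤ c * ‖v + w‖ ^ 2 / 4 := by
    intro v w
    have hwv : ⟪B w, v⟫ = ⟪B v, w⟫ := by rw [hs w v, real_inner_comm]
    have e1 : ⟪B (v + w), v + w⟫ = ⟪B v, v⟫ + 2 * ⟪B v, w⟫ + ⟪B w, w⟫ := by
      rw [map_add, inner_add_left, inner_add_right, inner_add_right, hwv]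
      ring
    have e2 : ⟪B (v - w), v - w⟫ = ⟪B v, v⟫ - 2 * ⟪B v, w⟫ + ⟪B w, w⟫ := by
      rw [map_sub, inner_sub_left, inner_sub_right, inner_sub_right, hwv]
      ring
    have a1 := h0 (v - w)
    have a2 := h1 (v + w)
    linarith
  refine ContinuousLinearMap.opNorm_le_bound _ hc fun v => ?_
  by_cases hBv : B v = 0
  · rw [hBv, norm_zero]; positivity
  have hv : v ≠ 0 := fun h => hBv (by rw [h, map_zero])
  have hnv : 0 < ‖v‖ := norm_pos_iff.2 hv
  have hnB : 0 < ‖B v‖ := norm_pos_iff.2 hBv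
  have h2 := pol v ((‖v‖ / ‖B v‖) • B v)
  rw [inner_smul_right, real_inner_self_eq_norm_sq] at h2
  have hw : ‖(‖v‖ / ‖B v‖) • B v‖ = ‖v‖ := by
    rw [norm_smul, Real.norm_of_nonneg (by positivity)]
    field_simp
  have h3 : ‖v + (‖v‖ / ‖B v‖) • B v‖ ≤ 2 * ‖v‖ := (norm_add_le _ _).trans (by rw [hw]; linarith)
  have h4 : ‖v + (‖v‖ / ‖B v‖) • B v‖ ^ 2 ≤ (2 * ‖v‖) ^ 2 := pow_le_pow_left₀ (norm_nonneg _) h3 2
  have h5 : ‖v‖ / ‖B v‖ * ‖B v‖ ^ 2 = ‖v‖ * ‖B v‖ := by field_simp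
  rw [h5] at h2
  have h6 : ‖v‖ * ‖B v‖ ≤ ‖v‖ * (c * ‖v‖) := by nlinarith
  exact le_of_mul_le_mul_left h6 hnv

/-- a symmetric nonnegative form vanishes with its diagonal. -/
theorem hsp_psd_null {D : E n →L[ℝ] E n} (hs : ∀ v w : E n, ⟪D v, w⟫ = ⟪v, D w⟫)
    (h0 : ∀ v : E n, 0 ≤ ⟪D v, v⟫) {a : E n} (ha : ⟪D a, a⟫ = 0) : D a = 0 := by
  have key : ∀ w : E n, ⟪D a, w⟫ = 0 := by
    intro w
    have hq : ∀ t : ℝ, 0 ≤ ⟪D w, w⟫ * (t * t) + (2 * ⟪D a, w⟫) * t + 0 := by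
      intro t
      have h := h0 (a + t • w)
      have hwa : ⟪D w, a⟫ = ⟪D a, w⟫ := by rw [hs w a, real_inner_comm]
      rw [map_add, map_smul, inner_add_left, inner_add_right, inner_add_right, inner_smul_left, inner_smul_left,
        inner_smul_right, inner_smul_right, ha, hwa] at h
      simp only [conj_trivial] at h
      linarith
    have hd := discrim_le_zero hq
    unfold discrim at hd
    have : (⟪D a, w⟫) ^ 2 ≤ 0 := by nlinarith
    exact pow_eq_zero_iff two_ne_zero |>.1 (le_antisymm this (sq_nonneg _))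
  exact inner_self_eq_zero.1 (key (D a))

/-- LEAF L-323-SP-P3.   `P = htProj e`, `D = P - B`.  `B v = B (P v)` (as `B e = 0`), `⟪B v, v⟫ = ⟪B (P v), P v⟫ ≤ |P v|² = ⟪P v, v⟫`: `D` symmetric, `⟪D v, v⟫ ≥ 0`;
`∑ ⟪D (eb i), eb i⟫ = (n - 1) - (n - 1) = 0` (`∑ ⟪e, eb i⟫² = 1`), so `⟪D (eb i), eb i⟫ = 0` for all `i`;   `0 ≤ ⟪D (eb i + t w), eb i + t w⟫ = 2 t ⟪D (eb i), w⟫ + t² ⟪D w, w⟫` for all `t`
forces `⟪D (eb i), w⟫ = 0`; so `D (eb i) = 0` for all `i`, `D = 0`. -/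
theorem hsp_proj_of_null {B : E n →L[ℝ] E n} (hs : ∀ v w : E n, ⟪B v, w⟫ = ⟪v, B w⟫)
    (h0 : ∀ v : E n, 0 ≤ ⟪B v, v⟫) (h1 : ∀ v : E n, ⟪B v, v⟫ ≤ ‖v‖ ^ 2)
    (ht : ∑ i, ⟪B (eb i), eb i⟫ = (n : ℝ) - 1) {e : E n} (he : ‖e‖ = 1) (hBe : B e = 0) : B = htProj e := by
  have hee : ⟪e, e⟫ = 1 := by rw [real_inner_self_eq_norm_sq, he]; norm_num
  have hP : ∀ v : E n, htProj e v = v - ⟪e, v⟫ • e := by
    intro v
    simp [htProj]
  have hBP : ∀ v : E n, B (htProj e v) = B v := by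
    intro v
    rw [hP, map_sub, map_smul, hBe, smul_zero, sub_zero]
  have hPs : ∀ v w : E n, ⟪htProj e v, w⟫ = ⟪v, htProj e w⟫ := by
    intro v w
    rw [hP, hP, inner_sub_left, inner_sub_right, inner_smul_left, inner_smul_right, real_inner_comm e v]
    simp only [conj_trivial]
    ring
  have hPP : ∀ v : E n, ‖htProj e v‖ ^ 2 = ⟪htProj e v, v⟫ := by
    intro v
    rw [← real_inner_self_eq_norm_sq, hP, inner_sub_left, inner_sub_right, inner_sub_right, inner_smul_left, inner_smul_left,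
      inner_smul_right, inner_smul_right, hee, inner_sub_left, inner_smul_left, real_inner_comm e v]
    simp only [conj_trivial]
    ring
  have hDs : ∀ v w : E n, ⟪(htProj e - B) v, w⟫ = ⟪v, (htProj e - B) w⟫ := by
    intro v w
    rw [sub_apply, sub_apply, inner_sub_left, inner_sub_right, hPs, hs]
  have hD0 : ∀ v : E n, 0 ≤ ⟪(htProj e - B) v, v⟫ := by
    intro v
    rw [sub_apply, inner_sub_left, ← hPP]
    have e1 : ⟪B v, v⟫ = ⟪B (htProj e v), htProj e v⟫ := by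
      rw [hBP, hs v (htProj e v), hBP, hs]
    rw [e1]
    linarith [h1 (htProj e v)]
  have hsum : ∑ i, ⟪(htProj e - B) (eb i), eb i⟫ = 0 := by
    have e1 : ∀ i : Fin n, ⟪(htProj e - B) (eb i), eb i⟫ = (1 - e i ^ 2) - ⟪B (eb i), eb i⟫ := by
      intro i
      rw [sub_apply, inner_sub_left, hP, inner_sub_left, inner_smul_left]
      simp [eb, EuclideanSpace.inner_single_right]
      ring
    simp only [e1]
    rw [Finset.sum_sub_distrib, Finset.sum_sub_distrib, ht]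
    have e2 : ∑ i, e i ^ 2 = 1 := by
      have := EuclideanSpace.norm_sq_eq e
      rw [he] at this
      simp only [Real.norm_eq_abs, sq_abs] at this
      linarith
    rw [e2]
    simp
  have hz : ∀ i : Fin n, (htProj e - B) (eb i) = 0 := by
    intro i
    have := (Finset.sum_eq_zero_iff_of_nonneg (fun i _ => hD0 (eb i))).1 hsum i (Finset.mem_univ i)
    exact hsp_psd_null hDs hD0 this
  have hD : ∀ v : E n, (htProj e - B) v = 0 := by
    intro v
    ext i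
    have h := hDs v (eb i)
    rw [hz i, inner_zero_right] at h
    simpa [eb, EuclideanSpace.inner_single_right] using h
  ext1 v
  have := hD v
  rw [sub_apply, sub_eq_zero] at this
  exact this.symm

/-- LEAF L-323-SP-P6A.   No unit null vector ⟹ `ker = ⊥` ⟹ injective ⟹ bijective (`LinearMap.injective_iff_surjective`), `LinearEquiv.ofBijective`, `.toContinuousLinearEquiv`, `b = ‖symm‖`. -/
theorem hsp_rinv {B : E n →L[ℝ] E n} (h : ∀ e : E n, ‖e‖ = 1 → B e ≠ 0) :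
    ∃ b : ℝ, 0 ≤ b ∧ ∀ h : E n, ∃ w : E n, B w = h ∧ ‖w‖ ≤ b * ‖h‖ := by
  have hinj : Function.Injective B := by
    rw [injective_iff_map_eq_zero]
    intro v hv
    by_contra hne
    have hnv : 0 < ‖v‖ := norm_pos_iff.2 hne
    refine h (‖v‖⁻¹ • v) ?_ (by rw [map_smul, hv, smul_zero])
    rw [norm_smul, norm_inv, norm_norm]
    field_simp
  have hsurj : Function.Surjective B := (LinearMap.injective_iff_surjective (f := (B : E n →ₗ[ℝ] E n))).1 hinj
  let e := ContinuousLinearEquiv.ofBijective B (LinearMap.ker_eq_bot.2 hinj) (LinearMap.range_eq_top.2 hsurj)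
  refine ⟨‖(e.symm : E n →L[ℝ] E n)‖, norm_nonneg _, fun y => ⟨e.symm y, ?_, ?_⟩⟩
  · exact ContinuousLinearEquiv.ofBijective_apply_symm_apply B _ _ y
  · exact (e.symm : E n →L[ℝ] E n).le_opNorm y

/-! ### consequences of the axioms of a pair -/

/-- LEAF L-323-SP-P2B.   `d ≥ 0` a.e. (`nonneg`, `le` at `v = eb ⟨0, _⟩`), then `hsp_norm_le`. -/
theorem hsp_ae_norm_le (hn : 1 ≤ n) {lam : Measure (E n)} {d : E n → ℝ} {M : E n → E n →L[ℝ] E n}
    (hP : HtPair n lam d M) : ∀ᵐ x ∂lam, 0 ≤ d x ∧ ‖M x‖ ≤ d x := by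
  filter_upwards [hP.symm, hP.nonneg, hP.le] with x h1 h2 h3
  have hd : 0 ≤ d x := by
    have a1 := h2 (eb ⟨0, hn⟩)
    have a2 := h3 (eb ⟨0, hn⟩)
    have a3 : ‖(eb ⟨0, hn⟩ : E n)‖ = 1 := by simp [eb]
    rw [a3] at a2
    linarith
  exact ⟨hd, hsp_norm_le hd h1 h2 h3⟩

/-- `‖A y‖ ≤ 1` a.e. (all `n`). -/
theorem hsp_ae_norm_le_one {μ : Measure (E n)} {A : E n → E n →L[ℝ] E n}
    (hP : HtPair n μ (fun _ => 1) A) : ∀ᵐ x ∂μ, ‖A x‖ ≤ 1 := by
  rcases Nat.eq_zero_or_pos n with rfl | hn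
  · refine Filter.Eventually.of_forall fun x => ?_
    have : A x = 0 := by
      ext1 v
      exact Subsingleton.elim _ _
    rw [this, norm_zero]
    exact zero_le_one
  · filter_upwards [hsp_ae_norm_le hn hP] with x hx using hx.2

/-- LEAF L-323-SP-P2C.   `‖A y - A₀‖ ≤ 1 + ‖A₀‖` a.e., `hP.mM`, compact sets have finite measure.  (`n = 0`: the space of operators is trivial, or use `Subsingleton`.) -/
theorem hsp_int_sub {μ : Measure (E n)} [IsLocallyFiniteMeasure μ] {A : E n → E n →L[ℝ] E n}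
    (hP : HtPair n μ (fun _ => 1) A) (A₀ : E n →L[ℝ] E n) {K : Set (E n)} (hK : IsCompact K) :
    IntegrableOn (fun y => ‖A y - A₀‖) K μ := by
  refine Measure.integrableOn_of_bounded (M := 1 + ‖A₀‖) hK.measure_lt_top.ne
    (hP.mM.sub aestronglyMeasurable_const).norm (ae_restrict_of_ae ?_)
  filter_upwards [hsp_ae_norm_le_one hP] with y hy
  rw [norm_norm]
  exact (norm_sub_le _ _).trans (by linarith)

/-- LEAF L-323-SP-P1.   `X = fun y => g y • w` is a `GmtTest univ`; `fderiv X y = (fderiv g y).smulRight w`;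
`htCon (M y) (..) = ∑ i, Dg(eb i) ⟪M y w, eb i⟫ = Dg (∑ i, ⟪M y w, eb i⟫ • eb i) = Dg (M y w)`. -/
theorem hsp_stat_scalar {lam : Measure (E n)} {d : E n → ℝ} {M : E n → E n →L[ℝ] E n} (hP : HtPair n lam d M)
    {g : E n → ℝ} (hg : ContDiff ℝ 1 g) (hc : HasCompactSupport g) (w : E n) :
    ∫ y, fderiv ℝ g y (M y w) ∂lam = 0 := by
  have hX : GmtTest univ (fun y => g y • w) := ⟨hg.smul contDiff_const, hc.smul_right, subset_univ _⟩
  have h := hP.stat _ hX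
  rw [← h]
  refine integral_congr_ae (Filter.Eventually.of_forall fun y => ?_)
  have hd : fderiv ℝ (fun y => g y • w) y = (fderiv ℝ g y).smulRight w :=
    ((hg.differentiable one_ne_zero y).hasFDerivAt.smul_const w).fderiv
  show fderiv ℝ g y (M y w) = htCon (M y) (fderiv ℝ (fun y => g y • w) y)
  rw [hd, htCon]
  conv_lhs => rw [← gmt_sum_eb (M y w)]
  rw [map_sum]
  refine Finset.sum_congr rfl fun i _ => ?_
  rw [ContinuousLinearMap.smulRight_apply, map_smul, map_smul, inner_smul_left, gmt_inner_eb, smul_eq_mul]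
  simp [mul_comm]

/-! ### translations -/

/-- the affine change of variable leaves large balls -/
theorem hsp_aux_cpt (R : ℝ) (x : E n) {r : ℝ} (hr : 0 < r) (v : E n) :
    ∀ y, y ∉ closedBall x (r * (R + ‖v‖)) → R < ‖r⁻¹ • (y - x) - v‖ := by
  intro y hy
  rw [mem_closedBall, dist_eq_norm, not_le] at hy
  have h1 : ‖r⁻¹ • (y - x)‖ = r⁻¹ * ‖y - x‖ := by rw [norm_smul, Real.norm_eq_abs, abs_of_pos (inv_pos.2 hr)]
  have h2 : R + ‖v‖ < r⁻¹ * ‖y - x‖ := by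
    rw [inv_mul_eq_div, lt_div_iff₀ hr]
    linarith
  have h3 := norm_sub_norm_le (r⁻¹ • (y - x)) v
  linarith

theorem hsp_aux_fderiv0 {g : E n → ℝ} {R : ℝ} (hgs : ∀ u, R < ‖u‖ → g u = 0) : ∀ u, R < ‖u‖ → fderiv ℝ g u = 0 := by
  intro u hu
  have hev : g =ᶠ[𝓝 u] fun _ => (0 : ℝ) := by
    have hopen : IsOpen {v : E n | R < ‖v‖} := isOpen_lt continuous_const continuous_norm
    filter_upwards [hopen.mem_nhds hu] with v hv
    exact hgs v hv
  rw [hev.fderiv_eq]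
  simp

/-- LEAF L-323-SP-P4A.   Differentiation under the integral sign (`hasDerivAt_integral_of_dominated_loc_of_deriv_le`): for `|s - t| < 1` the integrand and its derivative vanish
off the compact set `closedBall x (r (R + (|t| + 1) |h|))` if `g = 0` off `closedBall 0 R`; the derivative is bounded by `sup |Dg| |h|`.   No pair here. -/
theorem hsp_shift_deriv {μ : Measure (E n)} [IsLocallyFiniteMeasure μ] {g : E n → ℝ} (hg : ContDiff ℝ 1 g)
    (hc : HasCompactSupport g) (x : E n) (r : ℝ) (hr : 0 < r) (h : E n) (t : ℝ) :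
    HasDerivAt (fun s : ℝ => ∫ y, g (r⁻¹ • (y - x) - s • h) ∂μ)
      (-∫ y, fderiv ℝ g (r⁻¹ • (y - x) - t • h) h ∂μ) t := by
  obtain ⟨R, hR⟩ := hc.isCompact.isBounded.subset_closedBall (0 : E n)
  have hcont : Continuous (fderiv ℝ g) := hg.continuous_fderiv one_ne_zero
  obtain ⟨C, hC⟩ := hcont.bounded_above_of_compact_support (hc.fderiv (𝕜 := ℝ))
  have hg0 : ∀ u, R < ‖u‖ → g u = 0 := by
    intro u hu
    refine image_eq_zero_of_notMem_tsupport fun hmem => ?_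
    have := hR hmem
    rw [mem_closedBall_zero_iff] at this
    linarith
  have hd0 := hsp_aux_fderiv0 hg0
  have hu : ∀ s : ℝ, Continuous (fun y : E n => r⁻¹ • (y - x) - s • h) := fun s => by fun_prop
  have key := hasDerivAt_integral_of_dominated_loc_of_deriv_le (μ := μ) (F := fun s y => g (r⁻¹ • (y - x) - s • h))
      (F' := fun s y => -(fderiv ℝ g (r⁻¹ • (y - x) - s • h) h)) (x₀ := t) (s := ball t 1)
      (bound := (closedBall x (r * (R + (|t| + 1) * ‖h‖))).indicator (fun _ => C * ‖h‖))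
      (ball_mem_nhds t one_pos) ?_ ?_ ?_ ?_ ?_ ?_
  · have := key.2
    rwa [integral_neg] at this
  · exact Eventually.of_forall fun s => (hg.continuous.comp (hu s)).aestronglyMeasurable
  · exact (hg.continuous.comp (hu t)).integrable_of_hasCompactSupport
      (HasCompactSupport.intro (isCompact_closedBall x (r * (R + ‖t • h‖))) fun y hy => hg0 _ (hsp_aux_cpt R x hr _ y hy))
  · exact ((hcont.comp (hu t)).clm_apply continuous_const).neg.aestronglyMeasurable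
  · refine Eventually.of_forall fun y s hs => ?_
    by_cases hy : y ∈ closedBall x (r * (R + (|t| + 1) * ‖h‖))
    · rw [indicator_of_mem hy, norm_neg]
      exact (ContinuousLinearMap.le_opNorm _ _).trans (mul_le_mul_of_nonneg_right (hC _) (norm_nonneg _))
    · rw [indicator_of_notMem hy]
      have hs' : |s| ≤ |t| + 1 := by
        rw [mem_ball, Real.dist_eq] at hs
        have := abs_sub_abs_le_abs_sub s t
        linarith
      have hy' : y ∉ closedBall x (r * (R + ‖s • h‖)) := by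
        intro hmem
        refine hy (closedBall_subset_closedBall ?_ hmem)
        rw [norm_smul, Real.norm_eq_abs]
        have := mul_le_mul_of_nonneg_right hs' (norm_nonneg h)
        exact mul_le_mul_of_nonneg_left (by linarith) hr.le
      rw [hd0 _ (hsp_aux_cpt R x hr _ y hy')]
      simp
  · exact (integrableOn_const (isCompact_closedBall _ _).measure_lt_top.ne).integrable_indicator measurableSet_closedBall
  · refine Eventually.of_forall fun y s _ => ?_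
    have h1 : HasDerivAt (fun s : ℝ => r⁻¹ • (y - x) - s • h) (-((1 : ℝ) • h)) s :=
      ((hasDerivAt_id s).smul_const h).const_sub _
    have h2 := (hg.differentiable one_ne_zero (r⁻¹ • (y - x) - s • h)).hasFDerivAt.comp_hasDerivAt s h1
    rw [one_smul, map_neg] at h2
    exact h2

/-- LEAF L-323-SP-P4B.   `F(t) = ∫ g((y-x)/r - t A₀ w) dμ`, `F'(t) = -∫ Dg(..)[A₀ w] dμ` (`hsp_shift_deriv`).  `hsp_stat_scalar` for `φ(y) = g((y-x)/r - t A₀ w)` (`Dφ = r⁻¹ Dg(..)`):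
`∫ Dg(..)[A y w] dμ = 0`.   So `F'(t) = ∫ Dg(..)[(A y - A₀) w] dμ`, and for `t ∈ [0,1]` the integrand vanishes off `closedBall x (2 r)`:  `|F'(t)| ≤ L |w| ∫_{closedBall x 2r} ‖A y - A₀‖` (`hsp_int_sub`).
Mean value inequality on `[0,1]` (`Convex.norm_image_sub_le_of_norm_hasDerivWithin_le`). -/
theorem hsp_shift {μ : Measure (E n)} [IsLocallyFiniteMeasure μ] {A : E n → E n →L[ℝ] E n}
    (hP : HtPair n μ (fun _ => 1) A) {g : E n → ℝ} (hg : ContDiff ℝ 1 g) (hgs : ∀ u, 1 < ‖u‖ → g u = 0)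
    {L : ℝ} (hL : ∀ u, ‖fderiv ℝ g u‖ ≤ L) (x : E n) {r : ℝ} (hr : 0 < r) (A₀ : E n →L[ℝ] E n) (w : E n)
    (hw : ‖A₀ w‖ ≤ 1) :
    |∫ y, g (r⁻¹ • (y - x) - A₀ w) ∂μ - ∫ y, g (r⁻¹ • (y - x)) ∂μ|
      ≤ L * ‖w‖ * ∫ y in closedBall x (2 * r), ‖A y - A₀‖ ∂μ := by
  have hc : HasCompactSupport g := HasCompactSupport.intro (isCompact_closedBall 0 1)
    (fun u hu => hgs u (by rwa [mem_closedBall_zero_iff, not_le] at hu))
  have hd0 := hsp_aux_fderiv0 hgs
  have hcont : Continuous (fderiv ℝ g) := hg.continuous_fderiv one_ne_zero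
  have hL0 : 0 ≤ L := (norm_nonneg _).trans (hL 0)
  have hder : ∀ t : ℝ, HasDerivAt (fun s : ℝ => ∫ y, g (r⁻¹ • (y - x) - s • A₀ w) ∂μ)
      (-∫ y, fderiv ℝ g (r⁻¹ • (y - x) - t • A₀ w) (A₀ w) ∂μ) t := fun t => hsp_shift_deriv hg hc x r hr (A₀ w) t
  have hbound : ∀ t ∈ Icc (0 : ℝ) 1, ‖-∫ y, fderiv ℝ g (r⁻¹ • (y - x) - t • A₀ w) (A₀ w) ∂μ‖
      ≤ L * ‖w‖ * ∫ y in closedBall x (2 * r), ‖A y - A₀‖ ∂μ := by
    intro t ht
    have hu : ContDiff ℝ 1 (fun y : E n => r⁻¹ • (y - x) - t • A₀ w) := by fun_prop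
    have hφ : ContDiff ℝ 1 (fun y => g (r⁻¹ • (y - x) - t • A₀ w)) := hg.comp hu
    have hφc : HasCompactSupport (fun y => g (r⁻¹ • (y - x) - t • A₀ w)) :=
      HasCompactSupport.intro (isCompact_closedBall x (r * (1 + ‖t • A₀ w‖))) fun y hy => hgs _ (hsp_aux_cpt 1 x hr _ y hy)
    have hst := hsp_stat_scalar hP hφ hφc w
    have hfd : ∀ y, fderiv ℝ (fun y => g (r⁻¹ • (y - x) - t • A₀ w)) y = r⁻¹ • fderiv ℝ g (r⁻¹ • (y - x) - t • A₀ w) := by
      intro y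
      have h1 : HasFDerivAt (fun y : E n => r⁻¹ • (y - x) - t • A₀ w) (r⁻¹ • ContinuousLinearMap.id ℝ (E n)) y :=
        (((hasFDerivAt_id y).sub_const x).const_smul r⁻¹).sub_const _
      have h2 := (hg.differentiable one_ne_zero _).hasFDerivAt.comp y h1
      have h3 : fderiv ℝ (fun y => g (r⁻¹ • (y - x) - t • A₀ w)) y
          = (fderiv ℝ g (r⁻¹ • (y - x) - t • A₀ w)).comp (r⁻¹ • ContinuousLinearMap.id ℝ (E n)) := h2.fderiv
      rw [h3]
      ext v
      simp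
    have hst' : ∫ y, fderiv ℝ g (r⁻¹ • (y - x) - t • A₀ w) (A y w) ∂μ = 0 := by
      simp only [hfd, smul_apply, smul_eq_mul] at hst
      rw [integral_const_mul] at hst
      rcases mul_eq_zero.1 hst with h0 | h0
      · exact absurd h0 (inv_ne_zero hr.ne')
      · exact h0
    have htn : ‖t • A₀ w‖ ≤ 1 := by
      rw [norm_smul, Real.norm_eq_abs, abs_of_nonneg ht.1]
      calc t * ‖A₀ w‖ ≤ 1 * 1 := mul_le_mul ht.2 hw (norm_nonneg _) zero_le_one
        _ = 1 := one_mul 1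
    have hDc : Continuous (fun y : E n => fderiv ℝ g (r⁻¹ • (y - x) - t • A₀ w)) := hcont.comp hu.continuous
    have hD0 : ∀ y, y ∉ closedBall x (2 * r) → fderiv ℝ g (r⁻¹ • (y - x) - t • A₀ w) = 0 := by
      intro y hy
      refine hd0 _ (hsp_aux_cpt 1 x hr _ y fun hmem => hy (closedBall_subset_closedBall ?_ hmem))
      nlinarith
    have hbi : Integrable ((closedBall x (2 * r)).indicator fun y => L * ‖w‖ * ‖A y - A₀‖) μ :=
      IntegrableOn.integrable_indicator ((hsp_int_sub hP A₀ (isCompact_closedBall x (2 * r))).const_mul (L * ‖w‖))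
        measurableSet_closedBall
    have hpt : ∀ y, ‖fderiv ℝ g (r⁻¹ • (y - x) - t • A₀ w) ((A y - A₀) w)‖
        ≤ (closedBall x (2 * r)).indicator (fun y => L * ‖w‖ * ‖A y - A₀‖) y := by
      intro y
      by_cases hy : y ∈ closedBall x (2 * r)
      · rw [indicator_of_mem hy]
        calc ‖fderiv ℝ g (r⁻¹ • (y - x) - t • A₀ w) ((A y - A₀) w)‖
            ≤ ‖fderiv ℝ g (r⁻¹ • (y - x) - t • A₀ w)‖ * ‖(A y - A₀) w‖ := ContinuousLinearMap.le_opNorm _ _
          _ ≤ L * (‖A y - A₀‖ * ‖w‖) := mul_le_mul (hL _) (ContinuousLinearMap.le_opNorm _ _) (norm_nonneg _) hL0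
          _ = L * ‖w‖ * ‖A y - A₀‖ := by ring
      · rw [indicator_of_notMem hy, hD0 y hy]
        simp
    have int1 : Integrable (fun y => fderiv ℝ g (r⁻¹ • (y - x) - t • A₀ w) ((A y - A₀) w)) μ := by
      refine hbi.mono' ?_ (Eventually.of_forall hpt)
      exact (ContinuousLinearMap.id ℝ (E n →L[ℝ] ℝ)).aestronglyMeasurable_comp₂ hDc.aestronglyMeasurable
        ((hP.mM.sub aestronglyMeasurable_const).apply_continuousLinearMap w)
    have int2 : Integrable (fun y => fderiv ℝ g (r⁻¹ • (y - x) - t • A₀ w) (A₀ w)) μ := by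
      refine (hDc.clm_apply continuous_const).integrable_of_hasCompactSupport
        (HasCompactSupport.intro (isCompact_closedBall x (2 * r)) fun y hy => ?_)
      rw [hD0 y hy]
      simp
    have hsum : ∫ y, fderiv ℝ g (r⁻¹ • (y - x) - t • A₀ w) (A y w) ∂μ
        = ∫ y, fderiv ℝ g (r⁻¹ • (y - x) - t • A₀ w) ((A y - A₀) w) ∂μ + ∫ y, fderiv ℝ g (r⁻¹ • (y - x) - t • A₀ w) (A₀ w) ∂μ := by
      rw [← integral_add int1 int2]
      refine integral_congr_ae (Eventually.of_forall fun y => ?_)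
      show _ = fderiv ℝ g (r⁻¹ • (y - x) - t • A₀ w) ((A y - A₀) w) + fderiv ℝ g (r⁻¹ • (y - x) - t • A₀ w) (A₀ w)
      rw [← map_add, sub_apply, sub_add_cancel]
    have heq : -∫ y, fderiv ℝ g (r⁻¹ • (y - x) - t • A₀ w) (A₀ w) ∂μ
        = ∫ y, fderiv ℝ g (r⁻¹ • (y - x) - t • A₀ w) ((A y - A₀) w) ∂μ := by
      rw [hst'] at hsum
      linarith
    rw [heq]
    refine (norm_integral_le_of_norm_le hbi (Eventually.of_forall hpt)).trans (le_of_eq ?_)
    rw [integral_indicator measurableSet_closedBall, integral_const_mul]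
  have hmv := Convex.norm_image_sub_le_of_norm_hasDerivWithin_le (f := fun s : ℝ => ∫ y, g (r⁻¹ • (y - x) - s • A₀ w) ∂μ)
    (s := Icc (0 : ℝ) 1) (fun t _ => (hder t).hasDerivWithinAt) hbound (convex_Icc 0 1)
    (left_mem_Icc.2 zero_le_one) (right_mem_Icc.2 zero_le_one)
  simp only [one_smul, zero_smul, sub_zero, norm_one, mul_one, Real.norm_eq_abs] at hmv
  exact hmv

/-- LEAF L-323-SP-P5.   `ofReal ∫ = ∫⁻ ofReal` (`ofReal_integral_eq_lintegral_ofReal`), Tonelli (`lintegral_lintegral_swap`); for fixed `y`, `u = (y-x)/r`: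
`∫⁻_{|h| ≤ 1} ofReal (g (u - h)) dh ≤ volume (closedBall u ρ) = volume (closedBall 0 ρ)`, and it is `0` unless `|u| ≤ 1 + ρ ≤ 2`, i.e. `y ∈ closedBall x (2 r)`.   No pair here. -/
theorem hsp_avg {μ : Measure (E n)} [IsLocallyFiniteMeasure μ] {g : E n → ℝ} (hg : Continuous g) (h0 : ∀ u, 0 ≤ g u)
    (h1 : ∀ u, g u ≤ 1) {ρ : ℝ} (hρ0 : 0 < ρ) (hρ : ρ ≤ 1) (hgs : ∀ u, ρ < ‖u‖ → g u = 0) (x : E n) {r : ℝ}
    (hr : 0 < r) :
    ∫⁻ h in closedBall (0 : E n) 1, ENNReal.ofReal (∫ y, g (r⁻¹ • (y - x) - h) ∂μ)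
      ≤ μ (closedBall x (2 * r)) * volume (closedBall (0 : E n) ρ) := by
  have _ := hρ0
  have hint : ∀ h : E n, Integrable (fun y => g (r⁻¹ • (y - x) - h)) μ := by
    intro h
    refine (hg.comp (by fun_prop : Continuous fun y : E n => r⁻¹ • (y - x) - h)).integrable_of_hasCompactSupport
      (HasCompactSupport.intro (isCompact_closedBall x (r * (ρ + ‖h‖))) fun y hy => hgs _ (hsp_aux_cpt ρ x hr _ y hy))
  have e1 : ∀ h : E n, ENNReal.ofReal (∫ y, g (r⁻¹ • (y - x) - h) ∂μ) = ∫⁻ y, ENNReal.ofReal (g (r⁻¹ • (y - x) - h)) ∂μ :=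
    fun h => ofReal_integral_eq_lintegral_ofReal (hint h) (Eventually.of_forall fun y => h0 _)
  simp only [e1]
  have hm : Measurable (fun p : E n × E n => ENNReal.ofReal (g (r⁻¹ • (p.2 - x) - p.1))) :=
    ENNReal.measurable_ofReal.comp (hg.comp (by fun_prop : Continuous fun p : E n × E n => r⁻¹ • (p.2 - x) - p.1)).measurable
  rw [lintegral_lintegral_swap hm.aemeasurable]
  calc ∫⁻ y, (∫⁻ h in closedBall (0 : E n) 1, ENNReal.ofReal (g (r⁻¹ • (y - x) - h))) ∂μ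
      ≤ ∫⁻ y, (closedBall x (2 * r)).indicator (fun _ => volume (closedBall (0 : E n) ρ)) y ∂μ := by
        refine lintegral_mono fun y => ?_
        by_cases hy : y ∈ closedBall x (2 * r)
        · rw [indicator_of_mem hy]
          calc ∫⁻ h in closedBall (0 : E n) 1, ENNReal.ofReal (g (r⁻¹ • (y - x) - h))
              ≤ ∫⁻ h, ENNReal.ofReal (g (r⁻¹ • (y - x) - h)) := setLIntegral_le_lintegral _ _
            _ ≤ ∫⁻ h, (closedBall (r⁻¹ • (y - x)) ρ).indicator (fun _ => (1 : ℝ≥0∞)) h := by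
                refine lintegral_mono fun h => ?_
                by_cases hh : h ∈ closedBall (r⁻¹ • (y - x)) ρ
                · rw [indicator_of_mem hh]
                  exact ENNReal.ofReal_le_one.2 (h1 _)
                · rw [indicator_of_notMem hh]
                  rw [mem_closedBall, dist_comm, dist_eq_norm, not_le] at hh
                  rw [hgs _ hh, ENNReal.ofReal_zero]
            _ = volume (closedBall (r⁻¹ • (y - x)) ρ) := by
                rw [lintegral_indicator_const measurableSet_closedBall, one_mul]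
            _ = volume (closedBall (0 : E n) ρ) := Measure.addHaar_closedBall_center _ _ _
        · rw [indicator_of_notMem hy]
          refine le_of_eq ?_
          rw [← lintegral_indicator measurableSet_closedBall]
          have : ∀ h : E n, (closedBall (0 : E n) 1).indicator (fun h => ENNReal.ofReal (g (r⁻¹ • (y - x) - h))) h = 0 := by
            intro h
            by_cases hh : h ∈ closedBall (0 : E n) 1
            · rw [indicator_of_mem hh]
              rw [mem_closedBall_zero_iff] at hh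
              have hy' : y ∉ closedBall x (r * (ρ + ‖h‖)) := fun hmem =>
                hy (closedBall_subset_closedBall (by nlinarith) hmem)
              rw [hgs _ (hsp_aux_cpt ρ x hr _ y hy'), ENNReal.ofReal_zero]
            · rw [indicator_of_notMem hh]
          simp only [this, lintegral_zero]
    _ = μ (closedBall x (2 * r)) * volume (closedBall (0 : E n) ρ) := by
        rw [lintegral_indicator_const measurableSet_closedBall, mul_comm]

/-- LEAF L-323-SP-P6B.   For `|h| ≤ 1` take `w` with `A₀ w = h`, `|w| ≤ b`: `G(h) ≥ G(0) - L b I` (`hsp_shift`), `G(0) ≥ μ(closedBall x (ρ/2 r))` (`g ≥` indicator).   `hsp_avg`;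
`volume (closedBall 0 ρ) = ofReal (ρ^n) * volume (closedBall 0 1)` (`Measure.addHaar_closedBall'`/`addHaar_closedBall_mul`, `finrank = n`); cancel `volume (closedBall 0 1) ∈ (0,∞)`. -/
theorem hsp_point_ineq {μ : Measure (E n)} [IsLocallyFiniteMeasure μ] {A : E n → E n →L[ℝ] E n}
    (hP : HtPair n μ (fun _ => 1) A) {g : E n → ℝ} (hg : ContDiff ℝ 1 g) (h0 : ∀ u, 0 ≤ g u) (h1 : ∀ u, g u ≤ 1)
    {ρ : ℝ} (hρ0 : 0 < ρ) (hρ : ρ ≤ 1) (hg1 : ∀ u, ‖u‖ ≤ ρ / 2 → g u = 1) (hgs : ∀ u, ρ < ‖u‖ → g u = 0)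
    {L : ℝ} (hL : ∀ u, ‖fderiv ℝ g u‖ ≤ L) (x : E n) {r : ℝ} (hr : 0 < r) (A₀ : E n →L[ℝ] E n) {b : ℝ} (hb0 : 0 ≤ b)
    (hb : ∀ h : E n, ∃ w : E n, A₀ w = h ∧ ‖w‖ ≤ b * ‖h‖) :
    (μ (closedBall x (ρ / 2 * r))).toReal - L * b * ∫ y in closedBall x (2 * r), ‖A y - A₀‖ ∂μ
      ≤ (μ (closedBall x (2 * r))).toReal * ρ ^ n := by
  obtain ⟨I, hI⟩ : ∃ I : ℝ, I = ∫ y in closedBall x (2 * r), ‖A y - A₀‖ ∂μ := ⟨_, rfl⟩
  rw [← hI]
  have hI0 : 0 ≤ I := by
    rw [hI]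
    exact integral_nonneg fun y => norm_nonneg _
  have hL0 : 0 ≤ L := (norm_nonneg _).trans (hL 0)
  obtain ⟨m₁, hm₁⟩ : ∃ m₁ : ℝ, m₁ = (μ (closedBall x (ρ / 2 * r))).toReal := ⟨_, rfl⟩
  rw [← hm₁]
  have hint : Integrable (fun y => g (r⁻¹ • (y - x))) μ := by
    refine (hg.continuous.comp (by fun_prop : Continuous fun y : E n => r⁻¹ • (y - x))).integrable_of_hasCompactSupport
      (HasCompactSupport.intro (isCompact_closedBall x (r * (ρ + ‖(0 : E n)‖))) fun y hy => ?_)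
    have := hgs _ (hsp_aux_cpt ρ x hr _ y hy)
    rwa [sub_zero] at this
  have hG0 : m₁ ≤ ∫ y, g (r⁻¹ • (y - x)) ∂μ := by
    have e : ∫ y, (closedBall x (ρ / 2 * r)).indicator (fun _ => (1 : ℝ)) y ∂μ = m₁ := by
      rw [integral_indicator_const _ measurableSet_closedBall, hm₁]
      simp [Measure.real]
    rw [← e]
    refine integral_mono ((integrableOn_const (isCompact_closedBall _ _).measure_lt_top.ne).integrable_indicator
      measurableSet_closedBall) hint fun y => ?_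
    by_cases hy : y ∈ closedBall x (ρ / 2 * r)
    · rw [indicator_of_mem hy, hg1]
      rw [mem_closedBall, dist_eq_norm] at hy
      rw [norm_smul, Real.norm_eq_abs, abs_of_pos (inv_pos.2 hr), inv_mul_eq_div, div_le_iff₀ hr]
      exact hy
    · rw [indicator_of_notMem hy]
      exact h0 _
  have hGh : ∀ h ∈ closedBall (0 : E n) 1, m₁ - L * b * I ≤ ∫ y, g (r⁻¹ • (y - x) - h) ∂μ := by
    intro h hh
    rw [mem_closedBall_zero_iff] at hh
    obtain ⟨w, rfl, hw⟩ := hb h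
    have hs := hsp_shift hP hg (fun u hu => hgs u (hρ.trans_lt hu)) hL x hr A₀ w hh
    rw [← hI] at hs
    have hwb : ‖w‖ ≤ b := hw.trans (by nlinarith)
    have h3 : L * ‖w‖ * I ≤ L * b * I :=
      mul_le_mul_of_nonneg_right (mul_le_mul_of_nonneg_left hwb hL0) hI0
    have h4 := (abs_le.1 hs).1
    linarith
  have havg := hsp_avg (μ := μ) hg.continuous h0 h1 hρ0 hρ hgs x hr
  have hlow : ENNReal.ofReal (m₁ - L * b * I) * volume (closedBall (0 : E n) 1)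
      ≤ ∫⁻ h in closedBall (0 : E n) 1, ENNReal.ofReal (∫ y, g (r⁻¹ • (y - x) - h) ∂μ) := by
    rw [← setLIntegral_const]
    exact setLIntegral_mono' measurableSet_closedBall (fun h hh => ENNReal.ofReal_le_ofReal (hGh h hh))
  have hvol : volume (closedBall (0 : E n) ρ) = ENNReal.ofReal (ρ ^ n) * volume (closedBall (0 : E n) 1) := by
    rw [Measure.addHaar_closedBall' volume 0 hρ0.le, finrank_euclideanSpace_fin]
  have hV0 : volume (closedBall (0 : E n) 1) ≠ 0 := (measure_closedBall_pos volume 0 one_pos).ne'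
  have hVt : volume (closedBall (0 : E n) 1) ≠ ⊤ := measure_closedBall_lt_top.ne
  have hfin : μ (closedBall x (2 * r)) ≠ ⊤ := (isCompact_closedBall _ _).measure_lt_top.ne
  have h5 := hlow.trans havg
  rw [hvol, ← mul_assoc] at h5
  have h6 : ENNReal.ofReal (m₁ - L * b * I) ≤ μ (closedBall x (2 * r)) * ENNReal.ofReal (ρ ^ n) :=
    (ENNReal.mul_le_mul_iff_left hV0 hVt).1 h5
  rw [← ENNReal.ofReal_toReal hfin, ← ENNReal.ofReal_mul ENNReal.toReal_nonneg] at h6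
  exact (ENNReal.ofReal_le_ofReal_iff (by positivity)).1 h6

/-- dilations preserve the filter `𝓝[>] 0`. -/
theorem hsp_tendsto_mul {c : ℝ} (hc : 0 < c) : Tendsto (fun r : ℝ => c * r) (𝓝[>] 0) (𝓝[>] 0) := by
  refine tendsto_nhdsWithin_iff.2 ⟨?_, ?_⟩
  · have h : Tendsto (fun r : ℝ => c * r) (𝓝 0) (𝓝 (c * 0)) := (continuous_const.mul continuous_id).tendsto 0
    rw [mul_zero] at h
    exact h.mono_left nhdsWithin_le_nhds
  · filter_upwards [self_mem_nhdsWithin] with r hr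
    exact mul_pos hc hr

/-- LEAF L-323-SP-P6C.   By contradiction: `hsp_rinv` gives `b`.  `C₀ > 0` (from `hlo`, `hup`).  `ρ = min 1 (c₀ / (2 * 4^k * C₀))`, `g = ContDiffBump` at `0` with `rIn = ρ/2`, `rOut = ρ`, `L` = bound of the
continuous compactly supported `fderiv ℝ g`.  For small `r` (`Tendsto (c * ·) (𝓝[>] 0) (𝓝[>] 0)`): `hsp_point_ineq` +
`∫_{closedBall x 2r} ‖A - A x‖ = (⨍ ..) * μ(closedBall x 2r).toReal` (`setAverage_eq`), `μ(closedBall x 2r).toReal ≤ C₀ (2r)^k`, `c₀ (ρ/2 r)^k ≤ μ(..).toReal`: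
`c₀ (ρ/2)^k - L b C₀ 2^k η(2r) ≤ C₀ 2^k ρ^(k+1)`;  `le_of_tendsto`:  `c₀ ≤ 4^k C₀ ρ`.  Contradiction. -/
theorem hsp_point (hn : 1 ≤ n) {μ : Measure (E n)} [IsLocallyFiniteMeasure μ] {A : E n → E n →L[ℝ] E n}
    (hP : HtPair n μ (fun _ => 1) A) {c₀ C₀ : ℝ} (hc₀ : 0 < c₀) (x : E n)
    (hleb : Tendsto (fun r => ⨍ y in closedBall x r, ‖A y - A x‖ ∂μ) (𝓝[>] 0) (𝓝 0))
    (hlo : ∀ᶠ r in 𝓝[>] (0 : ℝ), ENNReal.ofReal (c₀ * r ^ (n - 1)) ≤ μ (closedBall x r))
    (hup : ∀ᶠ r in 𝓝[>] (0 : ℝ), μ (closedBall x r) ≤ ENNReal.ofReal (C₀ * r ^ (n - 1))) :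
    ∃ e : E n, ‖e‖ = 1 ∧ A x e = 0 := by
  by_contra hcon
  push Not at hcon
  obtain ⟨b, hb0, hb⟩ := hsp_rinv hcon
  obtain ⟨k, hk⟩ : ∃ k : ℕ, k = n - 1 := ⟨_, rfl⟩
  have hnk : n = k + 1 := by omega
  rw [← hk] at hlo hup
  -- `C₀ > 0`
  have hC₀ : 0 < C₀ := by
    obtain ⟨r, ⟨h1, h2⟩, h3⟩ := ((hlo.and hup).and self_mem_nhdsWithin).exists
    have hr : (0 : ℝ) < r := h3
    have h4 := h1.trans h2
    have h5 : 0 < c₀ * r ^ k := by positivity
    have h6 : 0 < C₀ * r ^ k := by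
      by_contra hneg
      rw [ENNReal.ofReal_of_nonpos (not_lt.1 hneg), nonpos_iff_eq_zero, ENNReal.ofReal_eq_zero] at h4
      linarith
    exact (pos_iff_pos_of_mul_pos h6).2 (by positivity)
  obtain ⟨ρ, hρdef⟩ : ∃ ρ : ℝ, ρ = min 1 (c₀ / (2 * 4 ^ k * C₀)) := ⟨_, rfl⟩
  have hρ0 : 0 < ρ := by rw [hρdef]; exact lt_min one_pos (by positivity)
  have hρ1 : ρ ≤ 1 := by rw [hρdef]; exact min_le_left _ _
  have hρ2 : ρ ≤ c₀ / (2 * 4 ^ k * C₀) := by rw [hρdef]; exact min_le_right _ _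
  -- the bump
  let f : ContDiffBump (0 : E n) := ⟨ρ / 2, ρ, by positivity, by linarith⟩
  have hg : ContDiff ℝ 1 (f : E n → ℝ) := f.contDiff
  have hg0 : ∀ u, 0 ≤ f u := fun u => f.nonneg
  have hg1 : ∀ u, f u ≤ 1 := fun u => f.le_one
  have hgin : ∀ u : E n, ‖u‖ ≤ ρ / 2 → f u = 1 := fun u hu =>
    f.one_of_mem_closedBall (by rw [mem_closedBall, dist_zero_right]; exact hu)
  have hgout : ∀ u : E n, ρ < ‖u‖ → f u = 0 := fun u hu =>
    f.zero_of_le_dist (by rw [dist_zero_right]; exact hu.le)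
  obtain ⟨L, hL⟩ := (hg.continuous_fderiv one_ne_zero).bounded_above_of_compact_support (f.hasCompactSupport.fderiv (𝕜 := ℝ))
  have hL0 : 0 ≤ L := (norm_nonneg _).trans (hL 0)
  -- the inequality at a small radius
  have hev : ∀ᶠ r in 𝓝[>] (0 : ℝ), c₀ * (ρ / 2) ^ k
      - L * b * C₀ * 2 ^ k * (⨍ y in closedBall x (2 * r), ‖A y - A x‖ ∂μ) ≤ C₀ * 2 ^ k * ρ ^ n := by
    filter_upwards [self_mem_nhdsWithin, (hsp_tendsto_mul (show (0 : ℝ) < ρ / 2 by positivity)).eventually hlo,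
      (hsp_tendsto_mul (show (0 : ℝ) < 2 by norm_num)).eventually hup] with r hr h1 h2
    have hr0 : (0 : ℝ) < r := hr
    have hineq := hsp_point_ineq hP hg hg0 hg1 hρ0 hρ1 hgin hgout hL x hr0 (A x) hb0 hb
    have hfin1 : μ (closedBall x (ρ / 2 * r)) ≠ ⊤ := (isCompact_closedBall _ _).measure_lt_top.ne
    have hfin2 : μ (closedBall x (2 * r)) ≠ ⊤ := (isCompact_closedBall _ _).measure_lt_top.ne
    have a1 : c₀ * (ρ / 2 * r) ^ k ≤ (μ (closedBall x (ρ / 2 * r))).toReal := by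
      have := ENNReal.toReal_mono hfin1 h1
      rwa [ENNReal.toReal_ofReal (by positivity)] at this
    have a2 : (μ (closedBall x (2 * r))).toReal ≤ C₀ * (2 * r) ^ k := by
      have := ENNReal.toReal_mono ENNReal.ofReal_ne_top h2
      rwa [ENNReal.toReal_ofReal (by positivity)] at this
    have a3 := measure_smul_setAverage (μ := μ) (fun y => ‖A y - A x‖) hfin2
    rw [smul_eq_mul] at a3
    have havg : 0 ≤ ⨍ y in closedBall x (2 * r), ‖A y - A x‖ ∂μ := by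
      rw [setAverage_eq, smul_eq_mul]
      exact mul_nonneg (inv_nonneg.2 measureReal_nonneg) (integral_nonneg fun y => norm_nonneg _)
    obtain ⟨η, hη⟩ : ∃ η : ℝ, η = ⨍ y in closedBall x (2 * r), ‖A y - A x‖ ∂μ := ⟨_, rfl⟩
    rw [← hη] at a3 havg ⊢
    rw [← a3] at hineq
    have a2' : μ.real (closedBall x (2 * r)) ≤ C₀ * (2 * r) ^ k := a2
    have hm0 : 0 ≤ μ.real (closedBall x (2 * r)) := measureReal_nonneg
    have hrk : 0 < r ^ k := by positivity
    -- multiply out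
    have b1 : L * b * (μ.real (closedBall x (2 * r)) * η) ≤ L * b * (C₀ * (2 * r) ^ k * η) := by
      have : 0 ≤ L * b := mul_nonneg hL0 hb0
      gcongr
    have b2 : (μ (closedBall x (2 * r))).toReal * ρ ^ n ≤ C₀ * (2 * r) ^ k * ρ ^ n := by
      gcongr
    have b3 : c₀ * (ρ / 2 * r) ^ k - L * b * (C₀ * (2 * r) ^ k * η) ≤ C₀ * (2 * r) ^ k * ρ ^ n := by linarith
    rw [mul_pow, mul_pow] at b3
    have b4 : (c₀ * (ρ / 2) ^ k - L * b * C₀ * 2 ^ k * η) * r ^ k ≤ (C₀ * 2 ^ k * ρ ^ n) * r ^ k := by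
      calc (c₀ * (ρ / 2) ^ k - L * b * C₀ * 2 ^ k * η) * r ^ k
          = c₀ * ((ρ / 2) ^ k * r ^ k) - L * b * (C₀ * (2 ^ k * r ^ k) * η) := by ring
        _ ≤ C₀ * (2 ^ k * r ^ k) * ρ ^ n := b3
        _ = (C₀ * 2 ^ k * ρ ^ n) * r ^ k := by ring
    exact le_of_mul_le_mul_right b4 hrk
  have hlim : Tendsto (fun r : ℝ => c₀ * (ρ / 2) ^ k
      - L * b * C₀ * 2 ^ k * (⨍ y in closedBall x (2 * r), ‖A y - A x‖ ∂μ)) (𝓝[>] 0) (𝓝 (c₀ * (ρ / 2) ^ k)) := by
    have h1 := (hleb.comp (hsp_tendsto_mul (show (0 : ℝ) < 2 by norm_num))).const_mul (L * b * C₀ * 2 ^ k)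
    have h2 := h1.const_sub (c₀ * (ρ / 2) ^ k)
    simpa using h2
  have hfinal := le_of_tendsto hlim hev
  -- arithmetic
  rw [hnk, pow_succ, div_pow] at hfinal
  have hρk : 0 < ρ ^ k := by positivity
  have h2k : (0 : ℝ) < 2 ^ k := by positivity
  have h4k : (4 : ℝ) ^ k = 2 ^ k * 2 ^ k := by rw [← mul_pow]; norm_num
  have c1 : c₀ ≤ 4 ^ k * C₀ * ρ := by
    have : c₀ * ρ ^ k ≤ (4 ^ k * C₀ * ρ) * ρ ^ k := by
      have e1 : c₀ * (ρ ^ k / 2 ^ k) * 2 ^ k = c₀ * ρ ^ k := by field_simp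
      calc c₀ * ρ ^ k = c₀ * (ρ ^ k / 2 ^ k) * 2 ^ k := e1.symm
        _ ≤ (C₀ * 2 ^ k * (ρ ^ k * ρ)) * 2 ^ k := by gcongr
        _ = (4 ^ k * C₀ * ρ) * ρ ^ k := by rw [h4k]; ring
    exact le_of_mul_le_mul_right this hρk
  have c2 : 4 ^ k * C₀ * ρ ≤ c₀ / 2 := by
    have h4 : (0 : ℝ) < 4 ^ k * C₀ := by positivity
    calc 4 ^ k * C₀ * ρ ≤ 4 ^ k * C₀ * (c₀ / (2 * 4 ^ k * C₀)) := by gcongr
      _ = c₀ / 2 := by field_simp
  linarith

/-! ### almost everywhere -/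

/-- LEAF L-323-SP-P7.   `A` is locally integrable (`hP.mM`, `‖A‖ ≤ 1` a.e.: `hsp_ae_norm_le`; `n = 0` trivial);
`(Besicovitch.vitaliFamily μ).ae_tendsto_average_norm_sub`, composed with `Besicovitch.tendsto_filterAt μ x`. -/
theorem hsp_leb {μ : Measure (E n)} [IsLocallyFiniteMeasure μ] {A : E n → E n →L[ℝ] E n}
    (hP : HtPair n μ (fun _ => 1) A) :
    ∀ᵐ x ∂μ, Tendsto (fun r => ⨍ y in closedBall x r, ‖A y - A x‖ ∂μ) (𝓝[>] 0) (𝓝 0) := by
  have hloc : LocallyIntegrable A μ := by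
    intro x
    obtain ⟨s, hs, hμs⟩ := μ.finiteAt_nhds x
    exact ⟨s, hs, Measure.integrableOn_of_bounded (M := 1) hμs.ne hP.mM (ae_restrict_of_ae (hsp_ae_norm_le_one hP))⟩
  filter_upwards [(Besicovitch.vitaliFamily μ).ae_tendsto_average_norm_sub hloc] with x hx
  exact hx.comp (Besicovitch.tendsto_filterAt μ x)

/-- EXIT (glue, helper178). -/
theorem hsp_null (hn : 1 ≤ n) {μ : Measure (E n)} [IsLocallyFiniteMeasure μ] {A : E n → E n →L[ℝ] E n}
    (hP : HtPair n μ (fun _ => 1) A) {c₀ C₀ : ℝ} (hc₀ : 0 < c₀) {G : Set (E n)}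
    (hlo : ∀ x ∈ G, ∀ᶠ r in 𝓝[>] (0 : ℝ), ENNReal.ofReal (c₀ * r ^ (n - 1)) ≤ μ (closedBall x r))
    (hup : ∀ x ∈ G, ∀ᶠ r in 𝓝[>] (0 : ℝ), μ (closedBall x r) ≤ ENNReal.ofReal (C₀ * r ^ (n - 1))) :
    ∀ᵐ x ∂μ, x ∈ G → ∃ e : E n, ‖e‖ = 1 ∧ A x = htProj e := by
  filter_upwards [hsp_leb hP, hP.symm, hP.nonneg, hP.le, hP.tr] with x h1 h2 h3 h4 h5 hx
  obtain ⟨e, he, hAe⟩ := hsp_point hn hP hc₀ x h1 (hlo x hx) (hup x hx)
  exact ⟨e, he, hsp_proj_of_null h2 h3 (fun v => by simpa using h4 v) (by simpa using h5) he hAe⟩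

/-- the mass of a small ball, real form. -/
theorem hsp_up_real {μ : Measure (E n)} {C₀ : ℝ} {x : E n} {r : ℝ} (hr : 0 < r)
    (h : μ (closedBall x r) ≤ ENNReal.ofReal (C₀ * r ^ (n - 1))) : μ.real (closedBall x r) ≤ |C₀| * r ^ (n - 1) := by
  have h1 : μ.real (closedBall x r) ≤ (ENNReal.ofReal (C₀ * r ^ (n - 1))).toReal :=
    ENNReal.toReal_mono ENNReal.ofReal_ne_top h
  refine h1.trans ?_
  rw [ENNReal.toReal_ofReal']
  refine max_le ?_ (by positivity)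
  exact mul_le_mul_of_nonneg_right (le_abs_self _) (by positivity)

/-- LEAF L-323-SP-P9.   EXIT for LIM: the tilt excess in the direction `e` tends to `0`.   `0 ≤ ⟪A y e, e⟫ = ⟪(A y - A x) e, e⟫ ≤ ‖A y - A x‖` a.e.;
`∫_{closedBall x r} ‖A - A x‖ = (⨍ ..) μ(closedBall x r).toReal ≤ (⨍ ..) C₀ r^k`.   Squeeze. -/
theorem hsp_tilt {μ : Measure (E n)} [IsLocallyFiniteMeasure μ] {A : E n → E n →L[ℝ] E n}
    (hP : HtPair n μ (fun _ => 1) A) {C₀ : ℝ} (x e : E n) (he : ‖e‖ = 1) (hAe : A x e = 0)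
    (hleb : Tendsto (fun r => ⨍ y in closedBall x r, ‖A y - A x‖ ∂μ) (𝓝[>] 0) (𝓝 0))
    (hup : ∀ᶠ r in 𝓝[>] (0 : ℝ), μ (closedBall x r) ≤ ENNReal.ofReal (C₀ * r ^ (n - 1))) :
    Tendsto (fun r => (r ^ (n - 1))⁻¹ * ∫ y in closedBall x r, ⟪A y e, e⟫ ∂μ) (𝓝[>] 0) (𝓝 0) := by
  have hg : Tendsto (fun r => |C₀| * ⨍ y in closedBall x r, ‖A y - A x‖ ∂μ) (𝓝[>] 0) (𝓝 0) := by
    simpa using hleb.const_mul |C₀|
  have hle : ∀ y, ⟪A y e, e⟫ ≤ ‖A y - A x‖ := by
    intro y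
    have e1 : A y e = (A y - A x) e := by rw [sub_apply, hAe, sub_zero]
    rw [e1]
    calc ⟪(A y - A x) e, e⟫ ≤ ‖(A y - A x) e‖ * ‖e‖ := real_inner_le_norm _ _
      _ ≤ ‖A y - A x‖ * ‖e‖ * ‖e‖ := by gcongr; exact (A y - A x).le_opNorm e
      _ = ‖A y - A x‖ := by rw [he]; ring
  refine squeeze_zero' ?_ ?_ hg
  · filter_upwards [self_mem_nhdsWithin] with r hr
    have hr0 : (0 : ℝ) < r := hr
    refine mul_nonneg (by positivity) (integral_nonneg_of_ae (ae_restrict_of_ae ?_))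
    filter_upwards [hP.nonneg] with y hy using hy e
  · filter_upwards [self_mem_nhdsWithin, hup] with r hr hur
    have hr0 : (0 : ℝ) < r := hr
    have hfin : μ (closedBall x r) ≠ ⊤ := (isCompact_closedBall x r).measure_lt_top.ne
    have hi2 := hsp_int_sub hP (A x) (isCompact_closedBall x r)
    have hm : AEStronglyMeasurable (fun y => ⟪A y e, e⟫) μ :=
      ((ContinuousLinearMap.apply ℝ (E n) e).continuous.comp_aestronglyMeasurable hP.mM).inner aestronglyMeasurable_const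
    have hi1 : IntegrableOn (fun y => ⟪A y e, e⟫) (closedBall x r) μ := by
      refine Measure.integrableOn_of_bounded (M := 1) hfin hm (ae_restrict_of_ae ?_)
      filter_upwards [hsp_ae_norm_le_one hP] with y hy
      calc ‖⟪A y e, e⟫‖ ≤ ‖A y e‖ * ‖e‖ := norm_inner_le_norm _ _
        _ ≤ ‖A y‖ * ‖e‖ * ‖e‖ := by gcongr; exact (A y).le_opNorm e
        _ ≤ 1 := by rw [he]; linarith
    have h1 : ∫ y in closedBall x r, ⟪A y e, e⟫ ∂μ ≤ ∫ y in closedBall x r, ‖A y - A x‖ ∂μ :=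
      integral_mono hi1 hi2 hle
    have h2 := measure_smul_setAverage (μ := μ) (fun y => ‖A y - A x‖) hfin
    rw [smul_eq_mul] at h2
    have havg : 0 ≤ ⨍ y in closedBall x r, ‖A y - A x‖ ∂μ := by
      rw [setAverage_eq, smul_eq_mul]
      exact mul_nonneg (inv_nonneg.2 measureReal_nonneg) (integral_nonneg fun y => norm_nonneg _)
    have h3 := hsp_up_real hr0 hur
    have hk : 0 < r ^ (n - 1) := by positivity
    rw [inv_mul_le_iff₀ hk]
    calc ∫ y in closedBall x r, ⟪A y e, e⟫ ∂μ ≤ μ.real (closedBall x r) * ⨍ y in closedBall x r, ‖A y - A x‖ ∂μ := by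
          rw [h2]; exact h1
      _ ≤ (|C₀| * r ^ (n - 1)) * ⨍ y in closedBall x r, ‖A y - A x‖ ∂μ := mul_le_mul_of_nonneg_right h3 havg
      _ = r ^ (n - 1) * (|C₀| * ⨍ y in closedBall x r, ‖A y - A x‖ ∂μ) := by ring

end Claimed.Agent.R323
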