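import Claimed.Agent.R323.Ht.SpDer

/-!
# Row 323, block C, sub-block SP (stationary pairs).  Owner: helper137.
SP2: slab almost-monotonicity.
-/

set_option autoImplicit false
open scoped ContDiff ENNReal NNReal RealInnerProductSpace Topology
open MeasureTheory Metric Set Filter

namespace Claimed.Agent.R323

open Claimed.Agent.Gmt

variable {k : ℕ}

/-- the horizontal projection of `E (k+1)`. -/
noncomputable def spH (k : ℕ) : E (k + 1) →L[ℝ] E (k + 1) := (flInc k).comp (gmtHorL k)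

/-- the slab-cylinder `{|z - z₀| < ρ, α < t < β}`. -/
def htSlab {k : ℕ} (z₀ : E k) (ρ α β : ℝ) : Set (E (k + 1)) := {y | ‖gmtHor y - z₀‖ < ρ ∧ α < gmtVer y ∧ gmtVer y < β}

/-- the slab ratio. -/
noncomputable def htJ {k : ℕ} (lam : Measure (E (k + 1))) (d : E (k + 1) → ℝ) (ζ η : ℝ → ℝ) (z₀ : E k) (ρ : ℝ) : ℝ :=
  (ρ ^ k)⁻¹ * ∫ y, ζ (gmtVer y) * η (‖gmtHor y - z₀‖ / ρ) * d y ∂lam

/-- generates the equation lemmas of the definitions above in this file (rule 6: unique names) -/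
theorem sp_slab_eqns_cite : True := by
  have := @spH.eq_1
  have := @htSlab.eq_1
  have := @htJ.eq_1
  trivial

theorem spH_apply (v : E (k + 1)) : spH k v = gmtJoin (gmtHor v) 0 := rfl

theorem spH_hor (v : E (k + 1)) : gmtHor (spH k v) = gmtHor v := by
  rw [spH_apply, fl_hor_join]

theorem spH_ver (v : E (k + 1)) : gmtVer (spH k v) = 0 := by
  rw [spH_apply, fl_ver_join]

theorem spH_norm (v : E (k + 1)) : ‖spH k v‖ = ‖gmtHor v‖ := fl_norm_inc _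

theorem spH_pi : HtPi (spH k) where
  symm := fun v w => by
    rw [fl_inner, fl_inner v, spH_hor, spH_ver, spH_hor, spH_ver]
    ring
  idem := fun v => by
    rw [spH_apply, spH_hor, ← spH_apply]

theorem spH_decomp (v : E (k + 1)) : v = spH k v + gmtVer v • gmtEn k := by
  conv_lhs => rw [← fl_join_hor_ver v, fl_join_eq]
  rfl

theorem spH_id : ContinuousLinearMap.id ℝ (E (k + 1))
    = spH k + (gmtVerL k).smulRight (gmtEn k) := by
  ext1 v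
  exact spH_decomp v

theorem spH_con (M : E (k + 1) →L[ℝ] E (k + 1)) :
    htCon M (spH k) = (∑ i, ⟪M (eb i), eb i⟫) - ⟪M (gmtEn k), gmtEn k⟫ := by
  have h := htCon_id M
  rw [spH_id, htCon_add, htCon_smulRight] at h
  have h2 : gmtVerL k (M (gmtEn k)) = ⟪M (gmtEn k), gmtEn k⟫ := fl_ver_eq_inner _
  rw [h2] at h
  linarith

theorem spH_sub (y : E (k + 1)) (z₀ : E k) :
    ‖spH k (y - gmtJoin z₀ 0)‖ = ‖gmtHor y - z₀‖ := by
  rw [spH_norm]
  have : gmtHor (y - gmtJoin z₀ 0) = gmtHor y - gmtHor (gmtJoin z₀ 0) := map_sub (gmtHorL k) _ _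
  rw [this, fl_hor_join]

theorem sp_ver_hasFDerivAt {ζ : ℝ → ℝ} (hζ : ContDiff ℝ 1 ζ) (y : E (k + 1)) :
    HasFDerivAt (fun y : E (k + 1) => ζ (gmtVer y)) (deriv ζ (gmtVer y) • gmtVerL k) y := by
  have h1 : HasDerivAt ζ (deriv ζ (gmtVer y)) (gmtVer y) :=
    (hζ.differentiable one_ne_zero _).hasDerivAt
  exact h1.comp_hasFDerivAt y (gmtVerL k).hasFDerivAt

/-- a nonnegative `C¹` function has zero derivative where it vanishes. -/
theorem sp_deriv_zero {ζ : ℝ → ℝ} (hζ0 : ∀ t, 0 ≤ ζ t) {t : ℝ} (ht : ζ t = 0) : deriv ζ t = 0 := by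
  have h1 : IsLocalMin ζ t := Eventually.of_forall fun s => by rw [ht]; exact hζ0 s
  exact h1.deriv_eq_zero

/-- elimination of the parameter in the arithmetic-geometric inequality. -/
theorem sp_amgm_inf {a A B γ C : ℝ} (hB : 0 ≤ B) (hγ : 0 ≤ γ) (hC : 0 ≤ C)
    (h : ∀ θ : ℝ, 0 < θ → a ≤ A + B * ((θ * C + θ⁻¹ * γ) / 2)) : a ≤ A + B * Real.sqrt (γ * C) := by
  rcases hγ.eq_or_lt with rfl | hγ'
  · simp only [zero_mul, Real.sqrt_zero, mul_zero, add_zero]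
    refine le_of_forall_pos_le_add fun ε hε => ?_
    have h1 := h (ε / (B * C + 1)) (by positivity)
    have h2 : B * ((ε / (B * C + 1) * C + (ε / (B * C + 1))⁻¹ * 0) / 2) ≤ ε := by
      have h3 : B * ((ε / (B * C + 1) * C + (ε / (B * C + 1))⁻¹ * 0) / 2)
          = ε * ((B * C) / (B * C + 1)) / 2 := by field_simp; ring
      rw [h3]
      have h4 : (B * C) / (B * C + 1) ≤ 1 := by
        rw [div_le_one (by positivity)]; linarith
      have h5 : 0 ≤ (B * C) / (B * C + 1) := by positivity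
      nlinarith
    linarith
  rcases hC.eq_or_lt with rfl | hC'
  · simp only [mul_zero, Real.sqrt_zero, add_zero]
    refine le_of_forall_pos_le_add fun ε hε => ?_
    have h1 := h ((B * γ + 1) / ε) (by positivity)
    have h2 : B * (((B * γ + 1) / ε * 0 + ((B * γ + 1) / ε)⁻¹ * γ) / 2) ≤ ε := by
      have h3 : B * (((B * γ + 1) / ε * 0 + ((B * γ + 1) / ε)⁻¹ * γ) / 2)
          = ε * ((B * γ) / (B * γ + 1)) / 2 := by field_simp; ring
      rw [h3]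
      have h4 : (B * γ) / (B * γ + 1) ≤ 1 := by
        rw [div_le_one (by positivity)]; linarith
      have h5 : 0 ≤ (B * γ) / (B * γ + 1) := by positivity
      nlinarith
    linarith
  · have h1 := h (Real.sqrt (γ * C) / C) (by positivity)
    have hs : Real.sqrt (γ * C) ^ 2 = γ * C := Real.sq_sqrt (by positivity)
    have hs0 : 0 < Real.sqrt (γ * C) := Real.sqrt_pos.2 (by positivity)
    have h2 : (Real.sqrt (γ * C) / C * C + (Real.sqrt (γ * C) / C)⁻¹ * γ) / 2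
        = Real.sqrt (γ * C) := by
      have : (Real.sqrt (γ * C) / C)⁻¹ * γ = Real.sqrt (γ * C) := by
        rw [inv_div, div_mul_eq_mul_div, div_eq_iff hs0.ne', ← sq, hs]; ring
      rw [this, div_mul_cancel₀ _ hC'.ne']
      ring
    rwa [h2] at h1

theorem sp_continuous_hor : Continuous (gmtHor : E (k + 1) → E k) := (gmtHorL k).continuous

theorem sp_continuous_ver : Continuous (gmtVer : E (k + 1) → ℝ) := (gmtVerL k).continuous

theorem sp_slab_meas (z₀ : E k) (ρ α β : ℝ) : MeasurableSet (htSlab z₀ ρ α β) := by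
  have h1 : IsOpen {y : E (k + 1) | ‖gmtHor y - z₀‖ < ρ} :=
    isOpen_lt ((sp_continuous_hor.sub continuous_const).norm) continuous_const
  have h2 : IsOpen {y : E (k + 1) | α < gmtVer y} := isOpen_lt continuous_const sp_continuous_ver
  have h3 : IsOpen {y : E (k + 1) | gmtVer y < β} := isOpen_lt sp_continuous_ver continuous_const
  exact (h1.inter (h2.inter h3)).measurableSet

theorem sp_mem_ball {z₀ : E k} {R α β : ℝ} {y : E (k + 1)} (h1 : ‖gmtHor y - z₀‖ ≤ R)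
    (h2 : α ≤ gmtVer y) (h3 : gmtVer y ≤ β) :
    y ∈ closedBall (gmtJoin z₀ 0) (R + max |α| |β|) := by
  rw [mem_closedBall, dist_eq_norm]
  have h4 := spH_decomp (y - gmtJoin z₀ 0)
  have h5 : gmtVer (y - gmtJoin z₀ 0) = gmtVer y := by
    have : gmtVer (y - gmtJoin z₀ 0) = gmtVer y - gmtVer (gmtJoin z₀ 0) := map_sub (gmtVerL k) _ _
    rw [this, fl_ver_join, sub_zero]
  have h6 : ‖(gmtEn k : E (k + 1))‖ = 1 := by simp
  have h7 : |gmtVer y| ≤ max |α| |β| := by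
    rw [abs_le]
    constructor
    · have := neg_abs_le α
      have := le_max_left |α| |β|
      linarith
    · have := le_abs_self β
      have := le_max_right |α| |β|
      linarith
  calc ‖y - gmtJoin z₀ 0‖ = ‖spH k (y - gmtJoin z₀ 0) + gmtVer (y - gmtJoin z₀ 0) • gmtEn k‖ := by
        rw [← h4]
    _ ≤ ‖spH k (y - gmtJoin z₀ 0)‖ + ‖gmtVer (y - gmtJoin z₀ 0) • gmtEn k‖ := norm_add_le _ _
    _ = ‖gmtHor y - z₀‖ + |gmtVer y| := by
        rw [spH_sub, norm_smul, h6, mul_one, h5, Real.norm_eq_abs]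
    _ ≤ R + max |α| |β| := add_le_add h1 h7

theorem sp_slab_sub (z₀ : E k) (ρ α β : ℝ) :
    htSlab z₀ ρ α β ⊆ closedBall (gmtJoin z₀ 0) (ρ + max |α| |β|) :=
  fun _ hy => sp_mem_ball hy.1.le hy.2.1.le hy.2.2.le

variable {lam : Measure (E (k + 1))} {d : E (k + 1) → ℝ} {M : E (k + 1) → E (k + 1) →L[ℝ] E (k + 1)}

theorem sp_aesm_T (hP : HtPair (k + 1) lam d M) :
    AEStronglyMeasurable (fun y => ⟪M y (gmtEn k), gmtEn k⟫) lam :=
  (hP.mM.apply_continuousLinearMap (gmtEn k)).inner aestronglyMeasurable_const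

theorem sp_T_le (hP : HtPair (k + 1) lam d M) :
    ∀ᵐ y ∂lam, 0 ≤ ⟪M y (gmtEn k), gmtEn k⟫ ∧ ⟪M y (gmtEn k), gmtEn k⟫ ≤ d y := by
  filter_upwards [hP.nonneg, hP.le] with y h0 h1
  refine ⟨h0 _, ?_⟩
  have := h1 (gmtEn k)
  have h6 : ‖(gmtEn k : E (k + 1))‖ = 1 := by simp
  rw [h6] at this
  simpa using this

theorem sp_slab_int_d (hP : HtPair (k + 1) lam d M) (z₀ : E k) (ρ α β : ℝ) :
    IntegrableOn d (htSlab z₀ ρ α β) lam :=
  (hP.lint.integrableOn_isCompact (isCompact_closedBall _ _)).mono_set (sp_slab_sub z₀ ρ α β)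

theorem sp_slab_int_T (hP : HtPair (k + 1) lam d M) (z₀ : E k) (ρ α β : ℝ) :
    IntegrableOn (fun y => ⟪M y (gmtEn k), gmtEn k⟫) (htSlab z₀ ρ α β) lam := by
  refine (sp_slab_int_d hP z₀ ρ α β).mono' (sp_aesm_T hP).restrict ?_
  refine ae_restrict_of_ae ?_
  filter_upwards [sp_T_le hP] with y hy
  rw [Real.norm_of_nonneg hy.1]
  exact hy.2

theorem sp_htJ_eq (lam : Measure (E (k + 1))) (d : E (k + 1) → ℝ) (ζ η : ℝ → ℝ) (z₀ : E k) :
    (fun ρ : ℝ => htJ lam d ζ η z₀ ρ) = fun ρ : ℝ => (ρ ^ (k + 1 - 1))⁻¹ *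
      ∫ y, η (‖spH k (y - gmtJoin z₀ 0)‖ / ρ) * ((fun y => ζ (gmtVer y)) y * d y) ∂lam := by
  funext ρ
  unfold htJ
  simp only [Nat.add_sub_cancel, spH_sub]
  congr 2
  funext y
  ring

/-- the differential inequality for the slab ratio. -/
theorem sp_slab_deriv (hP : HtPair (k + 1) lam d M) {η : ℝ → ℝ} (hη : HtKer η)
    {ζ : ℝ → ℝ} {α β Z : ℝ} (hζ : ContDiff ℝ 1 ζ) (hζ0 : ∀ t, 0 ≤ ζ t) (hζ1 : ∀ t, ζ t ≤ 1)
    (hζs : ∀ t, t ∉ Ioo α β → ζ t = 0) (hζd : ∀ t, |deriv ζ t| ≤ Z) (z₀ : E k) {ρ γ C θ : ℝ}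
    (hρ : 0 < ρ) (hθ : 0 < θ)
    (htilt : ∫ y in htSlab z₀ ρ α β, ⟪M y (gmtEn k), gmtEn k⟫ ∂lam ≤ γ * ρ ^ k)
    (hmass : ∫ y in htSlab z₀ ρ α β, d y ∂lam ≤ C * ρ ^ k) :
    ∃ D : ℝ, HasDerivAt (fun ρ : ℝ => htJ lam d ζ η z₀ ρ) D ρ ∧
      -(γ / ρ + Z * ((θ * C + θ⁻¹ * γ) / 2)) ≤ D := by
  have hZ : 0 ≤ Z := (abs_nonneg _).trans (hζd 0)
  have iT := sp_slab_int_T hP z₀ ρ α β
  have id := sp_slab_int_d hP z₀ ρ α β
  have hSm := sp_slab_meas z₀ ρ α β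
  set e : E (k + 1) → ℝ := (htSlab z₀ ρ α β).indicator fun y =>
    ⟪M y (gmtEn k), gmtEn k⟫ + Z * ρ * ((θ * d y + θ⁻¹ * ⟪M y (gmtEn k), gmtEn k⟫) / 2) with he
  have ie0 : IntegrableOn (fun y =>
      ⟪M y (gmtEn k), gmtEn k⟫ + Z * ρ * ((θ * d y + θ⁻¹ * ⟪M y (gmtEn k), gmtEn k⟫) / 2))
      (htSlab z₀ ρ α β) lam :=
    iT.add ((((id.const_mul θ).add (iT.const_mul θ⁻¹)).div_const 2).const_mul (Z * ρ))
  have ie : Integrable e lam := by
    rw [he, integrable_indicator_iff hSm]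
    exact ie0
  have hcd : ContDiff ℝ 1 (fun y : E (k + 1) => ζ (gmtVer y)) :=
    hζ.comp (gmtVerL k).contDiff
  obtain ⟨D, hD, hD0⟩ := ht_sp_der (n := k + 1) (by omega) hP hη spH_pi hcd (fun y => hζ0 _)
    (gmtJoin z₀ 0)
    (fun R => ⟨closedBall (gmtJoin z₀ 0) (R + max |α| |β|), isCompact_closedBall _ _,
      fun y hy hyR => by
        have h1 : gmtVer y ∈ Ioo α β := by
          by_contra hcon
          exact hy (hζs _ hcon)
        rw [spH_sub] at hyR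
        exact sp_mem_ball hyR h1.1.le h1.2.le⟩) hρ ie (by
      filter_upwards [hP.tr, hP.symm, hP.nonneg, hP.le, sp_T_le hP] with y h1 h2 h3 h4 h5
      rw [spH_con, h1, (sp_ver_hasFDerivAt hζ y).fderiv]
      set T := ⟪M y (gmtEn k), gmtEn k⟫ with hT
      set w := spH k (y - gmtJoin z₀ 0) with hw
      have e1 : (deriv ζ (gmtVer y) • gmtVerL k) (M y w) = deriv ζ (gmtVer y) * ⟪M y w, gmtEn k⟫ := by
        rw [_root_.smul_apply, smul_eq_mul]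
        congr 1
        exact fl_ver_eq_inner _
      rw [e1]
      have e2 : ((((k + 1 : ℕ) : ℝ) - 1) * d y - ((((k + 1 : ℕ) : ℝ) - 1) * d y - T)) = T := by ring
      rw [e2]
      have hg0 := htG_nonneg hη (spH k) (gmtJoin z₀ 0) ρ y
      have hg1 := htG_le_one hη (spH k) (gmtJoin z₀ 0) ρ y
      by_cases hy : y ∈ htSlab z₀ ρ α β
      · rw [he, indicator_of_mem hy]
        have hwρ : ‖w‖ ≤ ρ := by rw [hw, spH_sub]; exact hy.1.le
        have hd0 : 0 ≤ d y := h5.1.trans h5.2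
        have a1 : ζ (gmtVer y) * htG η (spH k) (gmtJoin z₀ 0) ρ y * T ≤ T := by
          have : ζ (gmtVer y) * htG η (spH k) (gmtJoin z₀ 0) ρ y ≤ 1 :=
            mul_le_one₀ (hζ1 _) hg0 hg1
          exact mul_le_of_le_one_left h5.1 this
        have a2 : |⟪M y w, gmtEn k⟫| ≤ ρ * ((θ * d y + θ⁻¹ * T) / 2) := by
          have c1 := ht_cs h2 h3 w (gmtEn k)
          have c2 : ⟪M y w, w⟫ ≤ d y * ρ ^ 2 :=
            (h4 w).trans (mul_le_mul_of_nonneg_left (pow_le_pow_left₀ (norm_nonneg _) hwρ 2) hd0)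
          have c3 : 0 ≤ ρ * ((θ * d y + θ⁻¹ * T) / 2) := by
            have := h5.1
            positivity
          refine abs_le_of_sq_le_sq ?_ c3
          have c4 : ⟪M y w, gmtEn k⟫ ^ 2 ≤ d y * ρ ^ 2 * T :=
            c1.trans (mul_le_mul_of_nonneg_right c2 h5.1)
          have c5 : (ρ * ((θ * d y + θ⁻¹ * T) / 2)) ^ 2 - d y * ρ ^ 2 * T
              = ρ ^ 2 * ((θ * d y - θ⁻¹ * T) / 2) ^ 2 := by
            field_simp
            ring
          nlinarith [sq_nonneg (ρ * ((θ * d y - θ⁻¹ * T) / 2))]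
        have a3 : htG η (spH k) (gmtJoin z₀ 0) ρ y * |deriv ζ (gmtVer y) * ⟪M y w, gmtEn k⟫|
            ≤ Z * ρ * ((θ * d y + θ⁻¹ * T) / 2) := by
          rw [abs_mul]
          calc htG η (spH k) (gmtJoin z₀ 0) ρ y * (|deriv ζ (gmtVer y)| * |⟪M y w, gmtEn k⟫|)
              ≤ 1 * (Z * (ρ * ((θ * d y + θ⁻¹ * T) / 2))) :=
                mul_le_mul hg1 (mul_le_mul (hζd _) a2 (abs_nonneg _) hZ)
                  (mul_nonneg (abs_nonneg _) (abs_nonneg _)) zero_le_one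
            _ = Z * ρ * ((θ * d y + θ⁻¹ * T) / 2) := by ring
        linarith
      · rw [he, indicator_of_notMem hy]
        by_cases hyρ : ‖gmtHor y - z₀‖ < ρ
        · have ht : gmtVer y ∉ Ioo α β := fun h => hy ⟨hyρ, h.1, h.2⟩
          rw [hζs _ ht, sp_deriv_zero hζ0 (hζs _ ht)]
          simp
        · have : htG η (spH k) (gmtJoin z₀ 0) ρ y = 0 :=
            htG_eq_zero hη _ _ hρ (by rw [spH_sub]; exact not_lt.1 hyρ)
          rw [this]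
          simp)
  rw [← sp_htJ_eq] at hD
  refine ⟨D, hD, le_trans ?_ hD0⟩
  have hint : ∫ y, e y ∂lam ≤ γ * ρ ^ k + Z * ρ * ((θ * (C * ρ ^ k) + θ⁻¹ * (γ * ρ ^ k)) / 2) := by
    have i2 : IntegrableOn (fun y => θ * d y + θ⁻¹ * ⟪M y (gmtEn k), gmtEn k⟫)
        (htSlab z₀ ρ α β) lam := (id.const_mul θ).add (iT.const_mul θ⁻¹)
    have i3 : IntegrableOn (fun y => Z * ρ * ((θ * d y + θ⁻¹ * ⟪M y (gmtEn k), gmtEn k⟫) / 2))
        (htSlab z₀ ρ α β) lam := (i2.div_const 2).const_mul (Z * ρ)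
    rw [he, integral_indicator hSm, integral_add iT i3,
      integral_const_mul, integral_div, integral_add (id.const_mul θ) (iT.const_mul θ⁻¹),
      integral_const_mul, integral_const_mul]
    have hθ' : 0 < θ⁻¹ := inv_pos.2 hθ
    have b1 : θ * ∫ y in htSlab z₀ ρ α β, d y ∂lam ≤ θ * (C * ρ ^ k) :=
      mul_le_mul_of_nonneg_left hmass hθ.le
    have b2 : θ⁻¹ * ∫ y in htSlab z₀ ρ α β, ⟪M y (gmtEn k), gmtEn k⟫ ∂lam ≤ θ⁻¹ * (γ * ρ ^ k) :=
      mul_le_mul_of_nonneg_left htilt hθ'.le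
    have b3 : 0 ≤ Z * ρ := by positivity
    have b4 := mul_le_mul_of_nonneg_left (div_le_div_of_nonneg_right (add_le_add b1 b2)
      (by norm_num : (0 : ℝ) ≤ 2)) b3
    linarith
  have hpos : 0 < (ρ ^ (k + 1))⁻¹ := by positivity
  have e3 : (ρ ^ (k + 1))⁻¹ * (γ * ρ ^ k + Z * ρ * ((θ * (C * ρ ^ k) + θ⁻¹ * (γ * ρ ^ k)) / 2))
      = γ / ρ + Z * ((θ * C + θ⁻¹ * γ) / 2) := by
    field_simp
    ring
  have := mul_le_mul_of_nonneg_left hint hpos.le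
  rw [e3] at this
  linarith

/-- SP2: slab almost-monotonicity. -/
theorem sp_slab (hP : HtPair (k + 1) lam d M) {η : ℝ → ℝ} (hη : HtKer η)
    {ζ : ℝ → ℝ} {α β Z : ℝ} (hζ : ContDiff ℝ 1 ζ) (hζ0 : ∀ t, 0 ≤ ζ t) (hζ1 : ∀ t, ζ t ≤ 1)
    (hζs : ∀ t, t ∉ Ioo α β → ζ t = 0) (hζd : ∀ t, |deriv ζ t| ≤ Z) (z₀ : E k) {ρ₀ ρ₁ γ C : ℝ}
    (hρ₀ : 0 < ρ₀) (hρ : ρ₀ ≤ ρ₁) (hγ : 0 ≤ γ) (hC : 0 ≤ C)
    (htilt : ∀ ρ ∈ Icc ρ₀ ρ₁, ∫ y in htSlab z₀ ρ α β, ⟪M y (gmtEn k), gmtEn k⟫ ∂lam ≤ γ * ρ ^ k)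
    (hmass : ∀ ρ ∈ Icc ρ₀ ρ₁, ∫ y in htSlab z₀ ρ α β, d y ∂lam ≤ C * ρ ^ k) :
    htJ lam d ζ η z₀ ρ₀ - (γ * Real.log (ρ₁ / ρ₀) + Z * Real.sqrt (γ * C) * (ρ₁ - ρ₀))
      ≤ htJ lam d ζ η z₀ ρ₁ := by
  have hZ : 0 ≤ Z := (abs_nonneg _).trans (hζd 0)
  have hρ₁ : 0 < ρ₁ := lt_of_lt_of_le hρ₀ hρ
  have key : ∀ θ : ℝ, 0 < θ → htJ lam d ζ η z₀ ρ₀ - htJ lam d ζ η z₀ ρ₁
      ≤ γ * Real.log (ρ₁ / ρ₀) + Z * (ρ₁ - ρ₀) * ((θ * C + θ⁻¹ * γ) / 2) := by
    intro θ hθ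
    set c : ℝ := Z * ((θ * C + θ⁻¹ * γ) / 2) with hc
    have hder : ∀ ρ ∈ Icc ρ₀ ρ₁, ∃ D : ℝ, HasDerivAt
        (fun ρ : ℝ => htJ lam d ζ η z₀ ρ + γ * Real.log ρ + c * ρ) D ρ ∧ 0 ≤ D := by
      intro ρ hρm
      have hρ0 : 0 < ρ := lt_of_lt_of_le hρ₀ hρm.1
      obtain ⟨D, hD, hD0⟩ := sp_slab_deriv hP hη hζ hζ0 hζ1 hζs hζd z₀ hρ0 hθ (htilt ρ hρm)
        (hmass ρ hρm)
      refine ⟨D + γ * ρ⁻¹ + c * 1, (hD.add ((Real.hasDerivAt_log hρ0.ne').const_mul γ)).add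
        ((hasDerivAt_id ρ).const_mul c), ?_⟩
      rw [← hc] at hD0
      have : γ * ρ⁻¹ = γ / ρ := by rw [div_eq_mul_inv]
      rw [this]
      linarith
    have hmono : MonotoneOn (fun ρ : ℝ => htJ lam d ζ η z₀ ρ + γ * Real.log ρ + c * ρ)
        (Icc ρ₀ ρ₁) := by
      refine monotoneOn_of_deriv_nonneg (convex_Icc _ _) (fun ρ hρm => ?_) (fun ρ hρm => ?_)
        (fun ρ hρm => ?_)
      · obtain ⟨D, hD, -⟩ := hder ρ hρm
        exact hD.continuousAt.continuousWithinAt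
      · obtain ⟨D, hD, -⟩ := hder ρ (interior_subset hρm)
        exact hD.differentiableAt.differentiableWithinAt
      · obtain ⟨D, hD, hD0⟩ := hder ρ (interior_subset hρm)
        rw [hD.deriv]
        exact hD0
    have h1 := hmono (left_mem_Icc.2 hρ) (right_mem_Icc.2 hρ) hρ
    simp only at h1
    rw [Real.log_div hρ₁.ne' hρ₀.ne']
    have e1 : Z * (ρ₁ - ρ₀) * ((θ * C + θ⁻¹ * γ) / 2) = c * ρ₁ - c * ρ₀ := by
      rw [hc]; ring
    rw [e1]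
    linarith
  have h2 := sp_amgm_inf (mul_nonneg hZ (sub_nonneg.2 hρ)) hγ hC key
  have e2 : Z * (ρ₁ - ρ₀) * Real.sqrt (γ * C) = Z * Real.sqrt (γ * C) * (ρ₁ - ρ₀) := by ring
  rw [e2] at h2
  linarith

end Claimed.Agent.R323
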