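import Claimed.Agent.R323.Ht.SpMono
import Claimed.Agent.R323.Ht.SpSlab
import Claimed.Agent.R323.Ht.SpProj

/-!
# Row 323, block C, sub-block SP: ABSTRACT ENTIRE STATIONARY PAIRS.  CONTRACT.   (sub-architect: helper137; contracts: helper39)
Plan: `origin/helper39:notes/r323/C39.md` section 1.    `k = n - 1`.

* `ht_sp_mono_ker` (SP1): test `X = φ(|y-x|/ρ)(y-x)`:  `d/dρ I = ρ^{-k-1} ∫ (-φ')(s) s (d - ⟪M ŷ,ŷ⟫) ≥ 0`, `s = |y-x|/ρ`.  Model: `Lib/Gmt/MoB.gmtI_hasDerivAt`.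
* `ht_sp_mono` (SP1'): `htKer δ ↑ 1_{[0,1)}` as `δ ↓ 0`, monotone convergence.
* `ht_sp_slab` (SP2): `X = ζ(t) η(|z-z₀|/ρ) (z-z₀,0)`:
  `J'(ρ) = ρ^{-k-1}[ -∫ζη M_nn + ∫ζ η'(s) s (⟪M ẑ,ẑ⟫ - d) + ∫ η ζ' ⟪M(z-z₀,0),e_n⟫ ] ≥ -ρ^{-k-1}[ τ(ρ) + Z ρ √(τ(ρ) m(ρ)) ]`   (the middle term is `≥ 0`; Cauchy-Schwarz for the form `M`).
  So `J(ρ) + γ log ρ + Z √(γ C) ρ` is nondecreasing on `[ρ₀,ρ₁]`.
* `ht_sp_null` (SP3): NO tangent measures.  `x` a Lebesgue point of `A` (`ht_sp_leb`).  If `A₀ = A x ≥ λ₀ > 0`: `X = g((y-x)/r) w` in `stat` gives `|∫ D_v g((y-x)/r) dμ| ≤ o(r^k) |A₀⁻¹ v| sup|Dg|`, so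
  `G(h) - G(0) = o(r^k)` for `|h| ≤ 1`, `G(h) = ∫ g((y-x)/r - h) dμ`.  `g` = bump of radius `ρ`: `G(0) ≥ c₀ (ρ r/2)^k`.  NO packing: AVERAGE over `h ∈ B_1` (Tonelli):
  `ω_n (c₀ (ρ/2)^k - o(1)) r^k ≤ ∫_{B_1} G(h) dh = ∫ dμ(y) ∫_{B_1} g((y-x)/r - h) dh ≤ μ(B_{2r}(x)) ω_n ρ^n ≤ C₀ 2^k r^k ω_n ρ^n`: false for `ρ` small (`n = k + 1`).
  So `A x` has a kernel vector `e`; `0 ≤ A ≤ 1`, `tr A = n - 1` force `A x = htProj e`.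
-/

set_option autoImplicit false
open scoped ContDiff ENNReal NNReal RealInnerProductSpace Topology
open MeasureTheory Metric Set Filter

namespace Claimed.Agent.R323

open Claimed.Agent.Gmt

variable {n : ℕ}

theorem ht_ker_std {δ : ℝ} (hδ : 0 < δ) (hδ1 : δ < 1) : HtKer (htKer δ) := sp_ker_std hδ hδ1

/-- SP1: monotonicity of the smoothed ratios. -/
theorem ht_sp_mono_ker (hn : 1 ≤ n) {lam : Measure (E n)} [IsLocallyFiniteMeasure lam] {d : E n → ℝ} {M : E n → E n →L[ℝ] E n}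
    (hP : HtPair n lam d M) {φ : ℝ → ℝ} (hφ : HtKer φ) (x : E n) :
    MonotoneOn (fun ρ => htI n lam d φ x ρ) (Ioi 0) := sp_mono_ker hn hP hφ x

/-- SP1': monotonicity of the sharp ratios. -/
theorem ht_sp_mono (hn : 1 ≤ n) {lam : Measure (E n)} [IsLocallyFiniteMeasure lam] {d : E n → ℝ} {M : E n → E n →L[ℝ] E n}
    (hP : HtPair n lam d M) (x : E n) : MonotoneOn (fun ρ => htR n lam d x ρ) (Ioi 0) := sp_mono hn hP x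

/-- SP2: slab almost-monotonicity. -/
theorem ht_sp_slab {k : ℕ} {lam : Measure (E (k + 1))} [IsLocallyFiniteMeasure lam] {d : E (k + 1) → ℝ}
    {M : E (k + 1) → E (k + 1) →L[ℝ] E (k + 1)} (hP : HtPair (k + 1) lam d M) {η : ℝ → ℝ} (hη : HtKer η)
    {ζ : ℝ → ℝ} {α β Z : ℝ} (hζ : ContDiff ℝ 1 ζ) (hζ0 : ∀ t, 0 ≤ ζ t) (hζ1 : ∀ t, ζ t ≤ 1)
    (hζs : ∀ t, t ∉ Ioo α β → ζ t = 0) (hζd : ∀ t, |deriv ζ t| ≤ Z) (z₀ : E k) {ρ₀ ρ₁ γ C : ℝ} (hρ₀ : 0 < ρ₀) (hρ : ρ₀ ≤ ρ₁)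
    (hγ : 0 ≤ γ) (hC : 0 ≤ C)
    (htilt : ∀ ρ ∈ Icc ρ₀ ρ₁, ∫ y in htSlab z₀ ρ α β, ⟪M y (gmtEn k), gmtEn k⟫ ∂lam ≤ γ * ρ ^ k)
    (hmass : ∀ ρ ∈ Icc ρ₀ ρ₁, ∫ y in htSlab z₀ ρ α β, d y ∂lam ≤ C * ρ ^ k) :
    htJ lam d ζ η z₀ ρ₀ - (γ * Real.log (ρ₁ / ρ₀) + Z * Real.sqrt (γ * C) * (ρ₁ - ρ₀)) ≤ htJ lam d ζ η z₀ ρ₁ :=
  sp_slab hP hη hζ hζ0 hζ1 hζs hζd z₀ hρ₀ hρ hγ hC htilt hmass

/-- Lebesgue points of `A` (Mathlib: `VitaliFamily.ae_tendsto_average_norm_sub` for `Besicovitch.vitaliFamily μ`). -/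
theorem ht_sp_leb {μ : Measure (E n)} [IsLocallyFiniteMeasure μ] {A : E n → E n →L[ℝ] E n}
    (hP : HtPair n μ (fun _ => 1) A) :
    ∀ᵐ x ∂μ, Tendsto (fun r => ⨍ y in closedBall x r, ‖A y - A x‖ ∂μ) (𝓝[>] 0) (𝓝 0) := hsp_leb hP

/-- SP3: at almost every point with positive lower and finite upper `k`-density the matrix is a hyperplane projection. -/
theorem ht_sp_null (hn : 2 ≤ n) {μ : Measure (E n)} [IsLocallyFiniteMeasure μ] {A : E n → E n →L[ℝ] E n}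
    (hP : HtPair n μ (fun _ => 1) A) {c₀ C₀ : ℝ} (hc₀ : 0 < c₀) {G : Set (E n)}
    (hlo : ∀ x ∈ G, ∀ᶠ r in 𝓝[>] (0 : ℝ), ENNReal.ofReal (c₀ * r ^ (n - 1)) ≤ μ (closedBall x r))
    (hup : ∀ x ∈ G, ∀ᶠ r in 𝓝[>] (0 : ℝ), μ (closedBall x r) ≤ ENNReal.ofReal (C₀ * r ^ (n - 1))) :
    ∀ᵐ x ∂μ, x ∈ G → ∃ e : E n, ‖e‖ = 1 ∧ A x = htProj e :=
  hsp_null (by omega) hP hc₀ hlo hup

end Claimed.Agent.R323
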