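import Claimed.Agent.R323.Ht.FlatA
import Claimed.Agent.R323.Ht.Sp

/-!
# Row 323, block C, unit FL: THE TWO-POINT LEMMA `HtfTwo` AND `HtfMono` FOR ENTIRE STATIONARY PAIRS (`FL115.md` (I3), (I4)), from `ht_sp_slab`, `ht_sp_mono` (`Ht/Sp.lean`).   Cutter: helper105.   Prefix `htf_`.
`lam = volume`, `ρ` = mass density, `Mt y = ⟪M y e, e⟫` = tilt density, `e = gmtEn k`.
LEAVES  L-FL-T1 … L-FL-T5.   Replace `sorry` IN PLACE, statements verbatim, helpers above the theorem (prefix `htf_`).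
-/

set_option autoImplicit false
open scoped ContDiff ENNReal NNReal RealInnerProductSpace Topology
open MeasureTheory Metric Set Filter

namespace Claimed.Agent.R323

open Claimed.Agent.Gmt

variable {k : ℕ}

/-- the tilt density -/
noncomputable def htfTl (M : E (k + 1) → E (k + 1) →L[ℝ] E (k + 1)) (y : E (k + 1)) : ℝ := ⟪M y (gmtEn k), gmtEn k⟫

/-! ### LEAF L-FL-T1 : the vertical cut-off -/

theorem htf_cut_dbound : ∃ B : ℝ, 0 ≤ B ∧ ∀ x : ℝ, |deriv Real.smoothTransition x| ≤ B := by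
  have hc : Continuous (deriv Real.smoothTransition) :=
    (Real.smoothTransition.contDiff (n := 1)).continuous_deriv le_rfl
  obtain ⟨B, hB⟩ := (isCompact_Icc (a := (0:ℝ)) (b := 1)).exists_bound_of_continuousOn hc.continuousOn
  refine ⟨max B 0, le_max_right _ _, fun x => ?_⟩
  by_cases hx : x ∈ Icc (0:ℝ) 1
  · exact (hB x hx).trans (le_max_left _ _)
  · have h0 : deriv Real.smoothTransition x = 0 := by
      rw [mem_Icc, not_and_or, not_le, not_le] at hx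
      rcases hx with hx | hx
      · have : Real.smoothTransition =ᶠ[𝓝 x] fun _ => (0:ℝ) := by
          filter_upwards [Iio_mem_nhds hx] with y hy
          exact Real.smoothTransition.zero_of_nonpos (le_of_lt hy)
        rw [this.deriv_eq]; simp
      · have : Real.smoothTransition =ᶠ[𝓝 x] fun _ => (1:ℝ) := by
          filter_upwards [Ioi_mem_nhds hx] with y hy
          exact Real.smoothTransition.one_of_one_le (le_of_lt hy)
        rw [this.deriv_eq]; simp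
    rw [h0, abs_zero]; exact le_max_right _ _

/-- PLAN.  `ζ t = sT ((t - t₀ + D/2) * (4/D)) * sT ((t₀ + D/2 - t) * (4/D))`, `sT = Real.smoothTransition` (`.contDiff`, `.zero_of_nonpos`, `.one_of_one_le`, `.nonneg`, `.le_one`).
`B = sup |deriv sT| < ∞`: `deriv sT` is continuous and vanishes off `[0,1]` (locally constant there), so it is bounded (`IsCompact.exists_bound_of_continuousOn` on `Icc 0 1`).   `|deriv ζ| ≤ 2 B (4/D)`: `Cζ = 8 B + 1`. -/
theorem htf_cutoff : ∃ Cζ : ℝ, 0 < Cζ ∧ ∀ (t₀ D : ℝ), 0 < D → ∃ ζ : ℝ → ℝ, ContDiff ℝ 1 ζ ∧ (∀ t, 0 ≤ ζ t) ∧ (∀ t, ζ t ≤ 1) ∧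
    (∀ t, |t - t₀| ≤ D / 4 → ζ t = 1) ∧ (∀ t, t ∉ Ioo (t₀ - D / 2) (t₀ + D / 2) → ζ t = 0) ∧ ∀ t, |deriv ζ t| ≤ Cζ / D := by
  obtain ⟨B, hB0, hB⟩ := htf_cut_dbound
  refine ⟨8 * B + 1, by positivity, fun t₀ D hD => ?_⟩
  have hsd : ∀ x, HasDerivAt Real.smoothTransition (deriv Real.smoothTransition x) x := fun x =>
    ((Real.smoothTransition.contDiff (n := 1)).differentiable one_ne_zero x).hasDerivAt
  refine ⟨fun t => Real.smoothTransition ((t - t₀ + D / 2) * (4 / D)) * Real.smoothTransition ((t₀ + D / 2 - t) * (4 / D)),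
    ?_, ?_, ?_, ?_, ?_, ?_⟩
  · apply ContDiff.mul
    · exact Real.smoothTransition.contDiff.comp (by fun_prop)
    · exact Real.smoothTransition.contDiff.comp (by fun_prop)
  · intro t
    exact mul_nonneg (Real.smoothTransition.nonneg _) (Real.smoothTransition.nonneg _)
  · intro t
    exact mul_le_one₀ (Real.smoothTransition.le_one _) (Real.smoothTransition.nonneg _) (Real.smoothTransition.le_one _)
  · intro t ht
    rw [abs_le] at ht
    have h1 : 1 ≤ (t - t₀ + D / 2) * (4 / D) := by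
      rw [mul_div_assoc', le_div_iff₀ hD]; linarith [ht.1]
    have h2 : 1 ≤ (t₀ + D / 2 - t) * (4 / D) := by
      rw [mul_div_assoc', le_div_iff₀ hD]; linarith [ht.2]
    simp only [Real.smoothTransition.one_of_one_le h1, Real.smoothTransition.one_of_one_le h2, mul_one]
  · intro t ht
    rw [mem_Ioo, not_and_or, not_lt, not_lt] at ht
    have h4 : 0 ≤ 4 / D := by positivity
    rcases ht with ht | ht
    · have h1 : (t - t₀ + D / 2) * (4 / D) ≤ 0 := mul_nonpos_of_nonpos_of_nonneg (by linarith) h4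
      simp only [Real.smoothTransition.zero_of_nonpos h1, zero_mul]
    · have h1 : (t₀ + D / 2 - t) * (4 / D) ≤ 0 := mul_nonpos_of_nonpos_of_nonneg (by linarith) h4
      simp only [Real.smoothTransition.zero_of_nonpos h1, mul_zero]
  · intro t
    have ha : HasDerivAt (fun t : ℝ => (t - t₀ + D / 2) * (4 / D)) (4 / D) t := by
      have := (((hasDerivAt_id t).sub_const t₀).add_const (D / 2)).mul_const (4 / D)
      simpa using this
    have hb : HasDerivAt (fun t : ℝ => (t₀ + D / 2 - t) * (4 / D)) (-(4 / D)) t := by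
      have := ((hasDerivAt_id t).const_sub (t₀ + D / 2)).mul_const (4 / D)
      simpa using this
    have h1 := (hsd ((t - t₀ + D / 2) * (4 / D))).comp t ha
    have h2 := (hsd ((t₀ + D / 2 - t) * (4 / D))).comp t hb
    have h3 := h1.mul h2
    have h4 : deriv (fun t => Real.smoothTransition ((t - t₀ + D / 2) * (4 / D)) * Real.smoothTransition ((t₀ + D / 2 - t) * (4 / D))) t = _ := h3.deriv
    rw [h4]
    have h4D : 0 ≤ 4 / D := by positivity
    have e1 : |deriv Real.smoothTransition ((t - t₀ + D / 2) * (4 / D)) * (4 / D) * Real.smoothTransition ((t₀ + D / 2 - t) * (4 / D))| ≤ B * (4 / D) := by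
      rw [abs_mul, abs_mul, abs_of_nonneg h4D, abs_of_nonneg (Real.smoothTransition.nonneg _)]
      calc _ ≤ B * (4 / D) * 1 := by
            apply mul_le_mul _ (Real.smoothTransition.le_one _) (Real.smoothTransition.nonneg _) (by positivity)
            exact mul_le_mul_of_nonneg_right (hB _) h4D
        _ = _ := mul_one _
    have e2 : |Real.smoothTransition ((t - t₀ + D / 2) * (4 / D)) * (deriv Real.smoothTransition ((t₀ + D / 2 - t) * (4 / D)) * -(4 / D))| ≤ B * (4 / D) := by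
      rw [abs_mul, abs_mul, abs_neg, abs_of_nonneg h4D, abs_of_nonneg (Real.smoothTransition.nonneg _)]
      calc _ ≤ 1 * (B * (4 / D)) := by
            apply mul_le_mul (Real.smoothTransition.le_one _) _ (by positivity) zero_le_one
            exact mul_le_mul_of_nonneg_right (hB _) h4D
        _ = _ := one_mul _
    refine (abs_add_le _ _).trans ?_
    have e3 : B * (4 / D) + B * (4 / D) ≤ (8 * B + 1) / D := by
      rw [le_div_iff₀ hD]
      field_simp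
      linarith
    simp only [Function.comp] at e1 e2 ⊢
    linarith

/-! ### LEAF L-FL-T2 : measures and Bochner integrals -/

/-- PLAN.  `htf_ms_apply`, `ofReal_integral_eq_lintegral_ofReal` (integrable on the bounded set: `LocallyIntegrable.integrableOn_isCompact` on `closedBall`, `IntegrableOn.mono_set`; nonnegative a.e.). -/
theorem htf_ms_eq {ρ : E (k + 1) → ℝ} (hi : LocallyIntegrable ρ volume) (h0 : ∀ᵐ y, 0 ≤ ρ y) {S : Set (E (k + 1))} (hS : MeasurableSet S)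
    (hb : Bornology.IsBounded S) : htfMs ρ S = ENNReal.ofReal (∫ y in S, ρ y) := by
  obtain ⟨R, hR⟩ := hb.subset_closedBall (0 : E (k + 1))
  have hint : IntegrableOn ρ S volume :=
    (hi.integrableOn_isCompact (isCompact_closedBall (0 : E (k + 1)) R)).mono_set hR
  unfold htfMs
  rw [withDensity_apply _ hS, ofReal_integral_eq_lintegral_ofReal hint (ae_restrict_of_ae h0)]

/-- the densities of a pair: `0 ≤ Mt ≤ ρ` a.e., both locally integrable  (`HtPair.nonneg`, `.le` with `v = gmtEn k`, `‖gmtEn k‖ = 1`; `.lint`, `.mM`; `LocallyIntegrable.mono`) -/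
theorem htf_pair_dens {ρ : E (k + 1) → ℝ} {M : E (k + 1) → E (k + 1) →L[ℝ] E (k + 1)} (hP : HtPair (k + 1) volume ρ M) :
    (∀ᵐ y, 0 ≤ htfTl M y) ∧ (∀ᵐ y, htfTl M y ≤ ρ y) ∧ (∀ᵐ y, 0 ≤ ρ y) ∧ LocallyIntegrable (htfTl M) volume := by
  have h1 : ∀ᵐ y, 0 ≤ htfTl M y := by
    filter_upwards [hP.nonneg] with y hy
    exact hy (gmtEn k)
  have h2 : ∀ᵐ y, htfTl M y ≤ ρ y := by
    filter_upwards [hP.le] with y hy
    have := hy (gmtEn k)
    rw [htf_norm_en] at this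
    simpa [htfTl] using this
  have h3 : ∀ᵐ y, 0 ≤ ρ y := by
    filter_upwards [h1, h2] with y a b
    exact a.trans b
  refine ⟨h1, h2, h3, ?_⟩
  have hm : AEStronglyMeasurable (htfTl M) volume := by
    have e1 : AEStronglyMeasurable (fun y => M y (gmtEn k)) volume :=
      (ContinuousLinearMap.apply ℝ (E (k + 1)) (gmtEn k)).continuous.comp_aestronglyMeasurable hP.mM
    exact e1.inner aestronglyMeasurable_const
  refine hP.lint.mono hm ?_
  filter_upwards [h1, h2, h3] with y a b c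
  rw [Real.norm_eq_abs, Real.norm_eq_abs, abs_of_nonneg a, abs_of_nonneg c]
  exact b

/-- (M1)  PLAN.  `ht_sp_mono` (`n = k + 1`, `n - 1 = k`): `htR x r₁ ≤ htR x r₂`, i.e. `(r₁^k)⁻¹ ∫_{ball x r₁} ρ ≤ (r₂^k)⁻¹ ∫_{ball x r₂} ρ`; `htf_ms_eq`; `ENNReal.ofReal_mul`, `ENNReal.ofReal_le_ofReal`. -/
theorem htf_mono_of_pair {ρ : E (k + 1) → ℝ} {M : E (k + 1) → E (k + 1) →L[ℝ] E (k + 1)} (hP : HtPair (k + 1) volume ρ M) :
    HtfMono k (htfMs ρ) := by
  intro x r₁ r₂ h1 h12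
  have h2 : 0 < r₂ := h1.trans_le h12
  obtain ⟨-, -, h0, -⟩ := htf_pair_dens hP
  have hm := ht_sp_mono (n := k + 1) (by omega) hP x (show r₁ ∈ Ioi (0 : ℝ) from h1) (show r₂ ∈ Ioi (0 : ℝ) from h2) h12
  simp only [htR, Nat.add_sub_cancel] at hm
  rw [htf_ms_eq hP.lint h0 measurableSet_ball isBounded_ball, htf_ms_eq hP.lint h0 measurableSet_ball isBounded_ball]
  have i1 : 0 ≤ ∫ y in ball x r₁, ρ y := integral_nonneg_of_ae (ae_restrict_of_ae h0)
  have i2 : 0 ≤ ∫ y in ball x r₂, ρ y := integral_nonneg_of_ae (ae_restrict_of_ae h0)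
  rw [← ENNReal.ofReal_mul i1, ← ENNReal.ofReal_mul i2]
  apply ENNReal.ofReal_le_ofReal
  have p1 : 0 < r₁ ^ k := pow_pos h1 k
  have p2 : 0 < r₂ ^ k := pow_pos h2 k
  rw [inv_mul_eq_div, inv_mul_eq_div, div_le_div_iff₀ p1 p2] at hm
  exact hm

/-! ### LEAF L-FL-T3 : the slab ratio at the small radius -/

theorem htf_l_ver_sub (y x : E (k + 1)) : gmtVer y - gmtVer x = gmtVer (y - x) := by
  simp [gmtVer]

theorem htf_l_hor_sub (y x : E (k + 1)) : gmtHor y - gmtHor x = gmtHor (y - x) := by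
  simp [gmtHor]

theorem htf_l_ker_nonneg (σ s : ℝ) : 0 ≤ htKer σ s := Real.smoothTransition.nonneg _

theorem htf_l_ker_le_one (σ s : ℝ) : htKer σ s ≤ 1 := Real.smoothTransition.le_one _

theorem htf_l_ker_zero {σ s : ℝ} (hσ : 0 < σ) (hs : 1 ≤ s) : htKer σ s = 0 :=
  Real.smoothTransition.zero_of_nonpos (div_nonpos_of_nonpos_of_nonneg (by linarith) hσ.le)

theorem htf_l_ker_one {σ s : ℝ} (hσ : 0 < σ) (hs : s ≤ 1 - σ) : htKer σ s = 1 :=
  Real.smoothTransition.one_of_one_le (by rw [le_div_iff₀ hσ]; linarith)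

theorem htf_l_int {ρ : E (k + 1) → ℝ} (hi : LocallyIntegrable ρ volume) (x : E (k + 1)) {D r σ : ℝ} (hD : 0 < D) (hr : 0 < r)
    (hσ : 0 < σ) {ζ : ℝ → ℝ} (hζc : Continuous ζ) (hζ0 : ∀ t, 0 ≤ ζ t) (hζ1 : ∀ t, ζ t ≤ 1)
    (hζs : ∀ t, t ∉ Ioo (gmtVer x - D / 2) (gmtVer x + D / 2) → ζ t = 0) :
    Integrable (fun y => ζ (gmtVer y) * htKer σ (‖gmtHor y - gmtHor x‖ / r) * ρ y) volume := by
  have hK : IntegrableOn ρ (closedBall x (r + D / 2)) volume := hi.integrableOn_isCompact (isCompact_closedBall _ _)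
  have hI : Integrable ((closedBall x (r + D / 2)).indicator ρ) volume := hK.integrable_indicator measurableSet_closedBall
  have hc : Continuous (fun y : E (k + 1) => ζ (gmtVer y) * htKer σ (‖gmtHor y - gmtHor x‖ / r)) := by
    unfold htKer gmtVer gmtHor
    have h1 := Real.smoothTransition.continuous
    fun_prop
  have e : (fun y => ζ (gmtVer y) * htKer σ (‖gmtHor y - gmtHor x‖ / r) * ρ y) =
      fun y => (ζ (gmtVer y) * htKer σ (‖gmtHor y - gmtHor x‖ / r)) * (closedBall x (r + D / 2)).indicator ρ y := by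
    funext y
    by_cases hy : y ∈ closedBall x (r + D / 2)
    · rw [indicator_of_mem hy]
    · rw [indicator_of_notMem hy, mul_zero]
      by_cases h1 : gmtVer y ∈ Ioo (gmtVer x - D / 2) (gmtVer x + D / 2)
      · by_cases h2 : 1 ≤ ‖gmtHor y - gmtHor x‖ / r
        · rw [htf_l_ker_zero hσ h2]; ring
        · exfalso
          apply hy
          push Not at h2
          rw [div_lt_iff₀ hr, one_mul] at h2
          rw [mem_closedBall, dist_eq_norm]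
          have h3 : |gmtVer (y - x)| ≤ D / 2 := by
            rw [← htf_l_ver_sub, abs_le]
            constructor <;> linarith [h1.1, h1.2]
          rw [htf_l_hor_sub] at h2
          have h4 := fl_norm_sq (y - x)
          have h5 : gmtVer (y - x) ^ 2 ≤ (D / 2) ^ 2 := by
            rw [← sq_abs]
            exact pow_le_pow_left₀ (abs_nonneg _) h3 2
          have h6 : ‖gmtHor (y - x)‖ ^ 2 ≤ r ^ 2 := pow_le_pow_left₀ (norm_nonneg _) h2.le 2
          have h7 : ‖y - x‖ ^ 2 ≤ (r + D / 2) ^ 2 := by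
            have : 0 ≤ r * D := by positivity
            nlinarith
          exact (pow_le_pow_iff_left₀ (norm_nonneg _) (by positivity) (by norm_num)).1 h7
      · rw [hζs _ h1]; ring
  rw [e]
  refine hI.bdd_mul hc.aestronglyMeasurable (c := 1) (ae_of_all _ fun y => ?_)
  rw [Real.norm_eq_abs, abs_of_nonneg (mul_nonneg (hζ0 _) (htf_l_ker_nonneg _ _))]
  exact mul_le_one₀ (hζ1 _) (htf_l_ker_nonneg _ _) (htf_l_ker_le_one _ _)

/-- PLAN.  on `ball x (D/4)`: `|ver y - ver x| < D/4` so `ζ = 1`; `‖hor y - hor x‖/ρ₀ < 1 - σ` (`ρ₀ = D/(4(1-σ))`) so `htKer σ = 1` (`Real.smoothTransition.one_of_one_le`); elsewhere the integrand is `≥ 0` a.e.: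
`∫ ζ η ρ ≥ ∫_{ball x (D/4)} ρ` (`setIntegral_le_integral`-type: `integral_indicator`, `integral_mono_ae`; integrability: the integrand is bounded by `ρ` on a bounded set and vanishes outside). -/
theorem htf_J_lower {ρ : E (k + 1) → ℝ} (hi : LocallyIntegrable ρ volume) (h0 : ∀ᵐ y, 0 ≤ ρ y) (x : E (k + 1)) {D σ : ℝ} (hD : 0 < D)
    (hσ : 0 < σ) (hσ' : σ ≤ 1 / 2) {ζ : ℝ → ℝ} (hζc : Continuous ζ) (hζ0 : ∀ t, 0 ≤ ζ t) (hζ1 : ∀ t, ζ t ≤ 1)
    (hζ : ∀ t, |t - gmtVer x| ≤ D / 4 → ζ t = 1) (hζs : ∀ t, t ∉ Ioo (gmtVer x - D / 2) (gmtVer x + D / 2) → ζ t = 0) :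
    ((D / (4 * (1 - σ))) ^ k)⁻¹ * ∫ y in ball x (D / 4), ρ y ≤ htJ volume ρ ζ (htKer σ) (gmtHor x) (D / (4 * (1 - σ))) := by
  have hs : 0 < 1 - σ := by linarith
  have hr : 0 < D / (4 * (1 - σ)) := by positivity
  unfold htJ
  apply mul_le_mul_of_nonneg_left _ (inv_nonneg.2 (pow_nonneg hr.le k))
  rw [← integral_indicator measurableSet_ball]
  have hK : IntegrableOn ρ (ball x (D / 4)) volume :=
    (hi.integrableOn_isCompact (isCompact_closedBall x (D / 4))).mono_set ball_subset_closedBall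
  apply integral_mono_ae (hK.integrable_indicator measurableSet_ball) (htf_l_int hi x hD hr hσ hζc hζ0 hζ1 hζs)
  filter_upwards [h0] with y hy
  by_cases hyb : y ∈ ball x (D / 4)
  · rw [indicator_of_mem hyb]
    rw [mem_ball, dist_eq_norm] at hyb
    have h1 : ζ (gmtVer y) = 1 := by
      apply hζ
      rw [htf_l_ver_sub]
      exact (fl_abs_ver_le _).trans hyb.le
    have h2 : htKer σ (‖gmtHor y - gmtHor x‖ / (D / (4 * (1 - σ)))) = 1 := by
      apply htf_l_ker_one hσ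
      rw [div_le_iff₀ hr, htf_l_hor_sub]
      have : (1 - σ) * (D / (4 * (1 - σ))) = D / 4 := by field_simp
      rw [this]
      exact (fl_norm_hor_le _).trans hyb.le
    rw [h1, h2]; simp
  · rw [indicator_of_notMem hyb]
    exact mul_nonneg (mul_nonneg (hζ0 _) (htf_l_ker_nonneg _ _)) hy

/-! ### LEAF L-FL-T4 : the two slab ratios at the large radius -/

/-- a continuous weight `0 ≤ F ≤ 1` supported in a ball -/
theorem htf_t4_weight {ρ : E (k + 1) → ℝ} (hi : LocallyIntegrable ρ volume) (h0 : ∀ᵐ y, 0 ≤ ρ y) {F : E (k + 1) → ℝ} (hFc : Continuous F)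
    (hF0 : ∀ y, 0 ≤ F y) (hF1 : ∀ y, F y ≤ 1) {x : E (k + 1)} {R : ℝ} (hFs : ∀ y, y ∉ ball x R → F y = 0) :
    Integrable (fun y => F y * ρ y) ∧ ∫ y, F y * ρ y ≤ ∫ y in ball x R, ρ y := by
  have hB : IntegrableOn ρ (ball x R) :=
    (hi.integrableOn_isCompact (isCompact_closedBall x R)).mono_set ball_subset_closedBall
  have hI : Integrable ((ball x R).indicator ρ) := hB.integrable_indicator measurableSet_ball
  have e : (fun y => F y * ρ y) = fun y => F y * (ball x R).indicator ρ y := by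
    funext y
    by_cases hy : y ∈ ball x R
    · rw [indicator_of_mem hy]
    · rw [hFs y hy, zero_mul, zero_mul]
  have h1 : Integrable (fun y => F y * ρ y) := by
    rw [e]
    refine hI.bdd_mul (c := 1) hFc.aestronglyMeasurable (Filter.Eventually.of_forall fun y => ?_)
    rw [Real.norm_eq_abs, abs_of_nonneg (hF0 y)]
    exact hF1 y
  refine ⟨h1, ?_⟩
  rw [← integral_indicator measurableSet_ball]
  refine integral_mono_ae h1 hI ?_
  filter_upwards [h0] with y hy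
  show F y * ρ y ≤ (ball x R).indicator ρ y
  by_cases hyb : y ∈ ball x R
  · rw [indicator_of_mem hyb]
    nlinarith [hF1 y, hF0 y]
  · rw [hFs y hyb, zero_mul, indicator_of_notMem hyb]

theorem htf_t4_ker_nonneg (σ s : ℝ) : 0 ≤ htKer σ s := Real.smoothTransition.nonneg _

theorem htf_t4_ker_le_one (σ s : ℝ) : htKer σ s ≤ 1 := Real.smoothTransition.le_one _

theorem htf_t4_ker_zero {σ s : ℝ} (hσ : 0 < σ) (hs : 1 ≤ s) : htKer σ s = 0 :=
  Real.smoothTransition.zero_of_nonpos (div_nonpos_of_nonpos_of_nonneg (by linarith) hσ.le)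

theorem htf_t4_ker_cont (σ : ℝ) : Continuous (htKer σ) := by
  unfold htKer
  exact Real.smoothTransition.continuous.comp (by fun_prop)

/-- the slab weight -/
theorem htf_t4_slab {ζ : ℝ → ℝ} (hc : Continuous ζ) (h0 : ∀ t, 0 ≤ ζ t) (σ : ℝ) (z₀ : E k) (r : ℝ) :
    Continuous (fun y : E (k + 1) => ζ (gmtVer y) * htKer σ (‖gmtHor y - z₀‖ / r)) ∧
    (∀ y : E (k + 1), 0 ≤ ζ (gmtVer y) * htKer σ (‖gmtHor y - z₀‖ / r)) ∧
    (∀ y : E (k + 1), ζ (gmtVer y) * htKer σ (‖gmtHor y - z₀‖ / r) ≤ ζ (gmtVer y)) := by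
  refine ⟨?_, fun y => mul_nonneg (h0 _) (htf_t4_ker_nonneg _ _), fun y => ?_⟩
  · have hv : Continuous (fun y : E (k + 1) => gmtVer y) := (gmtVerL k).continuous
    have hh : Continuous (fun y : E (k + 1) => gmtHor y) := (gmtHorL k).continuous
    exact (hc.comp hv).mul ((htf_t4_ker_cont σ).comp (((hh.sub continuous_const).norm).div_const r))
  · have := htf_t4_ker_le_one σ (‖gmtHor y - z₀‖ / r)
    nlinarith [h0 (gmtVer y)]

/-- the support of the slab weight -/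
theorem htf_t4_supp {ζ : ℝ → ℝ} {σ r a b : ℝ} (hσ : 0 < σ) (hr : 0 < r) (hs : ∀ t, t ∉ Ioo a b → ζ t = 0) (z₀ : E k) {y : E (k + 1)}
    (hy : ζ (gmtVer y) * htKer σ (‖gmtHor y - z₀‖ / r) ≠ 0) : gmtVer y ∈ Ioo a b ∧ ‖gmtHor y - z₀‖ < r := by
  constructor
  · by_contra h
    exact hy (by rw [hs _ h, zero_mul])
  · by_contra h
    refine hy ?_
    rw [htf_t4_ker_zero hσ ((one_le_div hr).2 (not_lt.1 h)), mul_zero]

theorem htf_t4_norm_sub_le (y x : E (k + 1)) : ‖y - x‖ ≤ ‖gmtHor y - gmtHor x‖ + |gmtVer y - gmtVer x| := by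
  have h := fl_norm_le_add (y - x)
  have e1 : gmtHor (y - x) = gmtHor y - gmtHor x := map_sub (gmtHorL k) y x
  have e2 : gmtVer (y - x) = gmtVer y - gmtVer x := map_sub (gmtVerL k) y x
  rwa [e1, e2] at h

/-- PLAN.  `ζ₁(ver y) η(‖hor y - hor x₁‖/r) + ζ₂(ver y) η(‖hor y - hor x₂‖/r) ≤ 1_{ball x₁ (r + H + 2D)}(y)`: the supports of `ζ₁`, `ζ₂` are disjoint (`ver x₂ - ver x₁ = D`), `0 ≤ ζ_j, η ≤ 1`, `η s = 0` for `s ≥ 1`;
if the `j`-th term is `≠ 0`: `‖hor y - hor x₁‖ < r + H`, `|ver y - ver x₁| < 3D/2`, so `‖y - x₁‖ ≤ ‖hor‖ + |ver| < r + H + 2D` (`fl_norm_sq`).   Then `integral_add`, `integral_mono_ae`, `integral_indicator`. -/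
theorem htf_J_upper {ρ : E (k + 1) → ℝ} (hi : LocallyIntegrable ρ volume) (h0 : ∀ᵐ y, 0 ≤ ρ y) (x₁ x₂ : E (k + 1)) {D H r σ : ℝ} (hD : 0 < D)
    (hver : gmtVer x₂ - gmtVer x₁ = D) (hH : ‖gmtHor x₂ - gmtHor x₁‖ ≤ H) (hr : 0 < r) (hσ : 0 < σ) (hσ' : σ ≤ 1 / 2) {ζ₁ ζ₂ : ℝ → ℝ}
    (hc₁ : Continuous ζ₁) (hc₂ : Continuous ζ₂) (h₁0 : ∀ t, 0 ≤ ζ₁ t) (h₁1 : ∀ t, ζ₁ t ≤ 1) (h₂0 : ∀ t, 0 ≤ ζ₂ t) (h₂1 : ∀ t, ζ₂ t ≤ 1)
    (h₁s : ∀ t, t ∉ Ioo (gmtVer x₁ - D / 2) (gmtVer x₁ + D / 2) → ζ₁ t = 0)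
    (h₂s : ∀ t, t ∉ Ioo (gmtVer x₂ - D / 2) (gmtVer x₂ + D / 2) → ζ₂ t = 0) :
    htJ volume ρ ζ₁ (htKer σ) (gmtHor x₁) r + htJ volume ρ ζ₂ (htKer σ) (gmtHor x₂) r ≤
      (r ^ k)⁻¹ * ∫ y in ball x₁ (r + H + 2 * D), ρ y := by
  have hH0 : 0 ≤ H := (norm_nonneg _).trans hH
  obtain ⟨c1, n1, l1⟩ := htf_t4_slab hc₁ h₁0 σ (gmtHor x₁) r
  obtain ⟨c2, n2, l2⟩ := htf_t4_slab hc₂ h₂0 σ (gmtHor x₂) r
  set F₁ : E (k + 1) → ℝ := fun y => ζ₁ (gmtVer y) * htKer σ (‖gmtHor y - gmtHor x₁‖ / r) with hF₁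
  set F₂ : E (k + 1) → ℝ := fun y => ζ₂ (gmtVer y) * htKer σ (‖gmtHor y - gmtHor x₂‖ / r) with hF₂
  have s1 : ∀ y, y ∉ ball x₁ (r + H + 2 * D) → F₁ y = 0 := by
    intro y hy
    by_contra hne
    obtain ⟨a1, a2⟩ := htf_t4_supp hσ hr h₁s (gmtHor x₁) hne
    refine hy ?_
    rw [mem_ball, dist_eq_norm]
    have h3 := htf_t4_norm_sub_le y x₁
    have h4 : |gmtVer y - gmtVer x₁| < D / 2 := abs_lt.2 ⟨by linarith [a1.1], by linarith [a1.2]⟩
    linarith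
  have s2 : ∀ y, y ∉ ball x₁ (r + H + 2 * D) → F₂ y = 0 := by
    intro y hy
    by_contra hne
    obtain ⟨a1, a2⟩ := htf_t4_supp hσ hr h₂s (gmtHor x₂) hne
    refine hy ?_
    rw [mem_ball, dist_eq_norm]
    have h3 := htf_t4_norm_sub_le y x₁
    have h4 : |gmtVer y - gmtVer x₁| < 3 * D / 2 := abs_lt.2 ⟨by linarith [a1.1], by linarith [a1.2]⟩
    have h5 : ‖gmtHor y - gmtHor x₁‖ ≤ ‖gmtHor y - gmtHor x₂‖ + ‖gmtHor x₂ - gmtHor x₁‖ := by
      have := norm_add_le (gmtHor y - gmtHor x₂) (gmtHor x₂ - gmtHor x₁)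
      rwa [sub_add_sub_cancel] at this
    linarith
  have hsum : ∀ y, F₁ y + F₂ y ≤ 1 := by
    intro y
    by_cases hy : gmtVer y ∈ Ioo (gmtVer x₁ - D / 2) (gmtVer x₁ + D / 2)
    · have : gmtVer y ∉ Ioo (gmtVer x₂ - D / 2) (gmtVer x₂ + D / 2) := fun h => by
        have := h.1; have := hy.2; linarith
      have e : F₂ y = 0 := by show ζ₂ _ * _ = 0; rw [h₂s _ this, zero_mul]
      rw [e, add_zero]
      exact (l1 y).trans (h₁1 _)
    · have e : F₁ y = 0 := by show ζ₁ _ * _ = 0; rw [h₁s _ hy, zero_mul]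
      rw [e, zero_add]
      exact (l2 y).trans (h₂1 _)
  obtain ⟨i1, -⟩ := htf_t4_weight hi h0 c1 n1 (fun y => (l1 y).trans (h₁1 _)) s1
  obtain ⟨i2, -⟩ := htf_t4_weight hi h0 c2 n2 (fun y => (l2 y).trans (h₂1 _)) s2
  obtain ⟨-, i3⟩ := htf_t4_weight hi h0 (F := fun y => F₁ y + F₂ y) (c1.add c2) (fun y => add_nonneg (n1 y) (n2 y)) hsum
    (fun y hy => by rw [s1 y hy, s2 y hy, add_zero])
  unfold htJ
  rw [← mul_add, ← integral_add i1 i2]
  refine mul_le_mul_of_nonneg_left ?_ (by positivity)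
  refine le_trans (le_of_eq ?_) i3
  refine integral_congr_ae (Filter.Eventually.of_forall fun y => ?_)
  show F₁ y * ρ y + F₂ y * ρ y = (F₁ y + F₂ y) * ρ y
  ring

/-! ### LEAF L-FL-T5 : one slab, and the assembly of T2 -/

/-- **one point**: PLAN.  `ht_sp_slab` with `η = htKer σ` (`ht_ker_std`), `α, β = ver x ∓ D/2`, `Z = Cζ/D`, `z₀ = hor x`, `ρ₀ = D/(4(1-σ)) ∈ [D/4, D/2]`, `ρ₁ = M D`, `γ' = 3^k γ`, `C' = 3^k C₀`:
for `r ∈ [ρ₀,ρ₁]`: `htSlab z₀ r α β ⊆ ball x (3r)` (`D/2 ≤ 2r`, `fl_norm_sq`: `‖y - x‖² < r² + 4r²`), so tilt `≤ γ (3r)^k`, mass `≤ C₀ (3r)^k` (`setIntegral_mono_set`, a.e. nonnegativity, `htf_ms_eq` to pass from the measures to the integrals).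
`log (ρ₁/ρ₀) = log (4M(1-σ)) ≤ log (4M)`;  `Z √(γ' C') (ρ₁ - ρ₀) ≤ (Cζ/D) 3^k √(γ C₀) M D`.   `htf_J_lower` and `hlow`. -/
theorem htf_one_slab {ρ : E (k + 1) → ℝ} {M : E (k + 1) → E (k + 1) →L[ℝ] E (k + 1)} (hP : HtPair (k + 1) volume ρ M) (x : E (k + 1))
    {D Mm c₁ σ γ C₀ Cζ : ℝ} (hD : 0 < D) (hM : 1 ≤ Mm) (hσ : 0 < σ) (hσ' : σ ≤ 1 / 2) (hγ : 0 ≤ γ) (hC₀ : 0 ≤ C₀) (hCζ : 0 < Cζ)
    {ζ : ℝ → ℝ} (hζ : ContDiff ℝ 1 ζ) (hζ0 : ∀ t, 0 ≤ ζ t) (hζ1 : ∀ t, ζ t ≤ 1) (hζe : ∀ t, |t - gmtVer x| ≤ D / 4 → ζ t = 1)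
    (hζs : ∀ t, t ∉ Ioo (gmtVer x - D / 2) (gmtVer x + D / 2) → ζ t = 0) (hζd : ∀ t, |deriv ζ t| ≤ Cζ / D)
    (hlow : ENNReal.ofReal (c₁ * (D / 4) ^ k) ≤ htfMs ρ (ball x (D / 4)))
    (hup : ∀ r, D / 4 ≤ r → r ≤ Mm * D → htfMs (htfTl M) (ball x (3 * r)) ≤ ENNReal.ofReal (γ * (3 * r) ^ k) ∧
      htfMs ρ (ball x (3 * r)) ≤ ENNReal.ofReal (C₀ * (3 * r) ^ k)) :
    c₁ * (1 - σ) ^ k - 3 ^ k * (γ * Real.log (4 * Mm) + Cζ * (Mm * Real.sqrt (γ * C₀))) ≤ htJ volume ρ ζ (htKer σ) (gmtHor x) (Mm * D) := by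
  obtain ⟨t0, -, r0, tli⟩ := htf_pair_dens hP
  have hli : LocallyIntegrable ρ volume := hP.lint
  have h1σ : 1 / 2 ≤ 1 - σ := by linarith
  have h1σ0 : 0 < 1 - σ := by linarith
  set ρ₀ := D / (4 * (1 - σ)) with hρ₀
  have hρ₀pos : 0 < ρ₀ := by positivity
  have hρ₀lo : D / 4 ≤ ρ₀ := by
    rw [hρ₀, div_le_div_iff₀ (by norm_num) (by positivity)]
    nlinarith
  have hρ₀hi : ρ₀ ≤ D / 2 := by
    rw [hρ₀, div_le_div_iff₀ (by positivity) (by norm_num)]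
    nlinarith
  have hρ₀₁ : ρ₀ ≤ Mm * D := by nlinarith
  -- the slab lies in the ball
  have hsub : ∀ r, ρ₀ ≤ r → htSlab (gmtHor x) r (gmtVer x - D / 2) (gmtVer x + D / 2) ⊆ ball x (3 * r) := by
    intro r hr y hy
    obtain ⟨a1, a2, a3⟩ := hy
    rw [mem_ball, dist_eq_norm]
    have h3 := htf_t4_norm_sub_le y x
    have h4 : |gmtVer y - gmtVer x| < D / 2 := abs_lt.2 ⟨by linarith, by linarith⟩
    linarith
  have hbd : ∀ (g : E (k + 1) → ℝ), LocallyIntegrable g volume → (∀ᵐ y, 0 ≤ g y) → ∀ (c r : ℝ), 0 ≤ c → ρ₀ ≤ r →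
      htfMs g (ball x (3 * r)) ≤ ENNReal.ofReal (c * (3 * r) ^ k) →
      ∫ y in htSlab (gmtHor x) r (gmtVer x - D / 2) (gmtVer x + D / 2), g y ≤ 3 ^ k * c * r ^ k := by
    intro g hg hg0 c r hc hr hle
    have hr0 : 0 < r := hρ₀pos.trans_le hr
    rw [htf_ms_eq hg hg0 measurableSet_ball isBounded_ball, ENNReal.ofReal_le_ofReal_iff (by positivity)] at hle
    have hint : IntegrableOn g (ball x (3 * r)) :=
      (hg.integrableOn_isCompact (isCompact_closedBall x (3 * r))).mono_set ball_subset_closedBall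
    have h5 : ∫ y in htSlab (gmtHor x) r (gmtVer x - D / 2) (gmtVer x + D / 2), g y ≤ ∫ y in ball x (3 * r), g y :=
      setIntegral_mono_set hint (ae_restrict_of_ae hg0) (LE.le.eventuallyLE (hsub r hr))
    calc _ ≤ _ := h5
      _ ≤ c * (3 * r) ^ k := hle
      _ = 3 ^ k * c * r ^ k := by rw [mul_pow]; ring
  have hslab := ht_sp_slab hP (ht_ker_std hσ (by linarith)) hζ hζ0 hζ1 hζs hζd (gmtHor x) hρ₀pos hρ₀₁
    (γ := 3 ^ k * γ) (C := 3 ^ k * C₀) (by positivity) (by positivity)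
    (fun r hr => hbd (htfTl M) tli t0 γ r hγ hr.1 (hup r (hρ₀lo.trans hr.1) hr.2).1)
    (fun r hr => hbd ρ hli r0 C₀ r hC₀ hr.1 (hup r (hρ₀lo.trans hr.1) hr.2).2)
  have hJ0 := htf_J_lower hli r0 x hD hσ hσ' hζ.continuous hζ0 hζ1 hζe hζs
  rw [← hρ₀] at hJ0
  have hlow' : c₁ * (D / 4) ^ k ≤ ∫ y in ball x (D / 4), ρ y := by
    rw [htf_ms_eq hli r0 measurableSet_ball isBounded_ball] at hlow
    have hnn : 0 ≤ ∫ y in ball x (D / 4), ρ y := integral_nonneg_of_ae (ae_restrict_of_ae r0)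
    rcases ENNReal.ofReal_le_ofReal_iff'.1 hlow with h | h
    · exact h
    · exact h.trans hnn
  have hc1 : c₁ * (1 - σ) ^ k ≤ (ρ₀ ^ k)⁻¹ * ∫ y in ball x (D / 4), ρ y := by
    have e : c₁ * (1 - σ) ^ k = (ρ₀ ^ k)⁻¹ * (c₁ * (D / 4) ^ k) := by
      have e1 : D / 4 = (1 - σ) * ρ₀ := by rw [hρ₀]; field_simp
      rw [e1, mul_pow]
      field_simp
    rw [e]
    exact mul_le_mul_of_nonneg_left hlow' (by positivity)
  have hlog : Real.log (Mm * D / ρ₀) ≤ Real.log (4 * Mm) := by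
    refine Real.log_le_log (by positivity) ?_
    have e1 : Mm * D / ρ₀ = 4 * Mm * (1 - σ) := by rw [hρ₀]; field_simp
    rw [e1]
    nlinarith
  have hsq : Real.sqrt (3 ^ k * γ * (3 ^ k * C₀)) = 3 ^ k * Real.sqrt (γ * C₀) := by
    rw [show (3 : ℝ) ^ k * γ * (3 ^ k * C₀) = (3 ^ k) ^ 2 * (γ * C₀) by ring, Real.sqrt_mul (by positivity),
      Real.sqrt_sq (by positivity)]
  have hZ : Cζ / D * (3 ^ k * Real.sqrt (γ * C₀)) * (Mm * D - ρ₀) ≤ 3 ^ k * (Cζ * (Mm * Real.sqrt (γ * C₀))) := by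
    have e1 : 3 ^ k * (Cζ * (Mm * Real.sqrt (γ * C₀))) = Cζ / D * (3 ^ k * Real.sqrt (γ * C₀)) * (Mm * D) := by field_simp
    rw [e1]
    refine mul_le_mul_of_nonneg_left (by linarith) ?_
    have := Real.sqrt_nonneg (γ * C₀)
    positivity
  have hL : 3 ^ k * γ * Real.log (Mm * D / ρ₀) ≤ 3 ^ k * (γ * Real.log (4 * Mm)) := by
    rw [mul_assoc]
    exact mul_le_mul_of_nonneg_left (mul_le_mul_of_nonneg_left hlog hγ) (by positivity)
  rw [hsq] at hslab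
  linarith [hc1.trans hJ0]

/-- **(T2)**  PLAN.  `Cζ` from `htf_cutoff`, `C₂ = 2 * 3^k * (1 + Cζ)`.   `ζ₁, ζ₂` for `t₀ = ver x₁, ver x₂`.   `htf_one_slab` twice, `htf_J_upper` with `r = M D`:
`2 c₁ (1-σ)^k - 2·3^k(γ log(4M) + Cζ M √(γC₀)) ≤ ((M D)^k)⁻¹ ∫_{ball x₁ (M D + H + 2D)} ρ`; `log (4M) ≥ 0`; multiply by `(M D)^k`, `htf_ms_eq`, `ENNReal.ofReal_le_ofReal`. -/
theorem htf_two (k : ℕ) : ∃ C₂ : ℝ, 0 < C₂ ∧ ∀ (ρ : E (k + 1) → ℝ) (M : E (k + 1) → E (k + 1) →L[ℝ] E (k + 1)),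
    HtPair (k + 1) volume ρ M → HtfTwo k C₂ (htfMs ρ) (htfMs (htfTl M)) := by
  obtain ⟨Cζ, hCζ, hcut⟩ := htf_cutoff
  refine ⟨2 * 3 ^ k * (1 + Cζ), by positivity, ?_⟩
  intro ρ M hP x₁ x₂ D H Mm c₁ σ γ C₀ hD hver hH hM hσ hσ' hγ hC₀ hlow hup
  obtain ⟨-, -, h0, -⟩ := htf_pair_dens hP
  obtain ⟨ζ₁, a1, a2, a3, a4, a5, a6⟩ := hcut (gmtVer x₁) D hD
  obtain ⟨ζ₂, b1, b2, b3, b4, b5, b6⟩ := hcut (gmtVer x₂) D hD
  have s1 := htf_one_slab hP x₁ hD hM hσ hσ' hγ hC₀ hCζ a1 a2 a3 a4 a5 a6 (hlow x₁ (Or.inl rfl)) (hup x₁ (Or.inl rfl))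
  have s2 := htf_one_slab hP x₂ hD hM hσ hσ' hγ hC₀ hCζ b1 b2 b3 b4 b5 b6 (hlow x₂ (Or.inr rfl)) (hup x₂ (Or.inr rfl))
  have hr : 0 < Mm * D := by positivity
  have up := htf_J_upper hP.lint h0 x₁ x₂ hD hver hH hr hσ hσ' a1.continuous b1.continuous a2 a3 b2 b3 a5 b5
  rw [htf_ms_eq hP.lint h0 measurableSet_ball isBounded_ball]
  apply ENNReal.ofReal_le_ofReal
  have hp : 0 < (Mm * D) ^ k := pow_pos hr k
  have hlog : 0 ≤ Real.log (4 * Mm) := Real.log_nonneg (by linarith)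
  have hsq : 0 ≤ Real.sqrt (γ * C₀) := Real.sqrt_nonneg _
  have key : 2 * c₁ * (1 - σ) ^ k - 2 * 3 ^ k * (1 + Cζ) * (γ * Real.log (4 * Mm) + Mm * Real.sqrt (γ * C₀)) ≤
      ((Mm * D) ^ k)⁻¹ * ∫ y in ball x₁ (Mm * D + H + 2 * D), ρ y := by
    have e1 : 3 ^ k * (γ * Real.log (4 * Mm) + Cζ * (Mm * Real.sqrt (γ * C₀))) ≤
        3 ^ k * ((1 + Cζ) * (γ * Real.log (4 * Mm) + Mm * Real.sqrt (γ * C₀))) := by
      have A : 0 ≤ γ * Real.log (4 * Mm) := mul_nonneg hγ hlog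
      have B : 0 ≤ Mm * Real.sqrt (γ * C₀) := mul_nonneg (by linarith) hsq
      apply mul_le_mul_of_nonneg_left _ (by positivity)
      nlinarith [mul_nonneg hCζ.le A]
    linarith
  calc (Mm * D) ^ k * (2 * c₁ * (1 - σ) ^ k - 2 * 3 ^ k * (1 + Cζ) * (γ * Real.log (4 * Mm) + Mm * Real.sqrt (γ * C₀)))
      ≤ (Mm * D) ^ k * (((Mm * D) ^ k)⁻¹ * ∫ y in ball x₁ (Mm * D + H + 2 * D), ρ y) := mul_le_mul_of_nonneg_left key hp.le
    _ = ∫ y in ball x₁ (Mm * D + H + 2 * D), ρ y := by field_simp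

end Claimed.Agent.R323
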