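import Claimed.Agent.R323.Ht.Ac
import Claimed.Agent.R323.Ht.FlatD
import Claimed.Agent.R323.Ht.FlatTwo
import Claimed.Agent.R323.Ht.FlatNum
import Claimed.Agent.Lib.Gmt.QmFlatA

/-!
# Row 323, block C, unit FL: INSTANTIATION  `HtAC ⟹ HtfSit`  and the exit `htfi_flat` (= `ht_flat`).   Cutter: helper101.   Prefix `htfi_`.
`u = U`, `eh = htEps κ q`, `ρ = htD (k+1) κ q U`, `f = htfTl (htM (k+1) κ q U)`, `ε = κ ‖q‖`, domain `ball 0 R`, `3 R ≤ ‖q‖`.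
One lemma per field of `HtfSit`.   LEAVES  L-FL-I1 … L-FL-I6: replace `sorry` IN PLACE, statements verbatim, helpers above the theorem (prefix `htfi_`).  All leaves are independent.
-/

set_option autoImplicit false
open scoped ContDiff ENNReal NNReal RealInnerProductSpace Topology
open MeasureTheory Metric Set Filter

namespace Claimed.Agent.R323

open Claimed.Agent.Gmt

variable {k : ℕ} {κ R : ℝ} {q : E (k + 1)} {U : E (k + 1) → ℝ}

/-! ### LEAF L-FL-I1 : geometry of the domain -/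

/-- (`‖y‖ < R ≤ ‖q‖/3`) -/
theorem htfi_ne (hR : 0 < R) (hq : 3 * R ≤ ‖q‖) {y : E (k + 1)} (hy : y ∈ ball (0 : E (k + 1)) R) : y ≠ q := by
  rintro rfl
  rw [mem_ball_zero_iff] at hy
  linarith

/-- (`‖y - q‖ ≥ ‖q‖ - ‖y‖ ≥ (2/3)‖q‖`: `norm_sub_norm_le`, `norm_sub_rev`) -/
theorem htfi_eh_lo (hκ : 0 < κ) (hR : 0 < R) (hq : 3 * R ≤ ‖q‖) {y : E (k + 1)} (hy : y ∈ ball (0 : E (k + 1)) R) :
    κ * ‖q‖ / 2 ≤ htEps κ q y := by
  rw [mem_ball_zero_iff] at hy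
  unfold htEps
  have h1 : ‖q‖ - ‖y‖ ≤ ‖y - q‖ := by
    rw [norm_sub_rev]; exact norm_sub_norm_le _ _
  have h2 : ‖q‖ / 2 ≤ ‖y - q‖ := by linarith
  calc κ * ‖q‖ / 2 = κ * (‖q‖ / 2) := by ring
    _ ≤ κ * ‖y - q‖ := by gcongr

/-- (`‖y - q‖ ≤ ‖y‖ + ‖q‖ ≤ (4/3)‖q‖`) -/
theorem htfi_eh_hi (hκ : 0 < κ) (hR : 0 < R) (hq : 3 * R ≤ ‖q‖) {y : E (k + 1)} (hy : y ∈ ball (0 : E (k + 1)) R) :
    htEps κ q y ≤ 2 * (κ * ‖q‖) := by
  rw [mem_ball_zero_iff] at hy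
  unfold htEps
  have h1 : ‖y - q‖ ≤ ‖y‖ + ‖q‖ := norm_sub_le _ _
  have h2 : ‖y - q‖ ≤ 2 * ‖q‖ := by linarith
  calc κ * ‖y - q‖ ≤ κ * (2 * ‖q‖) := by gcongr
    _ = 2 * (κ * ‖q‖) := by ring

/-- (`κ = κ‖q‖/‖q‖ ≤ (1/8)/126`) -/
theorem htfi_kap (hκ : 0 < κ) (hR : 42 ≤ R) (hq : 3 * R ≤ ‖q‖) (hε : κ * ‖q‖ ≤ 1 / 8) : κ ≤ 1 / 2 := by
  have h1 : (1 : ℝ) ≤ ‖q‖ := by linarith
  have h2 : κ * 1 ≤ κ * ‖q‖ := by gcongr
  linarith

theorem htfi_smooth (h : HtAC (k + 1) κ q U) (hR : 0 < R) (hq : 3 * R ≤ ‖q‖) : ContDiffOn ℝ 1 U (ball 0 R) := by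
  exact (h.smooth.mono fun y hy => htfi_ne hR hq hy).of_le (by exact_mod_cast le_top)

/-! ### LEAF L-FL-I2 : measurability -/

/-- a function which is continuous off one point is measurable  (`g = {q}ᶜ.piecewise g (fun _ => g q)`; `Measurable.piecewise`/`measurable_of_restrict_of_restrict_compl`, `ContinuousOn.restrict`, `Continuous.measurable`; on `{q}` the restriction is a function on a subsingleton). -/
theorem htfi_meas {n : ℕ} {q : E n} {g : E n → ℝ} (hg : ContinuousOn g {q}ᶜ) : Measurable g := by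
  refine measurable_of_restrict_of_restrict_compl (s := ({q}ᶜ : Set (E n))) (measurableSet_singleton q).compl
    (continuousOn_iff_continuous_domRestrict.1 hg).measurable ?_
  have : Subsingleton ↥(({q}ᶜ : Set (E n))ᶜ) := by
    refine ⟨fun a b => Subtype.ext ?_⟩
    have ha := a.2
    have hb := b.2
    simp only [compl_compl, mem_singleton_iff] at ha hb
    rw [ha, hb]
  exact Subsingleton.measurable

theorem htfi_meas_U (h : HtAC (k + 1) κ q U) : Measurable U := htfi_meas h.smooth.continuousOn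

theorem htfi_meas_D (h : HtAC (k + 1) κ q U) : Measurable (htD (k + 1) κ q U) := htfi_meas (ht_D_continuousOn h)

/-- (`ht_M_continuousOn`, `ContinuousOn.clm_apply`, `ContinuousOn.inner`) -/
theorem htfi_meas_T (h : HtAC (k + 1) κ q U) : Measurable (htfTl (htM (k + 1) κ q U)) := by
  refine htfi_meas (q := q) ?_
  unfold htfTl
  exact ((ht_M_continuousOn h).clm_apply continuousOn_const).inner continuousOn_const

/-! ### LEAF L-FL-I3 : pointwise inequalities -/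

/-- `acC d = e + ξ/(n-2) ≤ e + ξ = 2W/ε̂`  (`ht_acC_mul_D`, `ht_xi_nonneg`, `ht_n_sub_two`; unfold `htE`, `htXi`). -/
theorem htfi_rho_hi (hk : 2 ≤ k) (h : HtAC (k + 1) κ q U) (y : E (k + 1)) :
    acC * htD (k + 1) κ q U y ≤ 2 * acW (U y) / htEps κ q y := by
  have hn : 3 ≤ k + 1 := by omega
  rw [ht_acC_mul_D]
  have h1 := ht_xi_nonneg hn h y
  have h2 := ht_n_sub_two hn
  have h3 : htXi κ q U y / (((k + 1 : ℕ) : ℝ) - 2) ≤ htXi κ q U y := div_le_self h1 h2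
  have h4 : htE κ q U y + htXi κ q U y = 2 * acW (U y) / htEps κ q y := by
    unfold htE htXi
    ring
  linarith

/-- `N = ε̂²|D'U|² + ε̂ ξ ≤ acC ε̂ ⟪M e,e⟫`  (`ht_M_apply` with `v = gmtEn k`, `htf_norm_en`; `ε̂ ξ = W - ε̂²|DU|²/2` for `y ≠ q`; the last term of `ht_M_apply` is `≥ 0`). -/
theorem htfi_f_lo (hk : 2 ≤ k) (h : HtAC (k + 1) κ q U) {y : E (k + 1)} (hy : y ≠ q) :
    htfN (htEps κ q) U y ≤ acC * htEps κ q y * htfTl (htM (k + 1) κ q U) y := by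
  have hn : 3 ≤ k + 1 := by omega
  have hA := ht_acC_pos
  have he := ht_eps_pos h.pos hy
  have h1 := ht_xi_nonneg hn h y
  have h2 := ht_n_sub_two hn
  unfold htfTl
  rw [ht_M_apply κ q U y (gmtEn k) (htf_norm_en k)]
  have h3 : 0 ≤ htXi κ q U y / (((k + 1 : ℕ) : ℝ) - 2) * ⟪htDir q y, gmtEn k⟫ ^ 2 := by
    have : 0 ≤ htXi κ q U y / (((k + 1 : ℕ) : ℝ) - 2) := div_nonneg h1 (by linarith)
    positivity
  have h4 : htEps κ q y * htXi κ q U y = acW (U y) - htEps κ q y ^ 2 * ‖fderiv ℝ U y‖ ^ 2 / 2 := by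
    unfold htXi
    field_simp
  have e : acC * htEps κ q y * ((htEps κ q y * (‖fderiv ℝ U y‖ ^ 2 - fderiv ℝ U y (gmtEn k) ^ 2) + htXi κ q U y
      + htXi κ q U y / (((k + 1 : ℕ) : ℝ) - 2) * ⟪htDir q y, gmtEn k⟫ ^ 2) / acC)
      = htEps κ q y ^ 2 * (‖fderiv ℝ U y‖ ^ 2 - fderiv ℝ U y (gmtEn k) ^ 2) + htEps κ q y * htXi κ q U y
        + htEps κ q y * (htXi κ q U y / (((k + 1 : ℕ) : ℝ) - 2) * ⟪htDir q y, gmtEn k⟫ ^ 2) := by
    field_simp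
  rw [e, h4]
  unfold htfN htfH2 htfDt
  have h5 : 0 ≤ htEps κ q y * (htXi κ q U y / (((k + 1 : ℕ) : ℝ) - 2) * ⟪htDir q y, gmtEn k⟫ ^ 2) := mul_nonneg he.le h3
  linarith

/-! ### LEAF L-FL-I4 : the Lipschitz bound (helper101) -/

/-- `|W(s) - W(s')| ≤ |s - s'|` on `[-1,1]`. -/
theorem htfi_W_lip {s s' : ℝ} (hs : |s| ≤ 1) (hs' : |s'| ≤ 1) : |acW s - acW s'| ≤ |s - s'| := by
  have e : acW s - acW s' = (s - s') * (-(s + s') * (2 - s ^ 2 - s' ^ 2) / 4) := by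
    unfold acW
    ring
  rw [e, abs_mul]
  have h1 := abs_le.1 hs
  have h2 := abs_le.1 hs'
  have h3 : |-(s + s') * (2 - s ^ 2 - s' ^ 2) / 4| ≤ 1 := by
    have a1 : |s + s'| ≤ 2 := by rw [abs_le]; constructor <;> linarith [h1.1, h1.2, h2.1, h2.2]
    have a2 : |2 - s ^ 2 - s' ^ 2| ≤ 2 := by
      rw [abs_le]
      constructor <;> nlinarith [h1.1, h1.2, h2.1, h2.2, sq_nonneg s, sq_nonneg s']
    rw [abs_div, abs_mul, abs_neg]
    have : |s + s'| * |2 - s ^ 2 - s' ^ 2| ≤ 2 * 2 := mul_le_mul a1 a2 (abs_nonneg _) (by norm_num)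
    rw [abs_of_pos (by norm_num : (0 : ℝ) < 4)]
    linarith
  calc |s - s'| * |-(s + s') * (2 - s ^ 2 - s' ^ 2) / 4| ≤ |s - s'| * 1 := mul_le_mul_of_nonneg_left h3 (abs_nonneg _)
    _ = |s - s'| := mul_one _

/-- `N = ‖a‖²/2 - (a e)² + W(U)` with `a = ε̂ DU`. -/
theorem htfi_N_eq (hκ : 0 < κ) (q : E (k + 1)) (U : E (k + 1) → ℝ) (y : E (k + 1)) :
    htfN (htEps κ q) U y = ‖htEps κ q y • fderiv ℝ U y‖ ^ 2 / 2 - ((htEps κ q y • fderiv ℝ U y) (gmtEn k)) ^ 2 + acW (U y) := by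
  rw [norm_smul, Real.norm_eq_abs, abs_of_nonneg (ht_eps_nonneg hκ q y)]
  unfold htfN htfH2 htfDt
  simp only [smul_apply, smul_eq_mul]
  ring

/-- the quadratic part is Lipschitz on the unit ball of the dual. -/
theorem htfi_quad {a a' : E (k + 1) →L[ℝ] ℝ} (ha : ‖a‖ ≤ 1) (ha' : ‖a'‖ ≤ 1) :
    |(‖a‖ ^ 2 / 2 - (a (gmtEn k)) ^ 2) - (‖a'‖ ^ 2 / 2 - (a' (gmtEn k)) ^ 2)| ≤ 3 * ‖a - a'‖ := by
  have h1 : |‖a‖ - ‖a'‖| ≤ ‖a - a'‖ := abs_norm_sub_norm_le a a'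
  have h2 : |a (gmtEn k) - a' (gmtEn k)| ≤ ‖a - a'‖ := by
    have := (a - a').le_opNorm (gmtEn k)
    rwa [htf_norm_en, mul_one, Real.norm_eq_abs, sub_apply] at this
  have h3 : |a (gmtEn k)| ≤ 1 := by
    have := a.le_opNorm (gmtEn k)
    rw [htf_norm_en, mul_one, Real.norm_eq_abs] at this
    linarith
  have h4 : |a' (gmtEn k)| ≤ 1 := by
    have := a'.le_opNorm (gmtEn k)
    rw [htf_norm_en, mul_one, Real.norm_eq_abs] at this
    linarith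
  set p := ‖a‖
  set p' := ‖a'‖
  set t := a (gmtEn k)
  set t' := a' (gmtEn k)
  set D := ‖a - a'‖
  have hp : 0 ≤ p := norm_nonneg _
  have hp' : 0 ≤ p' := norm_nonneg _
  have e : (p ^ 2 / 2 - t ^ 2) - (p' ^ 2 / 2 - t' ^ 2) = (p - p') * ((p + p') / 2) - (t - t') * (t + t') := by ring
  rw [e]
  have b1 : |(p - p') * ((p + p') / 2)| ≤ D * 1 := by
    rw [abs_mul]
    refine mul_le_mul h1 ?_ (abs_nonneg _) ((abs_nonneg _).trans h1)
    rw [abs_of_nonneg (by positivity)]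
    linarith
  have b2 : |(t - t') * (t + t')| ≤ D * 2 := by
    rw [abs_mul]
    refine mul_le_mul h2 ?_ (abs_nonneg _) ((abs_nonneg _).trans h2)
    have := abs_add_le t t'
    linarith
  have := abs_sub ((p - p') * ((p + p') / 2)) ((t - t') * (t + t'))
  linarith

theorem htfi_eps_hasFDerivAt (κ : ℝ) (hκ : 0 < κ) (q : E (k + 1)) {y : E (k + 1)} (hy : y ≠ q) :
    HasFDerivAt (htEps κ q) (fderiv ℝ (htEps κ q) y) y ∧ ‖fderiv ℝ (htEps κ q) y‖ ≤ κ := by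
  have hd : DifferentiableAt ℝ (htEps κ q) y := by
    unfold htEps
    exact ((differentiableAt_id.sub_const q).norm ℝ (sub_ne_zero.2 hy)).const_mul κ
  refine ⟨hd.hasFDerivAt, ?_⟩
  have hl : LipschitzWith ⟨κ, hκ.le⟩ (htEps κ q) := by
    refine LipschitzWith.of_dist_le_mul fun x x' => ?_
    rw [Real.dist_eq, dist_eq_norm]
    unfold htEps
    rw [← mul_sub, abs_mul, abs_of_pos hκ]
    refine mul_le_mul_of_nonneg_left ?_ hκ.le
    have := abs_norm_sub_norm_le (x - q) (x' - q)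
    simpa using this
  exact norm_fderiv_le_of_lipschitz ℝ hl

/-- PLAN.  `a y = ε̂(y) • fderiv U y`, `‖a‖ ≤ 1` (`ht_grad`), `‖fderiv a‖ ≤ ε̂‖D²U‖ + κ‖DU‖ ≤ (C_H + 1)/ε̂ ≤ 2(C_H+1)/ε` (`ht_hess`; `ε̂` is `κ`-Lipschitz), mean value inequality on the convex ball;
`N = ‖a‖²/2 - (a e)² + W(U)`, `|‖a‖² - ‖a'‖²| ≤ 2‖a - a'‖`, `|(a e)² - (a' e)²| ≤ 2‖a - a'‖`, `|W(s) - W(s')| ≤ |s - s'|`, `|U y - U y'| ≤ (2/ε)‖y - y'‖`. -/
theorem htfi_lip (hk : 2 ≤ k) : ∃ C₁ : ℝ, 1 ≤ C₁ ∧ ∀ (κ R : ℝ) (q : E (k + 1)) (U : E (k + 1) → ℝ), HtAC (k + 1) κ q U → κ ≤ 1 / 2 →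
    0 < R → 3 * R ≤ ‖q‖ → ∀ y ∈ ball (0 : E (k + 1)) R, ∀ y' ∈ ball (0 : E (k + 1)) R,
      |htfN (htEps κ q) U y - htfN (htEps κ q) U y'| ≤ C₁ / (κ * ‖q‖) * ‖y - y'‖ := by
  have hn : 3 ≤ k + 1 := by omega
  obtain ⟨CH, hCH, hH⟩ := ht_hess hn
  refine ⟨6 * CH + 5, by linarith, fun κ R q U h hκ2 hR hq y hy y' hy' => ?_⟩
  have hκ := h.pos
  have hq0 : 0 < ‖q‖ := by linarith
  set ε : ℝ := κ * ‖q‖ with hε
  have hε0 : 0 < ε := mul_pos hκ hq0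
  set B : Set (E (k + 1)) := ball 0 R with hB
  have hconv : Convex ℝ B := convex_ball 0 R
  have hne : ∀ x ∈ B, x ≠ q := fun x hx => htfi_ne hR hq hx
  have hlo : ∀ x ∈ B, ε / 2 ≤ htEps κ q x := fun x hx => htfi_eh_lo hκ hR hq hx
  have hU1 : ∀ x ∈ B, DifferentiableAt ℝ U x := fun x hx =>
    (h.smooth.contDiffAt (isOpen_compl_singleton.mem_nhds (hne x hx))).differentiableAt (by simp)
  have hF1 : ∀ x ∈ B, DifferentiableAt ℝ (fderiv ℝ U) x := fun x hx => by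
    have h1 : ContDiffOn ℝ 1 (fderiv ℝ U) {q}ᶜ :=
      (h.smooth.of_le (m := 2) (by norm_cast)).fderiv_of_isOpen isOpen_compl_singleton (by norm_num)
    exact (h1.contDiffAt (isOpen_compl_singleton.mem_nhds (hne x hx))).differentiableAt one_ne_zero
  -- bound of `DU`
  have hDU : ∀ x ∈ B, ‖fderiv ℝ U x‖ ≤ 2 / ε := fun x hx => by
    have h1 := ht_grad hn h x
    have h2 := hlo x hx
    rw [le_div_iff₀ hε0]
    nlinarith [norm_nonneg (fderiv ℝ U x)]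
  -- `U` is Lipschitz
  have lU : |U y - U y'| ≤ 2 / ε * ‖y - y'‖ := by
    have := hconv.norm_image_sub_le_of_norm_fderiv_le (𝕜 := ℝ) (f := U) hU1 hDU hy' hy
    rwa [Real.norm_eq_abs] at this
  -- `a` is Lipschitz
  set a : E (k + 1) → (E (k + 1) →L[ℝ] ℝ) := fun x => htEps κ q x • fderiv ℝ U x with ha
  have hda : ∀ x ∈ B, HasFDerivWithinAt a (htEps κ q x • fderiv ℝ (fderiv ℝ U) x
      + (fderiv ℝ (htEps κ q) x).smulRight (fderiv ℝ U x)) B x := fun x hx =>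
    ((htfi_eps_hasFDerivAt κ hκ q (hne x hx)).1.smul (hF1 x hx).hasFDerivAt).hasFDerivWithinAt
  have hba : ∀ x ∈ B, ‖htEps κ q x • fderiv ℝ (fderiv ℝ U) x
      + (fderiv ℝ (htEps κ q) x).smulRight (fderiv ℝ U x)‖ ≤ (2 * CH + 1) / ε := fun x hx => by
    have h1 := hH κ q U h hκ2 x (hne x hx)
    have h2 := hlo x hx
    have h3 := (htfi_eps_hasFDerivAt κ hκ q (hne x hx)).2
    have h4 := hDU x hx
    have hc0 : 0 < htEps κ q x := by linarith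
    have b1 : ‖htEps κ q x • fderiv ℝ (fderiv ℝ U) x‖ ≤ 2 * CH / ε := by
      refine (ContinuousLinearMap.opNorm_smul_le _ _).trans ?_
      rw [Real.norm_eq_abs, abs_of_pos hc0, le_div_iff₀ hε0]
      have : htEps κ q x * ‖fderiv ℝ (fderiv ℝ U) x‖ * (ε / 2) ≤ htEps κ q x * ‖fderiv ℝ (fderiv ℝ U) x‖ * htEps κ q x :=
        mul_le_mul_of_nonneg_left h2 (by positivity)
      nlinarith
    have b2 : ‖(fderiv ℝ (htEps κ q) x).smulRight (fderiv ℝ U x)‖ ≤ 1 / ε := by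
      rw [ContinuousLinearMap.norm_smulRight_apply]
      calc ‖fderiv ℝ (htEps κ q) x‖ * ‖fderiv ℝ U x‖ ≤ (1 / 2) * (2 / ε) :=
            mul_le_mul (h3.trans hκ2) h4 (norm_nonneg _) (by norm_num)
        _ = 1 / ε := by ring
    calc _ ≤ ‖htEps κ q x • fderiv ℝ (fderiv ℝ U) x‖ + ‖(fderiv ℝ (htEps κ q) x).smulRight (fderiv ℝ U x)‖ :=
          ContinuousLinearMap.opNorm_add_le _ _
      _ ≤ 2 * CH / ε + 1 / ε := add_le_add b1 b2
      _ = (2 * CH + 1) / ε := by ring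
  have la : ‖a y - a y'‖ ≤ (2 * CH + 1) / ε * ‖y - y'‖ :=
    hconv.norm_image_sub_le_of_norm_hasFDerivWithin_le hda hba hy' hy
  have hn1 : ∀ x, ‖a x‖ ≤ 1 := fun x => by
    simp only [ha]
    rw [norm_smul, Real.norm_eq_abs, abs_of_nonneg (ht_eps_nonneg hκ q x)]
    exact ht_grad hn h x
  have hq3 := htfi_quad (hn1 y) (hn1 y')
  have hW := htfi_W_lip (h.bdd y) (h.bdd y')
  rw [htfi_N_eq hκ, htfi_N_eq hκ]
  have e : ‖htEps κ q y • fderiv ℝ U y‖ ^ 2 / 2 - ((htEps κ q y • fderiv ℝ U y) (gmtEn k)) ^ 2 + acW (U y)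
      - (‖htEps κ q y' • fderiv ℝ U y'‖ ^ 2 / 2 - ((htEps κ q y' • fderiv ℝ U y') (gmtEn k)) ^ 2 + acW (U y'))
      = ((‖a y‖ ^ 2 / 2 - (a y (gmtEn k)) ^ 2) - (‖a y'‖ ^ 2 / 2 - (a y' (gmtEn k)) ^ 2)) + (acW (U y) - acW (U y')) := by
    simp only [ha]
    ring
  rw [e]
  have e2 : (6 * CH + 5) / ε * ‖y - y'‖ = 3 * ((2 * CH + 1) / ε * ‖y - y'‖) + 2 / ε * ‖y - y'‖ := by ring
  rw [e2]
  calc _ ≤ |(‖a y‖ ^ 2 / 2 - (a y (gmtEn k)) ^ 2) - (‖a y'‖ ^ 2 / 2 - (a y' (gmtEn k)) ^ 2)| + |acW (U y) - acW (U y')| :=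
        abs_add_le _ _
    _ ≤ 3 * ‖a y - a y'‖ + |U y - U y'| := add_le_add hq3 hW
    _ ≤ _ := by linarith

/-! ### LEAF L-FL-I5 : the measure forms -/

/-- (`htf_ms_eq` with `ht_D_locallyIntegrable`, `ht_D_nonneg`, `Metric.isBounded_ball`) -/
theorem htfi_ms_D (hk : 2 ≤ k) (h : HtAC (k + 1) κ q U) {S : Set (E (k + 1))} (hS : MeasurableSet S) (hb : Bornology.IsBounded S) :
    htfMs (htD (k + 1) κ q U) S = ENNReal.ofReal (∫ y in S, htD (k + 1) κ q U y) := by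
  exact htf_ms_eq (ht_D_locallyIntegrable (by omega) h) (Eventually.of_forall fun y => ht_D_nonneg (by omega) h y) hS hb

/-- (`htf_ms_eq`, `htf_pair_dens (ht_pair ..)`) -/
theorem htfi_ms_T (hk : 2 ≤ k) (h : HtAC (k + 1) κ q U) {S : Set (E (k + 1))} (hS : MeasurableSet S) (hb : Bornology.IsBounded S) :
    htfMs (htfTl (htM (k + 1) κ q U)) S = ENNReal.ofReal (∫ y in S, htfTl (htM (k + 1) κ q U) y) := by
  obtain ⟨t0, -, -, tli⟩ := htf_pair_dens (ht_pair (by omega) h)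
  exact htf_ms_eq tli t0 hS hb

/-- aux (L-FL-I5): the ball bound with `Θ ω_k` -/
theorem htfi_ball_le (hk : 2 ≤ k) (h : HtAC (k + 1) κ q U) {Θ : ℝ} (hE : htEn (k + 1) κ q U ≤ Θ * ((k : ℝ) * gmtOm k)) (x : E (k + 1))
    {r : ℝ} (hr : 0 < r) : ∫ y in ball x r, htD (k + 1) κ q U y ≤ Θ * gmtOm k * r ^ k := by
  have h1 := ht_ball_le (by omega : 3 ≤ k + 1) h x hr
  have e1 : (((k + 1 : ℕ) : ℝ) - 1) = k := by
    push_cast
    ring
  rw [e1, Nat.add_sub_cancel] at h1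
  have hk0 : (0 : ℝ) < k := by
    have : (2 : ℝ) ≤ (k : ℝ) := by exact_mod_cast hk
    linarith
  refine h1.trans ?_
  have h2 : htEn (k + 1) κ q U / k ≤ Θ * gmtOm k := by
    rw [div_le_iff₀ hk0]
    linarith
  exact mul_le_mul_of_nonneg_right h2 (by positivity)

/-- (`htfi_ms_D`, `ht_ball_le`: `htEn/((k+1) - 1) ≤ Θ ω_k`; `Nat.cast_add_one`, `k + 1 - 1 = k`) -/
theorem htfi_upper (hk : 2 ≤ k) (h : HtAC (k + 1) κ q U) {Θ : ℝ} (hE : htEn (k + 1) κ q U ≤ Θ * ((k : ℝ) * gmtOm k)) (x : E (k + 1))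
    {r : ℝ} (hr : 0 < r) : htfMs (htD (k + 1) κ q U) (ball x r) ≤ ENNReal.ofReal (Θ * gmtOm k * r ^ k) := by
  rw [htfi_ms_D hk h measurableSet_ball isBounded_ball]
  exact ENNReal.ofReal_le_ofReal (htfi_ball_le hk h hE x hr)

/-- (`ht_lower` with `b = 1/2`; `htfi_ms_D`) -/
theorem htfi_half (hk : 2 ≤ k) : ∃ ch : ℝ, 0 < ch ∧ ∀ (κ : ℝ) (q : E (k + 1)) (U : E (k + 1) → ℝ), HtAC (k + 1) κ q U → κ ≤ 1 / 2 →
    ∀ y, y ≠ q → |U y| ≤ 1 / 2 → ∀ τ₀, htEps κ q y ≤ τ₀ →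
      ENNReal.ofReal (ch * τ₀ ^ k) ≤ htfMs (htD (k + 1) κ q U) (ball y τ₀) := by
  obtain ⟨c, hc, H⟩ := ht_lower (by omega : 3 ≤ k + 1) (b := 1 / 2) (by norm_num) (by norm_num)
  refine ⟨c, hc, fun κ q U h hκ y hy hU τ₀ hτ => ?_⟩
  rw [htfi_ms_D hk h measurableSet_ball isBounded_ball]
  have h1 := H κ q U h hκ y hy (by linarith) τ₀ hτ
  rw [Nat.add_sub_cancel] at h1
  exact ENNReal.ofReal_le_ofReal h1

/-- (`htfi_ms_T`) -/
theorem htfi_tilt (hk : 2 ≤ k) (h : HtAC (k + 1) κ q U) {δ : ℝ}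
    (hT : ∫ y in ball (0 : E (k + 1)) R, ⟪htM (k + 1) κ q U y (gmtEn k), gmtEn k⟫ ≤ δ) :
    htfMs (htfTl (htM (k + 1) κ q U)) (ball 0 R) ≤ ENNReal.ofReal δ := by
  rw [htfi_ms_T hk h measurableSet_ball isBounded_ball]
  exact ENNReal.ofReal_le_ofReal hT

/-- (`ht_wells` at `x = 0`, `r = 6` (`24 ≤ ‖q‖`), `ht_ball_le` at radius `12`, `htEps κ q 0 = κ‖q‖ ≤ 1`; `Cw = C (2 ω_k 12^k + 6^(k-1))`; `htfi_ms_D`, measurability of `{1 - b ≤ |U|}`: `ht_wells_measU`) -/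
theorem htfi_wells (hk : 2 ≤ k) : ∃ Cw : ℝ, 0 ≤ Cw ∧ ∀ (κ : ℝ) (q : E (k + 1)) (U : E (k + 1) → ℝ) (Θ b : ℝ), HtAC (k + 1) κ q U → 24 ≤ ‖q‖ →
    κ * ‖q‖ ≤ 1 → Θ ≤ 2 → htEn (k + 1) κ q U ≤ Θ * ((k : ℝ) * gmtOm k) → 0 < b → b ≤ 1 / 4 →
      htfMs (htD (k + 1) κ q U) (ball (0 : E (k + 1)) 6 ∩ {y | 1 - b ≤ |U y|}) ≤ ENNReal.ofReal (Cw * b) := by
  obtain ⟨C, hC, H⟩ := ht_wells (by omega : 3 ≤ k + 1)
  have hom := gmtOm_nonneg k
  refine ⟨C * (2 * gmtOm k * 12 ^ k + 6 ^ (k - 1)), by positivity, fun κ q U Θ b h hq hε hΘ hE hb hb4 => ?_⟩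
  rw [htfi_ms_D hk h (measurableSet_ball.inter (ht_wells_measU h (1 - b))) (isBounded_ball.subset inter_subset_left)]
  refine ENNReal.ofReal_le_ofReal ?_
  have h1 := H κ q U h 0 6 b (by norm_num) (by rw [zero_sub, norm_neg]; linarith) hb hb4
  have e1 : (2 : ℝ) * 6 = 12 := by norm_num
  have e2 : k + 1 - 2 = k - 1 := by omega
  have e3 : htEps κ q 0 = κ * ‖q‖ := by
    unfold htEps
    rw [zero_sub, norm_neg]
  rw [e1, e2, e3] at h1
  have h2 := htfi_ball_le hk h hE 0 (r := 12) (by norm_num)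
  have h3 : Θ * gmtOm k * 12 ^ k ≤ 2 * gmtOm k * 12 ^ k :=
    mul_le_mul_of_nonneg_right (mul_le_mul_of_nonneg_right hΘ hom) (by positivity)
  have h4 : κ * ‖q‖ * 6 ^ (k - 1) ≤ 6 ^ (k - 1) := by
    have : (0 : ℝ) ≤ 6 ^ (k - 1) := by positivity
    nlinarith
  refine h1.trans ?_
  have h5 : (∫ y in ball (0 : E (k + 1)) 12, htD (k + 1) κ q U y) + κ * ‖q‖ * 6 ^ (k - 1) ≤ 2 * gmtOm k * 12 ^ k + 6 ^ (k - 1) := by
    linarith
  calc C * b * ((∫ y in ball (0 : E (k + 1)) 12, htD (k + 1) κ q U y) + κ * ‖q‖ * 6 ^ (k - 1))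
      ≤ C * b * (2 * gmtOm k * 12 ^ k + 6 ^ (k - 1)) := mul_le_mul_of_nonneg_left h5 (by positivity)
    _ = C * (2 * gmtOm k * 12 ^ k + 6 ^ (k - 1)) * b := by ring

/-! ### LEAF L-FL-I6 : the conclusion in Bochner form -/

/-- (`qfa_pr_en`, `fl_ver_eq_inner`, `sub_zero`) -/
theorem htfi_cyl (k : ℕ) : gmtCyl (0 : E (k + 1)) 2 (gmtEn k) = htfC k := by
  ext y
  simp only [gmtCyl, htfC, mem_setOf_eq, sub_zero, qfa_pr_en, fl_ver_eq_inner]

/-- PLAN.  `htfC k ⊆ ball 0 3 ⊆ ball 0 R`; on it `fderiv (Φ∘U) y e = htfDPhi U y` (`htf_dphi_eq`, `U` differentiable at `y ≠ q`): `setIntegral_congr_fun`.   The integrand `g = d - σ V/acC` is `≥ 0` (`ht_dPhi_le` with `‖e‖ = 1`, `σ = ±1`).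
`∫ g = (∫⁻ ofReal g).toReal` (`integral_eq_lintegral_of_nonneg_ae`; a.e. strong measurability from continuity on the open set `htfC k ⊆ {q}ᶜ`, or from `htfi_meas_*`); `ENNReal.toReal_le_of_le_ofReal`. -/
theorem htfi_concl (hk : 2 ≤ k) (h : HtAC (k + 1) κ q U) (hR : 3 ≤ R) (hq : 3 * R ≤ ‖q‖) {σ s : ℝ} (hσ : σ = 1 ∨ σ = -1) (hs : 0 ≤ s)
    (hI : ∫⁻ y in htfC k, ENNReal.ofReal (htD (k + 1) κ q U y - σ * htfDPhi U y / acC) ≤ ENNReal.ofReal s) :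
    ∫ y in gmtCyl (0 : E (k + 1)) 2 (gmtEn k),
      (htD (k + 1) κ q U y - σ * fderiv ℝ (fun z => htPhi (U z)) y (gmtEn k) / acC) ≤ s := by
  have hn : 3 ≤ k + 1 := by omega
  rw [htfi_cyl]
  have hne : ∀ y ∈ htfC k, y ≠ q := by
    intro y hy
    have h1 := fl_norm_sq y
    have h2 : ‖gmtHor y‖ ^ 2 < 4 := by
      have := hy.1
      nlinarith [norm_nonneg (gmtHor y)]
    have h3 : gmtVer y ^ 2 < 4 := by
      have := abs_lt.1 hy.2
      nlinarith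
    have h4 : ‖y‖ < 3 := by
      by_contra hcon
      push Not at hcon
      nlinarith
    rintro rfl
    linarith
  have e1 : ∫ y in htfC k, (htD (k + 1) κ q U y - σ * fderiv ℝ (fun z => htPhi (U z)) y (gmtEn k) / acC)
      = ∫ y in htfC k, (htD (k + 1) κ q U y - σ * htfDPhi U y / acC) := by
    refine setIntegral_congr_fun (htf_measurableSet_C k) fun y hy => ?_
    have hd : DifferentiableAt ℝ U y := ht_diffAt isOpen_compl_singleton h.smooth (hne y hy)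
    simp only [htf_dphi_eq hd]
  rw [e1]
  have hC : 0 < acC := by
    unfold acC
    positivity
  have hnn : ∀ y ∈ htfC k, 0 ≤ htD (k + 1) κ q U y - σ * htfDPhi U y / acC := by
    intro y hy
    have hd : DifferentiableAt ℝ U y := ht_diffAt isOpen_compl_singleton h.smooth (hne y hy)
    have h1 := ht_dPhi_le hn h y (gmtEn k) (hne y hy)
    rw [htf_dphi_eq hd] at h1
    have h2 : ‖gmtEn k‖ = 1 := by simp
    rw [h2, mul_one] at h1
    have h3 := abs_le.1 h1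
    have h4 : σ * htfDPhi U y ≤ acC * htD (k + 1) κ q U y := by
      rcases hσ with rfl | rfl
      · linarith [h3.2]
      · linarith [h3.1]
    have h5 : σ * htfDPhi U y / acC ≤ htD (k + 1) κ q U y := by
      rw [div_le_iff₀ hC]
      linarith
    linarith
  have hm : Measurable fun y => htD (k + 1) κ q U y - σ * htfDPhi U y / acC := by
    refine (htfi_meas_D h).sub (Measurable.div_const (Measurable.const_mul ?_ σ) acC)
    unfold htfDPhi htfDt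
    exact (((measurable_const.sub ((htfi_meas_U h).pow_const 2)).div_const _)).mul (measurable_fderiv_apply_const ℝ U (gmtEn k))
  rw [integral_eq_lintegral_of_nonneg_ae ((ae_restrict_iff' (htf_measurableSet_C k)).2 (Eventually.of_forall hnn))
    hm.aestronglyMeasurable]
  exact ENNReal.toReal_le_of_le_ofReal hs hI

/-! ### assembly -/

/-- **the flat lemma**, vertical direction, unit scale (statement of `ht_flat`). -/
theorem htfi_flat (k : ℕ) (hk : 2 ≤ k) (Θ s : ℝ) (hΘ : Θ < 2) (hs : 0 < s) :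
    ∃ δ > 0, ∃ R > 0, ∀ (κ : ℝ) (q : E (k + 1)) (U : E (k + 1) → ℝ), HtAC (k + 1) κ q U →
      3 * R ≤ ‖q‖ → κ * ‖q‖ ≤ δ → htEn (k + 1) κ q U ≤ Θ * ((k : ℝ) * gmtOm k) →
      ∫ y in ball (0 : E (k + 1)) R, ⟪htM (k + 1) κ q U y (gmtEn k), gmtEn k⟫ ≤ δ →
      ∃ σ : ℝ, (σ = 1 ∨ σ = -1) ∧
        ∫ y in gmtCyl (0 : E (k + 1)) 2 (gmtEn k),
          (htD (k + 1) κ q U y - σ * fderiv ℝ (fun z => htPhi (U z)) y (gmtEn k) / acC) ≤ s := by
  have hn : 3 ≤ k + 1 := by omega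
  obtain ⟨C₁, hC₁, hlip⟩ := htfi_lip hk
  obtain ⟨C₂, hC₂, htwo⟩ := htf_two k
  obtain ⟨ch, hch, hhalf⟩ := htfi_half hk
  obtain ⟨Cw, hCw, hwells⟩ := htfi_wells hk
  set Θ' : ℝ := max Θ 1 with hΘ'
  have hΘ'0 : 0 < Θ' := lt_of_lt_of_le one_pos (le_max_right _ _)
  have hΘ'2 : Θ' < 2 := max_lt hΘ (by norm_num)
  obtain ⟨δ, R, b, hδ0, hδ8, hR42, hb0, hb4, hnum⟩ := htf_num k (by omega) (C₁ := C₁) (C₂ := C₂) (ch := ch) (Cw := Cw) hΘ'0 hΘ'2 hs hC₁ hch hCw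
  have hR0 : 0 < R := by linarith
  refine ⟨δ, hδ0, R, hR0, fun κ q U h hq hε hE hT => ?_⟩
  have hq0 : 0 < ‖q‖ := by linarith
  have hε0 : 0 < κ * ‖q‖ := mul_pos h.pos hq0
  obtain ⟨𝔭, hN, eR, eε, eC₁, eb, eC₂, eC₀, eτ, ech, eδ, eβ, es⟩ := hnum (κ * ‖q‖) hε0 hε
  have hκ2 : κ ≤ 1 / 2 := htfi_kap h.pos hR42 hq (hε.trans hδ8)
  have hom : 0 ≤ (k : ℝ) * gmtOm k := mul_nonneg (Nat.cast_nonneg _) (gmtOm_nonneg k)
  have hE' : htEn (k + 1) κ q U ≤ Θ' * ((k : ℝ) * gmtOm k) := hE.trans (mul_le_mul_of_nonneg_right (le_max_left _ _) hom)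
  have hsit : HtfSit k 𝔭 U (htEps κ q) (htD (k + 1) κ q U) (htfTl (htM (k + 1) κ q U)) :=
    { num := hN
      smooth := by rw [eR]; exact htfi_smooth h hR0 hq
      mu := htfi_meas_U h
      mρ := htfi_meas_D h
      mf := htfi_meas_T h
      bdd := fun y _ => h.bdd y
      eh_lo := fun y hy => by rw [eε]; rw [eR] at hy; exact htfi_eh_lo h.pos hR0 hq hy
      eh_hi := fun y hy => by rw [eε]; rw [eR] at hy; exact htfi_eh_hi h.pos hR0 hq hy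
      mod := fun y _ => ht_modica_q hn h y
      lip := fun y hy y' hy' => by
        rw [eC₁, eε]
        rw [eR] at hy hy'
        exact hlip κ R q U h hκ2 hR0 hq y hy y' hy'
      ρ_lo := fun y _ => ht_E_le_D hn h y
      ρ_hi := fun y _ => htfi_rho_hi hk h y
      f_lo := fun y hy => by rw [eR] at hy; exact htfi_f_lo hk h (htfi_ne hR0 hq hy)
      mono := htf_mono_of_pair (ht_pair hn h)
      two := by rw [eC₂]; exact htwo _ _ (ht_pair hn h)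
      upper := fun x r hr => by rw [eC₀]; exact htfi_upper hk h hE' x hr
      half := fun y hy hu => by
        rw [ech, eτ]
        have hyR : y ∈ ball (0 : E (k + 1)) R := ball_subset_ball (by linarith) hy
        refine hhalf κ q U h hκ2 y (htfi_ne hR0 hq hyR) hu _ ?_
        have := htfi_eh_hi h.pos hR0 hq hyR
        linarith
      tilt := by rw [eR, eδ]; exact htfi_tilt hk h hT
      wells := by
        rw [eb, eβ]
        exact hwells κ q U Θ' b h (by linarith) (by linarith) hΘ'2.le hE' hb0 hb4 }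
  obtain ⟨σ, hσ, hI⟩ := htf_main hsit
  rw [es] at hI
  exact ⟨σ, hσ, htfi_concl hk h (by linarith) hq hσ hs.le hI⟩

end Claimed.Agent.R323
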