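import Claimed.Agent.R323.Ht.Ac
import Claimed.Agent.R323.Ht.FlatInst
import Claimed.Agent.Lib.Gmt.RbHalfA

/-!
# Row 323, block C, sub-block FL: THE QUANTITATIVE FLAT LEMMA.  CONTRACT.   (sub-architect: helper115; contract: helper39)
Plan: `origin/helper39:notes/r323/C39.md` section 3 (CORRECTED HERE: the bad set is a set of POINTS, defined with BALLS).

`ht_flat`: small tilt on `B_R` + link mass ratio `≤ Θ < 2` + `ε̂` small  ⟹  small ORIENTED excess on the cylinder `{|z|<2, |t|<2}`.    The integrand `d - σ ∂_tΦ(U)/acC` is `≥ 0` (`ht_dPhi_le`).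
`k = n - 1`; `y = (z,t)`; `e = gmtEn k`; `ε = ε̂(0) = κ|q|`, `2ε/3 ≤ ε̂ ≤ 4ε/3` on `B_R`; `τ = ⟪M e,e⟫ = (ε̂|D'U|² + ξ + ..)/acC` tilt density (`ht_M_apply`).   Parameters in the order `b, L₀, L, K, γ, R, δ`.
 FL1 `d - |∂_tΦ(U)|/acC ≤ C(ξ + √(2W)|D'U|)/acC`  [`e - √(2W)|DU| = (√(ε̂/2)|DU| - √(W/ε̂))² ≤ ξ`; `|DU| - |∂_tU| ≤ |D'U|`]; Cauchy-Schwarz: integral over `B_4` `≤ C(δ + √δ)`.   It remains to bound the wrong-sign variation `∫_C (σ ∂_tΦ(U))₋`.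
 FL2 `∫_{C ∩ {|U| ≥ 1-b}} d ≤ C b` (`ht_wells`, `ht_ball_le`).
 FL3 `Bad = {y ∈ B_5 : ∃ ρ ∈ (0,R'], ∫_{B_ρ(y)} τ > γ ρ^k}` (open).  Vitali (`Vitali.exists_disjoint_subfamily_covering_enlargement`), `ht_ball_le`:  `∫_Bad d ≤ C δ/γ`  AND  `|proj Bad| ≤ C δ/γ` (projection to `E k`).
 FL4 `y` good: `g = ε̂ acC τ` is `C/ε`-Lipschitz on `B_{(L+1)ε}(y)` (`ht_grad`, `ht_hess`), `∫ g ≤ C γ (L+1)^k ε^n` ⟹ `g ≤ c'(γ,L)` on `B_{Lε}(y)`, `c' → 0` as `γ → 0`.   So `ε̂|D'U| ≤ √c'`, `|ε̂²(∂_tU)²/2 - W(U)| ≤ c'` there.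
 FL5 WINDOW (1D): `f = U(z,·)`, `y = (z,t₁)` good, `|f(t₁)| < 1-b` ⟹ `f' ≠ 0` on `(t₁-Lε, t₁+Lε)`: if `f'(T) = 0` then `W(f(T)) ≤ c'`, but `v = 1∓f` has `|ε̂ v'| ≤ √2 v + √(2c')`, Gronwall: `v(T) + √c' ≥ b e^{-CL}`.   `|f'| ≥ c_b/ε` while `|f| < 1-b`: `f` reaches `±(1-b)` within `L₀ε`.
 FL6 MASS AT SCALE `ε`: `∫_{B'_{ρ₀}(z) × [t₁-L₀ε, t₁+L₀ε]} d ≥ (1-s') ω_k ρ₀^k`, `ρ₀ = Lε/8`  (`|U(z',t) - U(z,t)| ≤ b` by FL4; each line carries `Φ(1-2b) - Φ(-1+2b)`).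
 FL7 TWO POINTS: `y₁,y₂` good on one vertical line, `|U(y_j)| < 1-b`, `Δ = |t₁-t₂| ≥ Lε`: IMPOSSIBLE.   `ht_sp_mono` from `ρ₀√(1+..)` to `Δ/4`; `ht_sp_slab` from `Δ/4` to `KΔ` with `ζ_j = 1` on `|t-t_j| ≤ Δ/4`, `0` off `|t-t_j| < Δ/2`, `Z = 8/Δ`
     (slab-cylinder of radius `ρ ≥ Δ/4` inside `B_{5ρ}(y_j)`: tilt `≤ γ(5ρ)^k`, mass `≤ C(5ρ)^k`): error `C γ log(4K) + C √γ K`; both slabs inside `B(y₁, KΔ√(1+4/K²))`; `ht_ball_le`: `2(1-2s') ≤ Θ (1+4/K²)^{k/2}/a^k`.   Contradiction.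
     ⟹ for EVERY `z`: `G_z = {t ∈ (-3,3) : (z,t) good, |U| < 1-b}` lies in one window on which `U(z,·)` is strictly monotone; `∫_{G_z} |∂_tΦ(U)| ≤ acC`; sign `σ(z)`.
 FL8 CONSISTENCY: `Z± = {z ∈ B'_2 ∖ proj Bad : G_z ∩ (-2,2) ≠ ∅, sign ±}`.  For `h ∈ (2.1,2.9)`: `U(z,h) ≥ 1-b` on `Z₊`, `≤ -1+b` on `Z₋` (IVT: no other transition on the line).   `L¹` Poincaré on `B'_2` (`Lib/Gmt/BvPoinc`), `∫|D'Φ(U)| ≤ √(energy · tilt)`: `min(|Z₊|,|Z₋|) ≤ C√δ`.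
 FL9 TONELLI: `σ` = majority sign:  `∫_C (σ∂_tΦ(U))₋ ≤ acC(∫_Bad d + ∫_{|U|≥1-b} d) + acC(|Z_minority| + |proj Bad|)`.
`ht_flat_dir` = `ht_flat` + covariance (`ht_tr_*`, `O e_n = e`).
-/

set_option autoImplicit false
open scoped ContDiff ENNReal NNReal RealInnerProductSpace Topology
open MeasureTheory Metric Set Filter

namespace Claimed.Agent.R323

open Claimed.Agent.Gmt

/-- **the flat lemma**, vertical direction, unit scale. -/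
theorem ht_flat (k : ℕ) (hk : 2 ≤ k) (Θ s : ℝ) (hΘ : Θ < 2) (hs : 0 < s) :
    ∃ δ > 0, ∃ R > 0, ∀ (κ : ℝ) (q : E (k + 1)) (U : E (k + 1) → ℝ), HtAC (k + 1) κ q U →
      3 * R ≤ ‖q‖ → κ * ‖q‖ ≤ δ → htEn (k + 1) κ q U ≤ Θ * ((k : ℝ) * gmtOm k) →
      ∫ y in ball (0 : E (k + 1)) R, ⟪htM (k + 1) κ q U y (gmtEn k), gmtEn k⟫ ≤ δ →
      ∃ σ : ℝ, (σ = 1 ∨ σ = -1) ∧
        ∫ y in gmtCyl (0 : E (k + 1)) 2 (gmtEn k),
          (htD (k + 1) κ q U y - σ * fderiv ℝ (fun z => htPhi (U z)) y (gmtEn k) / acC) ≤ s :=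
  htfi_flat k hk Θ s hΘ hs

variable {n : ℕ}

/-- change of variables `x = x₀ + r O y`. -/
theorem htd_cv (O : E n ≃ₗᵢ[ℝ] E n) (x₀ : E n) {r : ℝ} (hr : 0 < r) (F : E n → ℝ) :
    ∫ y, F (x₀ + r • O y) = (r ^ n)⁻¹ * ∫ x, F x := by
  have h1 : ∫ y, F (x₀ + r • O y) = ∫ y, F (x₀ + r • y) :=
    O.measurePreserving.integral_comp O.toHomeomorph.measurableEmbedding (fun y => F (x₀ + r • y))
  have h2 : ∫ y, F (x₀ + r • y) = |(r ^ Module.finrank ℝ (E n))⁻¹| • ∫ y, F (x₀ + y) :=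
    Measure.integral_comp_smul volume (fun y => F (x₀ + y)) r
  rw [h1, h2, integral_add_left_eq_self F x₀, finrank_euclideanSpace_fin, abs_of_pos (by positivity), smul_eq_mul]

/-- derivative of `P ∘ T`. -/
theorem htd_fderiv (O : E n ≃ₗᵢ[ℝ] E n) (x₀ : E n) {r : ℝ} (hr : 0 < r) (P : E n → ℝ) (y v : E n) :
    fderiv ℝ (fun z => P (x₀ + r • O z)) y v = r * fderiv ℝ P (x₀ + r • O y) (O v) := by
  set iso : E n ≃L[ℝ] E n := O.toContinuousLinearEquiv.trans (ContinuousLinearEquiv.smulLeft (Units.mk0 r hr.ne')) with hiso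
  have hiso' : ∀ z, iso z = r • O z := fun z => rfl
  have e1 : (fun z => P (x₀ + r • O z)) = (fun z => P (x₀ + z)) ∘ iso := by
    funext z
    simp only [Function.comp, hiso']
  rw [e1, iso.comp_right_fderiv, fderiv_comp_add_left]
  simp only [ContinuousLinearMap.comp_apply, ContinuousLinearEquiv.coe_coe, hiso', map_smul, smul_eq_mul]

/-- set version of the change of variables. -/
theorem htd_cv_set (O : E n ≃ₗᵢ[ℝ] E n) (x₀ : E n) {r : ℝ} (hr : 0 < r) (F : E n → ℝ) {B B' : Set (E n)}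
    (hB : MeasurableSet B) (hB' : MeasurableSet B') (hBB : ∀ y, y ∈ B' ↔ x₀ + r • O y ∈ B) :
    ∫ y in B', F (x₀ + r • O y) = (r ^ n)⁻¹ * ∫ x in B, F x := by
  rw [← integral_indicator hB', ← integral_indicator hB, ← htd_cv O x₀ hr]
  refine integral_congr_ae (Eventually.of_forall fun y => ?_)
  by_cases hy : y ∈ B'
  · simp only [indicator_of_mem hy, indicator_of_mem ((hBB y).1 hy)]
  · simp only [indicator_of_notMem hy, indicator_of_notMem (fun h => hy ((hBB y).2 h))]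

/-- the flat lemma, any centre, scale and direction. -/
theorem ht_flat_dir (n : ℕ) (hn : 3 ≤ n) (Θ s : ℝ) (hΘ : Θ < 2) (hs : 0 < s) :
    ∃ δ > 0, ∃ R > 0, ∀ (κ : ℝ) (q : E n) (U : E n → ℝ) (x₀ e : E n) (r : ℝ), HtAC n κ q U → ‖e‖ = 1 → 0 < r →
      3 * R * r ≤ ‖q - x₀‖ → κ * ‖q - x₀‖ ≤ δ * r → htEn n κ q U ≤ Θ * (((n : ℝ) - 1) * gmtOm (n - 1)) →
      ∫ y in ball x₀ (R * r), ⟪htM n κ q U y e, e⟫ ≤ δ * r ^ (n - 1) →
      ∃ σ : ℝ, (σ = 1 ∨ σ = -1) ∧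
        ∫ y in gmtCyl x₀ (2 * r) e, (htD n κ q U y - σ * fderiv ℝ (fun z => htPhi (U z)) y e / acC) ≤ s * r ^ (n - 1) := by
  obtain ⟨k, rfl⟩ : ∃ k, n = k + 1 := ⟨n - 1, by omega⟩
  have hk : 2 ≤ k := by omega
  obtain ⟨δ, hδ, R, hR, H⟩ := ht_flat k hk Θ s hΘ hs
  refine ⟨δ, hδ, R, hR, ?_⟩
  intro κ q U x₀ e r hac he hr h1 h2 h3 h4
  obtain ⟨O, hO⟩ := rb_exists_frame he
  have ek : k + 1 - 1 = k := rfl
  rw [ek] at h3 h4 ⊢
  have hrk : (0 : ℝ) < r ^ k := by positivity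
  have hq' : ‖htTrq O x₀ r q‖ = ‖q - x₀‖ / r := by
    unfold htTrq
    rw [LinearIsometryEquiv.norm_map, norm_smul, norm_inv, Real.norm_eq_abs, abs_of_pos hr]
    field_simp
  have g1 : 3 * R ≤ ‖htTrq O x₀ r q‖ := by rw [hq', le_div_iff₀ hr]; exact h1
  have g2 : κ * ‖htTrq O x₀ r q‖ ≤ δ := by
    rw [hq', ← mul_div_assoc, div_le_iff₀ hr]; exact h2
  have g3 : htEn (k + 1) κ (htTrq O x₀ r q) (htTr O x₀ r U) ≤ Θ * ((k : ℝ) * gmtOm k) := by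
    rw [ht_tr_En hn hac O x₀ hr]
    have : (((k + 1 : ℕ) : ℝ) - 1) = (k : ℝ) := by push_cast; ring
    rwa [this] at h3
  have hpow : r * (r ^ (k + 1))⁻¹ = (r ^ k)⁻¹ := by
    rw [pow_succ]
    field_simp
  have g4 : ∫ y in ball (0 : E (k + 1)) R,
      ⟪htM (k + 1) κ (htTrq O x₀ r q) (htTr O x₀ r U) y (gmtEn k), gmtEn k⟫ ≤ δ := by
    have e1 : ∀ y, ⟪htM (k + 1) κ (htTrq O x₀ r q) (htTr O x₀ r U) y (gmtEn k), gmtEn k⟫ =
        r * ⟪htM (k + 1) κ q U (x₀ + r • O y) e, e⟫ := fun y => by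
      rw [ht_tr_M hac O x₀ hr, hO]
    have cv := htd_cv_set O x₀ hr (fun x => ⟪htM (k + 1) κ q U x e, e⟫) (B := ball x₀ (R * r)) (B' := ball 0 R)
      measurableSet_ball measurableSet_ball (by
        intro y
        simp only [mem_ball, dist_eq_norm, sub_zero, add_sub_cancel_left, norm_smul, Real.norm_eq_abs, abs_of_pos hr,
          LinearIsometryEquiv.norm_map]
        rw [mul_comm R r]
        exact (mul_lt_mul_iff_right₀ hr).symm)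
    simp_rw [e1]
    rw [integral_const_mul, cv, ← mul_assoc, hpow, inv_mul_le_iff₀ hrk]
    linarith [h4]
  obtain ⟨σ, hσ, hσ2⟩ := H κ _ _ (ht_tr_ac hac O x₀ hr) g1 g2 g3 g4
  refine ⟨σ, hσ, ?_⟩
  set G : E (k + 1) → ℝ := fun x => htD (k + 1) κ q U x - σ * fderiv ℝ (fun z => htPhi (U z)) x e / acC with hG
  have e2 : ∀ y, htD (k + 1) κ (htTrq O x₀ r q) (htTr O x₀ r U) y -
      σ * fderiv ℝ (fun z => htPhi (htTr O x₀ r U z)) y (gmtEn k) / acC = r * G (x₀ + r • O y) := fun y => by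
    have hfun : (fun z => htPhi (htTr O x₀ r U z)) = fun z => (fun z => htPhi (U z)) (x₀ + r • O z) := rfl
    rw [hfun, htd_fderiv O x₀ hr (fun z => htPhi (U z)) y (gmtEn k), hO, ht_tr_D hac O x₀ hr y, hG]
    ring
  have cv2 := htd_cv_set O x₀ hr G (B := gmtCyl x₀ (2 * r) e) (B' := gmtCyl 0 2 (gmtEn k))
      (isOpen_gmtCylH x₀ _ _ e).measurableSet (isOpen_gmtCylH 0 _ _ _).measurableSet ?_
  · simp_rw [e2] at hσ2
    rw [integral_const_mul, cv2, ← mul_assoc, hpow, inv_mul_le_iff₀ hrk] at hσ2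
    linarith [hσ2]
  · intro y
    have p1 : gmtPr e (x₀ + r • O y - x₀) = r • O (gmtPr (gmtEn k) (y - 0)) := by
      unfold gmtPr
      rw [add_sub_cancel_left, sub_zero, map_sub, map_smul, hO, smul_sub, inner_smul_left, ← hO,
        LinearIsometryEquiv.inner_map_map, smul_smul]
      simp
    have p2 : ⟪x₀ + r • O y - x₀, e⟫ = r * ⟪y - 0, gmtEn k⟫ := by
      rw [add_sub_cancel_left, sub_zero, inner_smul_left, ← hO, LinearIsometryEquiv.inner_map_map]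
      simp
    simp only [gmtCyl, mem_ofPred_eq]
    rw [p1, p2, norm_smul, Real.norm_eq_abs, abs_of_pos hr, LinearIsometryEquiv.norm_map, abs_mul, abs_of_pos hr,
      mul_comm 2 r, mul_lt_mul_iff_right₀ hr, mul_lt_mul_iff_right₀ hr]

end Claimed.Agent.R323
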