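import Claimed.Agent.R323.Ht.FlatDefs

/-!
# Row 323, block C, unit FL: TOOLS (Mathlib + coordinates of `Lib/Gmt/FlCoord*` only; no situation).   Cutter: helper105.   Prefix `htf_`.
LEAVES  L-FL-A1 … L-FL-A7, one section each.   Replace `sorry` IN PLACE, statements verbatim, private helpers above the theorem (prefix `htf_`).
-/

set_option autoImplicit false
open scoped ContDiff ENNReal NNReal RealInnerProductSpace Topology
open MeasureTheory Metric Set Filter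

namespace Claimed.Agent.R323

open Claimed.Agent.Gmt

variable {d : ℕ}

/-! ### LEAF L-FL-A1 : Vitali -/

/-- **the bad set has small mass.**  `μ`, `τ` ANY two measures on `E n`.
PLAN.  `B = {x ∈ S | ∃ r ∈ (0,R₁], γ r^k < τ(ball x r)}`; choose `r x` for `x ∈ B`.  `Vitali.exists_disjoint_subfamily_covering_enlargement_closedBall` (index set `B`, radii `r x ≤ R₁`, factor `τ = 5 > 3`): `v ⊆ B`, the closed balls
`closedBall x (r x)`, `x ∈ v`, pairwise disjoint, every `closedBall a (r a)` inside some `closedBall x (5 r x)`.   `v` is countable (`Set.PairwiseDisjoint.countable_of_nonempty_interior`, or `countable_of_isOpen` for the open balls).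
`μ B ≤ ∑_{x ∈ v} μ (closedBall x (5 r x)) ≤ ∑ μ (ball x (6 r x)) ≤ ∑ C₀ 6^k (r x)^k ≤ (6^k C₀/γ) ∑ τ (ball x (r x)) = (6^k C₀/γ) τ (⋃ ball x (r x)) ≤ (6^k C₀/γ) τ T`
(`measure_biUnion_le`, `measure_biUnion` for the disjoint measurable open balls, `ENNReal.tsum_mul_left`). -/
theorem htf_vitali {n : ℕ} (μ τ : Measure (E n)) (S T : Set (E n)) (k : ℕ) {R₁ γ C₀ : ℝ} (hγ : 0 < γ) (hC₀ : 0 ≤ C₀)
    (hμ : ∀ x ∈ S, ∀ r, 0 < r → r ≤ R₁ → μ (ball x (6 * r)) ≤ ENNReal.ofReal (C₀ * (6 * r) ^ k))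
    (hT : ∀ x ∈ S, ball x R₁ ⊆ T) :
    μ {x | x ∈ S ∧ ∃ r, 0 < r ∧ r ≤ R₁ ∧ ENNReal.ofReal (γ * r ^ k) < τ (ball x r)} ≤ ENNReal.ofReal (6 ^ k * C₀ / γ) * τ T := by
  classical
  set B : Set (E n) := {x | x ∈ S ∧ ∃ r, 0 < r ∧ r ≤ R₁ ∧ ENNReal.ofReal (γ * r ^ k) < τ (ball x r)} with hB
  have hch : ∀ x ∈ B, ∃ r, 0 < r ∧ r ≤ R₁ ∧ ENNReal.ofReal (γ * r ^ k) < τ (ball x r) := fun x hx => hx.2
  choose! r hr0 hr1 hr2 using hch
  obtain ⟨v, hvB, hdisj, hcov⟩ := Vitali.exists_disjoint_subfamily_covering_enlargement_closedBall B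
    (fun x => x) r R₁ hr1 5 (by norm_num)
  have hdisj' : v.PairwiseDisjoint fun x => ball x (r x) :=
    hdisj.mono fun x => ball_subset_closedBall
  have hcount : v.Countable := hdisj'.countable_of_isOpen (fun x _ => isOpen_ball)
    (fun x hx => ⟨x, mem_ball_self (hr0 x (hvB hx))⟩)
  have hsub : B ⊆ ⋃ x ∈ v, ball x (6 * r x) := by
    intro a ha
    obtain ⟨b, hb, hab⟩ := hcov a ha
    refine mem_iUnion₂.2 ⟨b, hb, ?_⟩
    have h1 : a ∈ closedBall b (5 * r b) := hab (mem_closedBall_self (hr0 a ha).le)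
    exact closedBall_subset_ball (by linarith [hr0 b (hvB hb)]) h1
  have hterm : ∀ x : v, μ (ball (x : E n) (6 * r x)) ≤
      ENNReal.ofReal (6 ^ k * C₀ / γ) * τ (ball (x : E n) (r x)) := by
    intro x
    have hxB : (x : E n) ∈ B := hvB x.2
    have h1 := hμ x hxB.1 (r x) (hr0 x hxB) (hr1 x hxB)
    have h2 : C₀ * (6 * r x) ^ k = (6 ^ k * C₀ / γ) * (γ * r x ^ k) := by
      rw [mul_pow]
      field_simp
    rw [h2, ENNReal.ofReal_mul (by positivity)] at h1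
    exact h1.trans (mul_le_mul_right (hr2 x hxB).le _)
  calc μ B ≤ μ (⋃ x ∈ v, ball x (6 * r x)) := measure_mono hsub
    _ ≤ ∑' x : v, μ (ball (x : E n) (6 * r x)) := measure_biUnion_le μ hcount _
    _ ≤ ∑' x : v, ENNReal.ofReal (6 ^ k * C₀ / γ) * τ (ball (x : E n) (r x)) :=
        ENNReal.tsum_le_tsum hterm
    _ = ENNReal.ofReal (6 ^ k * C₀ / γ) * ∑' x : v, τ (ball (x : E n) (r x)) := ENNReal.tsum_mul_left
    _ = ENNReal.ofReal (6 ^ k * C₀ / γ) * τ (⋃ x ∈ v, ball x (r x)) := by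
        rw [measure_biUnion hcount hdisj' (fun _ _ => measurableSet_ball)]
    _ ≤ ENNReal.ofReal (6 ^ k * C₀ / γ) * τ T := by
        refine mul_le_mul_right (measure_mono ?_) _
        refine iUnion₂_subset fun x hx => ?_
        exact (ball_subset_ball (hr1 x (hvB hx))).trans (hT x (hvB hx).1)

/-! ### LEAF L-FL-A2 : the bad set is open -/

/-- PLAN.  `c < τ (ball x r)`: `ball x r = ⋃_j ball x (r - 1/(j+1))` increasing, so (`MeasureTheory.tendsto_measure_iUnion_atTop` / `Monotone.measure_iUnion`, `lt_iSup_iff`) `c < τ (ball x r')` for some `r' < r`; for `dist x' x < r - r'`: `ball x r' ⊆ ball x' r`. -/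
theorem htf_isOpen_lt {n : ℕ} (τ : Measure (E n)) (r : ℝ) (c : ℝ≥0∞) : IsOpen {x : E n | c < τ (ball x r)} := by
  rw [Metric.isOpen_iff]
  intro x hx
  have hU : ball x r = ⋃ j : ℕ, ball x (r - 1 / ((j : ℝ) + 1)) := by
    ext y
    simp only [mem_ball, mem_iUnion]
    constructor
    · intro hy
      obtain ⟨j, hj⟩ := exists_nat_one_div_lt (sub_pos.2 hy)
      exact ⟨j, by linarith⟩
    · rintro ⟨j, hj⟩
      have : (0 : ℝ) < 1 / ((j : ℝ) + 1) := by positivity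
      linarith
  have hmono : Monotone fun j : ℕ => ball x (r - 1 / ((j : ℝ) + 1)) := by
    intro i j hij
    refine ball_subset_ball ?_
    have h1 : (1 : ℝ) / ((j : ℝ) + 1) ≤ 1 / ((i : ℝ) + 1) := by
      apply one_div_le_one_div_of_le (by positivity)
      have : (i : ℝ) ≤ j := by exact_mod_cast hij
      linarith
    linarith
  have hx' : c < τ (ball x r) := hx
  rw [hU, hmono.measure_iUnion, lt_iSup_iff] at hx'
  obtain ⟨j, hj⟩ := hx'
  refine ⟨1 / ((j : ℝ) + 1), by positivity, fun x' hx' => ?_⟩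
  refine lt_of_lt_of_le hj (measure_mono (ball_subset_ball' ?_))
  rw [mem_ball, dist_comm] at hx'
  linarith

/-- (`htfBad = ball 0 6 ∩ ⋃_{r ∈ (0,R₁]} {x | ofReal (γ r^d) < τ (ball x r)}`: `isOpen_biUnion`, `not_le`) -/
theorem htf_isOpen_bad (τ : Measure (E (d + 1))) (γ R₁ : ℝ) : IsOpen (htfBad τ γ R₁) := by
  have h : htfBad τ γ R₁ = ball (0 : E (d + 1)) 6 ∩
      ⋃ r ∈ {r : ℝ | 0 < r ∧ r ≤ R₁}, {x | ENNReal.ofReal (γ * r ^ d) < τ (ball x r)} := by
    ext x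
    simp only [htfBad, htfGood, mem_ofPred_eq, mem_inter_iff, mem_iUnion, exists_prop, not_forall,
      not_le]
    constructor
    · rintro ⟨h1, r, h2, h3, h4⟩
      exact ⟨h1, r, ⟨h2, h3⟩, h4⟩
    · rintro ⟨h1, r, ⟨h2, h3⟩, h4⟩
      exact ⟨h1, r, h2, h3, h4⟩
  rw [h]
  exact isOpen_ball.inter (isOpen_biUnion fun r _ => htf_isOpen_lt τ r _)

/-! ### LEAF L-FL-A3 : the fundamental theorem of calculus in `lintegral` form -/

theorem htf_ftc_abs {φ' : ℝ → ℝ} {a b : ℝ} (hab : a ≤ b) (hc : ContinuousOn φ' (Icc a b)) :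
    ∫⁻ t in Ioc a b, ENNReal.ofReal |φ' t| = ENNReal.ofReal (∫ t in a..b, |φ' t|) := by
  have hi : IntegrableOn (fun t => |φ' t|) (Ioc a b) :=
    (hc.abs.integrableOn_Icc).mono_set Ioc_subset_Icc_self
  rw [intervalIntegral.integral_of_le hab,
    ofReal_integral_eq_lintegral_ofReal hi (Eventually.of_forall fun t => abs_nonneg _)]

/-- PLAN.  `φ b - φ a = ∫ t in a..b, φ' t` (`intervalIntegral.integral_eq_sub_of_hasDerivAt`, `ContinuousOn.intervalIntegrable`), `|∫| ≤ ∫ |φ'|` (`intervalIntegral.abs_integral_le_integral_abs`),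
`∫ t in a..b, |φ'| = ∫ t in Ioc a b, |φ'|`, `ofReal_integral_eq_lintegral_ofReal`, `Ioc` vs `Ioo`: `Ioo_ae_eq_Ioc`, `setLIntegral_congr`. -/
theorem htf_ftc_ge {φ φ' : ℝ → ℝ} {a b : ℝ} (hab : a ≤ b) (hd : ∀ t ∈ Icc a b, HasDerivAt φ (φ' t) t) (hc : ContinuousOn φ' (Icc a b)) :
    ENNReal.ofReal |φ b - φ a| ≤ ∫⁻ t in Ioo a b, ENNReal.ofReal |φ' t| := by
  have h1 : ∫ t in a..b, φ' t = φ b - φ a := by
    refine intervalIntegral.integral_eq_sub_of_hasDerivAt (fun t ht => hd t ?_) ?_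
    · rwa [uIcc_of_le hab] at ht
    · exact ContinuousOn.intervalIntegrable (by rwa [uIcc_of_le hab])
  rw [setLIntegral_congr Ioo_ae_eq_Ioc, htf_ftc_abs hab hc, ← h1]
  exact ENNReal.ofReal_le_ofReal (intervalIntegral.abs_integral_le_integral_abs hab)

/-- PLAN.  as above, with `|φ'| = sg φ'`: `∫⁻ t in Icc a b, ofReal |φ' t| = ofReal (sg (φ b - φ a))`. -/
theorem htf_ftc_mono {φ φ' : ℝ → ℝ} {a b sg : ℝ} (hab : a ≤ b) (hsg : sg = 1 ∨ sg = -1) (hd : ∀ t ∈ Icc a b, HasDerivAt φ (φ' t) t)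
    (hc : ContinuousOn φ' (Icc a b)) (hpos : ∀ t ∈ Icc a b, 0 ≤ sg * φ' t) :
    ∫⁻ t in Icc a b, ENNReal.ofReal |φ' t| = ENNReal.ofReal (sg * (φ b - φ a)) := by
  have h1 : ∫ t in a..b, φ' t = φ b - φ a := by
    refine intervalIntegral.integral_eq_sub_of_hasDerivAt (fun t ht => hd t ?_) ?_
    · rwa [uIcc_of_le hab] at ht
    · exact ContinuousOn.intervalIntegrable (by rwa [uIcc_of_le hab])
  rw [setLIntegral_congr Ioc_ae_eq_Icc.symm, htf_ftc_abs hab hc, ← h1,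
    ← intervalIntegral.integral_const_mul]
  congr 1
  refine intervalIntegral.integral_congr fun t ht => ?_
  rw [uIcc_of_le hab] at ht
  have h2 := hpos t ht
  show |φ' t| = sg * φ' t
  rcases hsg with rfl | rfl
  · rw [one_mul] at h2 ⊢
    exact abs_of_nonneg h2
  · rw [abs_of_nonpos (by linarith)]
    ring

/-! ### LEAF L-FL-A4 : derivatives along vertical and horizontal lines -/

theorem htf_phi_deriv_aux (s : ℝ) : HasDerivAt htPhi ((1 - s ^ 2) / Real.sqrt 2) s := by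
  have h := ((hasDerivAt_id s).sub ((hasDerivAt_pow 3 s).div_const 3)).div_const (Real.sqrt 2)
  refine HasDerivAt.congr_deriv (f := htPhi) h ?_
  congr 1
  norm_num

theorem htf_norm_en (d : ℕ) : ‖gmtEn d‖ = 1 := by
  simp [gmtEn, eb]

theorem htf_join_hasDerivAt (z : E d) (t : ℝ) : HasDerivAt (fun s => gmtJoin z s) (gmtEn d) t := by
  have h := ((hasDerivAt_id t).smul_const (gmtEn d)).const_add (flInc d z)
  rw [one_smul] at h
  have e : (fun s => gmtJoin z s) = fun s : ℝ => flInc d z + id s • gmtEn d := by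
    funext s
    rw [fl_join_eq]
    rfl
  rw [e]
  exact h

/-- (`|Du e| ≤ ‖Du‖ ‖e‖`, `‖gmtEn d‖ = 1`) -/
theorem htf_H2_nonneg (u : E (d + 1) → ℝ) (y : E (d + 1)) : 0 ≤ htfH2 u y := by
  unfold htfH2 htfDt
  have h := (fderiv ℝ u y).le_opNorm (gmtEn d)
  rw [htf_norm_en, mul_one, Real.norm_eq_abs] at h
  have h2 : |fderiv ℝ u y (gmtEn d)| ^ 2 ≤ ‖fderiv ℝ u y‖ ^ 2 := pow_le_pow_left₀ (abs_nonneg _) h 2
  rw [sq_abs] at h2
  linarith

/-- **horizontal directions.**  PLAN.  `L = fderiv ℝ u y`, `g = (InnerProductSpace.toDual ℝ _).symm L` (`‖g‖ = ‖L‖`, `L v = ⟪g, v⟫`), `e = gmtEn d`, `v' = flInc d v ⊥ e` (`fl_inner`, `fl_ver_join`): `L v' = ⟪g - ⟪g,e⟫ e, v'⟫`, `‖g - ⟪g,e⟫ e‖² = ‖g‖² - ⟪g,e⟫²`, Cauchy-Schwarz, `fl_norm_inc`. -/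
theorem htf_hor_le (u : E (d + 1) → ℝ) (y : E (d + 1)) (v : E d) : (fderiv ℝ u y (flInc d v)) ^ 2 ≤ htfH2 u y * ‖v‖ ^ 2 := by
  have hnn := htf_H2_nonneg u y
  unfold htfH2 htfDt at hnn ⊢
  set L := fderiv ℝ u y with hL
  set A := L (flInc d v) with hA
  set B := L (gmtEn d) with hB
  set n := ‖v‖ ^ 2 with hn
  have hn0 : 0 ≤ n := by positivity
  set w : E (d + 1) := gmtJoin (A • v) (B * n) with hw
  have hLw : L w = A * A + B * n * B := by
    rw [hw, fl_join_eq, map_add, map_smul, map_smul, map_smul]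
    simp [hA, hB]
  have hnw : ‖w‖ ^ 2 = A ^ 2 * n + (B * n) ^ 2 := by
    rw [hw, fl_norm_sq, fl_hor_join, fl_ver_join, norm_smul, mul_pow, Real.norm_eq_abs, sq_abs]
  have h1 := L.le_opNorm w
  rw [Real.norm_eq_abs] at h1
  have h2 : (L w) ^ 2 ≤ ‖L‖ ^ 2 * ‖w‖ ^ 2 := by
    rw [← sq_abs, ← mul_pow]
    exact pow_le_pow_left₀ (abs_nonneg _) h1 2
  rw [hLw, hnw] at h2
  set T := A ^ 2 + B ^ 2 * n with hT
  have hT0 : 0 ≤ T := by positivity
  have h3 : T * T ≤ (‖L‖ ^ 2 * n) * T := by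
    have e1 : (A * A + B * n * B) ^ 2 = T * T := by rw [hT]; ring
    have e2 : ‖L‖ ^ 2 * (A ^ 2 * n + (B * n) ^ 2) = (‖L‖ ^ 2 * n) * T := by rw [hT]; ring
    rw [e1, e2] at h2
    exact h2
  rcases hT0.eq_or_lt with h0 | hpos
  · have hA0 : A ^ 2 = 0 := by
      have : 0 ≤ B ^ 2 * n := by positivity
      nlinarith [sq_nonneg A]
    rw [hA0]
    exact mul_nonneg hnn hn0
  · have h4 : T ≤ ‖L‖ ^ 2 * n := le_of_mul_le_mul_right h3 hpos
    rw [hT] at h4
    nlinarith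

/-- (`gmtJoin z t = flInc d z + t • gmtEn d`: `fl_join_eq`; chain rule `HasFDerivAt.comp_hasDerivAt`) -/
theorem htf_hasDerivAt_ver {u : E (d + 1) → ℝ} {z : E d} {t : ℝ} (hu : DifferentiableAt ℝ u (gmtJoin z t)) :
    HasDerivAt (fun s => u (gmtJoin z s)) (htfDt u (gmtJoin z t)) t :=
  hu.hasFDerivAt.comp_hasDerivAt t (htf_join_hasDerivAt z t)

/-- (`htPhi' s = (1 - s²)/√2`; chain rule) -/
theorem htf_hasDerivAt_phi {u : E (d + 1) → ℝ} {z : E d} {t : ℝ} (hu : DifferentiableAt ℝ u (gmtJoin z t)) :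
    HasDerivAt (fun s => htPhi (u (gmtJoin z s))) (htfDPhi u (gmtJoin z t)) t := by
  have h := HasDerivAt.comp (h₂ := htPhi) t (htf_phi_deriv_aux (u (gmtJoin z t))) (htf_hasDerivAt_ver hu)
  exact h

/-- (`fderiv (htPhi ∘ u) y e = htPhi'(u y) fderiv u y e`) -/
theorem htf_dphi_eq {u : E (d + 1) → ℝ} {y : E (d + 1)} (hu : DifferentiableAt ℝ u y) :
    fderiv ℝ (fun x => htPhi (u x)) y (gmtEn d) = htfDPhi u y := by
  have h := (htf_phi_deriv_aux (u y)).comp_hasFDerivAt y hu.hasFDerivAt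
  have e : fderiv ℝ (fun x => htPhi (u x)) y = ((1 - u y ^ 2) / Real.sqrt 2) • fderiv ℝ u y := h.fderiv
  rw [e]
  rfl

/-- **horizontal oscillation.**  PLAN.  `g θ = u (gmtJoin (z + θ (z' - z)) t)`, `θ ∈ [0,1]`, `g' θ = fderiv u (..) (flInc d (z' - z))`, `|g'| ≤ K ‖z' - z‖` (`htf_hor_le`, `Real.sqrt`/`abs_le_of_sq_le`); mean value inequality
(`Convex.norm_image_sub_le_of_norm_hasDerivWithin_le` or `image_norm_le_of_norm_deriv_right_le_deriv_boundary`). -/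
theorem htf_hor_osc {u : E (d + 1) → ℝ} {z z' : E d} {t K : ℝ} (hK : 0 ≤ K)
    (hu : ∀ θ ∈ Icc (0 : ℝ) 1, DifferentiableAt ℝ u (gmtJoin (z + θ • (z' - z)) t))
    (hb : ∀ θ ∈ Icc (0 : ℝ) 1, htfH2 u (gmtJoin (z + θ • (z' - z)) t) ≤ K ^ 2) :
    |u (gmtJoin z' t) - u (gmtJoin z t)| ≤ K * ‖z' - z‖ := by
  set γ : ℝ → E (d + 1) := fun θ => gmtJoin (z + θ • (z' - z)) t with hγ
  have hγd : ∀ θ, HasDerivAt γ (flInc d (z' - z)) θ := by
    intro θ
    have h := (((hasDerivAt_id θ).smul_const (flInc d (z' - z))).const_add (flInc d z)).add_const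
      (t • gmtEn d)
    rw [one_smul] at h
    have e : γ = fun θ : ℝ => flInc d z + id θ • flInc d (z' - z) + t • gmtEn d := by
      funext θ
      simp only [hγ, fl_join_eq, map_add, map_smul, id]
    rw [e]
    exact h
  have hgd : ∀ θ ∈ Icc (0 : ℝ) 1,
      HasDerivWithinAt (fun θ => u (γ θ)) (fderiv ℝ u (γ θ) (flInc d (z' - z))) (Icc 0 1) θ :=
    fun θ hθ => ((hu θ hθ).hasFDerivAt.comp_hasDerivAt θ (hγd θ)).hasDerivWithinAt
  have hbound : ∀ θ ∈ Icc (0 : ℝ) 1, ‖fderiv ℝ u (γ θ) (flInc d (z' - z))‖ ≤ K * ‖z' - z‖ := by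
    intro θ hθ
    have h1 := htf_hor_le u (γ θ) (z' - z)
    have h2 : htfH2 u (γ θ) * ‖z' - z‖ ^ 2 ≤ K ^ 2 * ‖z' - z‖ ^ 2 :=
      mul_le_mul_of_nonneg_right (hb θ hθ) (by positivity)
    rw [Real.norm_eq_abs]
    apply abs_le_of_sq_le_sq _ (by positivity)
    rw [mul_pow]
    linarith
  have h := Convex.norm_image_sub_le_of_norm_hasDerivWithin_le hgd hbound (convex_Icc 0 1)
    (left_mem_Icc.2 zero_le_one) (right_mem_Icc.2 zero_le_one)
  simp only [hγ, one_smul, zero_smul, add_zero, sub_zero, norm_one, mul_one, add_sub_cancel,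
    Real.norm_eq_abs] at h
  exact h

/-! ### LEAF L-FL-A5 : the function `Φ` -/

theorem htf_phi_eq (s : ℝ) : htPhi s = (s - s ^ 3 / 3) * (Real.sqrt 2 / 2) := by
  unfold htPhi
  have h2 : Real.sqrt 2 * Real.sqrt 2 = 2 := Real.mul_self_sqrt (by norm_num)
  have h0 : Real.sqrt 2 ≠ 0 := by positivity
  rw [div_eq_iff h0]
  linear_combination (-(s - s ^ 3 / 3) / 2) * h2

theorem htf_phi_hasDerivAt (s : ℝ) : HasDerivAt htPhi ((1 - s ^ 2) / Real.sqrt 2) s := by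
  have h := ((hasDerivAt_id s).sub ((hasDerivAt_pow 3 s).div_const 3)).div_const (Real.sqrt 2)
  refine HasDerivAt.congr_deriv (f := htPhi) h ?_
  congr 1
  norm_num

theorem htf_phi_odd (s : ℝ) : htPhi (-s) = -htPhi s := by
  unfold htPhi
  ring

/-- (derivative `≥ 0` on `[-1,1]`: `monotoneOn_of_deriv_nonneg`, or algebra: `Φ(t) - Φ(s) = (t - s)(1 - (t² + ts + s²)/3)/√2`) -/
theorem htf_phi_mono : MonotoneOn htPhi (Icc (-1) 1) := by
  intro s hs t ht hst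
  rw [htf_phi_eq, htf_phi_eq]
  have hr : 0 ≤ Real.sqrt 2 / 2 := by positivity
  refine mul_le_mul_of_nonneg_right ?_ hr
  have e : (t - t ^ 3 / 3) - (s - s ^ 3 / 3) = (t - s) * (1 - (t ^ 2 + t * s + s ^ 2) / 3) := by ring
  have h1 : t ^ 2 + t * s + s ^ 2 ≤ 3 := by
    nlinarith [hs.1, hs.2, ht.1, ht.2, mul_nonneg (sub_nonneg.2 hs.2) (sub_nonneg.2 ht.2),
      mul_nonneg (by linarith [hs.1] : 0 ≤ s + 1) (by linarith [ht.1] : 0 ≤ t + 1),
      mul_nonneg (by linarith [hs.1] : 0 ≤ s + 1) (sub_nonneg.2 hs.2),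
      mul_nonneg (by linarith [ht.1] : 0 ≤ t + 1) (sub_nonneg.2 ht.2)]
  have h2 : 0 ≤ (t - s) * (1 - (t ^ 2 + t * s + s ^ 2) / 3) :=
    mul_nonneg (by linarith) (by linarith)
  linarith

theorem htf_phi_one : htPhi 1 = acC / 2 := by
  rw [htf_phi_eq]
  unfold acC
  ring

theorem htf_acC_pos : 0 < acC := by
  unfold acC
  positivity

/-- `|Φ(s) - Φ(s')| ≤ acC` on `[-1,1]`. -/
theorem htf_phi_diff_le {s s' : ℝ} (hs : |s| ≤ 1) (hs' : |s'| ≤ 1) : |htPhi s - htPhi s'| ≤ acC := by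
  rw [abs_le] at hs hs'
  have h1 : (1 : ℝ) ∈ Icc (-1 : ℝ) 1 := by constructor <;> norm_num
  have hm1 : (-1 : ℝ) ∈ Icc (-1 : ℝ) 1 := by constructor <;> norm_num
  have b : ∀ x : ℝ, -1 ≤ x ∧ x ≤ 1 → -(acC / 2) ≤ htPhi x ∧ htPhi x ≤ acC / 2 := by
    intro x hx
    constructor
    · rw [← htf_phi_one, ← htf_phi_odd]
      exact htf_phi_mono hm1 hx hx.1
    · rw [← htf_phi_one]
      exact htf_phi_mono hx h1 hx.2
  have b1 := b s hs
  have b2 := b s' hs'
  rw [abs_le]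
  constructor <;> linarith [b1.1, b1.2, b2.1, b2.2]

/-- `2 Φ(1 - 2b) ≥ (1 - 6b²) acC`  (`Φ(1) - Φ(1-β) = (β² - β³/3)/√2 ≤ β²/√2`, `β = 2b`, `acC = 2√2/3`). -/
theorem htf_phi_near {b : ℝ} (hb : 0 ≤ b) (hb' : b ≤ 1 / 4) : (1 - 6 * b ^ 2) * acC ≤ 2 * htPhi (1 - 2 * b) := by
  rw [htf_phi_eq]
  unfold acC
  have hr : 0 ≤ Real.sqrt 2 := by positivity
  have e : 2 * (((1 - 2 * b) - (1 - 2 * b) ^ 3 / 3) * (Real.sqrt 2 / 2)) - (1 - 6 * b ^ 2) * (2 * Real.sqrt 2 / 3)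
      = (8 * b ^ 3 / 3) * Real.sqrt 2 := by ring
  have h0 : 0 ≤ (8 * b ^ 3 / 3) * Real.sqrt 2 := by positivity
  linarith

/-- `Φ(1/2) - Φ(-1/2) = (11/16) acC`. -/
theorem htf_cPhi : htfcΦ = 11 / 16 * acC := by
  unfold htfcΦ acC
  rw [htf_phi_eq, htf_phi_eq]
  ring

/-! ### LEAF L-FL-A6 : Tonelli -/

theorem htf_tonelli_aux {F : E (d + 1) → ℝ≥0∞} (hF : Measurable F) (z₀ : E d) {r a b : ℝ} :
    ∫⁻ y in {y : E (d + 1) | ‖gmtHor y - z₀‖ < r ∧ gmtVer y ∈ Ioo a b}, F y = ∫⁻ z in ball z₀ r, ∫⁻ t in Ioo a b, F (gmtJoin z t) := by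
  have hS : MeasurableSet {y : E (d + 1) | ‖gmtHor y - z₀‖ < r ∧ gmtVer y ∈ Ioo a b} := by
    have h1 : IsOpen {y : E (d + 1) | ‖gmtHor y - z₀‖ < r} :=
      isOpen_lt ((fl_continuous_hor.sub continuous_const).norm) continuous_const
    have h2 : IsOpen {y : E (d + 1) | gmtVer y ∈ Ioo a b} := isOpen_Ioo.preimage fl_continuous_ver
    exact (h1.inter h2).measurableSet
  rw [← lintegral_indicator hS, fl_lintegral_join (hF.indicator hS), ← lintegral_indicator measurableSet_ball]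
  refine lintegral_congr fun z => ?_
  by_cases hz : z ∈ ball z₀ r
  · rw [indicator_of_mem hz, ← lintegral_indicator measurableSet_Ioo]
    refine lintegral_congr fun t => ?_
    have hz' : ‖z - z₀‖ < r := by simpa [dist_eq_norm] using hz
    by_cases ht : t ∈ Ioo a b
    · rw [indicator_of_mem ht, indicator_of_mem]
      exact ⟨by rw [fl_hor_join]; exact hz', by rw [fl_ver_join]; exact ht⟩
    · rw [indicator_of_notMem ht, indicator_of_notMem]
      rintro ⟨-, h⟩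
      rw [fl_ver_join] at h
      exact ht h
  · rw [indicator_of_notMem hz]
    have : ∀ t, indicator {y : E (d + 1) | ‖gmtHor y - z₀‖ < r ∧ gmtVer y ∈ Ioo a b} F (gmtJoin z t) = 0 := by
      intro t
      rw [indicator_of_notMem]
      rintro ⟨h, -⟩
      rw [fl_hor_join] at h
      exact hz (by simpa [dist_eq_norm] using h)
    simp only [this, lintegral_zero]

/-- (`fl_lintegral_join` for `S.indicator F`; `lintegral_indicator`) -/
theorem htf_tonelli {F : E (d + 1) → ℝ≥0∞} (hF : Measurable F) {r h : ℝ} :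
    ∫⁻ y in {y : E (d + 1) | ‖gmtHor y‖ < r ∧ |gmtVer y| < h}, F y = ∫⁻ z in ball (0 : E d) r, ∫⁻ t in Ioo (-h) h, F (gmtJoin z t) := by
  rw [← htf_tonelli_aux hF (0 : E d)]
  congr 2
  ext y
  simp [abs_lt]

/-- the same for a cylinder with any centre and an interval of heights -/
theorem htf_tonelli' {F : E (d + 1) → ℝ≥0∞} (hF : Measurable F) (z₀ : E d) {r a b : ℝ} :
    ∫⁻ y in {y : E (d + 1) | ‖gmtHor y - z₀‖ < r ∧ gmtVer y ∈ Ioo a b}, F y = ∫⁻ z in ball z₀ r, ∫⁻ t in Ioo a b, F (gmtJoin z t) := by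
  exact htf_tonelli_aux hF z₀

/-- (`volume (ball z r) = ofReal (r^d) * volume (ball 0 1)`: `Measure.addHaar_ball`, `finrank_euclideanSpace`; `gmtOm`; finiteness `measure_ball_lt_top`) -/
theorem htf_vol_ball (z : E d) {r : ℝ} (hr : 0 < r) : volume (ball z r) = ENNReal.ofReal (gmtOm d * r ^ d) := by
  rw [Measure.addHaar_ball_of_pos _ _ hr, finrank_euclideanSpace, Fintype.card_fin, mul_comm (gmtOm d),
    ENNReal.ofReal_mul (by positivity), gmtOm, ENNReal.ofReal_toReal measure_ball_lt_top.ne]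

/-! ### LEAF L-FL-A7 : measures with a density -/

theorem htf_ms_apply (ρ : E (d + 1) → ℝ) {S : Set (E (d + 1))} (hS : MeasurableSet S) :
    htfMs ρ S = ∫⁻ y in S, ENNReal.ofReal (ρ y) := by
  rw [htfMs, withDensity_apply _ hS]

/-- comparison of densities on a set -/
theorem htf_ms_le {ρ g : E (d + 1) → ℝ} {S : Set (E (d + 1))} (hS : MeasurableSet S) (h : ∀ y ∈ S, g y ≤ ρ y) :
    ∫⁻ y in S, ENNReal.ofReal (g y) ≤ htfMs ρ S := by
  rw [htf_ms_apply ρ hS]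
  exact setLIntegral_mono' hS fun y hy => ENNReal.ofReal_le_ofReal (h y hy)

/-- **a Lipschitz function which is large at a point has a large integral.**  `g ≥ 0`-free form: `g ≥ t/2` on `ball y (t/(2K))`.
PLAN.  for `y' ∈ ball y (t/(2K))`: `g y' ≥ g y - K ‖y - y'‖ ≥ t/2`; `volume (ball y r) = ofReal (gmtOm (d+1) r^(d+1))` (`htf_vol_ball`); `setLIntegral_const`, `lintegral_mono`. -/
theorem htf_lip_int {g : E (d + 1) → ℝ} {y : E (d + 1)} {t K : ℝ} (ht : 0 < t) (hK : 0 < K) (hgy : t ≤ g y)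
    (hl : ∀ y' ∈ ball y (t / (2 * K)), |g y - g y'| ≤ K * ‖y - y'‖) :
    ENNReal.ofReal (t / 2 * (gmtOm (d + 1) * (t / (2 * K)) ^ (d + 1))) ≤ ∫⁻ y' in ball y (t / (2 * K)), ENNReal.ofReal (g y') := by
  have hr : 0 < t / (2 * K) := by positivity
  calc ENNReal.ofReal (t / 2 * (gmtOm (d + 1) * (t / (2 * K)) ^ (d + 1)))
      = ENNReal.ofReal (t / 2) * volume (ball y (t / (2 * K))) := by
        rw [htf_vol_ball y hr, ENNReal.ofReal_mul (by positivity)]
    _ = ∫⁻ _ in ball y (t / (2 * K)), ENNReal.ofReal (t / 2) := by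
        rw [setLIntegral_const]
    _ ≤ _ := by
        refine setLIntegral_mono' measurableSet_ball fun y' hy' => ENNReal.ofReal_le_ofReal ?_
        have h1 := hl y' hy'
        have h2 : ‖y - y'‖ < t / (2 * K) := by
          rw [← dist_eq_norm, dist_comm]; exact hy'
        have h3 : K * ‖y - y'‖ ≤ K * (t / (2 * K)) := by gcongr
        have h4 : K * (t / (2 * K)) = t / 2 := by field_simp
        have h5 := (abs_le.1 h1).2
        linarith

end Claimed.Agent.R323
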