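import Claimed.Agent.R323.Ht.FlatA
import Claimed.Agent.R323.Ht.FlatOde

/-!
# Row 323, block C, unit FL: GOOD POINTS (steps A, B, C1, C2, C3, E of `FL115.md` in the abstract situation `HtfSit`).   Cutter: helper105.   Prefix `htf_`.
NOTATION: `h : HtfSit d 𝔭 u eh ρ f`, `μ = htfMs ρ`, `τ = htfMs f`, `Ω = ball 0 𝔭.R` (`𝔭.R ≥ 6 + R₁ ≥ 6 + 2w`), `N = htfN eh u`, `V = htfDPhi u`.
LEAVES  L-FL-B0 … L-FL-B7.   Replace `sorry` IN PLACE, statements verbatim, helpers above the theorem (prefix `htf_`).  All leaves are independent (cite the other statements as black boxes).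
-/

set_option autoImplicit false
open scoped ContDiff ENNReal NNReal RealInnerProductSpace Topology
open MeasureTheory Metric Set Filter

namespace Claimed.Agent.R323

open Claimed.Agent.Gmt

variable {d : ℕ} {𝔭 : HtfPar} {u eh ρ f : E (d + 1) → ℝ}

/-! ### LEAF L-FL-B0 : pointwise inequalities (pure algebra from the fields `mod`, `ρ_lo`, `ρ_hi`, `f_lo`, `eh_lo`, `eh_hi`, `bdd`) -/

theorem htf_eh_pos (h : HtfSit d 𝔭 u eh ρ f) {y : E (d + 1)} (hy : y ∈ ball (0 : E (d + 1)) 𝔭.R) : 0 < eh y := by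
  have := h.eh_lo y hy
  have := h.num.ε_pos
  linarith

theorem htf_diffAt (h : HtfSit d 𝔭 u eh ρ f) {y : E (d + 1)} (hy : y ∈ ball (0 : E (d + 1)) 𝔭.R) : DifferentiableAt ℝ u y :=
  (h.smooth.differentiableOn (by norm_num)).differentiableAt (isOpen_ball.mem_nhds hy)

/-- (`htf_H2_nonneg`, `mod`) -/
theorem htf_N_nonneg (h : HtfSit d 𝔭 u eh ρ f) {y : E (d + 1)} (hy : y ∈ ball (0 : E (d + 1)) 𝔭.R) : 0 ≤ htfN eh u y := by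

  have hH := htf_H2_nonneg u y
  have hmod := h.mod y hy
  unfold htfN
  have := mul_nonneg (sq_nonneg (eh y)) hH
  linarith

/-- `ε̂²|D'u|² ≤ N` -/
theorem htf_H2_le (h : HtfSit d 𝔭 u eh ρ f) {y : E (d + 1)} (hy : y ∈ ball (0 : E (d + 1)) 𝔭.R) : eh y ^ 2 * htfH2 u y ≤ htfN eh u y := by

  have hmod := h.mod y hy
  unfold htfN
  linarith

/-- `0 ≤ W(u) - ε̂²(∂_t u)²/2 ≤ N`   (`W - ε̂²(∂_tu)²/2 = (W - ε̂²|Du|²/2) + ε̂²|D'u|²/2`) -/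
theorem htf_ode_bd (h : HtfSit d 𝔭 u eh ρ f) {y : E (d + 1)} (hy : y ∈ ball (0 : E (d + 1)) 𝔭.R) :
    0 ≤ acW (u y) - eh y ^ 2 * htfDt u y ^ 2 / 2 ∧ acW (u y) - eh y ^ 2 * htfDt u y ^ 2 / 2 ≤ htfN eh u y := by

  have hH := htf_H2_nonneg u y
  have hmod := h.mod y hy
  have h1 := mul_nonneg (sq_nonneg (eh y)) hH
  unfold htfN
  unfold htfH2 at hH h1 ⊢
  constructor <;> nlinarith

theorem htf_f_nonneg (h : HtfSit d 𝔭 u eh ρ f) {y : E (d + 1)} (hy : y ∈ ball (0 : E (d + 1)) 𝔭.R) : 0 ≤ f y := by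

  have ha := htf_eh_pos h hy
  have hN := htf_N_nonneg h hy
  have hf := h.f_lo y hy
  have hc : 0 < acC * eh y := mul_pos htf_acC_pos ha
  by_contra hneg
  push Not at hneg
  have := mul_neg_of_pos_of_neg hc hneg
  linarith

/-- `|V| ≤ acC ρ`:  `|V| = √(2W)|∂_tu| ≤ √(2W)|Du| ≤ ε̂|Du|²/2 + W/ε̂`  (`√(2W) = (1-u²)/√2`, AM-GM: `(1-u²)/√2 · a ≤ ε̂ a²/2 + (1-u²)²/(4ε̂)`). -/
theorem htf_V_le (h : HtfSit d 𝔭 u eh ρ f) {y : E (d + 1)} (hy : y ∈ ball (0 : E (d + 1)) 𝔭.R) : |htfDPhi u y| ≤ acC * ρ y := by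

  have ha := htf_eh_pos h hy
  have hH := htf_H2_nonneg u y
  have hlo := h.ρ_lo y hy
  have hb := h.bdd y hy
  unfold htfH2 at hH
  unfold htfDPhi
  have hG0 : 0 ≤ ‖fderiv ℝ u y‖ := norm_nonneg _
  have hDG : |htfDt u y| ≤ ‖fderiv ℝ u y‖ := abs_le_of_sq_le_sq (by linarith) hG0
  have hU : 0 ≤ 1 - u y ^ 2 := by
    have := (sq_le_one_iff_abs_le_one (u y)).2 hb
    linarith
  have hr : 0 < Real.sqrt 2 := by positivity
  have hr2 : Real.sqrt 2 ^ 2 = 2 := Real.sq_sqrt (by norm_num)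
  obtain ⟨s, hs⟩ : ∃ s, s = (1 - u y ^ 2) / Real.sqrt 2 := ⟨_, rfl⟩
  have hs0 : 0 ≤ s := by rw [hs]; positivity
  have hs2 : s ^ 2 = 2 * acW (u y) := by
    rw [hs, div_pow, hr2]; unfold acW; ring
  rw [← hs, abs_mul, abs_of_nonneg hs0]
  refine le_trans ?_ hlo
  have h1 : s * |htfDt u y| ≤ s * ‖fderiv ℝ u y‖ := mul_le_mul_of_nonneg_left hDG hs0
  have h2 : s * ‖fderiv ℝ u y‖ ≤ eh y / 2 * ‖fderiv ℝ u y‖ ^ 2 + acW (u y) / eh y := by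
    have e1 : acW (u y) = s ^ 2 / 2 := by rw [hs2]; ring
    rw [e1, ← sub_nonneg]
    have e2 : eh y / 2 * ‖fderiv ℝ u y‖ ^ 2 + s ^ 2 / 2 / eh y - s * ‖fderiv ℝ u y‖
        = (eh y * ‖fderiv ℝ u y‖ - s) ^ 2 / (2 * eh y) := by
      field_simp
      ring
    rw [e2]
    positivity
  linarith

/-- (P7) `acC ρ ≤ |V| + 2 acC f`:  `acC ρ ≤ 2W/ε̂ = ε̂|Du|² + 2ξ = ε̂(∂_tu)² + ε̂|D'u|² + 2ξ`, `ε̂ (∂_tu)² ≤ |∂_tu| ε̂|Du| ≤ |∂_tu| √(2W) = |V|` (Modica), `ε̂|D'u|² + 2ξ ≤ 2N/ε̂ ≤ 2 acC f`  (`ξ = W/ε̂ - ε̂|Du|²/2`). -/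
theorem htf_rho_le (h : HtfSit d 𝔭 u eh ρ f) {y : E (d + 1)} (hy : y ∈ ball (0 : E (d + 1)) 𝔭.R) :
    acC * ρ y ≤ |htfDPhi u y| + 2 * (acC * f y) := by

  have ha := htf_eh_pos h hy
  have hH := htf_H2_nonneg u y
  have hhi := h.ρ_hi y hy
  have hb := h.bdd y hy
  have hmod := h.mod y hy
  have hf := h.f_lo y hy
  unfold htfN at hf
  unfold htfH2 at hH hf
  unfold htfDPhi
  have hG0 : 0 ≤ ‖fderiv ℝ u y‖ := norm_nonneg _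
  have hDG : |htfDt u y| ≤ ‖fderiv ℝ u y‖ := abs_le_of_sq_le_sq (by linarith) hG0
  have hU : 0 ≤ 1 - u y ^ 2 := by
    have := (sq_le_one_iff_abs_le_one (u y)).2 hb
    linarith
  have hr : 0 < Real.sqrt 2 := by positivity
  have hr2 : Real.sqrt 2 ^ 2 = 2 := Real.sq_sqrt (by norm_num)
  obtain ⟨s, hs⟩ : ∃ s, s = (1 - u y ^ 2) / Real.sqrt 2 := ⟨_, rfl⟩
  have hs0 : 0 ≤ s := by rw [hs]; positivity
  have hs2 : s ^ 2 = 2 * acW (u y) := by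
    rw [hs, div_pow, hr2]; unfold acW; ring
  rw [← hs, abs_mul, abs_of_nonneg hs0]
  have haG : eh y * ‖fderiv ℝ u y‖ ≤ s := by
    refine le_trans (le_abs_self _) (abs_le_of_sq_le_sq ?_ hs0)
    rw [hs2, mul_pow]
    linarith
  have h1 : eh y * htfDt u y ^ 2 ≤ s * |htfDt u y| := by
    calc eh y * htfDt u y ^ 2 = (eh y * |htfDt u y|) * |htfDt u y| := by rw [mul_assoc, ← sq, sq_abs]
      _ ≤ (eh y * ‖fderiv ℝ u y‖) * |htfDt u y| :=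
          mul_le_mul_of_nonneg_right (mul_le_mul_of_nonneg_left hDG ha.le) (abs_nonneg _)
      _ ≤ s * |htfDt u y| := mul_le_mul_of_nonneg_right haG (abs_nonneg _)
  have h2 : 2 * acW (u y) / eh y ≤ eh y * htfDt u y ^ 2 + 2 * (acC * f y) := by
    rw [div_le_iff₀ ha]
    nlinarith [mul_nonneg (sq_nonneg (eh y)) hH]
  linarith

/-! ### LEAF L-FL-B1 : the bad set and the existence of good transition points (steps A, E) -/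

theorem htf_measurableSet_G (h : HtfSit d 𝔭 u eh ρ f) : MeasurableSet (htfG 𝔭 u f) := by

  have e : htfG 𝔭 u f = (ball (0 : E (d + 1)) 6 \ htfBad (htfMs f) 𝔭.γ 𝔭.R₁) ∩ {x | |u x| < 1 - 𝔭.b} := by
    ext x
    simp only [htfG, htfBad, mem_ofPred_eq, mem_inter_iff, Set.mem_sdiff, not_and, not_not]
    constructor
    · rintro ⟨h1, h2, h3⟩
      exact ⟨⟨h1, fun _ => h2⟩, h3⟩
    · rintro ⟨⟨h1, h2⟩, h3⟩
      exact ⟨h1, h2 h1, h3⟩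
  rw [e]
  exact (measurableSet_ball.diff (htf_isOpen_bad _ _ _).measurableSet).inter
    (measurableSet_lt h.mu.abs measurable_const)

/-- (A)  PLAN.  `htf_vitali` with `S = ball 0 6`, `T = ball 0 𝔭.R` (`n9`), `k = d`, `upper`; `htfBad` is the set of `htf_vitali` (`not_le`, `htfGood` unfolded); `tilt`; `ENNReal.ofReal_mul`. -/
theorem htf_bad_le (h : HtfSit d 𝔭 u eh ρ f) : htfMs ρ (htfBad (htfMs f) 𝔭.γ 𝔭.R₁) ≤ ENNReal.ofReal (𝔭.β₁ d) := by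

  have hγ := h.num.γ_pos
  have hC₀ := h.num.C₀_pos
  have hv := htf_vitali (htfMs ρ) (htfMs f) (ball (0 : E (d + 1)) 6) (ball (0 : E (d + 1)) 𝔭.R) d (R₁ := 𝔭.R₁) hγ hC₀.le
    (fun x _ r hr _ => h.upper x (6 * r) (by positivity))
    (by
      intro x hx y hy
      rw [mem_ball] at hx hy ⊢
      have := h.num.n9
      calc dist y 0 ≤ dist y x + dist x 0 := dist_triangle _ _ _
        _ < 𝔭.R₁ + 6 := add_lt_add hy hx
        _ ≤ 𝔭.R := by linarith)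
  have e : htfBad (htfMs f) 𝔭.γ 𝔭.R₁ = {x | x ∈ ball (0 : E (d + 1)) 6 ∧
      ∃ r, 0 < r ∧ r ≤ 𝔭.R₁ ∧ ENNReal.ofReal (𝔭.γ * r ^ d) < htfMs f (ball x r)} := by
    ext x
    simp only [htfBad, htfGood, mem_ofPred_eq, not_forall, not_le, exists_prop]
  rw [e]
  refine hv.trans ?_
  calc ENNReal.ofReal (6 ^ d * 𝔭.C₀ / 𝔭.γ) * htfMs f (ball 0 𝔭.R)
      ≤ ENNReal.ofReal (6 ^ d * 𝔭.C₀ / 𝔭.γ) * ENNReal.ofReal 𝔭.δ := mul_le_mul_right h.tilt _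
    _ = ENNReal.ofReal (𝔭.β₁ d) := by
        rw [← ENNReal.ofReal_mul (by positivity)]
        congr 1
        unfold HtfPar.β₁
        ring

/-- PLAN.  otherwise `S ⊆ htfBad ∪ (ball 0 6 ∩ {1 - b ≤ |u|})`: `measure_mono`, `measure_union_le`, `htf_bad_le`, `wells`, `ENNReal.ofReal_add`. -/
theorem htf_exists_good (h : HtfSit d 𝔭 u eh ρ f) {S : Set (E (d + 1))} (hS : S ⊆ ball 0 6)
    (hm : ENNReal.ofReal (𝔭.β₁ d + 𝔭.β₂) < htfMs ρ S) : ∃ x ∈ S, x ∈ htfG 𝔭 u f := by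

  by_contra hcon
  push Not at hcon
  have hsub : S ⊆ htfBad (htfMs f) 𝔭.γ 𝔭.R₁ ∪ (ball (0 : E (d + 1)) 6 ∩ {y | 1 - 𝔭.b ≤ |u y|}) := by
    intro x hx
    by_cases hg : htfGood (htfMs f) 𝔭.γ 𝔭.R₁ x
    · right
      refine ⟨hS hx, ?_⟩
      by_contra hlt
      exact hcon x hx ⟨hS hx, hg, not_le.1 hlt⟩
    · left
      exact ⟨hS hx, hg⟩
  have hβ₁ : 0 ≤ 𝔭.β₁ d := by
    have := h.num.γ_pos
    have := h.num.C₀_pos
    have := h.num.δ_nonneg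
    unfold HtfPar.β₁
    positivity
  have : htfMs ρ S ≤ ENNReal.ofReal (𝔭.β₁ d + 𝔭.β₂) := by
    calc htfMs ρ S ≤ htfMs ρ (htfBad (htfMs f) 𝔭.γ 𝔭.R₁ ∪ (ball (0 : E (d + 1)) 6 ∩ {y | 1 - 𝔭.b ≤ |u y|})) :=
          measure_mono hsub
      _ ≤ htfMs ρ (htfBad (htfMs f) 𝔭.γ 𝔭.R₁) + htfMs ρ (ball (0 : E (d + 1)) 6 ∩ {y | 1 - 𝔭.b ≤ |u y|}) :=
          measure_union_le _ _
      _ ≤ ENNReal.ofReal (𝔭.β₁ d) + ENNReal.ofReal 𝔭.β₂ := add_le_add (htf_bad_le h) h.wells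
      _ = ENNReal.ofReal (𝔭.β₁ d + 𝔭.β₂) := (ENNReal.ofReal_add hβ₁ h.num.β₂_nonneg).symm
  exact absurd hm (not_lt.2 this)

/-- (E)  (`half`, `n13`, `htf_exists_good` with `S = ball y τ₀ ⊆ ball 0 6`) -/
theorem htf_near_good (h : HtfSit d 𝔭 u eh ρ f) {y : E (d + 1)} (hy : y ∈ ball (0 : E (d + 1)) 5) (hu : |u y| ≤ 1 / 2) :
    ∃ x ∈ ball y 𝔭.τ₀, x ∈ htfG 𝔭 u f := by

  have hβ₁ : 0 ≤ 𝔭.β₁ d := by
    have := h.num.γ_pos
    have := h.num.C₀_pos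
    have := h.num.δ_nonneg
    unfold HtfPar.β₁
    positivity
  have hβ₂ := h.num.β₂_nonneg
  have n13 := h.num.n13
  refine htf_exists_good h ?_ ?_
  · intro x hx
    rw [mem_ball] at hx hy ⊢
    have := h.num.τ₀_le
    calc dist x 0 ≤ dist x y + dist y 0 := dist_triangle _ _ _
      _ < 𝔭.τ₀ + 5 := add_lt_add hx hy
      _ ≤ 6 := by linarith
  · refine lt_of_lt_of_le ?_ (h.half y hy hu)
    rw [ENNReal.ofReal_lt_ofReal_iff (by linarith)]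
    exact n13

/-! ### LEAF L-FL-B2 : pointwise smallness near good points (step C1) -/

/-- PLAN.  Suppose `t := N y > c`.  `N ≤ 3/4 < 1` (`N ≤ ε̂²|Du|² + W ≤ 3W ≤ 3/4`), `K = C₁/ε`, `r' = t/(2K) = t ε/(2C₁) ≤ w` (`n1'`), `ball y r' ⊆ ball x (2w) ⊆ Ω` (`n7`, `n9`).
`htf_lip_int` for `g = N` (`lip`): `∫⁻_{ball y r'} ofReal N ≥ (t/2) ω_{d+1} r'^{d+1}`.   `N ≤ acC ε̂ f ≤ 2 acC ε f`: `∫⁻_{ball y r'} ofReal N ≤ 2 acC ε τ(ball x (2w)) ≤ 2 acC ε γ (2w)^d` (good, `2w ≤ R₁`).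
So `ω_{d+1} t^{d+2} ε^{d+1} ≤ 4 acC ε γ (2w)^d (2C₁)^{d+1}`; with `t > c` this contradicts `n1`. -/
theorem htf_small (h : HtfSit d 𝔭 u eh ρ f) {x : E (d + 1)} (hx : x ∈ ball (0 : E (d + 1)) 6)
    (hg : htfGood (htfMs f) 𝔭.γ 𝔭.R₁ x) {y : E (d + 1)} (hy : y ∈ closedBall x 𝔭.w) : htfN eh u y ≤ 𝔭.c := by

  by_contra hcon
  push Not at hcon
  have hnum := h.num
  have hε := hnum.ε_pos
  have hC₁ := hnum.C₁_pos
  have hc := hnum.c_pos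
  have hγ := hnum.γ_pos
  have hw : 0 < 𝔭.w := by
    have := hnum.n4
    have := hnum.r₁_pos
    linarith
  have hsubΩ : ball x (2 * 𝔭.w) ⊆ ball (0 : E (d + 1)) 𝔭.R := by
    intro y' hy'
    rw [mem_ball] at hx hy' ⊢
    have := hnum.n9
    have := hnum.n7
    calc dist y' 0 ≤ dist y' x + dist x 0 := dist_triangle _ _ _
      _ < 2 * 𝔭.w + 6 := add_lt_add hy' hx
      _ ≤ 𝔭.R := by linarith
  have hyx : y ∈ ball x (2 * 𝔭.w) := by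
    rw [mem_closedBall] at hy
    rw [mem_ball]
    linarith
  have hyΩ := hsubΩ hyx
  obtain ⟨t, ht⟩ : ∃ t, t = htfN eh u y := ⟨_, rfl⟩
  have htc : 𝔭.c < t := by rw [ht]; exact hcon
  have ht0 : 0 < t := hc.trans htc
  have ht1 : t ≤ 1 := by
    have hH := htf_H2_nonneg u y
    have hmod := h.mod y hyΩ
    have hb := h.bdd y hyΩ
    have hW : acW (u y) ≤ 1 / 4 := by
      unfold acW
      have h1 := (sq_le_one_iff_abs_le_one (u y)).2 hb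
      have h2 := sq_nonneg (u y)
      nlinarith
    rw [ht]
    unfold htfN htfH2
    have := mul_nonneg (sq_nonneg (eh y)) (sq_nonneg (htfDt u y))
    nlinarith
  obtain ⟨K, hK⟩ : ∃ K, K = 𝔭.C₁ / 𝔭.ε := ⟨_, rfl⟩
  have hK0 : 0 < K := by rw [hK]; positivity
  have hr' : t / (2 * K) ≤ 𝔭.w := by
    rw [div_le_iff₀ (by positivity), hK]
    have h1 := hnum.n1'
    have h2 : 𝔭.w * (2 * (𝔭.C₁ / 𝔭.ε)) = (2 * 𝔭.C₁ * 𝔭.w) / 𝔭.ε := by ring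
    rw [h2, le_div_iff₀ hε]
    nlinarith
  have hsub : ball y (t / (2 * K)) ⊆ ball x (2 * 𝔭.w) := by
    intro y' hy'
    rw [mem_ball] at hy' ⊢
    rw [mem_closedBall] at hy
    calc dist y' x ≤ dist y' y + dist y x := dist_triangle _ _ _
      _ < t / (2 * K) + 𝔭.w := add_lt_add_of_lt_of_le hy' hy
      _ ≤ 2 * 𝔭.w := by linarith
  have hlow := htf_lip_int (g := htfN eh u) (y := y) ht0 hK0 ht.le
    (fun y' hy' => by rw [hK]; exact h.lip y hyΩ y' (hsubΩ (hsub hy')))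
  have hA : 0 < 2 * acC * 𝔭.ε := by
    have := htf_acC_pos
    positivity
  have hup : ∫⁻ y' in ball y (t / (2 * K)), ENNReal.ofReal (htfN eh u y')
      ≤ ENNReal.ofReal (2 * acC * 𝔭.ε * (𝔭.γ * (2 * 𝔭.w) ^ d)) := by
    calc ∫⁻ y' in ball y (t / (2 * K)), ENNReal.ofReal (htfN eh u y')
        = ∫⁻ y' in ball y (t / (2 * K)), ENNReal.ofReal (2 * acC * 𝔭.ε) * ENNReal.ofReal (htfN eh u y' / (2 * acC * 𝔭.ε)) := by
          refine lintegral_congr fun y' => ?_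
          rw [← ENNReal.ofReal_mul hA.le, mul_div_cancel₀ _ hA.ne']
      _ = ENNReal.ofReal (2 * acC * 𝔭.ε) * ∫⁻ y' in ball y (t / (2 * K)), ENNReal.ofReal (htfN eh u y' / (2 * acC * 𝔭.ε)) :=
          lintegral_const_mul' _ _ ENNReal.ofReal_ne_top
      _ ≤ ENNReal.ofReal (2 * acC * 𝔭.ε) * htfMs f (ball y (t / (2 * K))) := by
          refine mul_le_mul_right (htf_ms_le measurableSet_ball fun y' hy' => ?_) _
          have hy'Ω := hsubΩ (hsub hy')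
          rw [div_le_iff₀ hA]
          have h1 := h.f_lo y' hy'Ω
          have h2 := h.eh_hi y' hy'Ω
          have h3 := htf_f_nonneg h hy'Ω
          have h4 : acC * eh y' * f y' ≤ acC * (2 * 𝔭.ε) * f y' :=
            mul_le_mul_of_nonneg_right (mul_le_mul_of_nonneg_left h2 htf_acC_pos.le) h3
          linarith
      _ ≤ ENNReal.ofReal (2 * acC * 𝔭.ε) * htfMs f (ball x (2 * 𝔭.w)) := mul_le_mul_right (measure_mono hsub) _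
      _ ≤ ENNReal.ofReal (2 * acC * 𝔭.ε) * ENNReal.ofReal (𝔭.γ * (2 * 𝔭.w) ^ d) :=
          mul_le_mul_right (hg (2 * 𝔭.w) (by positivity) hnum.n7) _
      _ = _ := (ENNReal.ofReal_mul hA.le).symm
  have hfin := hlow.trans hup
  rw [ENNReal.ofReal_le_ofReal_iff (by positivity)] at hfin
  have hom : 0 < gmtOm (d + 1) := fl_om_pos _
  have e1 : t / (2 * K) = t * 𝔭.ε / (2 * 𝔭.C₁) := by
    rw [hK]; field_simp
  rw [e1, div_pow, mul_pow] at hfin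
  have hC : 0 < (2 * 𝔭.C₁) ^ (d + 1) := by positivity
  have h5 : gmtOm (d + 1) * t ^ (d + 2) * 𝔭.ε ^ d ≤ 𝔭.γ * (2 * 𝔭.w) ^ d * (4 * acC * (2 * 𝔭.C₁) ^ (d + 1)) := by
    have h6 : t / 2 * (gmtOm (d + 1) * (t ^ (d + 1) * 𝔭.ε ^ (d + 1) / (2 * 𝔭.C₁) ^ (d + 1)))
        = (gmtOm (d + 1) * t ^ (d + 2) * 𝔭.ε ^ d) * 𝔭.ε / (2 * (2 * 𝔭.C₁) ^ (d + 1)) := by
      field_simp
      ring
    rw [h6, div_le_iff₀ (by positivity)] at hfin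
    have h7 : (gmtOm (d + 1) * t ^ (d + 2) * 𝔭.ε ^ d) * 𝔭.ε
        ≤ (𝔭.γ * (2 * 𝔭.w) ^ d * (4 * acC * (2 * 𝔭.C₁) ^ (d + 1))) * 𝔭.ε := by
      refine hfin.trans (le_of_eq ?_)
      ring
    exact le_of_mul_le_mul_right h7 hε
  have h8 := h5.trans hnum.n1
  have h9 : 𝔭.c ^ (d + 2) < t ^ (d + 2) := pow_lt_pow_left₀ htc hc.le (by omega)
  have h10 : gmtOm (d + 1) * 𝔭.c ^ (d + 2) * 𝔭.ε ^ d < gmtOm (d + 1) * t ^ (d + 2) * 𝔭.ε ^ d :=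
    mul_lt_mul_of_pos_right (mul_lt_mul_of_pos_left h9 hom) (by positivity)
  linarith

/-! ### LEAF L-FL-B3 : the window of a good transition point (step C2) -/

/-- **the ODE lemma** (pure 1D; `FL115.md` (C2) with `b₁ = b`; helper115 proves it in `Ht/FlatOde.lean`: cite his theorem or prove directly).
PLAN.  `v = 1 - φ²`, `√(2W(φ)) = v/√2`, `|a φ'| ≤ v/√2`, so `|v'| ≤ 2|φ'| ≤ (2√2/ε) v ≤ (4/ε) v`: `v e^{±4t/ε}` monotone, `v ≥ v(t₁) e^{-4w/ε} ≥ b e^{-4w/ε}` on the window (`v(t₁) ≥ 1 - (1-b)² ≥ b`).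
`a²φ'²/2 ≥ W - c = v²/4 - c ≥ 8c - c > 0`: `φ' ≠ 0`; `φ'` continuous on an interval: constant sign `sg` (IVT).   While `|φ| ≤ 1 - b`: `v ≥ b`, `a²φ'²/2 ≥ b²/4 - c ≥ b²/8`, `|φ'| ≥ b/(2a) ≥ b/(4ε)`;
if `sg φ < 1 - b` at some `t ≥ t₁ + 8ε/b` then `|φ| < 1-b` on `[t₁,t]` (monotone), so `sg φ(t) - sg φ(t₁) ≥ (b/(4ε)) (8ε/b) = 2`: impossible. -/
theorem htf_ode {φ φ' a : ℝ → ℝ} {t₁ w ε b c : ℝ} (hε : 0 < ε) (hb : 0 < b) (hb1 : b ≤ 1 / 4) (hc : 0 < c)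
    (hd : ∀ t ∈ Icc (t₁ - w) (t₁ + w), HasDerivAt φ (φ' t) t) (hcont : ContinuousOn φ' (Icc (t₁ - w) (t₁ + w)))
    (hbd : ∀ t ∈ Icc (t₁ - w) (t₁ + w), |φ t| ≤ 1) (ha : ∀ t ∈ Icc (t₁ - w) (t₁ + w), ε / 2 ≤ a t ∧ a t ≤ 2 * ε)
    (h0 : ∀ t ∈ Icc (t₁ - w) (t₁ + w), 0 ≤ acW (φ t) - a t ^ 2 * φ' t ^ 2 / 2)
    (h1 : ∀ t ∈ Icc (t₁ - w) (t₁ + w), acW (φ t) - a t ^ 2 * φ' t ^ 2 / 2 ≤ c)
    (ht₁ : |φ t₁| < 1 - b) (hw : 8 * ε / b ≤ w) (n2 : 32 * c ≤ (b * Real.exp (-(4 * w / ε))) ^ 2) :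
    ∃ sg : ℝ, (sg = 1 ∨ sg = -1) ∧ (∀ t ∈ Icc (t₁ - w) (t₁ + w), 0 < sg * φ' t) ∧
      (∀ t ∈ Icc (t₁ + 8 * ε / b) (t₁ + w), 1 - b ≤ sg * φ t) ∧ (∀ t ∈ Icc (t₁ - w) (t₁ - 8 * ε / b), sg * φ t ≤ -(1 - b)) := by
  obtain ⟨L, rfl⟩ : ∃ L, w = L * ε := ⟨w / ε, (div_mul_cancel₀ w hε.ne').symm⟩
  have e8 : 8 * ε / b = 8 / b * ε := by ring
  have hL : 8 / b ≤ L := by
    rw [e8] at hw
    exact le_of_mul_le_mul_right hw hε
  have hL0 : 0 < L := lt_of_lt_of_le (by positivity) hL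
  have e4 : 4 * (L * ε) / ε = 4 * L := by field_simp
  rw [e4] at n2
  have hmem : ∀ s ∈ Icc (-(L * ε)) (L * ε), t₁ + s ∈ Icc (t₁ - L * ε) (t₁ + L * ε) := fun s hs =>
    ⟨by linarith [hs.1], by linarith [hs.2]⟩
  have hE0 : 0 < b * Real.exp (-(4 * L)) := mul_pos hb (Real.exp_pos _)
  have hE1 : b * Real.exp (-(4 * L)) ≤ b := by
    have : Real.exp (-(4 * L)) ≤ 1 := Real.exp_le_one_iff.2 (by linarith)
    nlinarith
  have hsq : (b * Real.exp (-(4 * L))) ^ 2 ≤ b ^ 2 := pow_le_pow_left₀ hE0.le hE1 2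
  have hsq0 : 0 < (b * Real.exp (-(4 * L))) ^ 2 := by positivity
  obtain ⟨σ, hσ, p1, p2, p3⟩ := hfo_profile (g := fun s => φ (t₁ + s)) (c := fun s => a (t₁ + s)) (g' := fun s => φ' (t₁ + s))
    (ep := ε) (L := L) (b := b) (b1 := b) (w := c) hε
    (fun s hs => by
      have h2 := (hd _ (hmem s hs)).comp_const_add t₁ s
      exact h2)
    (hcont.comp (by fun_prop) (fun s hs => hmem s hs))
    (fun s hs => (ha _ (hmem s hs)).1) (fun s hs => (ha _ (hmem s hs)).2) (fun s hs => hbd _ (hmem s hs))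
    (fun s hs => h0 _ (hmem s hs)) (fun s hs => h1 _ (hmem s hs))
    (by simpa using ht₁.le) hb le_rfl (by linarith) hL (by linarith) (by linarith)
  refine ⟨σ, hσ, fun t ht => ?_, fun t ht => ?_, fun t ht => ?_⟩
  · have := p1 (t - t₁) ⟨by linarith [ht.1], by linarith [ht.2]⟩
    simpa using this
  · rw [e8] at ht
    have := p2 (t - t₁) ⟨by linarith [ht.1], by linarith [ht.2]⟩
    simpa using this
  · rw [e8] at ht
    have := p3 (t - t₁) ⟨by linarith [ht.1], by linarith [ht.2]⟩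
    simpa using this

theorem htf_dist_join (z : E d) (t t₁ : ℝ) : dist (gmtJoin z t) (gmtJoin z t₁) = |t - t₁| := by
  rw [dist_eq_norm, fl_join_eq, fl_join_eq]
  have e : flInc d z + t • gmtEn d - (flInc d z + t₁ • gmtEn d) = (t - t₁) • gmtEn d := by
    rw [sub_smul]; abel
  rw [e, norm_smul, Real.norm_eq_abs]
  have : ‖gmtEn d‖ = 1 := by simp [gmtEn, eb]
  rw [this, mul_one]

/-- PLAN.  `htf_ode` for `φ t = u (gmtJoin z t)`, `φ' t = htfDt u (gmtJoin z t)`, `a t = eh (gmtJoin z t)`: the segment lies in `closedBall x w ⊆ Ω` (`dist (gmtJoin z t) (gmtJoin z t₁) = |t - t₁|`: `gpb_join_isometry_right`);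
`htf_hasDerivAt_ver`, continuity of `φ'` from `smooth` (`ContDiffOn.continuousOn_fderiv_of_isOpen`), `htf_ode_bd`, `htf_small`, `n2`; `L₀ ≤ w`: `n3`, `n4` (`L₀² ≤ r₁²`). -/
theorem htf_window (h : HtfSit d 𝔭 u eh ρ f) {z : E d} {t₁ : ℝ} (hx : gmtJoin z t₁ ∈ htfG 𝔭 u f) : ∃ sg, HtfWin 𝔭 u z t₁ sg := by
  obtain ⟨hx6, hgood, hux⟩ := hx
  have hn := h.num
  have hr₁ := hn.r₁_pos
  have hw0 : 0 < 𝔭.w := by linarith [hn.n4]
  have hcb : ∀ t ∈ Icc (t₁ - 𝔭.w) (t₁ + 𝔭.w), gmtJoin z t ∈ closedBall (gmtJoin z t₁) 𝔭.w := by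
    intro t ht
    rw [mem_closedBall, htf_dist_join, abs_le]
    exact ⟨by linarith [ht.1], by linarith [ht.2]⟩
  have hsub : closedBall (gmtJoin z t₁) 𝔭.w ⊆ ball (0 : E (d + 1)) 𝔭.R := by
    intro y hy
    rw [mem_ball]
    have h1 : dist y 0 ≤ dist y (gmtJoin z t₁) + dist (gmtJoin z t₁) 0 := dist_triangle _ _ _
    have h2 : dist y (gmtJoin z t₁) ≤ 𝔭.w := hy
    have h3 : dist (gmtJoin z t₁) 0 < 6 := hx6
    linarith [hn.n7, hn.n9]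
  have hΩ : ∀ t ∈ Icc (t₁ - 𝔭.w) (t₁ + 𝔭.w), gmtJoin z t ∈ ball (0 : E (d + 1)) 𝔭.R := fun t ht => hsub (hcb t ht)
  have hjc : Continuous fun t : ℝ => gmtJoin z t := by
    have := (fl_continuous_join (n := d)).comp (Continuous.prodMk (continuous_const (y := z)) continuous_id)
    exact this
  have hcont : ContinuousOn (fun t => htfDt u (gmtJoin z t)) (Icc (t₁ - 𝔭.w) (t₁ + 𝔭.w)) := by
    have h1 : ContinuousOn (fderiv ℝ u) (ball (0 : E (d + 1)) 𝔭.R) :=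
      h.smooth.continuousOn_fderiv_of_isOpen isOpen_ball le_rfl
    have h2 : ContinuousOn (fun y => fderiv ℝ u y (gmtEn d)) (ball (0 : E (d + 1)) 𝔭.R) :=
      h1.clm_apply continuousOn_const
    exact h2.comp hjc.continuousOn hΩ
  have hL : 8 * 𝔭.ε / 𝔭.b ≤ 𝔭.w := by
    have h3 := hn.n3
    have hL0 : 0 ≤ 𝔭.L₀ := by
      unfold HtfPar.L₀
      have := hn.ε_pos
      have := hn.b_pos
      positivity
    have h4 : 𝔭.L₀ ≤ 𝔭.r₁ := by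
      by_contra hcon
      push Not at hcon
      nlinarith [sq_nonneg 𝔭.ϱ]
    have h5 : 𝔭.L₀ = 8 * 𝔭.ε / 𝔭.b := rfl
    linarith [hn.n4]
  obtain ⟨sg, hsg, p1, p2, p3⟩ := htf_ode (φ := fun t => u (gmtJoin z t)) (φ' := fun t => htfDt u (gmtJoin z t))
    (a := fun t => eh (gmtJoin z t)) (t₁ := t₁) (w := 𝔭.w) (ε := 𝔭.ε) (b := 𝔭.b) (c := 𝔭.c) hn.ε_pos hn.b_pos hn.b_le hn.c_pos
    (fun t ht => htf_hasDerivAt_ver (htf_diffAt h (hΩ t ht))) hcont (fun t ht => h.bdd _ (hΩ t ht))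
    (fun t ht => ⟨h.eh_lo _ (hΩ t ht), h.eh_hi _ (hΩ t ht)⟩) (fun t ht => (htf_ode_bd h (hΩ t ht)).1)
    (fun t ht => (htf_ode_bd h (hΩ t ht)).2.trans (htf_small h hx6 hgood (hcb t ht))) hux hL hn.n2
  exact ⟨sg, hsg, p1, p2, p3⟩

/-! ### LEAF L-FL-B4 : the mass ratio of a good transition point at the radius `r₁` (step C3) -/

theorem htf_ms_dist_sq (y x : E (d + 1)) : ‖y - x‖ ^ 2 = ‖gmtHor y - gmtHor x‖ ^ 2 + (gmtVer y - gmtVer x) ^ 2 := by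
  rw [fl_norm_sq]
  have h1 : gmtHor (y - x) = gmtHor y - gmtHor x := map_sub (gmtHorL d) y x
  have h2 : gmtVer (y - x) = gmtVer y - gmtVer x := map_sub (gmtVerL d) y x
  rw [h1, h2]

theorem htf_ms_le_of_sq {a b : ℝ} (hb : 0 ≤ b) (h : a ^ 2 ≤ b ^ 2) : a ≤ b := by
  by_contra hc
  rw [not_le] at hc
  nlinarith

theorem htf_ms_lt_of_sq {a b : ℝ} (hb : 0 ≤ b) (h : a ^ 2 < b ^ 2) : a < b := by
  by_contra hc
  rw [not_lt] at hc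
  nlinarith

theorem htf_ms_L₀_pos (h : HtfSit d 𝔭 u eh ρ f) : 0 < 𝔭.L₀ := by
  have h1 := h.num.ε_pos
  have h2 := h.num.b_pos
  unfold HtfPar.L₀
  positivity

theorem htf_ms_L₀_le (h : HtfSit d 𝔭 u eh ρ f) : 𝔭.L₀ ≤ 𝔭.r₁ :=
  htf_ms_le_of_sq h.num.r₁_pos.le (by nlinarith [h.num.n3, sq_nonneg 𝔭.ϱ])

/-- `closedBall x w ⊆ Ω` for `x ∈ ball 0 6` -/
theorem htf_ms_sub (h : HtfSit d 𝔭 u eh ρ f) {x : E (d + 1)} (hx : x ∈ ball (0 : E (d + 1)) 6) :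
    closedBall x 𝔭.w ⊆ ball (0 : E (d + 1)) 𝔭.R := by
  intro y hy
  rw [mem_ball_zero_iff] at hx ⊢
  rw [mem_closedBall, dist_eq_norm] at hy
  have h1 : ‖y‖ ≤ ‖y - x‖ + ‖x‖ := by
    have := norm_add_le (y - x) x
    rwa [sub_add_cancel] at this
  have h2 := h.num.n7
  have h3 := h.num.n9
  have h4 := h.num.n4
  have h5 := h.num.r₁_pos
  linarith

/-- the closed small cylinder lies in `closedBall x r₁ ⊆ closedBall x w` -/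
theorem htf_ms_cyl (h : HtfSit d 𝔭 u eh ρ f) {z z' : E d} {t₁ t : ℝ} (hz : ‖z' - z‖ ≤ 𝔭.ϱ) (ht : |t - t₁| ≤ 𝔭.L₀) :
    gmtJoin z' t ∈ closedBall (gmtJoin z t₁) 𝔭.w := by
  rw [mem_closedBall, dist_eq_norm]
  have h1 : ‖gmtJoin z' t - gmtJoin z t₁‖ ≤ 𝔭.r₁ := by
    refine htf_ms_le_of_sq h.num.r₁_pos.le ?_
    rw [htf_ms_dist_sq, fl_hor_join, fl_hor_join, fl_ver_join, fl_ver_join]
    have h2 : ‖z' - z‖ ^ 2 ≤ 𝔭.ϱ ^ 2 := pow_le_pow_left₀ (norm_nonneg _) hz 2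
    have h3 : (t - t₁) ^ 2 ≤ 𝔭.L₀ ^ 2 := by
      rw [← sq_abs]
      exact pow_le_pow_left₀ (abs_nonneg _) ht 2
    linarith [h.num.n3]
  linarith [h.num.n4, h.num.r₁_pos]

theorem htf_ms_contOn (h : HtfSit d 𝔭 u eh ρ f) : ContinuousOn (htfDPhi u) (ball (0 : E (d + 1)) 𝔭.R) := by
  unfold htfDPhi htfDt
  have h1 : ContinuousOn u (ball (0 : E (d + 1)) 𝔭.R) := h.smooth.continuousOn
  have h2 : ContinuousOn (fderiv ℝ u) (ball (0 : E (d + 1)) 𝔭.R) :=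
    h.smooth.continuousOn_fderiv_of_isOpen isOpen_ball le_rfl
  exact (((continuousOn_const.sub (h1.pow 2)).div_const _)).mul (h2.clm_apply continuousOn_const)

theorem htf_ms_meas (h : HtfSit d 𝔭 u eh ρ f) : Measurable (htfDPhi u) := by
  unfold htfDPhi htfDt
  exact (((measurable_const.sub (h.mu.pow_const 2)).div_const _)).mul (measurable_fderiv_apply_const ℝ u (gmtEn d))

/-- horizontal oscillation in the small cylinder -/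
theorem htf_ms_osc (h : HtfSit d 𝔭 u eh ρ f) {z z' : E d} {t₁ t : ℝ} (hx : gmtJoin z t₁ ∈ htfG 𝔭 u f)
    (hz : ‖z' - z‖ ≤ 𝔭.ϱ) (ht : |t - t₁| ≤ 𝔭.L₀) : |u (gmtJoin z' t) - u (gmtJoin z t)| ≤ 𝔭.b := by
  have hε := h.num.ε_pos
  have hc := h.num.c_pos
  have hmem : ∀ θ ∈ Icc (0 : ℝ) 1, gmtJoin (z + θ • (z' - z)) t ∈ closedBall (gmtJoin z t₁) 𝔭.w := by
    intro θ hθ
    refine htf_ms_cyl h ?_ ht
    rw [add_sub_cancel_left, norm_smul, Real.norm_of_nonneg hθ.1]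
    calc θ * ‖z' - z‖ ≤ 1 * ‖z' - z‖ := mul_le_mul_of_nonneg_right hθ.2 (norm_nonneg _)
      _ ≤ 𝔭.ϱ := by rwa [one_mul]
  have hK : 0 ≤ 2 * Real.sqrt 𝔭.c / 𝔭.ε := by positivity
  have h1 := htf_hor_osc (u := u) (z := z) (z' := z') (t := t) hK
    (fun θ hθ => htf_diffAt h (htf_ms_sub h hx.1 (hmem θ hθ))) (fun θ hθ => by
      have hΩ := htf_ms_sub h hx.1 (hmem θ hθ)
      have a1 := htf_H2_le h hΩ
      have a2 := htf_small h hx.1 hx.2.1 (hmem θ hθ)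
      have a3 := h.eh_lo _ hΩ
      have a4 := htf_H2_nonneg u (gmtJoin (z + θ • (z' - z)) t)
      have a5 : (𝔭.ε / 2) ^ 2 ≤ eh (gmtJoin (z + θ • (z' - z)) t) ^ 2 := pow_le_pow_left₀ (by positivity) a3 2
      have a6 : (𝔭.ε / 2) ^ 2 * htfH2 u (gmtJoin (z + θ • (z' - z)) t) ≤ 𝔭.c :=
        (mul_le_mul_of_nonneg_right a5 a4).trans (a1.trans a2)
      rw [div_pow, mul_pow, Real.sq_sqrt hc.le, le_div_iff₀ (by positivity)]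
      nlinarith)
  refine h1.trans ?_
  have h2 : 2 * Real.sqrt 𝔭.c / 𝔭.ε * ‖z' - z‖ ≤ 2 * Real.sqrt 𝔭.c / 𝔭.ε * 𝔭.ϱ := mul_le_mul_of_nonneg_left hz hK
  refine h2.trans ?_
  rw [div_mul_eq_mul_div, div_le_iff₀ hε]
  linarith [h.num.n5]

/-- the `Φ`-variation along a vertical line of the small cylinder -/
theorem htf_ms_var (h : HtfSit d 𝔭 u eh ρ f) {z z' : E d} {t₁ sg : ℝ} (hx : gmtJoin z t₁ ∈ htfG 𝔭 u f)
    (hW : HtfWin 𝔭 u z t₁ sg) (hz : ‖z' - z‖ ≤ 𝔭.ϱ) :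
    (1 - 6 * 𝔭.b ^ 2) * acC ≤ |htPhi (u (gmtJoin z' (t₁ + 𝔭.L₀))) - htPhi (u (gmtJoin z' (t₁ - 𝔭.L₀)))| := by
  have hL := htf_ms_L₀_pos h
  have hLw : 𝔭.L₀ ≤ 𝔭.w := by linarith [htf_ms_L₀_le h, h.num.n4, h.num.r₁_pos]
  have hb := h.num.b_pos
  have hb' := h.num.b_le
  have ep : |t₁ + 𝔭.L₀ - t₁| ≤ 𝔭.L₀ := by rw [add_sub_cancel_left, abs_of_pos hL]
  have em : |t₁ - 𝔭.L₀ - t₁| ≤ 𝔭.L₀ := by rw [sub_sub_cancel_left, abs_neg, abs_of_pos hL]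
  have o1 := abs_le.1 (htf_ms_osc h hx hz ep)
  have o2 := abs_le.1 (htf_ms_osc h hx hz em)
  have u1 := hW.up (t₁ + 𝔭.L₀) ⟨le_rfl, by linarith⟩
  have u2 := hW.dn (t₁ - 𝔭.L₀) ⟨by linarith, le_rfl⟩
  have b1 := abs_le.1 (h.bdd _ (htf_ms_sub h hx.1 (htf_ms_cyl h hz ep)))
  have b2 := abs_le.1 (h.bdd _ (htf_ms_sub h hx.1 (htf_ms_cyl h hz em)))
  have hn := htf_phi_near hb.le hb'
  have m1 : (1 - 2 * 𝔭.b) ∈ Icc (-1 : ℝ) 1 := ⟨by linarith, by linarith⟩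
  have m2 : -(1 - 2 * 𝔭.b) ∈ Icc (-1 : ℝ) 1 := ⟨by linarith, by linarith⟩
  rcases hW.sgn with rfl | rfl
  · have c1 := htf_phi_mono m1 (show u (gmtJoin z' (t₁ + 𝔭.L₀)) ∈ Icc (-1 : ℝ) 1 from b1) (by linarith [o1.1])
    have c2 := htf_phi_mono (show u (gmtJoin z' (t₁ - 𝔭.L₀)) ∈ Icc (-1 : ℝ) 1 from b2) m2 (by linarith [o2.2])
    rw [htf_phi_odd] at c2
    exact le_trans (by linarith) (le_abs_self _)
  · have c1 := htf_phi_mono (show u (gmtJoin z' (t₁ + 𝔭.L₀)) ∈ Icc (-1 : ℝ) 1 from b1) m2 (by linarith [o1.2])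
    have c2 := htf_phi_mono m1 (show u (gmtJoin z' (t₁ - 𝔭.L₀)) ∈ Icc (-1 : ℝ) 1 from b2) (by linarith [o2.1])
    rw [htf_phi_odd] at c1
    exact le_trans (by linarith) (neg_le_abs _)

/-- the line integral -/
theorem htf_ms_line (h : HtfSit d 𝔭 u eh ρ f) {z z' : E d} {t₁ sg : ℝ} (hx : gmtJoin z t₁ ∈ htfG 𝔭 u f)
    (hW : HtfWin 𝔭 u z t₁ sg) (hz : ‖z' - z‖ ≤ 𝔭.ϱ) :
    ENNReal.ofReal (1 - 6 * 𝔭.b ^ 2) ≤ ∫⁻ t in Ioo (t₁ - 𝔭.L₀) (t₁ + 𝔭.L₀), ENNReal.ofReal |htfDPhi u (gmtJoin z' t) / acC| := by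
  have hL := htf_ms_L₀_pos h
  have hC := htf_acC_pos
  have hmem : ∀ t ∈ Icc (t₁ - 𝔭.L₀) (t₁ + 𝔭.L₀), gmtJoin z' t ∈ ball (0 : E (d + 1)) 𝔭.R := by
    intro t ht
    refine htf_ms_sub h hx.1 (htf_ms_cyl h hz ?_)
    rw [abs_le]
    exact ⟨by linarith [ht.1], by linarith [ht.2]⟩
  have hj : Continuous fun t : ℝ => gmtJoin z' t := fl_continuous_join.comp (continuous_const.prodMk continuous_id)
  have h1 := htf_ftc_ge (φ := fun t => htPhi (u (gmtJoin z' t)) / acC) (φ' := fun t => htfDPhi u (gmtJoin z' t) / acC)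
    (a := t₁ - 𝔭.L₀) (b := t₁ + 𝔭.L₀) (by linarith)
    (fun t ht => (htf_hasDerivAt_phi (htf_diffAt h (hmem t ht))).div_const acC)
    (((htf_ms_contOn h).comp hj.continuousOn hmem).div_const acC)
  refine le_trans (ENNReal.ofReal_le_ofReal ?_) h1
  rw [← sub_div, abs_div, abs_of_pos hC, le_div_iff₀ hC]
  exact htf_ms_var h hx hW hz

/-- PLAN.  `x = gmtJoin z t₁` (`fl_join_hor_ver`), window `sg` (`htf_window`), `t± = t₁ ± L₀`.   For `‖z' - z‖ < ϱ`: the horizontal segments at the heights `t±` lie in `closedBall x r₁ ⊆ closedBall x w` (`n3`, `n4`, `fl_norm_sq`), there `ε̂²|D'u|² ≤ N ≤ c`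
(`htf_H2_le`, `htf_small`), so `|D'u|² ≤ 4c/ε²`, `htf_hor_osc` with `K = 2√c/ε`: `|u(z',t±) - u(z,t±)| ≤ 2ϱ√c/ε ≤ b` (`n5`).   So `sg u(z',t₊) ≥ 1-2b`, `sg u(z',t₋) ≤ -(1-2b)`;
`∫⁻_{Ioo t₋ t₊} ofReal |V(z',t)| ≥ ofReal |Φ(u(z',t₊)) - Φ(u(z',t₋))| ≥ ofReal (2Φ(1-2b)) ≥ ofReal ((1-6b²) acC)` (`htf_ftc_ge`, `htf_hasDerivAt_phi`, `htf_phi_mono`, `htf_phi_odd`, `htf_phi_near`).
`μ(ball x r₁) ≥ μ(cyl) ≥ acC⁻¹ ∫⁻_{cyl} ofReal |V|` (`htf_V_le`, `htf_ms_le`), `cyl = {‖hor y - z‖ < ϱ, ver y ∈ Ioo t₋ t₊} ⊆ ball x r₁`; `htf_tonelli'`, `htf_vol_ball`: `≥ (1-6b²) ω_d ϱ^d ≥ (1-s₁) ω_d r₁^d` (`n6`). -/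
theorem htf_mass (h : HtfSit d 𝔭 u eh ρ f) {x : E (d + 1)} (hx : x ∈ htfG 𝔭 u f) :
    ENNReal.ofReal ((1 - 𝔭.s₁) * gmtOm d * 𝔭.r₁ ^ d) ≤ htfMs ρ (ball x 𝔭.r₁) := by
  obtain ⟨z, t₁, rfl⟩ : ∃ z t₁, x = gmtJoin z t₁ := ⟨gmtHor x, gmtVer x, (fl_join_hor_ver x).symm⟩
  obtain ⟨sg, hW⟩ := htf_window h hx
  have hC := htf_acC_pos
  have hL := htf_ms_L₀_pos h
  set cyl : Set (E (d + 1)) := {y | ‖gmtHor y - z‖ < 𝔭.ϱ ∧ gmtVer y ∈ Ioo (t₁ - 𝔭.L₀) (t₁ + 𝔭.L₀)} with hcyl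
  have hcm : MeasurableSet cyl :=
    ((isOpen_lt (fl_continuous_hor.sub continuous_const).norm continuous_const).inter
      (isOpen_Ioo.preimage fl_continuous_ver)).measurableSet
  have hsub : cyl ⊆ ball (gmtJoin z t₁) 𝔭.r₁ := by
    intro y hy
    rw [mem_ball, dist_eq_norm]
    refine htf_ms_lt_of_sq h.num.r₁_pos.le ?_
    rw [htf_ms_dist_sq, fl_hor_join, fl_ver_join]
    have h2 : ‖gmtHor y - z‖ ^ 2 < 𝔭.ϱ ^ 2 := pow_lt_pow_left₀ hy.1 (norm_nonneg _) (by norm_num)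
    have h3 : (gmtVer y - t₁) ^ 2 ≤ 𝔭.L₀ ^ 2 := by
      rw [← sq_abs]
      refine pow_le_pow_left₀ (abs_nonneg _) ?_ 2
      rw [abs_le]
      exact ⟨by linarith [hy.2.1], by linarith [hy.2.2]⟩
    linarith [h.num.n3]
  have hcΩ : cyl ⊆ ball (0 : E (d + 1)) 𝔭.R := fun y hy =>
    htf_ms_sub h hx.1 (closedBall_subset_closedBall (by linarith [h.num.n4, h.num.r₁_pos]) (ball_subset_closedBall (hsub hy)))
  have hFm : Measurable fun y : E (d + 1) => ENNReal.ofReal |htfDPhi u y / acC| :=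
    (((htf_ms_meas h).div_const acC).abs).ennreal_ofReal
  have hb1 : 0 ≤ 1 - 6 * 𝔭.b ^ 2 := by nlinarith [h.num.b_pos, h.num.b_le]
  calc ENNReal.ofReal ((1 - 𝔭.s₁) * gmtOm d * 𝔭.r₁ ^ d)
      ≤ ENNReal.ofReal ((1 - 6 * 𝔭.b ^ 2) * (gmtOm d * 𝔭.ϱ ^ d)) := by
        refine ENNReal.ofReal_le_ofReal ?_
        have hω : 0 ≤ gmtOm d := ENNReal.toReal_nonneg
        have := mul_le_mul_of_nonneg_left h.num.n6 hω
        linarith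
    _ = ENNReal.ofReal (1 - 6 * 𝔭.b ^ 2) * volume (ball z 𝔭.ϱ) := by
        rw [htf_vol_ball z h.num.ϱ_pos, ENNReal.ofReal_mul hb1]
    _ = ∫⁻ _ in ball z 𝔭.ϱ, ENNReal.ofReal (1 - 6 * 𝔭.b ^ 2) := by rw [setLIntegral_const]
    _ ≤ ∫⁻ z' in ball z 𝔭.ϱ, ∫⁻ t in Ioo (t₁ - 𝔭.L₀) (t₁ + 𝔭.L₀), ENNReal.ofReal |htfDPhi u (gmtJoin z' t) / acC| := by
        refine setLIntegral_mono' measurableSet_ball fun z' hz' => htf_ms_line h hx hW ?_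
        rw [mem_ball, dist_eq_norm] at hz'
        exact hz'.le
    _ = ∫⁻ y in cyl, ENNReal.ofReal |htfDPhi u y / acC| := (htf_tonelli' hFm z).symm
    _ ≤ htfMs ρ cyl := by
        refine htf_ms_le hcm fun y hy => ?_
        rw [abs_div, abs_of_pos hC, div_le_iff₀ hC, mul_comm]
        exact htf_V_le h (hcΩ hy)
    _ ≤ htfMs ρ (ball (gmtJoin z t₁) 𝔭.r₁) := measure_mono hsub

/-- (`htf_mass`, `mono`; ENNReal arithmetic: `μ(ball x r₁) r^d ≤ μ(ball x r) r₁^d`, cancel `r₁^d > 0`) -/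
theorem htf_mass' (h : HtfSit d 𝔭 u eh ρ f) {x : E (d + 1)} (hx : x ∈ htfG 𝔭 u f) {r : ℝ} (hr : 𝔭.r₁ ≤ r) :
    ENNReal.ofReal ((1 - 𝔭.s₁) * gmtOm d * r ^ d) ≤ htfMs ρ (ball x r) := by
  have hr₁ := h.num.r₁_pos
  have h1 := htf_mass h hx
  have h2 := h.mono x 𝔭.r₁ r hr₁ hr
  have hp : 0 < 𝔭.r₁ ^ d := by positivity
  have hp' : 0 ≤ r ^ d := by have : 0 ≤ r := by linarith
                             positivity
  have h3 : ENNReal.ofReal ((1 - 𝔭.s₁) * gmtOm d * r ^ d) * ENNReal.ofReal (𝔭.r₁ ^ d)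
      ≤ htfMs ρ (ball x r) * ENNReal.ofReal (𝔭.r₁ ^ d) := by
    calc ENNReal.ofReal ((1 - 𝔭.s₁) * gmtOm d * r ^ d) * ENNReal.ofReal (𝔭.r₁ ^ d)
        = ENNReal.ofReal ((1 - 𝔭.s₁) * gmtOm d * 𝔭.r₁ ^ d) * ENNReal.ofReal (r ^ d) := by
          rw [← ENNReal.ofReal_mul' hp.le, ← ENNReal.ofReal_mul' hp']
          congr 1
          ring
      _ ≤ htfMs ρ (ball x 𝔭.r₁) * ENNReal.ofReal (r ^ d) := mul_le_mul_left h1 _
      _ ≤ _ := h2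
  exact (ENNReal.mul_le_mul_iff_left (by simpa using hp) ENNReal.ofReal_ne_top).1 h3

end Claimed.Agent.R323
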