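import Claimed.Agent.R323.Ht.FlatB

/-!
# Row 323, block C, unit FL: SEPARATION, SIGNS, LINES (steps D, F, G of `FL115.md` in the abstract situation `HtfSit`).   Cutter: helper105.   Prefix `htf_`.
LEAVES  L-FL-C1 … L-FL-C5.   Replace `sorry` IN PLACE, statements verbatim, helpers above the theorem (prefix `htf_`).  All leaves are independent (cite the other statements as black boxes).
-/

set_option autoImplicit false
open scoped ContDiff ENNReal NNReal RealInnerProductSpace Topology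
open MeasureTheory Metric Set Filter

namespace Claimed.Agent.R323

open Claimed.Agent.Gmt

variable {d : ℕ} {𝔭 : HtfPar} {u eh ρ f : E (d + 1) → ℝ}

/-! ### LEAF L-FL-C1 : two good transition points (step D) -/

theorem htf_ver_sub (x y : E (d + 1)) : gmtVer x - gmtVer y = gmtVer (x - y) := by
  unfold gmtVer
  rw [map_sub]

theorem htf_hor_sub (x y : E (d + 1)) : gmtHor x - gmtHor y = gmtHor (x - y) := by
  unfold gmtHor
  rw [map_sub]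

theorem htf_dist_lt12 {x₁ x₂ : E (d + 1)} (h1 : x₁ ∈ ball (0 : E (d + 1)) 6) (h2 : x₂ ∈ ball (0 : E (d + 1)) 6) : ‖x₂ - x₁‖ < 12 := by
  rw [mem_ball_zero_iff] at h1 h2
  have := norm_sub_le x₂ x₁
  linarith

/-- **ordered form.**  PLAN.  `D = ver x₂ - ver x₁ ∈ [4r₁, 12)`, `H = s₂ M D`.   `two` with `M = 𝔭.M`, `c₁ = (1-s₁) ω_d`, `σ`, `γ`, `C₀` of `𝔭`:
* ratio at `D/4 ≥ r₁`: `htf_mass'`;   * for `D/4 ≤ r ≤ M D`: `3r ≤ 36 M ≤ R₁` (`n7'`): tilt by goodness, mass by `upper`.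
Conclusion: `(M D)^d (2 c₁ (1-σ)^d - C₂(..)) ≤ μ(ball x₁ (M D + H + 2D)) ≤ C₀ (M D + H + 2 D)^d = C₀ (M D)^d (1 + s₂ + 2/M)^d` (`upper`; `ENNReal.ofReal_le_ofReal_iff`, the right side is `≥ 0`), against `n10` (`(M D)^d > 0`). -/
theorem htf_two_ord (h : HtfSit d 𝔭 u eh ρ f) {x₁ x₂ : E (d + 1)} (h1 : x₁ ∈ htfG 𝔭 u f) (h2 : x₂ ∈ htfG 𝔭 u f)
    (hD : 4 * 𝔭.r₁ ≤ gmtVer x₂ - gmtVer x₁) (hH : ‖gmtHor x₂ - gmtHor x₁‖ ≤ 𝔭.s₂ * 𝔭.M * (gmtVer x₂ - gmtVer x₁)) : False := by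
  have hn := h.num
  obtain ⟨D, hDdef⟩ : ∃ D, D = gmtVer x₂ - gmtVer x₁ := ⟨_, rfl⟩
  rw [← hDdef] at hD hH
  have hr₁ := hn.r₁_pos
  have hD0 : 0 < D := by linarith
  have hD12 : D < 12 := by
    have e1 := fl_abs_ver_le (x₂ - x₁)
    rw [← htf_ver_sub, ← hDdef] at e1
    have e2 := htf_dist_lt12 h1.1 h2.1
    have e3 := le_abs_self D
    linarith
  have hM := hn.M_ge
  have hM0 : 0 < 𝔭.M := by linarith
  have hG : ∀ x, x = x₁ ∨ x = x₂ → x ∈ htfG 𝔭 u f := by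
    rintro x (rfl | rfl)
    · exact h1
    · exact h2
  have key := h.two x₁ x₂ D (𝔭.s₂ * 𝔭.M * D) 𝔭.M ((1 - 𝔭.s₁) * gmtOm d) 𝔭.σ 𝔭.γ 𝔭.C₀ hD0 hDdef.symm hH hM hn.σ_pos hn.σ_le
    hn.γ_pos.le hn.C₀_pos.le (fun x hx => htf_mass' h (hG x hx) (by linarith))
    (fun x hx r hr1 hr2 => ⟨(hG x hx).2.1 (3 * r) (by linarith) (by
      have : 𝔭.M * D ≤ 𝔭.M * 12 := mul_le_mul_of_nonneg_left hD12.le hM0.le
      have := hn.n7'
      linarith), h.upper x (3 * r) (by linarith)⟩)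
  have hrad : 0 < 𝔭.M * D + 𝔭.s₂ * 𝔭.M * D + 2 * D := by
    have := hn.s₂_pos
    positivity
  have key2 := key.trans (h.upper x₁ _ hrad)
  rw [ENNReal.ofReal_le_ofReal_iff (by have := hn.C₀_pos; positivity)] at key2
  have e : 𝔭.M * D + 𝔭.s₂ * 𝔭.M * D + 2 * D = (𝔭.M * D) * (1 + 𝔭.s₂ + 2 / 𝔭.M) := by
    field_simp
  rw [e, mul_pow (𝔭.M * D) (1 + 𝔭.s₂ + 2 / 𝔭.M)] at key2
  have hMD : 0 < (𝔭.M * D) ^ d := by positivity
  have n10 := hn.n10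
  have key3 : (𝔭.M * D) ^ d * (2 * ((1 - 𝔭.s₁) * gmtOm d) * (1 - 𝔭.σ) ^ d
      - 𝔭.C₂ * (𝔭.γ * Real.log (4 * 𝔭.M) + 𝔭.M * Real.sqrt (𝔭.γ * 𝔭.C₀))) ≤ (𝔭.M * D) ^ d * (𝔭.C₀ * (1 + 𝔭.s₂ + 2 / 𝔭.M) ^ d) := by
    calc _ ≤ _ := key2
      _ = _ := by ring
  have := le_of_mul_le_mul_left key3 hMD
  linarith

/-- (symmetrise `htf_two_ord`: `le_total`, `norm_sub_rev`, `abs_of_nonneg` / `abs_of_nonpos`) -/
theorem htf_two_pts (h : HtfSit d 𝔭 u eh ρ f) {x₁ x₂ : E (d + 1)} (h1 : x₁ ∈ htfG 𝔭 u f) (h2 : x₂ ∈ htfG 𝔭 u f)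
    (hD : 4 * 𝔭.r₁ ≤ |gmtVer x₂ - gmtVer x₁|) (hH : ‖gmtHor x₂ - gmtHor x₁‖ ≤ 𝔭.s₂ * 𝔭.M * |gmtVer x₂ - gmtVer x₁|) : False := by
  rcases le_total 0 (gmtVer x₂ - gmtVer x₁) with h0 | h0
  · rw [abs_of_nonneg h0] at hD hH
    exact htf_two_ord h h1 h2 hD hH
  · rw [abs_of_nonpos h0, neg_sub] at hD hH
    rw [norm_sub_rev] at hH
    exact htf_two_ord h h2 h1 hD hH

/-- (D i)  all the good transition points lie in a slab of height `τ₀`  (`‖hor x₂ - hor x₁‖ ≤ ‖x₂ - x₁‖ < 12 ≤ s₂ M τ₀`: `n12'`, `fl_norm_hor_le`; `4r₁ ≤ τ₀`: `n12`). -/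
theorem htf_sep (h : HtfSit d 𝔭 u eh ρ f) {x₁ x₂ : E (d + 1)} (h1 : x₁ ∈ htfG 𝔭 u f) (h2 : x₂ ∈ htfG 𝔭 u f) :
    |gmtVer x₂ - gmtVer x₁| < 𝔭.τ₀ := by
  by_contra hc
  rw [not_lt] at hc
  have hn := h.num
  refine htf_two_pts h h1 h2 (hn.n12.trans hc) ?_
  have e1 := fl_norm_hor_le (x₂ - x₁)
  rw [← htf_hor_sub] at e1
  have e2 := htf_dist_lt12 h1.1 h2.1
  have e3 : 𝔭.s₂ * 𝔭.M * 𝔭.τ₀ ≤ 𝔭.s₂ * 𝔭.M * |gmtVer x₂ - gmtVer x₁| :=
    mul_le_mul_of_nonneg_left hc (mul_nonneg hn.s₂_pos.le (by linarith [hn.M_ge]))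
  have := hn.n12'
  linarith

/-- (D ii)  two good transition points on one vertical line  (`H = 0`; `fl_hor_join`, `fl_ver_join`; `4 r₁ ≤ w`: `n4`). -/
theorem htf_sep_line (h : HtfSit d 𝔭 u eh ρ f) {z : E d} {t₁ t₂ : ℝ} (h1 : gmtJoin z t₁ ∈ htfG 𝔭 u f) (h2 : gmtJoin z t₂ ∈ htfG 𝔭 u f) :
    |t₂ - t₁| < 𝔭.w := by
  by_contra hc
  rw [not_lt] at hc
  have hn := h.num
  refine htf_two_pts h h1 h2 ?_ ?_
  · rw [fl_ver_join, fl_ver_join]
    exact hn.n4.trans hc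
  · rw [fl_hor_join, fl_hor_join, sub_self, norm_zero]
    exact mul_nonneg (mul_nonneg hn.s₂_pos.le (by linarith [hn.M_ge])) (abs_nonneg _)

/-! ### LEAF L-FL-C2 : the sign above the slab (step F) -/

/-- no point with `|u| ≤ 1/2` far from the height of a good transition point  (`htf_near_good`: `x' ∈ ball y τ₀` good; `htf_sep x' x`; `|ver y - ver x'| ≤ ‖y - x'‖ < τ₀`: `fl_abs_ver_le`). -/
theorem htf_flat (h : HtfSit d 𝔭 u eh ρ f) {x : E (d + 1)} (hx : x ∈ htfG 𝔭 u f) {y : E (d + 1)} (hy : y ∈ ball (0 : E (d + 1)) 5)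
    (hu : |u y| ≤ 1 / 2) : |gmtVer y - gmtVer x| < 2 * 𝔭.τ₀ := by
  obtain ⟨x', hx'b, hx'G⟩ := htf_near_good h hy hu
  have e1 := htf_sep h hx hx'G
  have e2 := fl_abs_ver_le (y - x')
  rw [← htf_ver_sub] at e2
  rw [mem_ball, dist_comm, dist_eq_norm] at hx'b
  have e3 := abs_sub_le (gmtVer y) (gmtVer x') (gmtVer x)
  linarith

/-- PLAN.  `A = {y ∈ ball 0 5 | ver x + 2τ₀ ≤ ver y}` is convex, `u` is continuous on `A ⊆ Ω`, `|u| > 1/2` on `A` (`htf_flat`).   If `A = ∅` take `sp = 1`.  Otherwise fix `y₀ ∈ A`, `sp = ` sign of `u y₀`; for `y ∈ A`: if `sp u y ≤ 1/2` then `sp u y < -1/2`,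
IVT on the segment `[y₀,y] ⊆ A` (`IsPreconnected.intermediate_value` for `A`, `Convex.isPreconnected`) gives a zero of `u` in `A`: contradiction. -/
theorem htf_sign (h : HtfSit d 𝔭 u eh ρ f) {x : E (d + 1)} (hx : x ∈ htfG 𝔭 u f) :
    ∃ sp : ℝ, (sp = 1 ∨ sp = -1) ∧ ∀ y ∈ ball (0 : E (d + 1)) 5, gmtVer x + 2 * 𝔭.τ₀ ≤ gmtVer y → 1 / 2 < sp * u y := by
  have hn := h.num
  set A : Set (E (d + 1)) := ball (0 : E (d + 1)) 5 ∩ {y | gmtVer x + 2 * 𝔭.τ₀ ≤ gmtVer y} with hA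
  have hconv : Convex ℝ A := by
    refine (convex_ball _ _).inter ?_
    have : {y : E (d + 1) | gmtVer x + 2 * 𝔭.τ₀ ≤ gmtVer y} = {y | gmtVer x + 2 * 𝔭.τ₀ ≤ gmtVerL d y} := rfl
    rw [this]
    exact convex_halfSpace_ge (gmtVerL d).isLinear _
  have hR : (5 : ℝ) ≤ 𝔭.R := by
    have := hn.n9
    have := hn.n7
    have := hn.n4
    have := hn.r₁_pos
    linarith
  have hsub : A ⊆ ball (0 : E (d + 1)) 𝔭.R := fun y hy => ball_subset_ball hR hy.1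
  have hcont : ContinuousOn u A := h.smooth.continuousOn.mono hsub
  have hbig : ∀ y ∈ A, 1 / 2 < |u y| := by
    intro y hy
    by_contra hc
    rw [not_lt] at hc
    have e1 := htf_flat h hx hy.1 hc
    have e2 : gmtVer x + 2 * 𝔭.τ₀ ≤ gmtVer y := hy.2
    have e3 := le_abs_self (gmtVer y - gmtVer x)
    linarith
  have hnz : ∀ y ∈ A, u y ≠ 0 := by
    intro y hy h0
    have := hbig y hy
    rw [h0, abs_zero] at this
    linarith
  rcases A.eq_empty_or_nonempty with hE | ⟨y₀, hy₀⟩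
  · refine ⟨1, Or.inl rfl, fun y hy1 hy2 => ?_⟩
    have : y ∈ A := ⟨hy1, hy2⟩
    rw [hE] at this
    exact absurd this (notMem_empty y)
  · have hpre := hconv.isPreconnected
    rcases lt_or_gt_of_ne (hnz y₀ hy₀) with h0 | h0
    · refine ⟨-1, Or.inr rfl, fun y hy1 hy2 => ?_⟩
      have hyA : y ∈ A := ⟨hy1, hy2⟩
      have hneg : u y < 0 := by
        by_contra hc
        rw [not_lt] at hc
        obtain ⟨w, hwA, hw0⟩ := hpre.intermediate_value hy₀ hyA hcont ⟨h0.le, hc⟩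
        exact hnz w hwA hw0
      have := hbig y hyA
      rw [abs_of_neg hneg] at this
      linarith
    · refine ⟨1, Or.inl rfl, fun y hy1 hy2 => ?_⟩
      have hyA : y ∈ A := ⟨hy1, hy2⟩
      have hpos : 0 < u y := by
        by_contra hc
        rw [not_lt] at hc
        obtain ⟨w, hwA, hw0⟩ := hpre.intermediate_value hyA hy₀ hcont ⟨hc, h0.le⟩
        exact hnz w hwA hw0
      have := hbig y hyA
      rw [abs_of_pos hpos] at this
      linarith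

/-! ### LEAF L-FL-C3 : the crossing lemma (pure 1D; helper115 proves it in `Ht/FlatOde.lean`: cite his theorem or prove directly) -/

/-- PLAN.  `a' = sSup {t ∈ [a,b] | 1/2 ≤ g t}` … simpler: `b' = sInf {t ∈ [a,b] | g t ≤ -1/2}` (closed, nonempty), `a' = sSup {t ∈ [a,b'] | 1/2 ≤ g t}`: `g a' = 1/2`, `g b' = -1/2`, `|g| < 1/2` on `Ioo a' b'`.
`∫⁻_{Ioo a b ∩ {|g| < 1/2}} ≥ ∫⁻_{Ioo a' b'} ofReal |(Φ∘g)'| ≥ ofReal |Φ(g b') - Φ(g a')| = ofReal htfcΦ` (`htf_ftc_ge`, `htf_phi_hasDerivAt`, `lintegral_mono_set`). -/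
theorem htf_cross {g g' : ℝ → ℝ} {a b : ℝ} (hab : a ≤ b) (hd : ∀ t ∈ Icc a b, HasDerivAt g (g' t) t) (hc : ContinuousOn g' (Icc a b))
    (ha : 1 / 2 ≤ g a) (hb : g b ≤ -(1 / 2)) :
    ENNReal.ofReal htfcΦ ≤ ∫⁻ t in Ioo a b ∩ {t | |g t| < 1 / 2}, ENNReal.ofReal |(1 - g t ^ 2) / Real.sqrt 2 * g' t| := by
  have h := hfo_cross_down hab (by norm_num : (0 : ℝ) < 1 / 2) hd hc ha hb
  have e : htfcΦ = 2 * htPhi (1 / 2) := by
    unfold htfcΦ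
    rw [hfo_phi_neg]
    ring
  have hcont : ContinuousOn g (Icc a b) := fun t ht => (hd t ht).continuousAt.continuousWithinAt
  have hFc : ContinuousOn (fun t => |(1 - g t ^ 2) / Real.sqrt 2 * g' t|) (Icc a b) :=
    ((((continuousOn_const.sub (hcont.pow 2)).div_const _).mul hc)).abs
  have hint : IntegrableOn (fun t => |(1 - g t ^ 2) / Real.sqrt 2 * g' t|) (Icc a b ∩ {t | |g t| < 1 / 2}) :=
    hFc.integrableOn_Icc.mono_set inter_subset_left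
  have hae : (Ioo a b ∩ {t | |g t| < 1 / 2} : Set ℝ) =ᵐ[volume] (Icc a b ∩ {t | |g t| < 1 / 2} : Set ℝ) :=
    Ioo_ae_eq_Icc.inter (ae_eq_refl _)
  rw [setLIntegral_congr hae, ← ofReal_integral_eq_lintegral_ofReal hint (Eventually.of_forall fun t => abs_nonneg _), e]
  exact ENNReal.ofReal_le_ofReal h

/-! ### LEAF L-FL-C4 : the good transition points of a line (step G, first half) -/

/-- `0 ≤ L₀ ≤ w` (`n3`, `n4`). -/
theorem htf_c4_L0 (h : HtfNum d 𝔭) : 0 ≤ 𝔭.L₀ ∧ 𝔭.L₀ ≤ 𝔭.w := by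
  have h0 : 0 ≤ 𝔭.L₀ := by
    unfold HtfPar.L₀
    have := h.ε_pos
    have := h.b_pos
    positivity
  have h1 : 𝔭.L₀ ≤ 𝔭.r₁ := by
    refine abs_le_of_sq_le_sq' ?_ h.r₁_pos.le |>.2
    nlinarith [h.n3, sq_nonneg 𝔭.ϱ]
  exact ⟨h0, by linarith [h.n4, h.r₁_pos]⟩

/-- the window lies in the domain. -/
theorem htf_c4_mem (h : HtfSit d 𝔭 u eh ρ f) {z : E d} {t₁ : ℝ} (hx : gmtJoin z t₁ ∈ htfG 𝔭 u f) {t : ℝ}
    (ht : t ∈ Icc (t₁ - 𝔭.w) (t₁ + 𝔭.w)) : gmtJoin z t ∈ ball (0 : E (d + 1)) 𝔭.R := by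
  have h1 : dist (gmtJoin z t) (gmtJoin z t₁) = dist t t₁ := (gpb_join_isometry_right z).dist_eq t t₁
  have h2 : dist t t₁ ≤ 𝔭.w := by
    rw [Real.dist_eq, abs_le]
    constructor <;> linarith [ht.1, ht.2]
  have h3 : dist (gmtJoin z t₁) 0 < 6 := hx.1
  have hw : 0 ≤ 𝔭.w := (htf_c4_L0 h.num).1.trans (htf_c4_L0 h.num).2
  rw [mem_ball]
  calc dist (gmtJoin z t) 0 ≤ dist (gmtJoin z t) (gmtJoin z t₁) + dist (gmtJoin z t₁) 0 := dist_triangle _ _ _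
    _ < 𝔭.w + 6 := by linarith
    _ ≤ 𝔭.R := by linarith [h.num.n7, h.num.n9]

/-- `sg V ≥ 0` in the window. -/
theorem htf_c4_pos (h : HtfSit d 𝔭 u eh ρ f) {z : E d} {t₁ sg : ℝ} (hx : gmtJoin z t₁ ∈ htfG 𝔭 u f) (hw : HtfWin 𝔭 u z t₁ sg)
    {t : ℝ} (ht : t ∈ Icc (t₁ - 𝔭.w) (t₁ + 𝔭.w)) : 0 ≤ sg * htfDPhi u (gmtJoin z t) := by
  have h1 := hw.pos t ht
  have h2 := abs_le.1 (h.bdd _ (htf_c4_mem h hx ht))
  have h3 : 0 ≤ 1 - u (gmtJoin z t) ^ 2 := by nlinarith [h2.1, h2.2]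
  have h4 : 0 ≤ (1 - u (gmtJoin z t) ^ 2) / Real.sqrt 2 := div_nonneg h3 (Real.sqrt_nonneg _)
  unfold htfDPhi
  calc 0 ≤ (1 - u (gmtJoin z t) ^ 2) / Real.sqrt 2 * (sg * htfDt u (gmtJoin z t)) := mul_nonneg h4 h1.le
    _ = _ := by ring

/-- continuity of `V` along the window. -/
theorem htf_c4_cont (h : HtfSit d 𝔭 u eh ρ f) {z : E d} {t₁ : ℝ} (hx : gmtJoin z t₁ ∈ htfG 𝔭 u f) :
    ContinuousOn (fun t => htfDPhi u (gmtJoin z t)) (Icc (t₁ - 𝔭.w) (t₁ + 𝔭.w)) := by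
  have hj : Continuous fun t : ℝ => gmtJoin z t := (gpb_join_isometry_right z).continuous
  have hm : MapsTo (fun t : ℝ => gmtJoin z t) (Icc (t₁ - 𝔭.w) (t₁ + 𝔭.w)) (ball (0 : E (d + 1)) 𝔭.R) :=
    fun t ht => htf_c4_mem h hx ht
  have h1 : ContinuousOn u (ball (0 : E (d + 1)) 𝔭.R) := h.smooth.continuousOn
  have h2 : ContinuousOn (fderiv ℝ u) (ball (0 : E (d + 1)) 𝔭.R) :=
    h.smooth.continuousOn_fderiv_of_isOpen isOpen_ball le_rfl
  have h3 : ContinuousOn (htfDPhi u) (ball (0 : E (d + 1)) 𝔭.R) := by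
    unfold htfDPhi htfDt
    exact ((continuousOn_const.sub (h1.pow 2)).div_const _).mul (h2.clm_apply continuousOn_const)
  exact h3.comp hj.continuousOn hm

/-- the good transition points of the line lie in the inner part of the window  (`htf_sep_line`: `|t - t₁| < w`; if `t ≥ t₁ + L₀` then `sg u ≥ 1 - b` (`up`), if `t ≤ t₁ - L₀` then `sg u ≤ -(1-b)` (`dn`): both contradict `|u| < 1 - b`). -/
theorem htf_line_mem (h : HtfSit d 𝔭 u eh ρ f) {z : E d} {t₁ sg : ℝ} (hx : gmtJoin z t₁ ∈ htfG 𝔭 u f) (hw : HtfWin 𝔭 u z t₁ sg)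
    {t : ℝ} (ht : gmtJoin z t ∈ htfG 𝔭 u f) : t ∈ Ioo (t₁ - 𝔭.L₀) (t₁ + 𝔭.L₀) := by
  have h1 := abs_lt.1 (htf_sep_line h hx ht)
  have h2 := abs_lt.1 ht.2.2
  constructor
  · by_contra hc
    have h3 := hw.dn t ⟨by linarith [h1.1], by linarith⟩
    rcases hw.sgn with hs | hs <;> rw [hs] at h3 <;> linarith [h2.1, h2.2]
  · by_contra hc
    have h3 := hw.up t ⟨by linarith, by linarith [h1.2]⟩
    rcases hw.sgn with hs | hs <;> rw [hs] at h3 <;> linarith [h2.1, h2.2]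

/-- PLAN.  the integrand of `htfV` vanishes off `I = Icc (t₁ - L₀) (t₁ + L₀)` (`htf_line_mem`), on `I` it is `≤ 2 |V|`:  `htfV ≤ 2 ∫⁻_I ofReal |V| = 2 ofReal (sg (Φ(u(z,t₁+L₀)) - Φ(u(z,t₁-L₀)))) ≤ 2 ofReal acC`
(`htf_ftc_mono` for `φ = Φ ∘ u(z,·)`: `sg V = ((1-u²)/√2) sg ∂_tu ≥ 0`; `htf_phi_diff_le`; `I ⊆ Icc (t₁ - w) (t₁ + w)`, the segment lies in `Ω`). -/
theorem htf_V_le_two (h : HtfSit d 𝔭 u eh ρ f) {z : E d} {t₁ sg : ℝ} (hx : gmtJoin z t₁ ∈ htfG 𝔭 u f) (hw : HtfWin 𝔭 u z t₁ sg) (sp : ℝ)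
    (hsp : sp = 1 ∨ sp = -1) : htfV 𝔭 u f sp z ≤ ENNReal.ofReal (2 * acC) := by
  obtain ⟨hL0, hLw⟩ := htf_c4_L0 h.num
  set I : Set ℝ := Icc (t₁ - 𝔭.L₀) (t₁ + 𝔭.L₀) with hI
  have hIw : I ⊆ Icc (t₁ - 𝔭.w) (t₁ + 𝔭.w) := Icc_subset_Icc (by linarith) (by linarith)
  have hpt : ∀ t, (htfG 𝔭 u f).indicator (fun y => ENNReal.ofReal (|htfDPhi u y| - sp * htfDPhi u y)) (gmtJoin z t)
      ≤ I.indicator (fun t => 2 * ENNReal.ofReal |htfDPhi u (gmtJoin z t)|) t := by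
    intro t
    by_cases hG : gmtJoin z t ∈ htfG 𝔭 u f
    · have hm : t ∈ I := Ioo_subset_Icc_self (htf_line_mem h hx hw hG)
      rw [indicator_of_mem hG, indicator_of_mem hm]
      have e : (2 : ℝ≥0∞) * ENNReal.ofReal |htfDPhi u (gmtJoin z t)| = ENNReal.ofReal (2 * |htfDPhi u (gmtJoin z t)|) := by
        rw [ENNReal.ofReal_mul (by norm_num)]
        simp
      rw [e]
      refine ENNReal.ofReal_le_ofReal ?_
      have := neg_abs_le (htfDPhi u (gmtJoin z t))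
      have := le_abs_self (htfDPhi u (gmtJoin z t))
      rcases hsp with hs | hs <;> rw [hs] <;> linarith
    · rw [indicator_of_notMem hG]
      exact zero_le
  have hftc := htf_ftc_mono (φ := fun t => htPhi (u (gmtJoin z t))) (φ' := fun t => htfDPhi u (gmtJoin z t))
    (a := t₁ - 𝔭.L₀) (b := t₁ + 𝔭.L₀) (sg := sg) (by linarith) hw.sgn
    (fun t ht => htf_hasDerivAt_phi (htf_diffAt h (htf_c4_mem h hx (hIw ht))))
    ((htf_c4_cont h hx).mono hIw) (fun t ht => htf_c4_pos h hx hw (hIw ht))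
  have hle : sg * (htPhi (u (gmtJoin z (t₁ + 𝔭.L₀))) - htPhi (u (gmtJoin z (t₁ - 𝔭.L₀)))) ≤ acC := by
    have h1 := htf_phi_diff_le (h.bdd _ (htf_c4_mem h hx (hIw (right_mem_Icc.2 (by linarith)))))
      (h.bdd _ (htf_c4_mem h hx (hIw (left_mem_Icc.2 (by linarith)))))
    have h2 := abs_le.1 h1
    rcases hw.sgn with hs | hs <;> rw [hs] <;> linarith [h2.1, h2.2]
  unfold htfV
  calc ∫⁻ t in Ioo (-2 : ℝ) 2, (htfG 𝔭 u f).indicator (fun y => ENNReal.ofReal (|htfDPhi u y| - sp * htfDPhi u y)) (gmtJoin z t)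
      ≤ ∫⁻ t, (htfG 𝔭 u f).indicator (fun y => ENNReal.ofReal (|htfDPhi u y| - sp * htfDPhi u y)) (gmtJoin z t) :=
        setLIntegral_le_lintegral _ _
    _ ≤ ∫⁻ t, I.indicator (fun t => 2 * ENNReal.ofReal |htfDPhi u (gmtJoin z t)|) t := lintegral_mono hpt
    _ = ∫⁻ t in I, 2 * ENNReal.ofReal |htfDPhi u (gmtJoin z t)| := lintegral_indicator measurableSet_Icc _
    _ = 2 * ∫⁻ t in I, ENNReal.ofReal |htfDPhi u (gmtJoin z t)| := by
        rw [lintegral_const_mul' _ _ (by norm_num)]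
    _ = 2 * ENNReal.ofReal (sg * (htPhi (u (gmtJoin z (t₁ + 𝔭.L₀))) - htPhi (u (gmtJoin z (t₁ - 𝔭.L₀))))) := by rw [hftc]
    _ ≤ 2 * ENNReal.ofReal acC := by gcongr
    _ = ENNReal.ofReal (2 * acC) := by
        rw [ENNReal.ofReal_mul (by norm_num)]
        simp

/-- PLAN.  off `I` the integrand vanishes; on `I`: `sg V ≥ 0`, so `|V| - sg V = 0`. -/
theorem htf_V_eq_zero (h : HtfSit d 𝔭 u eh ρ f) {z : E d} {t₁ sg : ℝ} (hx : gmtJoin z t₁ ∈ htfG 𝔭 u f) (hw : HtfWin 𝔭 u z t₁ sg) :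
    htfV 𝔭 u f sg z = 0 := by
  obtain ⟨hL0, hLw⟩ := htf_c4_L0 h.num
  unfold htfV
  have hpt : ∀ t, (htfG 𝔭 u f).indicator (fun y => ENNReal.ofReal (|htfDPhi u y| - sg * htfDPhi u y)) (gmtJoin z t) = 0 := by
    intro t
    by_cases hG : gmtJoin z t ∈ htfG 𝔭 u f
    · have hm := htf_line_mem h hx hw hG
      have hp := htf_c4_pos h hx hw (t := t) ⟨by linarith [hm.1], by linarith [hm.2]⟩
      rw [indicator_of_mem hG, ENNReal.ofReal_eq_zero]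
      have e : |htfDPhi u (gmtJoin z t)| = sg * htfDPhi u (gmtJoin z t) := by
        rw [← abs_of_nonneg hp, abs_mul]
        rcases hw.sgn with hs | hs <;> rw [hs] <;> simp
      rw [e, sub_self]
    · exact indicator_of_notMem hG _
  simp only [hpt, lintegral_zero]

/-- no good transition point on the line -/
theorem htf_V_empty (sp : ℝ) {z : E d} (hz : ∀ t ∈ Ioo (-2 : ℝ) 2, gmtJoin z t ∉ htfG 𝔭 u f) : htfV 𝔭 u f sp z = 0 := by
  unfold htfV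
  rw [setLIntegral_congr_fun measurableSet_Ioo (g := fun _ => 0) fun t ht => indicator_of_notMem (hz t ht) _]
  simp

/-! ### LEAF L-FL-C5 : a wrongly oriented line crosses in the bad set (step G, second half) -/

/-- PLAN.  `‖z‖ < 2`, `|t₁| < 2`, window orientation `sg = -sp`.   `a = t₁ + w < 3` (`w_le`), `b = 39/10`.   `g t = sg u(z,t)`: `g a ≥ 1 - b ≥ 1/2` (`up`), `g b = -(sp u(z,b)) < -1/2` (`hsp` at `y = gmtJoin z (39/10) ∈ ball 0 5`: `4 + 15.21 < 25`;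
`ver x + 2τ₀ < 2 + τ₀ + 2τ₀ ≤ 39/10` by `htf_sep x (z,t₁)`, `τ₀_le`).   `htf_cross` on `[a,b]`.   A point `t ∈ Ioo a b` with `|u(z,t)| < 1/2 < 1 - b` lies in `ball 0 5 ⊆ ball 0 6`, and is not good (`htf_sep_line`: `|t - t₁| > w`): it lies in `htfBad`.
So the set of `htf_cross` is contained in `Ioo (-4) 4 ∩ {t | gmtJoin z t ∈ htfBad}`;  `|V| = |(1 - g²)/√2 g'|` (`sg² = 1`);  `lintegral_indicator`/`setLIntegral` monotonicity (`htf_isOpen_bad` for measurability). -/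
theorem htf_wrong (h : HtfSit d 𝔭 u eh ρ f) {x : E (d + 1)} (hx : x ∈ htfG 𝔭 u f) {sp : ℝ} (hsp1 : sp = 1 ∨ sp = -1)
    (hsp : ∀ y ∈ ball (0 : E (d + 1)) 5, gmtVer x + 2 * 𝔭.τ₀ ≤ gmtVer y → 1 / 2 < sp * u y)
    {z : E d} (hz : ‖z‖ < 2) {t₁ : ℝ} (ht₁ : |t₁| < 2) (hx₁ : gmtJoin z t₁ ∈ htfG 𝔭 u f) (hw : HtfWin 𝔭 u z t₁ (-sp)) :
    ENNReal.ofReal htfcΦ ≤ htfF 𝔭 u f z := by
  have hn := h.num
  obtain ⟨ht₁a, ht₁b⟩ := abs_lt.1 ht₁
  have hw0 : 0 < 𝔭.w := by have := hn.n4; have := hn.r₁_pos; linarith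
  have hL₀ : 𝔭.L₀ ≤ 𝔭.w := by
    have h1 : 𝔭.L₀ ≤ 𝔭.r₁ := by
      by_contra hc
      have h2 := hn.n3
      have h3 := hn.r₁_pos
      nlinarith [sq_nonneg 𝔭.ϱ, not_le.1 hc]
    have := hn.n4; have := hn.r₁_pos
    linarith
  have hR : (6 : ℝ) ≤ 𝔭.R := by have := hn.n9; have := hn.n7'; have := hn.M_ge; linarith
  have hsq : sp ^ 2 = 1 := by rcases hsp1 with e | e <;> rw [e] <;> norm_num
  have habs : |sp| = 1 := by rcases hsp1 with e | e <;> rw [e] <;> norm_num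
  set a := t₁ + 𝔭.w with ha
  set b : ℝ := 39 / 10 with hb
  have hab : a ≤ b := by have := hn.w_le; rw [ha, hb]; linarith
  -- the segment lies in `ball 0 5`
  have h5 : ∀ t ∈ Icc a b, gmtJoin z t ∈ ball (0 : E (d + 1)) 5 := by
    intro t ht
    rw [mem_ball_zero_iff]
    have h1 := fl_norm_sq (gmtJoin z t)
    rw [fl_hor_join, fl_ver_join] at h1
    have h2 : -2 < t := by have := ht.1; rw [ha] at this; linarith
    have h3 : t ≤ 39 / 10 := ht.2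
    have h4 : t ^ 2 ≤ (39 / 10) ^ 2 := by nlinarith
    have h6 : ‖z‖ ^ 2 < 4 := by nlinarith [norm_nonneg z]
    by_contra hc
    have h7 := not_lt.1 hc
    nlinarith [norm_nonneg (gmtJoin z t)]
  have hΩ : ∀ t ∈ Icc a b, gmtJoin z t ∈ ball (0 : E (d + 1)) 𝔭.R := fun t ht =>
    ball_subset_ball (by linarith) (h5 t ht)
  have hjc : Continuous (fun t : ℝ => gmtJoin z t) :=
    fl_continuous_join.comp (continuous_const.prodMk continuous_id)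
  set g : ℝ → ℝ := fun t => -sp * u (gmtJoin z t) with hg
  set g' : ℝ → ℝ := fun t => -sp * htfDt u (gmtJoin z t) with hg'
  have hd : ∀ t ∈ Icc a b, HasDerivAt g (g' t) t := fun t ht =>
    (htf_hasDerivAt_ver (htf_diffAt h (hΩ t ht))).const_mul (-sp)
  have hc : ContinuousOn g' (Icc a b) := by
    have h1 : ContinuousOn (fderiv ℝ u) (ball 0 𝔭.R) := h.smooth.continuousOn_fderiv_of_isOpen isOpen_ball le_rfl
    have h2 : ContinuousOn (fun t : ℝ => fderiv ℝ u (gmtJoin z t)) (Icc a b) := h1.comp hjc.continuousOn hΩ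
    exact continuousOn_const.mul (h2.clm_apply continuousOn_const)
  have hga : 1 / 2 ≤ g a := by
    have h1 := hw.up a ⟨by rw [ha]; linarith, le_rfl⟩
    have := hn.b_le
    show 1 / 2 ≤ -sp * u (gmtJoin z a)
    linarith
  have hgb : g b ≤ -(1 / 2) := by
    have h1 := htf_sep h hx₁ hx
    rw [fl_ver_join] at h1
    have h2 := (abs_lt.1 h1).2
    have h3 := hn.τ₀_le
    have h4 := hsp (gmtJoin z b) (h5 b ⟨hab, le_rfl⟩) (by rw [fl_ver_join, hb]; linarith)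
    show -sp * u (gmtJoin z b) ≤ -(1 / 2)
    linarith
  have hcross := htf_cross hab hd hc hga hgb
  refine hcross.trans ?_
  have hgm : Measurable g := (h.mu.comp hjc.measurable).const_mul (-sp)
  have hA : MeasurableSet (Ioo a b ∩ {t | |g t| < 1 / 2}) :=
    measurableSet_Ioo.inter (measurableSet_lt hgm.abs measurable_const)
  have hbad : ∀ t ∈ Ioo a b ∩ {t | |g t| < 1 / 2}, gmtJoin z t ∈ htfBad (htfMs f) 𝔭.γ 𝔭.R₁ := by
    rintro t ⟨ht, htg⟩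
    have ht' : t ∈ Icc a b := Ioo_subset_Icc_self ht
    have h6 : gmtJoin z t ∈ ball (0 : E (d + 1)) 6 := ball_subset_ball (by norm_num) (h5 t ht')
    refine ⟨h6, fun hgood => ?_⟩
    have hu : |u (gmtJoin z t)| < 1 - 𝔭.b := by
      have e : |g t| = |u (gmtJoin z t)| := by
        show |-sp * u (gmtJoin z t)| = _
        rw [abs_mul, abs_neg, habs, one_mul]
      have h7 : |g t| < 1 / 2 := htg
      have := hn.b_le
      rw [e] at h7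
      linarith
    have h8 := htf_sep_line h hx₁ (⟨h6, hgood, hu⟩ : gmtJoin z t ∈ htfG 𝔭 u f)
    have h9 := (abs_lt.1 h8).2
    have := ht.1
    rw [ha] at this
    linarith
  unfold htfF
  calc ∫⁻ t in Ioo a b ∩ {t | |g t| < 1 / 2}, ENNReal.ofReal |(1 - g t ^ 2) / Real.sqrt 2 * g' t|
      = ∫⁻ t in Ioo a b ∩ {t | |g t| < 1 / 2},
          (htfBad (htfMs f) 𝔭.γ 𝔭.R₁).indicator (fun y => ENNReal.ofReal |htfDPhi u y|) (gmtJoin z t) := by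
        refine setLIntegral_congr_fun hA fun t ht => ?_
        show _ = (htfBad (htfMs f) 𝔭.γ 𝔭.R₁).indicator (fun y => ENNReal.ofReal |htfDPhi u y|) (gmtJoin z t)
        rw [indicator_of_mem (hbad t ht)]
        congr 1
        show |(1 - (-sp * u (gmtJoin z t)) ^ 2) / Real.sqrt 2 * (-sp * htfDt u (gmtJoin z t))| = |htfDPhi u (gmtJoin z t)|
        unfold htfDPhi
        have e1 : (-sp * u (gmtJoin z t)) ^ 2 = u (gmtJoin z t) ^ 2 := by rw [mul_pow, neg_sq, hsq, one_mul]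
        rw [e1, abs_mul, abs_mul (-sp), abs_neg, habs, one_mul, ← abs_mul]
    _ ≤ _ := by
        refine lintegral_mono_set ?_
        rintro t ⟨ht, -⟩
        refine ⟨?_, ?_⟩
        · have := ht.1; rw [ha] at this; linarith
        · have := ht.2; rw [hb] at this; linarith

/-! ### the line lemma (assembly) -/

/-- (G) **the line lemma.** -/
theorem htf_line (h : HtfSit d 𝔭 u eh ρ f) {x : E (d + 1)} (hx : x ∈ htfG 𝔭 u f) {sp : ℝ} (hsp1 : sp = 1 ∨ sp = -1)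
    (hsp : ∀ y ∈ ball (0 : E (d + 1)) 5, gmtVer x + 2 * 𝔭.τ₀ ≤ gmtVer y → 1 / 2 < sp * u y) {z : E d} (hz : ‖z‖ < 2) :
    htfV 𝔭 u f sp z ≤ ENNReal.ofReal (2 * acC / htfcΦ) * htfF 𝔭 u f z := by
  by_cases hne : ∃ t ∈ Ioo (-2 : ℝ) 2, gmtJoin z t ∈ htfG 𝔭 u f
  · obtain ⟨t₁, ht₁, hx₁⟩ := hne
    obtain ⟨sg, hw⟩ := htf_window h hx₁
    by_cases hs : sg = sp
    · rw [← hs, htf_V_eq_zero h hx₁ hw]
      exact zero_le
    · have hs' : sg = -sp := by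
        rcases hw.sgn with h1 | h1 <;> rcases hsp1 with h2 | h2 <;> simp_all
      rw [hs'] at hw
      have h1 := htf_wrong h hx hsp1 hsp hz (abs_lt.2 ⟨ht₁.1, ht₁.2⟩) hx₁ hw
      have h2 := htf_V_le_two h hx₁ hw sp hsp1
      have hc : 0 < htfcΦ := by
        rw [htf_cPhi]
        have := htf_acC_pos
        positivity
      refine h2.trans ?_
      calc ENNReal.ofReal (2 * acC) = ENNReal.ofReal (2 * acC / htfcΦ) * ENNReal.ofReal htfcΦ := by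
            rw [← ENNReal.ofReal_mul (by have := htf_acC_pos; positivity), div_mul_cancel₀ _ hc.ne']
        _ ≤ ENNReal.ofReal (2 * acC / htfcΦ) * htfF 𝔭 u f z := by gcongr
  · have hz' : ∀ t ∈ Ioo (-2 : ℝ) 2, gmtJoin z t ∉ htfG 𝔭 u f := fun t ht hG => hne ⟨t, ht, hG⟩
    rw [htf_V_empty sp hz']
    exact zero_le

end Claimed.Agent.R323
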