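import Claimed.Agent.R323.Ht.Defs
import Claimed.Agent.Lib.Gmt.FlCoord

/-!
# Row 323, block C (HT-lite), unit FL = QUANTITATIVE FLAT LEMMA: DEFINITIONS OF THE ABSTRACT CORE.   Owner/cutter: helper105 (mathematician + adversary: helper115).   Prefix `htf` / `Htf`.

WRITTEN PROOF WITH ALL CONSTANTS: `origin/helper115:notes/r323/FL115.md` (steps A-H).   Contract (exit): `ht_flat`, `ht_flat_dir` in `Ht/Flat.lean`.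

ABSTRACT SETTING (no PDE, no stationary pairs): `E (d+1)`, `y = (z,t) = gmtJoin z t`, vertical direction `gmtEn d`.  On `ball 0 R`:
* `u` (= the solution), `eh` (= the local parameter `ε̂`, `ε/2 ≤ eh ≤ 2ε`), `ρ` (= mass density `htD`), `f` (= TILT density `⟪M e, e⟫`);
* `μ = htfMs ρ`, `τ = htfMs f`: the measures with these densities;
* `htfN eh u = ε̂²|D'u|² + (W(u) - ε̂²|Du|²/2) ≥ 0`: the NORMALISED tilt + discrepancy (`≤ acC ε̂ f`), Lipschitz with constant `C₁/ε`;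
* `htfDPhi u = ∂_t Φ(u)`.
What is used: Modica (`mod`), the Lipschitz bound (`lip`, from `ε̂²|D²u| ≤ C`), `e ≤ acC ρ ≤ e + ξ`, monotonicity of the mass ratios (`HtfMono`), the two-point lemma (`HtfTwo`), the upper ratio bound `C₀ < 2 ω_d` (`upper`),
the lower ratio bound at the points with `|u| ≤ 1/2` (`half`), small mass near the wells (`wells`), small tilt (`tilt`).
`HtfPar` = all the constants, `HtfNum` = the relations between them, `HtfSit` = the situation.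
FILES: `FlatOde` (helper115: 1D lemmas), `FlatA` (tools), `FlatB` (good points), `FlatC` (separation, signs, lines), `FlatD` (Tonelli; EXIT `htf_main`), `FlatTwo` (`HtfTwo` from `ht_sp_slab`), `FlatNum` (choice of the constants), `FlatInst` (`HtAC ⟹ HtfSit`).
-/

set_option autoImplicit false
open scoped ContDiff ENNReal NNReal RealInnerProductSpace Topology
open MeasureTheory Metric Set Filter

namespace Claimed.Agent.R323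

open Claimed.Agent.Gmt

variable {d : ℕ}

/-- the vertical derivative `∂_t u`. -/
noncomputable def htfDt (u : E (d + 1) → ℝ) (y : E (d + 1)) : ℝ := fderiv ℝ u y (gmtEn d)

/-- `|D'u|²`: the square of the horizontal gradient. -/
noncomputable def htfH2 (u : E (d + 1) → ℝ) (y : E (d + 1)) : ℝ := ‖fderiv ℝ u y‖ ^ 2 - htfDt u y ^ 2

/-- the normalised tilt + discrepancy `ε̂²|D'u|² + (W(u) - ε̂²|Du|²/2)`. -/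
noncomputable def htfN (eh u : E (d + 1) → ℝ) (y : E (d + 1)) : ℝ :=
  eh y ^ 2 * htfH2 u y + (acW (u y) - eh y ^ 2 * ‖fderiv ℝ u y‖ ^ 2 / 2)

/-- `∂_t (Φ(u)) = √(2W(u)) ∂_t u`. -/
noncomputable def htfDPhi (u : E (d + 1) → ℝ) (y : E (d + 1)) : ℝ := (1 - u y ^ 2) / Real.sqrt 2 * htfDt u y

/-- the measure with the density `ρ`. -/
noncomputable def htfMs (ρ : E (d + 1) → ℝ) : Measure (E (d + 1)) := volume.withDensity fun y => ENNReal.ofReal (ρ y)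

/-- the cylinder `{|z| < 2, |t| < 2}`. -/
def htfC (d : ℕ) : Set (E (d + 1)) := {y | ‖gmtHor y‖ < 2 ∧ |gmtVer y| < 2}

/-- GOOD points: the tilt ratios are `≤ γ` at all radii `≤ R₁`. -/
def htfGood (τ : Measure (E (d + 1))) (γ R₁ : ℝ) (x : E (d + 1)) : Prop :=
  ∀ r, 0 < r → r ≤ R₁ → τ (ball x r) ≤ ENNReal.ofReal (γ * r ^ d)

/-- the BAD set (in `ball 0 6`). -/
def htfBad (τ : Measure (E (d + 1))) (γ R₁ : ℝ) : Set (E (d + 1)) := {x | x ∈ ball (0 : E (d + 1)) 6 ∧ ¬ htfGood τ γ R₁ x}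

/-- **M1**: monotonicity of the sharp mass ratios of an entire stationary pair (measure form of `ht_sp_mono`). -/
def HtfMono (d : ℕ) (μ : Measure (E (d + 1))) : Prop :=
  ∀ (x : E (d + 1)) (r₁ r₂ : ℝ), 0 < r₁ → r₁ ≤ r₂ →
    μ (ball x r₁) * ENNReal.ofReal (r₂ ^ d) ≤ μ (ball x r₂) * ENNReal.ofReal (r₁ ^ d)

/-- **T2**: the general two-point lemma (`FL115.md` (I4)).  `x₁` below `x₂`, vertical separation `D`, horizontal separation `≤ H`; both points have mass ratio `≥ c₁` at the radius `D/4`;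
tilt ratios `≤ γ` and mass ratios `≤ C₀` at the radii `3r`, `D/4 ≤ r ≤ M D`.   Then the ball of radius `M D + H + 2 D` about `x₁` contains almost two sheets.   Proved from `ht_sp_slab` in `Ht/FlatTwo.lean`. -/
def HtfTwo (d : ℕ) (C₂ : ℝ) (μ τ : Measure (E (d + 1))) : Prop :=
  ∀ (x₁ x₂ : E (d + 1)) (D H M c₁ σ γ C₀ : ℝ), 0 < D → gmtVer x₂ - gmtVer x₁ = D → ‖gmtHor x₂ - gmtHor x₁‖ ≤ H → 1 ≤ M →
    0 < σ → σ ≤ 1 / 2 → 0 ≤ γ → 0 ≤ C₀ →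
    (∀ x, x = x₁ ∨ x = x₂ → ENNReal.ofReal (c₁ * (D / 4) ^ d) ≤ μ (ball x (D / 4))) →
    (∀ x, x = x₁ ∨ x = x₂ → ∀ r, D / 4 ≤ r → r ≤ M * D →
      τ (ball x (3 * r)) ≤ ENNReal.ofReal (γ * (3 * r) ^ d) ∧ μ (ball x (3 * r)) ≤ ENNReal.ofReal (C₀ * (3 * r) ^ d)) →
    ENNReal.ofReal ((M * D) ^ d * (2 * c₁ * (1 - σ) ^ d - C₂ * (γ * Real.log (4 * M) + M * Real.sqrt (γ * C₀))))
      ≤ μ (ball x₁ (M * D + H + 2 * D))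

/-- all the constants of the flat lemma. -/
structure HtfPar where
  /-- radius of the domain -/
  R : ℝ
  /-- the reference value of the local parameter -/
  ε : ℝ
  /-- `C₁/ε` = Lipschitz constant of `htfN` -/
  C₁ : ℝ
  /-- transition points: `|u| < 1 - b` -/
  b : ℝ
  /-- pointwise bound of `htfN` near good points -/
  c : ℝ
  /-- half length of the windows -/
  w : ℝ
  /-- horizontal radius of the small cylinders -/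
  ϱ : ℝ
  /-- the radius at which good transition points have ratio `≥ (1 - s₁) ω_d` -/
  r₁ : ℝ
  s₁ : ℝ
  /-- good points: tilt ratio `≤ γ` for the radii `≤ R₁` -/
  γ : ℝ
  R₁ : ℝ
  /-- the parameters of the two-point lemma -/
  M : ℝ
  s₂ : ℝ
  σ : ℝ
  C₂ : ℝ
  /-- upper bound of all the mass ratios (`= Θ ω_d`) -/
  C₀ : ℝ
  /-- height of the slab which contains all the good transition points -/
  τ₀ : ℝ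
  /-- the lower mass ratio at the points with `|u| ≤ 1/2` -/
  ch : ℝ
  /-- bound of the tilt -/
  δ : ℝ
  /-- bound of the mass near the wells -/
  β₂ : ℝ
  /-- the final smallness -/
  s : ℝ

namespace HtfPar

variable (𝔭 : HtfPar) (d : ℕ)

/-- bound of `μ(Bad)` -/
noncomputable def β₁ : ℝ := 6 ^ d * 𝔭.C₀ * 𝔭.δ / 𝔭.γ

/-- the time needed to cross `[-(1-b), 1-b]` -/
noncomputable def L₀ : ℝ := 8 * 𝔭.ε / 𝔭.b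

end HtfPar

/-- `Φ(1/2) - Φ(-1/2) = (11/16) acC` -/
noncomputable def htfcΦ : ℝ := htPhi (1 / 2) - htPhi (-(1 / 2))

/-- the relations between the constants. -/
structure HtfNum (d : ℕ) (𝔭 : HtfPar) : Prop where
  d_pos : 1 ≤ d
  ε_pos : 0 < 𝔭.ε
  C₁_pos : 0 < 𝔭.C₁
  b_pos : 0 < 𝔭.b
  b_le : 𝔭.b ≤ 1 / 4
  c_pos : 0 < 𝔭.c
  γ_pos : 0 < 𝔭.γ
  δ_nonneg : 0 ≤ 𝔭.δ
  β₂_nonneg : 0 ≤ 𝔭.β₂
  ϱ_pos : 0 < 𝔭.ϱ
  r₁_pos : 0 < 𝔭.r₁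
  C₀_pos : 0 < 𝔭.C₀
  /-- (N1) a small tilt ratio at the radius `2w` forces `htfN ≤ c` on `closedBall x w` -/
  n1 : 𝔭.γ * (2 * 𝔭.w) ^ d * (4 * acC * (2 * 𝔭.C₁) ^ (d + 1)) ≤ gmtOm (d + 1) * 𝔭.c ^ (d + 2) * 𝔭.ε ^ d
  n1' : 𝔭.ε ≤ 2 * 𝔭.C₁ * 𝔭.w
  /-- (N2) no critical point in a window -/
  n2 : 32 * 𝔭.c ≤ (𝔭.b * Real.exp (-(4 * 𝔭.w / 𝔭.ε))) ^ 2
  /-- (N3) the small cylinder lies in `ball x r₁` -/
  n3 : 𝔭.ϱ ^ 2 + 𝔭.L₀ ^ 2 ≤ 𝔭.r₁ ^ 2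
  /-- (N4) -/
  n4 : 4 * 𝔭.r₁ ≤ 𝔭.w
  w_le : 𝔭.w ≤ 1
  /-- (N5) horizontal oscillation `≤ b` -/
  n5 : 2 * 𝔭.ϱ * Real.sqrt 𝔭.c ≤ 𝔭.b * 𝔭.ε
  /-- (N6) -/
  n6 : (1 - 𝔭.s₁) * 𝔭.r₁ ^ d ≤ (1 - 6 * 𝔭.b ^ 2) * 𝔭.ϱ ^ d
  /-- (N7) -/
  n7 : 2 * 𝔭.w ≤ 𝔭.R₁
  n7' : 36 * 𝔭.M ≤ 𝔭.R₁
  /-- (N9) -/
  n9 : 6 + 𝔭.R₁ ≤ 𝔭.R
  M_ge : 1 ≤ 𝔭.M
  s₂_pos : 0 < 𝔭.s₂
  σ_pos : 0 < 𝔭.σ
  σ_le : 𝔭.σ ≤ 1 / 2
  /-- (N10) two sheets are too much -/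
  n10 : 𝔭.C₀ * (1 + 𝔭.s₂ + 2 / 𝔭.M) ^ d < 2 * ((1 - 𝔭.s₁) * gmtOm d) * (1 - 𝔭.σ) ^ d
      - 𝔭.C₂ * (𝔭.γ * Real.log (4 * 𝔭.M) + 𝔭.M * Real.sqrt (𝔭.γ * 𝔭.C₀))
  /-- (N12) -/
  τ₀_pos : 0 < 𝔭.τ₀
  τ₀_le : 𝔭.τ₀ ≤ 1 / 4
  n12 : 4 * 𝔭.r₁ ≤ 𝔭.τ₀
  n12' : 12 ≤ 𝔭.s₂ * 𝔭.M * 𝔭.τ₀
  /-- (N13) the bad set and the wells cannot carry the mass of a ball of radius `τ₀` about a point with `|u| ≤ 1/2` -/
  n13 : 𝔭.β₁ d + 𝔭.β₂ < 𝔭.ch * 𝔭.τ₀ ^ d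
  /-- (N15) the conclusion -/
  n15 : 2 * 𝔭.δ + 2 * (𝔭.β₁ d + 𝔭.β₂) + 2 * (acC / htfcΦ * 𝔭.β₁ d) ≤ 𝔭.s

/-- **the situation of the flat lemma.** -/
structure HtfSit (d : ℕ) (𝔭 : HtfPar) (u eh ρ f : E (d + 1) → ℝ) : Prop where
  num : HtfNum d 𝔭
  smooth : ContDiffOn ℝ 1 u (ball 0 𝔭.R)
  mu : Measurable u
  mρ : Measurable ρ
  mf : Measurable f
  bdd : ∀ y ∈ ball (0 : E (d + 1)) 𝔭.R, |u y| ≤ 1
  eh_lo : ∀ y ∈ ball (0 : E (d + 1)) 𝔭.R, 𝔭.ε / 2 ≤ eh y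
  eh_hi : ∀ y ∈ ball (0 : E (d + 1)) 𝔭.R, eh y ≤ 2 * 𝔭.ε
  /-- Modica -/
  mod : ∀ y ∈ ball (0 : E (d + 1)) 𝔭.R, eh y ^ 2 * ‖fderiv ℝ u y‖ ^ 2 / 2 ≤ acW (u y)
  lip : ∀ y ∈ ball (0 : E (d + 1)) 𝔭.R, ∀ y' ∈ ball (0 : E (d + 1)) 𝔭.R, |htfN eh u y - htfN eh u y'| ≤ 𝔭.C₁ / 𝔭.ε * ‖y - y'‖
  /-- `e ≤ acC ρ ≤ e + ξ = 2W/ε̂` -/
  ρ_lo : ∀ y ∈ ball (0 : E (d + 1)) 𝔭.R, eh y / 2 * ‖fderiv ℝ u y‖ ^ 2 + acW (u y) / eh y ≤ acC * ρ y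
  ρ_hi : ∀ y ∈ ball (0 : E (d + 1)) 𝔭.R, acC * ρ y ≤ 2 * acW (u y) / eh y
  f_lo : ∀ y ∈ ball (0 : E (d + 1)) 𝔭.R, htfN eh u y ≤ acC * eh y * f y
  mono : HtfMono d (htfMs ρ)
  two : HtfTwo d 𝔭.C₂ (htfMs ρ) (htfMs f)
  upper : ∀ (x : E (d + 1)) (r : ℝ), 0 < r → htfMs ρ (ball x r) ≤ ENNReal.ofReal (𝔭.C₀ * r ^ d)
  half : ∀ y ∈ ball (0 : E (d + 1)) 5, |u y| ≤ 1 / 2 → ENNReal.ofReal (𝔭.ch * 𝔭.τ₀ ^ d) ≤ htfMs ρ (ball y 𝔭.τ₀)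
  tilt : htfMs f (ball 0 𝔭.R) ≤ ENNReal.ofReal 𝔭.δ
  wells : htfMs ρ (ball (0 : E (d + 1)) 6 ∩ {y | 1 - 𝔭.b ≤ |u y|}) ≤ ENNReal.ofReal 𝔭.β₂

/-- the good transition points of `ball 0 6`. -/
def htfG (𝔭 : HtfPar) (u f : E (d + 1) → ℝ) : Set (E (d + 1)) :=
  {x | x ∈ ball (0 : E (d + 1)) 6 ∧ htfGood (htfMs f) 𝔭.γ 𝔭.R₁ x ∧ |u x| < 1 - 𝔭.b}

/-- **the window of a good transition point** `x = (z,t₁)` with the orientation `sg`. -/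
structure HtfWin (𝔭 : HtfPar) (u : E (d + 1) → ℝ) (z : E d) (t₁ sg : ℝ) : Prop where
  sgn : sg = 1 ∨ sg = -1
  pos : ∀ t ∈ Icc (t₁ - 𝔭.w) (t₁ + 𝔭.w), 0 < sg * htfDt u (gmtJoin z t)
  up : ∀ t ∈ Icc (t₁ + 𝔭.L₀) (t₁ + 𝔭.w), 1 - 𝔭.b ≤ sg * u (gmtJoin z t)
  dn : ∀ t ∈ Icc (t₁ - 𝔭.w) (t₁ - 𝔭.L₀), sg * u (gmtJoin z t) ≤ -(1 - 𝔭.b)

/-- the `Φ`-variation carried by the bad set on the vertical line through `z`. -/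
noncomputable def htfF (𝔭 : HtfPar) (u f : E (d + 1) → ℝ) (z : E d) : ℝ≥0∞ :=
  ∫⁻ t in Ioo (-4 : ℝ) 4, (htfBad (htfMs f) 𝔭.γ 𝔭.R₁).indicator (fun y => ENNReal.ofReal |htfDPhi u y|) (gmtJoin z t)

/-- the wrongly oriented `Φ`-variation carried by the good transition points on the vertical line through `z`. -/
noncomputable def htfV (𝔭 : HtfPar) (u f : E (d + 1) → ℝ) (sg : ℝ) (z : E d) : ℝ≥0∞ :=
  ∫⁻ t in Ioo (-2 : ℝ) 2, (htfG 𝔭 u f).indicator (fun y => ENNReal.ofReal (|htfDPhi u y| - sg * htfDPhi u y)) (gmtJoin z t)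

end Claimed.Agent.R323
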