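import Claimed.Agent.R323.Ht.LimPre
import Claimed.Agent.R323.Nu.Cone

/-!
# Row 323, block C, LIM: subsequences, local finiteness, the upper mass bound, lower semicontinuity of the perimeter.   (helper258)
`HtSeq.subseq`, `HtConv.locFin`, `ht_lim_upper`, `ht_lim_per_le` (statements of helper39/helper143, `Ht/LimA.lean`).
`ht_lim_per_le`: for a test field `T` in an open `W ⊆ Ω`, `|T| ≤ 1`:  `∫_S div T = lim acC⁻¹ ∫ DΦ(U_i)·T ≤ lim ∫ |T| d_i = ∫ |T| dμ ≤ μ W`;   a point is removable (`nu_remove_point`).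
-/

set_option autoImplicit false
open scoped ContDiff ENNReal NNReal RealInnerProductSpace Topology
open MeasureTheory Metric Set Filter

namespace Claimed.Agent.R323

open Claimed.Agent.Gmt

variable {n : ℕ}

variable {a : ℝ} {Ω : Set (E n)} {κ : ℕ → ℝ} {q : ℕ → E n} {U : ℕ → E n → ℝ} {μ ζ : Measure (E n)}
  {A : E n → E n →L[ℝ] E n} {S : Set (E n)}

theorem HtSeq.subseq {a : ℝ} {Ω : Set (E n)} {κ : ℕ → ℝ} {q : ℕ → E n} {U : ℕ → E n → ℝ} (h : HtSeq n a Ω κ q U)
    {φ : ℕ → ℕ} (hφ : StrictMono φ) : HtSeq n a Ω (fun i => κ (φ i)) (fun i => q (φ i)) (fun i => U (φ i)) where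
  ac := fun i => h.ac (φ i)
  en := fun δ hδ => hφ.tendsto_atTop.eventually (h.en δ hδ)
  kap := h.kap.comp hφ.tendsto_atTop
  small := fun K hK hKΩ δ hδ => hφ.tendsto_atTop.eventually (h.small K hK hKΩ δ hδ)
  away := fun K hK hKΩ => by
    obtain ⟨c, hc, hev⟩ := h.away K hK hKΩ
    exact ⟨c, hc, hφ.tendsto_atTop.eventually hev⟩

theorem HtConv.locFin (hc : HtConv n κ q U μ ζ A S) : IsLocallyFiniteMeasure μ :=
  ⟨fun x => ⟨closedBall x 1, closedBall_mem_nhds x one_pos,
    lt_top_iff_ne_top.2 (hc.fin _ (isCompact_closedBall x 1))⟩⟩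

/-- the mass measures are finite on compact sets. -/
theorem hta_htMu_fin (hn : 3 ≤ n) {κ : ℝ} {q : E n} {U : E n → ℝ} (h : HtAC n κ q U) (K : Set (E n)) (hK : IsCompact K) :
    htMu n κ q U K ≠ ⊤ := by
  unfold htMu
  rw [withDensity_apply _ hK.measurableSet]
  exact ((ht_D_locallyIntegrable hn h).integrableOn_isCompact hK).lintegral_lt_top.ne

/-- the mass of a ball. -/
theorem hta_htMu_ball (hn : 3 ≤ n) {κ : ℝ} {q : E n} {U : E n → ℝ} (h : HtAC n κ q U) (x : E n) (r : ℝ) :
    htMu n κ q U (ball x r) = ENNReal.ofReal (∫ y in ball x r, htD n κ q U y) := by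
  unfold htMu
  rw [withDensity_apply _ measurableSet_ball,
    ofReal_integral_eq_lintegral_ofReal (ht_ball_integrableOn hn h x r) (Eventually.of_forall fun y => ht_D_nonneg hn h y)]

theorem ht_lim_upper (hn : 3 ≤ n) (h : HtSeq n a Ω κ q U) (hc : HtConv n κ q U μ ζ A S) (x : E n) {r : ℝ} (hr : 0 < r) :
    μ (closedBall x r) ≤ ENNReal.ofReal (a / ((n : ℝ) - 1) * r ^ (n - 1)) := by
  have hn1 : (0 : ℝ) < (n : ℝ) - 1 := by
    have : (3 : ℝ) ≤ (n : ℝ) := by exact_mod_cast hn
    linarith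
  -- open balls, with `δ`
  have key : ∀ ρ : ℝ, 0 < ρ → ∀ δ : ℝ, 0 < δ → μ (ball x ρ) ≤ ENNReal.ofReal ((a + δ) / ((n : ℝ) - 1) * ρ ^ (n - 1)) := by
    intro ρ hρ δ hδ
    refine (hc.wk.le_liminf isOpen_univ (fun K hK _ => hc.fin K hK) (fun i K hK _ => hta_htMu_fin hn (h.ac i) K hK)
      isOpen_ball (subset_univ _)).trans ?_
    refine liminf_le_of_frequently_le' (Eventually.frequently ?_)
    filter_upwards [h.en δ hδ] with i hi
    rw [hta_htMu_ball hn (h.ac i)]
    refine ENNReal.ofReal_le_ofReal ((ht_ball_le hn (h.ac i) x hρ).trans ?_)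
    gcongr
  -- limit
  have hcont : Tendsto (fun t : ℝ => ENNReal.ofReal ((a + t) / ((n : ℝ) - 1) * (r + t) ^ (n - 1))) (𝓝[>] 0)
      (𝓝 (ENNReal.ofReal ((a + 0) / ((n : ℝ) - 1) * (r + 0) ^ (n - 1)))) := by
    refine (ENNReal.continuous_ofReal.tendsto _).comp ?_
    have : Continuous fun t : ℝ => (a + t) / ((n : ℝ) - 1) * (r + t) ^ (n - 1) := by fun_prop
    exact (this.tendsto 0).mono_left nhdsWithin_le_nhds
  rw [add_zero, add_zero] at hcont
  refine ge_of_tendsto hcont ?_
  filter_upwards [self_mem_nhdsWithin] with t ht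
  have ht : 0 < t := ht
  exact (measure_mono (closedBall_subset_ball (by linarith))).trans (key (r + t) (by linarith) t ht)

/-- the key inequality on open subsets of `Ω`. -/
theorem hta_per_le_open (hn : 3 ≤ n) (h : HtSeq n a Ω κ q U) (hc : HtConv n κ q U μ ζ A S) {W : Set (E n)}
    (hW : IsOpen W) (hWΩ : W ⊆ Ω) : gmtP S W ≤ μ W := by
  have hacC : 0 < acC := by unfold acC; positivity
  have hS := hc.mS
  unfold gmtP gmtPer
  refine iSup_le fun T => iSup_le fun hT => iSup_le fun hA => ?_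
  have hT1 : ∀ x, ‖T x‖ ≤ 1 := (gmtAdm_eu_iff T).1 hA
  have hTu : GmtTest univ T := ⟨hT.c1, hT.cpt, subset_univ _⟩
  obtain ⟨hD1, hD2, -⟩ := continuous_gmtDiv hTu
  have hlim := htc_phi_tendsto hn h.ac hc.l1 hS hD1 hD2
  have e1 : ∫ x, htPhi (htSgn S x) * gmtDiv T x = -(acC * ∫ x in S, gmtDiv T x) := by
    have hDi : Integrable (gmtDiv T) := hD1.integrable_of_hasCompactSupport hD2
    have g2 : ∀ x, htPhi (htSgn S x) * gmtDiv T x =
        acC / 2 * gmtDiv T x - acC * S.indicator (gmtDiv T) x := by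
      intro x
      rw [htc_phi_sgn]
      unfold htSgn gmtChi
      by_cases hx : x ∈ S
      · simp only [indicator_of_mem hx]; ring
      · simp only [indicator_of_notMem hx]; ring
    simp_rw [g2]
    rw [integral_sub (hDi.const_mul _) ((hDi.indicator hS).const_mul _), integral_const_mul, integral_const_mul,
      integral_gmtDiv_eq_zero hTu, integral_indicator hS]
    ring
  -- the norm of `T` as a test function
  have hNc : Continuous fun x => ‖T x‖ := hT.c1.continuous.norm
  have hNs : HasCompactSupport fun x => ‖T x‖ := hT.cpt.norm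
  have hwk := htc_wk_D hn h hc hNc hNs
  -- integration by parts for large `i`
  obtain ⟨c, hc0, haw⟩ := h.away (tsupport T) hT.cpt.isCompact (hT.sub.trans hWΩ)
  have hev : ∀ᶠ i in atTop, -(∫ x, htPhi (U i x) * gmtDiv T x) / acC ≤ ∫ x, ‖T x‖ * htD n (κ i) (q i) (U i) x := by
    filter_upwards [haw] with i hi
    have hq : q i ∉ tsupport T := fun hq => by
      have := hi _ hq
      rw [sub_self, norm_zero] at this
      linarith
    have hTi : GmtTest ({q i}ᶜ) T := ⟨hT.c1, hT.cpt, fun x hx => fun hxq => hq (hxq ▸ hx)⟩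
    have hu : ContDiffOn ℝ 1 (fun z => htPhi (U i z)) {q i}ᶜ :=
      (htc_phi_contDiff.comp_contDiffOn (h.ac i).smooth).of_le (by exact_mod_cast le_top)
    rw [integral_mul_gmtDiv isOpen_compl_singleton hu hTi, neg_neg, div_le_iff₀ hacC, ← integral_mul_const]
    have hint : Integrable fun x => ‖T x‖ * htD n (κ i) (q i) (U i) x * acC := by
      have h1 : Integrable fun x => ‖T x‖ * htD n (κ i) (q i) (U i) x := by
        have := (ht_D_locallyIntegrable hn (h.ac i)).integrable_smul_left_of_hasCompactSupport hNc hNs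
        simpa only [smul_eq_mul] using this
      exact h1.mul_const _
    refine (le_abs_self _).trans (abs_integral_le_integral_abs.trans
      (integral_mono_of_nonneg (Eventually.of_forall fun x => abs_nonneg _) hint (Eventually.of_forall fun x => ?_)))
    by_cases hx : x = q i
    · have hT0 : T x = 0 := image_eq_zero_of_notMem_tsupport (hx ▸ hq)
      simp only [hT0, map_zero, abs_zero, norm_zero, zero_mul, le_refl]
    · have := ht_dPhi_le hn (h.ac i) x (T x) hx
      calc |fderiv ℝ (fun z => htPhi (U i z)) x (T x)| ≤ acC * htD n (κ i) (q i) (U i) x * ‖T x‖ := this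
        _ = ‖T x‖ * htD n (κ i) (q i) (U i) x * acC := by ring
  have hle : ∫ x in S, gmtDiv T x ≤ ∫ x, ‖T x‖ ∂μ := by
    have h1 : Tendsto (fun i => -(∫ x, htPhi (U i x) * gmtDiv T x) / acC) atTop (𝓝 (∫ x in S, gmtDiv T x)) := by
      have := (hlim.neg).div_const acC
      rw [e1, neg_neg, mul_div_cancel_left₀ _ hacC.ne'] at this
      exact this
    exact le_of_tendsto_of_tendsto h1 hwk hev
  refine (ENNReal.ofReal_le_ofReal hle).trans ?_
  exact gmt_ofReal_integral_le_measure hT1 hW.measurableSet fun x hx => by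
    rw [image_eq_zero_of_notMem_tsupport fun hx' => hx (hT.sub hx'), norm_zero]

/-- L1'': lower semicontinuity. -/
theorem ht_lim_per_le (hn : 3 ≤ n) (_hΩ : IsOpen Ω) (hΩc : Ωᶜ ⊆ {0}) (h : HtSeq n a Ω κ q U) (hc : HtConv n κ q U μ ζ A S) :
    GmtLF S univ ∧ gmtMu S ≤ μ := by
  have key : ∀ W : Set (E n), IsOpen W → gmtP S W ≤ μ W := by
    intro W hW
    refine (nu_remove_point (by omega) hc.mS hW 0).trans ?_
    refine (hta_per_le_open hn h hc (hW.sdiff isClosed_singleton) ?_).trans (measure_mono sdiff_subset)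
    intro x hx
    by_contra hxΩ
    exact hx.2 (hΩc hxΩ)
  refine ⟨⟨hc.mS, fun W hW => ?_⟩, ?_⟩
  · exact ne_top_of_le_ne_top (hc.fin _ hW.2.1) ((key W hW.1).trans (measure_mono subset_closure))
  · have := hc.locFin
    refine Measure.le_iff.2 fun B _ => ?_
    rw [Set.measure_eq_iInf_isOpen B μ]
    refine le_iInf fun V => le_iInf fun hBV => le_iInf fun hV => ?_
    calc gmtMu S B ≤ gmtMu S V := measure_mono hBV
      _ = gmtP S V := gmtMu_open S hV
      _ ≤ μ V := key V hV

end Claimed.Agent.R323
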