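import Claimed.Agent.R323.Ht.Ac

/-!
# Row 323, block C, LIM: preliminaries (moved here from `Ht/LimC0.lean` so that `LimA1` can use them; proofs by the authors of `LimC0`).
`htc_integral_htMu`, `htc_wk_D`, `htc_phi_*`, `htc_sgn_*`, `htc_phi_tendsto`.
-/

set_option autoImplicit false
open scoped ContDiff ENNReal NNReal RealInnerProductSpace Topology
open MeasureTheory Metric Set Filter

namespace Claimed.Agent.R323

open Claimed.Agent.Gmt

variable {n : ℕ}

theorem htc_integral_htMu (hn : 3 ≤ n) {κ : ℝ} {q : E n} {U : E n → ℝ} (h : HtAC n κ q U) (g : E n → ℝ) :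
    ∫ x, g x ∂(htMu n κ q U) = ∫ x, g x * htD n κ q U x := by
  unfold htMu
  rw [integral_withDensity_eq_integral_toReal_smul₀ ((ht_pair hn h).md.aemeasurable.ennreal_ofReal)
    (Eventually.of_forall fun x => ENNReal.ofReal_lt_top)]
  refine integral_congr_ae (Eventually.of_forall fun x => ?_)
  simp only [smul_eq_mul]
  rw [ENNReal.toReal_ofReal (ht_D_nonneg hn h x), mul_comm]

variable {a : ℝ} {Ω : Set (E n)} {κ : ℕ → ℝ} {q : ℕ → E n} {U : ℕ → E n → ℝ} {μ ζ : Measure (E n)}
  {A : E n → E n →L[ℝ] E n} {S : Set (E n)}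

theorem htc_wk_D (hn : 3 ≤ n) (h : HtSeq n a Ω κ q U) (hc : HtConv n κ q U μ ζ A S) {g : E n → ℝ} (hg : Continuous g)
    (hgc : HasCompactSupport g) :
    Tendsto (fun i => ∫ x, g x * htD n (κ i) (q i) (U i) x) atTop (𝓝 (∫ x, g x ∂μ)) := by
  have := hc.wk g hg hgc (subset_univ _)
  simpa only [htc_integral_htMu hn (h.ac _)] using this

theorem htc_ae_ne0 (hn : 3 ≤ n) (q : E n) : ∀ᵐ x : E n, x ≠ q := by
  have : NeZero n := ⟨by omega⟩
  have : Nontrivial (E n) := inferInstance
  exact compl_mem_ae_iff.2 (measure_singleton q)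

theorem htc_U_aesm (hn : 3 ≤ n) {κ : ℝ} {q : E n} {U : E n → ℝ} (h : HtAC n κ q U) : AEStronglyMeasurable U volume := by
  have h1 : AEStronglyMeasurable U (volume.restrict {q}ᶜ) :=
    h.smooth.continuousOn.aestronglyMeasurable (measurableSet_singleton q).compl
  have e : volume.restrict ({q}ᶜ : Set (E n)) = volume :=
    Measure.restrict_eq_self_of_ae_mem (by filter_upwards [htc_ae_ne0 hn q] with x hx using hx)
  rwa [e] at h1

theorem htc_phi_contDiff : ContDiff ℝ ∞ htPhi := by
  unfold htPhi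
  fun_prop

theorem htc_phi_lip {s t : ℝ} (hs : |s| ≤ 1) (ht : |t| ≤ 1) : |htPhi s - htPhi t| ≤ |s - t| := by
  unfold htPhi
  have h2 : (1 : ℝ) ≤ Real.sqrt 2 := by
    rw [show (1 : ℝ) = Real.sqrt 1 from Real.sqrt_one.symm]
    exact Real.sqrt_le_sqrt (by norm_num)
  have e : (s - s ^ 3 / 3) / Real.sqrt 2 - (t - t ^ 3 / 3) / Real.sqrt 2 =
      (s - t) * ((1 - (s ^ 2 + s * t + t ^ 2) / 3) / Real.sqrt 2) := by
    field_simp
    ring
  rw [e, abs_mul]
  have hs' := abs_le.1 hs
  have ht' := abs_le.1 ht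
  have h3 : |(1 - (s ^ 2 + s * t + t ^ 2) / 3) / Real.sqrt 2| ≤ 1 := by
    rw [abs_div, abs_of_pos (by positivity : (0 : ℝ) < Real.sqrt 2), div_le_one (by positivity)]
    refine le_trans ?_ h2
    rw [abs_le]
    constructor <;> nlinarith [sq_nonneg (s + t), sq_nonneg s, sq_nonneg t, sq_nonneg (s - t)]
  calc |s - t| * _ ≤ |s - t| * 1 := by gcongr
    _ = |s - t| := mul_one _

theorem htc_phi_sgn (S : Set (E n)) (x : E n) : htPhi (htSgn S x) = acC / 2 * htSgn S x := by
  have h2 : Real.sqrt 2 * Real.sqrt 2 = 2 := Real.mul_self_sqrt (by norm_num)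
  have h0 : Real.sqrt 2 ≠ 0 := by positivity
  unfold htSgn htPhi acC gmtChi
  by_cases hx : x ∈ S
  · simp only [indicator_of_mem hx]
    field_simp
    nlinarith
  · simp only [indicator_of_notMem hx]
    field_simp
    nlinarith

theorem htc_sgn_abs (S : Set (E n)) (x : E n) : |htSgn S x| ≤ 1 := by
  unfold htSgn gmtChi
  by_cases hx : x ∈ S
  · simp only [indicator_of_mem hx]; norm_num
  · simp only [indicator_of_notMem hx]; norm_num

theorem htc_sgn_meas {S : Set (E n)} (hS : MeasurableSet S) : Measurable (htSgn S) := by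
  unfold htSgn gmtChi
  exact measurable_const.sub (measurable_const.mul (measurable_const.indicator hS))

/-- convergence of `∫ Φ(U_i) D` for continuous compactly supported `D`. -/
theorem htc_phi_tendsto (hn : 3 ≤ n) (hac : ∀ i, HtAC n (κ i) (q i) (U i)) (hl : GmtConvF univ U (htSgn S))
    (hS : MeasurableSet S) {D : E n → ℝ} (hD : Continuous D) (hDc : HasCompactSupport D) :
    Tendsto (fun i => ∫ x, htPhi (U i x) * D x) atTop (𝓝 (∫ x, htPhi (htSgn S x) * D x)) := by
  obtain ⟨C, hC⟩ := hD.bounded_above_of_compact_support hDc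
  have hC0 : 0 ≤ C := (norm_nonneg _).trans (hC 0)
  set K := tsupport D with hK
  have hKc : IsCompact K := hDc.isCompact
  have hb := hl K hKc (subset_univ _)
  have hb2 : Tendsto (fun i => ENNReal.ofReal C * ∫⁻ x in K, ‖U i x - htSgn S x‖ₑ) atTop (𝓝 0) := by
    have := ENNReal.Tendsto.const_mul hb (Or.inr (ENNReal.ofReal_ne_top (r := C)))
    rwa [mul_zero] at this
  have hb3 : Tendsto (fun i => (ENNReal.ofReal C * ∫⁻ x in K, ‖U i x - htSgn S x‖ₑ).toReal) atTop (𝓝 0) := by
    have := (ENNReal.tendsto_toReal ENNReal.zero_ne_top).comp hb2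
    rw [ENNReal.toReal_zero] at this
    exact this
  have hDi : Integrable D := hD.integrable_of_hasCompactSupport hDc
  have hphib : ∀ s : ℝ, |s| ≤ 1 → ‖htPhi s‖ ≤ 1 := by
    intro s hs
    have := htc_phi_lip hs (by simp : |(0 : ℝ)| ≤ 1)
    simp only [htPhi, sub_zero] at this ⊢
    rw [Real.norm_eq_abs]
    simp at this
    exact this.trans hs
  have i1 : ∀ i, Integrable fun x => htPhi (U i x) * D x := fun i =>
    hDi.bdd_mul (c := 1) (htc_phi_contDiff.continuous.comp_aestronglyMeasurable (htc_U_aesm hn (hac i)))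
      (Eventually.of_forall fun x => hphib _ ((hac i).bdd x))
  have i2 : Integrable fun x => htPhi (htSgn S x) * D x :=
    hDi.bdd_mul (c := 1) (htc_phi_contDiff.continuous.measurable.comp (htc_sgn_meas hS)).aestronglyMeasurable
      (Eventually.of_forall fun x => hphib _ (htc_sgn_abs S x))
  rw [tendsto_iff_norm_sub_tendsto_zero]
  refine squeeze_zero' (Eventually.of_forall fun i => norm_nonneg _) ?_ hb3
  filter_upwards [hb2.eventually (Iio_mem_nhds (zero_lt_one' ℝ≥0∞))] with i hi
  rw [← integral_sub (i1 i) i2]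
  refine (norm_integral_le_lintegral_norm _).trans (ENNReal.toReal_mono (ne_top_of_lt hi) ?_)
  rw [← lintegral_const_mul' _ _ ENNReal.ofReal_ne_top, ← lintegral_indicator hKc.measurableSet]
  refine lintegral_mono fun x => ?_
  by_cases hx : x ∈ K
  · rw [indicator_of_mem hx, ← ofReal_norm, ← ENNReal.ofReal_mul hC0]
    refine ENNReal.ofReal_le_ofReal ?_
    rw [← sub_mul, norm_mul, mul_comm]
    refine mul_le_mul (hC x) ?_ (norm_nonneg _) hC0
    rw [Real.norm_eq_abs, Real.norm_eq_abs]
    exact htc_phi_lip ((hac i).bdd x) (htc_sgn_abs S x)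
  · rw [indicator_of_notMem hx, image_eq_zero_of_notMem_tsupport hx]
    simp

end Claimed.Agent.R323
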