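import Claimed.Agent.R323.Ht.LimX2
import Claimed.Agent.R323.Ht.LimPre
import Claimed.Agent.Lib.Gmt.BvBasic
import Claimed.Agent.Lib.Gmt.BvCompactB
import Claimed.Agent.Lib.Gmt.BvConvAe

/-!
# Row 323, block C, sub-block LIM, file X3: the `BV` half of `ht_lim_compact`: `Φ(U_i)` is bounded in `BV_loc(Ω)`; `U_i → ±1` in `L¹_loc`.   (architect: helper143)
Prefix `htl_`.   LEAVES `L-HTL-*`: every `sorry`; prove IN PLACE (helper lemmas directly above your theorem, names `htl_<tag>_*`), pull before landing, do not change statements (objections: one line to helper143).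
Tools: `Ht/LimX1.lean` (`htl_mu_*`, `htl_seq_*`, `htl_U_*`), `Ht/LimPre.lean` (`htc_phi_lip`, `htc_phi_contDiff`, `htc_phi_sgn`, `htc_sgn_abs`, `htc_sgn_meas`), `Ht/AcPt.lean` (`ht_dPhi_le`, `ht_W_le`), `Lib/Gmt/BvBasic(A).lean` (`gmtVar_*`), `Lib/Gmt/BvCompactB.lean`, `Lib/Gmt/BvConvAe.lean`.
-/

set_option autoImplicit false
open scoped ContDiff ENNReal NNReal RealInnerProductSpace Topology
open MeasureTheory Metric Set Filter

namespace Claimed.Agent.R323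

open Claimed.Agent.Gmt

variable {n : ℕ}

/-- **LEAF L-HTL-2** (~50 l.): the total variation of `Φ(U)` is controlled by the mass.
PLAN: `gmtVar_of_contDiffOn hW` (`Φ ∘ U` is `C¹` on `W ⊆ {q}ᶜ`: `h.smooth.mono`, `htc_phi_contDiff.comp_contDiffOn`);   `‖fderiv ℝ (Φ ∘ U) x‖ ≤ acC * htD x` for `x ∈ W`
(`ContinuousLinearMap.opNorm_le_bound`, `ht_dPhi_le`, `ht_D_nonneg`, `ht_acC_pos`);  `setLIntegral_mono'`/`lintegral_mono_ae` + `ae_restrict_mem`, `ENNReal.ofReal_mul`, `lintegral_const_mul'`, `htMu`, `withDensity_apply _ hW.measurableSet`. -/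
theorem htl_var_le (hn : 3 ≤ n) {κ : ℝ} {q : E n} {U : E n → ℝ} (h : HtAC n κ q U) {W : Set (E n)} (hW : IsOpen W) (hq : q ∉ W) :
    gmtVar (fun x => htPhi (U x)) W ≤ ENNReal.ofReal acC * htMu n κ q U W := by
  have hsub : W ⊆ {q}ᶜ := fun x hx e => hq (by rw [mem_singleton_iff] at e; exact e ▸ hx)
  have hc : ContDiffOn ℝ 1 (fun x => htPhi (U x)) W :=
    ((htc_phi_contDiff.comp_contDiffOn (h.smooth.mono hsub)).of_le (by simp))
  rw [gmtVar_of_contDiffOn hW hc]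
  unfold htMu
  rw [withDensity_apply _ hW.measurableSet, ← lintegral_const_mul' _ _ ENNReal.ofReal_ne_top]
  refine setLIntegral_mono' hW.measurableSet fun x hx => ?_
  have hD := ht_D_nonneg hn h x
  rw [← ENNReal.ofReal_mul ht_acC_pos.le, ← ofReal_norm]
  refine ENNReal.ofReal_le_ofReal ?_
  refine ContinuousLinearMap.opNorm_le_bound _ (mul_nonneg ht_acC_pos.le hD) fun v => ?_
  rw [Real.norm_eq_abs]
  exact ht_dPhi_le hn h x v (fun e => hq (e ▸ hx))

/-! ## 3. Compactness of the functions -/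

/-- the quantitative form of `htl_pt`. -/
theorem htl_pt_le {s t : ℝ} (hs : |s| ≤ 1) :
    |s - (if t < 0 then -1 else 1)| ≤ 5 * |htPhi s - t| + 5 * Real.sqrt (acW s) := by
  obtain ⟨h1, h2⟩ := abs_le.1 hs
  have hq : 0 ≤ 1 - s ^ 2 := by nlinarith
  have hsq : Real.sqrt (acW s) = (1 - s ^ 2) / 2 := by
    unfold acW
    rw [show (1 - s ^ 2) ^ 2 / 4 = ((1 - s ^ 2) / 2) ^ 2 by ring]
    exact Real.sqrt_sq (by linarith)
  rw [hsq]
  obtain ⟨c, hc, hc7⟩ : ∃ c : ℝ, (∀ y : ℝ, y / Real.sqrt 2 = y * c) ∧ 7 / 10 ≤ c := by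
    refine ⟨(Real.sqrt 2)⁻¹, fun y => div_eq_mul_inv _ _, ?_⟩
    have h3 : Real.sqrt 2 ≤ 10 / 7 := by
      rw [show (10 / 7 : ℝ) = Real.sqrt ((10 / 7) ^ 2) by rw [Real.sqrt_sq (by norm_num)]]
      exact Real.sqrt_le_sqrt (by norm_num)
    have h4 : 0 < Real.sqrt 2 := by positivity
    rw [show (7 / 10 : ℝ) = (10 / 7)⁻¹ by norm_num]
    exact inv_anti₀ h4 h3
  have hP : htPhi s = (s - s ^ 3 / 3) * c := by unfold htPhi; exact hc _
  rw [hP]
  by_cases ht : t < 0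
  · rw [if_pos ht, sub_neg_eq_add, abs_of_nonneg (by linarith)]
    by_cases h0 : s ≤ 0
    · have := abs_nonneg ((s - s ^ 3 / 3) * c - t)
      nlinarith
    · push Not at h0
      have h5 : (s - s ^ 3 / 3) * c - t ≤ |(s - s ^ 3 / 3) * c - t| := le_abs_self _
      have h6 : 0 ≤ s - s ^ 3 / 3 := by nlinarith [pow_pos h0 3, mul_pos h0 h0]
      have h7 : (s - s ^ 3 / 3) * (7 / 10) ≤ (s - s ^ 3 / 3) * c := mul_le_mul_of_nonneg_left hc7 h6
      nlinarith [pow_pos h0 3, mul_pos h0 h0, mul_nonneg h0.le (sub_nonneg.2 h2), pow_le_one₀ h0.le h2 (n := 3)]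
  · rw [if_neg ht, abs_of_nonpos (by linarith)]
    push Not at ht
    by_cases h0 : 0 ≤ s
    · have := abs_nonneg ((s - s ^ 3 / 3) * c - t)
      nlinarith
    · push Not at h0
      have h5 : -((s - s ^ 3 / 3) * c - t) ≤ |(s - s ^ 3 / 3) * c - t| := neg_le_abs _
      obtain ⟨r, rfl⟩ : ∃ r, s = -r := ⟨-s, by ring⟩
      have h0' : 0 < r := by linarith
      have h2' : r ≤ 1 := by linarith
      have h6 : 0 ≤ r - r ^ 3 / 3 := by nlinarith [pow_pos h0' 3, mul_pos h0' h0']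
      have h7 : (r - r ^ 3 / 3) * (7 / 10) ≤ (r - r ^ 3 / 3) * c := mul_le_mul_of_nonneg_left hc7 h6
      have h8 : ((-r) - (-r) ^ 3 / 3) * c = -((r - r ^ 3 / 3) * c) := by ring
      rw [h8] at h5 ⊢
      nlinarith [pow_pos h0' 3, mul_pos h0' h0', mul_nonneg h0'.le (sub_nonneg.2 h2'), pow_le_one₀ h0'.le h2' (n := 3)]

/-- **LEAF L-HTL-6** (~50 l.): a pointwise lemma.   `acW s = (1 - s²)²/4 → 0` gives `1 - |s i| → 0` (`0 ≤ 1 - |s| ≤ 1 - s² = 2 √(acW s)`, `Real.sqrt` continuous).   With `σ i = SignType.sign`-free formulation: `|Φ(s) - (if 0 ≤ s then Φ 1 else Φ (-1))| ≤ 1 - |s|` (`htc_phi_lip`; `htPhi 1 = acC/2`, `htPhi (-1) = -acC/2`: unfold, `Real.mul_self_sqrt`).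
So `(if 0 ≤ s i then acC/2 else -acC/2) → w`; a convergent sequence with values in the discrete closed set `{±acC/2}` is eventually constant (distance `acC > 0`): `w = ±acC/2` and eventually `0 ≤ s i`, resp. `s i < 0`; then `|s i - (±1)| = 1 - |s i| → 0`. -/
theorem htl_pt {s : ℕ → ℝ} {w : ℝ} (hs : ∀ i, |s i| ≤ 1) (hW : Tendsto (fun i => acW (s i)) atTop (𝓝 0))
    (hw : Tendsto (fun i => htPhi (s i)) atTop (𝓝 w)) : Tendsto s atTop (𝓝 (if w < 0 then -1 else 1)) := by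
  rw [tendsto_iff_norm_sub_tendsto_zero]
  have h1 : Tendsto (fun i => 5 * |htPhi (s i) - w| + 5 * Real.sqrt (acW (s i))) atTop (𝓝 0) := by
    have h2 : Tendsto (fun i => |htPhi (s i) - w|) atTop (𝓝 0) := by
      have := (tendsto_iff_norm_sub_tendsto_zero.1 hw)
      simpa [Real.norm_eq_abs] using this
    have h3 : Tendsto (fun i => Real.sqrt (acW (s i))) atTop (𝓝 0) := by
      have := (Real.continuous_sqrt.tendsto 0).comp hW
      rw [Real.sqrt_zero] at this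
      exact this
    simpa using (h2.const_mul 5).add (h3.const_mul 5)
  refine squeeze_zero (fun i => norm_nonneg _) (fun i => ?_) h1
  rw [Real.norm_eq_abs]
  exact htl_pt_le (hs i)

/-- **LEAF L-HTL-7** (~40 l.): dominated convergence.   For compact `K`: `tendsto_lintegral_of_dominated_convergence' (fun _ => 2)` on `volume.restrict K` (`AEMeasurable.enorm`; bound `‖U i x - u' x‖ₑ ≤ 2`; `∫⁻_K 2 = 2 vol K ≠ ⊤`; a.e. limit `‖U i x - u' x‖ₑ → 0`: `tendsto_iff_norm_sub_tendsto_zero`, `ENNReal.tendsto_ofReal`/`enorm` continuity); `ae_restrict_of_ae`. -/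
theorem htl_dct {U : ℕ → E n → ℝ} {u' : E n → ℝ} (hm : ∀ i, AEStronglyMeasurable (U i) volume) (hm' : AEStronglyMeasurable u' volume)
    (hb : ∀ i x, |U i x| ≤ 1) (hb' : ∀ x, |u' x| ≤ 1) (hae : ∀ᵐ x, Tendsto (fun i => U i x) atTop (𝓝 (u' x))) : GmtConvF univ U u' := by
  intro K hK _
  have h0 : (0 : ℝ≥0∞) = ∫⁻ _ in K, (0 : ℝ≥0∞) := by simp
  rw [h0]
  refine tendsto_lintegral_of_dominated_convergence' (fun _ => (2 : ℝ≥0∞)) (fun i => ?_) (fun i => ?_) ?_ ?_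
  · exact ((hm i).sub hm').restrict.enorm
  · refine Eventually.of_forall fun x => ?_
    show ‖U i x - u' x‖ₑ ≤ 2
    rw [Real.enorm_eq_ofReal_abs, show (2 : ℝ≥0∞) = ENNReal.ofReal 2 by simp]
    refine ENNReal.ofReal_le_ofReal ?_
    have h1 := abs_le.1 (hb i x)
    have h2 := abs_le.1 (hb' x)
    rw [abs_le]
    constructor <;> linarith [h1.1, h1.2, h2.1, h2.2]
  · rw [setLIntegral_const]
    exact ENNReal.mul_ne_top (by simp) hK.measure_lt_top.ne
  · filter_upwards [ae_restrict_of_ae hae] with x hx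
    have h1 := tendsto_iff_norm_sub_tendsto_zero.1 hx
    have h2 := ENNReal.tendsto_ofReal h1
    simp only [ENNReal.ofReal_zero] at h2
    refine h2.congr fun i => ?_
    rw [ofReal_norm]

section cpt

variable {a : ℝ} {Ω : Set (E n)} {κ : ℕ → ℝ} {q : ℕ → E n} {U : ℕ → E n → ℝ}

/-- **LEAF L-HTL-8** (~70 l.): `W(U_i) → 0` in `L¹_loc(Ω)`.   `K ⊆ Ω` compact, `K ⊆ ball 0 R`.   For `δ > 0`, eventually: `q i ∉ K` (`htl_seq_away`), `htEps ≤ δ` on `K` (`h.small`), `htMu_i (ball 0 R) ≤ C := ofReal ((a+1)/(n-1) R^(n-1))` (`htl_seq_ball_le`).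
Then `‖acW (U i x) - 0‖ₑ = ofReal (acW ..) ≤ ofReal (acC δ) * ofReal (htD x)` on `K` (`ht_W_le`, `ht_D_nonneg`), so `∫⁻_K ≤ ofReal (acC δ) * htMu_i K ≤ ofReal (acC δ) * C`.   Conclude with `ENNReal.tendsto_nhds_zero` (given `η > 0` choose `δ`; e.g. via `ENNReal.Tendsto.mul_const`/continuity of `δ ↦ ofReal (acC δ) * C` at `0`). -/
theorem htl_W_conv (hn : 3 ≤ n) (h : HtSeq n a Ω κ q U) : GmtConvF Ω (fun i x => acW (U i x)) (fun _ => 0) := by
  intro K hK hKΩ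
  obtain ⟨R, hR⟩ := hK.isBounded.subset_ball (0 : E n)
  have hR' : K ⊆ ball (0 : E n) (max R 1) := hR.trans (ball_subset_ball (le_max_left _ _))
  have hRp : 0 < max R 1 := lt_max_of_lt_right one_pos
  set C : ℝ≥0∞ := ENNReal.ofReal ((a + 1) / ((n : ℝ) - 1) * (max R 1) ^ (n - 1)) with hC
  have key : ∀ δ : ℝ, 0 < δ → ∀ᶠ i in atTop, ∫⁻ x in K, ‖acW (U i x) - 0‖ₑ ≤ ENNReal.ofReal (acC * δ) * C := by
    intro δ hδ
    filter_upwards [htl_seq_away h hK hKΩ, h.small K hK hKΩ δ hδ, htl_seq_ball_le hn h one_pos (0 : E n) hRp] with i h1 h2 h3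
    calc ∫⁻ x in K, ‖acW (U i x) - 0‖ₑ
        ≤ ∫⁻ x in K, ENNReal.ofReal (acC * δ) * ENNReal.ofReal (htD n (κ i) (q i) (U i) x) := by
          refine setLIntegral_mono' hK.measurableSet fun x hx => ?_
          have hxq : x ≠ q i := fun e => h1 (e ▸ hx)
          have hD := ht_D_nonneg hn (h.ac i) x
          have hW0 : 0 ≤ acW (U i x) := by unfold acW; positivity
          rw [sub_zero, Real.enorm_eq_ofReal_abs, abs_of_nonneg hW0, ← ENNReal.ofReal_mul (mul_nonneg ht_acC_pos.le hδ.le)]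
          refine ENNReal.ofReal_le_ofReal ((ht_W_le hn (h.ac i) x hxq).trans ?_)
          exact mul_le_mul_of_nonneg_right (mul_le_mul_of_nonneg_left (h2 x hx) ht_acC_pos.le) hD
      _ = ENNReal.ofReal (acC * δ) * htMu n (κ i) (q i) (U i) K := by
          rw [lintegral_const_mul' _ _ ENNReal.ofReal_ne_top]
          unfold htMu
          rw [withDensity_apply _ hK.measurableSet]
      _ ≤ ENNReal.ofReal (acC * δ) * C := by
          gcongr
          exact (measure_mono hR').trans h3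
  have hlim : Tendsto (fun δ : ℝ => ENNReal.ofReal (acC * δ) * C) (𝓝[>] 0) (𝓝 0) := by
    have h1 : Tendsto (fun δ : ℝ => ENNReal.ofReal (acC * δ)) (𝓝 0) (𝓝 0) := by
      have : Tendsto (fun δ : ℝ => acC * δ) (𝓝 0) (𝓝 (acC * 0)) := (continuous_const.mul continuous_id).tendsto 0
      rw [mul_zero] at this
      simpa using ENNReal.tendsto_ofReal this
    have h2 := ENNReal.Tendsto.mul_const (b := C) h1 (Or.inr ENNReal.ofReal_ne_top)
    rw [zero_mul] at h2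
    exact h2.mono_left nhdsWithin_le_nhds
  rw [ENNReal.tendsto_nhds_zero]
  intro η hη
  have h4 : ∀ᶠ δ : ℝ in 𝓝[>] 0, ENNReal.ofReal (acC * δ) * C ≤ η := (ENNReal.tendsto_nhds_zero.1 hlim) η hη
  obtain ⟨δ, hδ1, hδ2⟩ := (h4.and self_mem_nhdsWithin).exists
  filter_upwards [key δ hδ2] with i hi
  exact hi.trans hδ1

theorem htl_phi_abs {s : ℝ} (hs : |s| ≤ 1) : |htPhi s| ≤ 1 := by
  have h := htc_phi_lip hs (t := 0) (by simp)
  have h0 : htPhi 0 = 0 := by unfold htPhi; simp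
  rw [h0, sub_zero, sub_zero] at h
  exact h.trans hs

theorem htl_phi_locInt (hn : 3 ≤ n) {κ : ℝ} {q : E n} {U : E n → ℝ} (h : HtAC n κ q U) :
    LocallyIntegrable (fun x => htPhi (U x)) volume :=
  (locallyIntegrable_const (1 : ℝ)).mono
    (htc_phi_contDiff.continuous.comp_aestronglyMeasurable (htl_U_aesm hn h)) (Eventually.of_forall fun x => by
      rw [Real.norm_eq_abs, norm_one]
      exact htl_phi_abs (h.bdd x))

/-- **LEAF L-HTL-9** (~60 l.): `Φ(U_i)` subconverges in `L¹_loc(Ω)`.   `gmtVar_compactness hΩ` for `u i = Φ ∘ U i` (locally integrable: bounded by `1`, `htl_U_aesm`).   NOTE the parsing of its hypothesis `hb`: the integrand is `‖u i y‖ₑ + gmtVar (u i) (ball x r)`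
(see the proof of `gmtP_compactness`: bound `(1 + C) * volume (ball x r)`, `setLIntegral_const`, `lintegral_mono`).   For `x ∈ Ω` take `r` with `closedBall x r ⊆ Ω` (`Metric.nhds_basis_closedBall.mem_iff`); eventually `q i ∉ closedBall x r` (`htl_seq_away`), `htl_var_le`, `htl_seq_ball_le`. -/
theorem htl_phi_compact (hn : 3 ≤ n) (hΩ : IsOpen Ω) (h : HtSeq n a Ω κ q U) :
    ∃ (φ : ℕ → ℕ) (w : E n → ℝ), StrictMono φ ∧ Measurable w ∧ LocallyIntegrableOn w Ω ∧ GmtConvF Ω (fun i x => htPhi (U (φ i) x)) w := by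
  refine gmtVar_compactness hΩ (u := fun i x => htPhi (U i x)) (fun i => htl_phi_locInt hn (h.ac i)) fun x hx => ?_
  obtain ⟨r, hr, hrΩ⟩ := Metric.nhds_basis_closedBall.mem_iff.1 (hΩ.mem_nhds hx)
  set C : ℝ≥0∞ := ENNReal.ofReal acC * ENNReal.ofReal ((a + 1) / ((n : ℝ) - 1) * r ^ (n - 1)) with hC
  refine ⟨r, hr, (1 + C) * volume (ball x r), ENNReal.mul_ne_top (ENNReal.add_ne_top.2 ⟨by simp,
    ENNReal.mul_ne_top ENNReal.ofReal_ne_top ENNReal.ofReal_ne_top⟩) measure_ball_lt_top.ne, ?_⟩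
  filter_upwards [htl_seq_away h (isCompact_closedBall x r) hrΩ, htl_seq_ball_le hn h one_pos x hr] with i h1 h2
  have h3 : gmtVar (fun x => htPhi (U i x)) (ball x r) ≤ C :=
    (htl_var_le hn (h.ac i) isOpen_ball (fun hq => h1 (ball_subset_closedBall hq))).trans (mul_le_mul_right h2 _)
  calc ∫⁻ y in ball x r, ‖htPhi (U i y)‖ₑ + gmtVar (fun x => htPhi (U i x)) (ball x r)
      ≤ ∫⁻ _ in ball x r, (1 + C) := by
        refine lintegral_mono fun y => ?_
        refine add_le_add ?_ h3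
        rw [Real.enorm_eq_ofReal_abs, ← ENNReal.ofReal_one]
        exact ENNReal.ofReal_le_ofReal (htl_phi_abs ((h.ac i).bdd y))
    _ = (1 + C) * volume (ball x r) := setLIntegral_const _ _

theorem htl_W_locInt (hn : 3 ≤ n) {κ : ℝ} {q : E n} {U : E n → ℝ} (h : HtAC n κ q U) :
    LocallyIntegrable (fun x => acW (U x)) volume := by
  have hc : Continuous acW := by unfold acW; fun_prop
  refine (locallyIntegrable_const (1 : ℝ)).mono (hc.comp_aestronglyMeasurable (htl_U_aesm hn h)) (Eventually.of_forall fun x => ?_)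
  rw [Real.norm_eq_abs, norm_one]
  obtain ⟨h1, h2⟩ := abs_le.1 (h.bdd x)
  have h3 : 0 ≤ 1 - U x ^ 2 := by nlinarith
  have h4 : 1 - U x ^ 2 ≤ 1 := by nlinarith [sq_nonneg (U x)]
  unfold acW
  rw [abs_of_nonneg (by positivity)]
  nlinarith

/-- **LEAF L-HTL-10** (~80 l.): compactness of the functions.   `htl_phi_compact` gives `φ₁, w`.   `GmtConvF.exists_subseq_ae hΩ` twice (for `Φ(U_{φ₁ i}) → w`, then for `acW (U ..) → 0` along the subsequence: `htl_W_conv` applied to `htl_seq_subseq`; a subsequence of an a.e. convergent sequence converges a.e.).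
`S := {x | w x < 0}` (measurable), `htSgn S x = if w x < 0 then -1 else 1`.   `htl_pt` pointwise: `U_{φ i} x → htSgn S x` for a.e. `x ∈ Ω`;  `Ωᶜ ⊆ {0}` is a null set (`measure_singleton`/`Set.Subsingleton.measure_zero`; `volume` on `E n`, `n ≥ 1`, has no atoms).   `htl_dct`. -/
theorem htl_bv_compact (hn : 3 ≤ n) (hΩ : IsOpen Ω) (hΩc : Ωᶜ ⊆ {0}) (h : HtSeq n a Ω κ q U) :
    ∃ (φ : ℕ → ℕ) (S : Set (E n)), StrictMono φ ∧ MeasurableSet S ∧ GmtConvF univ (fun i => U (φ i)) (htSgn S) := by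
  obtain ⟨φ₁, w, hφ₁, hwm, hwl, hw⟩ := htl_phi_compact hn hΩ h
  have hs1 := htl_seq_subseq h hφ₁
  obtain ⟨φ₂, hφ₂, hae2⟩ := GmtConvF.exists_subseq_ae hΩ (fun i => (htl_phi_locInt hn (hs1.ac i)).locallyIntegrableOn Ω) hwl hw
  have hs2 := htl_seq_subseq hs1 hφ₂
  obtain ⟨φ₃, hφ₃, hae3⟩ := GmtConvF.exists_subseq_ae hΩ (fun i => (htl_W_locInt hn (hs2.ac i)).locallyIntegrableOn Ω)
    (locallyIntegrableOn_const (0 : ℝ)) (htl_W_conv hn hs2)
  have hs3 := htl_seq_subseq hs2 hφ₃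
  have hS : MeasurableSet {x | w x < 0} := measurableSet_lt hwm measurable_const
  refine ⟨fun i => φ₁ (φ₂ (φ₃ i)), {x | w x < 0}, hφ₁.comp (hφ₂.comp hφ₃), hS, ?_⟩
  refine htl_dct (fun i => htl_U_aesm hn (hs3.ac i)) (htc_sgn_meas hS).aestronglyMeasurable (fun i x => (hs3.ac i).bdd x)
    (htc_sgn_abs _) ?_
  filter_upwards [hae2, hae3, htc_ae_ne0 hn (0 : E n)] with x h2 h3 h0
  have hx : x ∈ Ω := by
    by_contra hx
    exact h0 (hΩc hx)
  have h4 := htl_pt (s := fun i => U (φ₁ (φ₂ (φ₃ i))) x) (w := w x) (fun i => (hs3.ac i).bdd x) (h3 hx)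
    ((h2 hx).comp hφ₃.tendsto_atTop)
  have h5 : htSgn {x | w x < 0} x = if w x < 0 then -1 else 1 := by
    unfold htSgn gmtChi
    by_cases hwx : w x < 0
    · rw [if_pos hwx, indicator_of_mem (show x ∈ {x | w x < 0} from hwx)]; norm_num
    · rw [if_neg hwx, indicator_of_notMem (show x ∉ {x | w x < 0} from hwx)]; norm_num
  rw [h5]
  exact h4

/-- L1: compactness -/
theorem htl_compact (hn : 3 ≤ n) (hΩ : IsOpen Ω) (hΩc : Ωᶜ ⊆ {0}) (h : HtSeq n a Ω κ q U) :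
    ∃ (φ : ℕ → ℕ) (μ ζ : Measure (E n)) (A : E n → E n →L[ℝ] E n) (S : Set (E n)), StrictMono φ ∧
      HtConv n (fun i => κ (φ i)) (fun i => q (φ i)) (fun i => U (φ i)) μ ζ A S := by
  obtain ⟨φ₁, μ, ζ, A, hφ₁, hAm, hAs, hAb, hμ, hζ, hwk, hwkZ, hwkM⟩ := htl_meas_compact hn h
  obtain ⟨φ₂, S, hφ₂, hS, hl1⟩ := htl_bv_compact hn hΩ hΩc (htl_seq_subseq h hφ₁)
  exact ⟨φ₁ ∘ φ₂, μ, ζ, A, S, hφ₁.comp hφ₂, hS, hAm, hAs, hAb, hμ, hζ, htv_wk_comp hwk hφ₂, htv_wk_comp hwkZ hφ₂,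
    fun v g hg hc => (hwkM v g hg hc).comp hφ₂.tendsto_atTop, hl1⟩

end cpt

end Claimed.Agent.R323
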