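import Claimed.Agent.R323.Ht.Flat
import Claimed.Agent.R323.Ht.LimA1
import Claimed.Agent.R323.Ht.LimX3

/-!
# Row 323, block C, LIM: L1 compactness, limit pair, upper bound, lower semicontinuity.   (owner: helper143)
PLAN: see the header of `Ht/Lim.lean`.
`HtSeq.subseq`, `HtConv.locFin`, `ht_lim_upper`, `ht_lim_per_le` are PROVED in `Ht/LimA1.lean` (helper258).
`ht_lim_pair`, `ht_lim_compact` are PROVED from `Ht/LimX1.lean`, `LimX2.lean` (sorry-free) and `LimX3.lean` (the `BV` half: leaves `L-HTL-*`).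
-/

set_option autoImplicit false
open scoped ContDiff ENNReal NNReal RealInnerProductSpace Topology
open MeasureTheory Metric Set Filter

namespace Claimed.Agent.R323

open Claimed.Agent.Gmt

variable {n : ℕ}

variable {a : ℝ} {Ω : Set (E n)} {κ : ℕ → ℝ} {q : ℕ → E n} {U : ℕ → E n → ℝ} {μ ζ : Measure (E n)}
  {A : E n → E n →L[ℝ] E n} {S : Set (E n)}

/-- L1: compactness. -/
theorem ht_lim_compact (hn : 3 ≤ n) {a : ℝ} {Ω : Set (E n)} (hΩ : IsOpen Ω) (hΩc : Ωᶜ ⊆ {0}) {κ : ℕ → ℝ} {q : ℕ → E n}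
    {U : ℕ → E n → ℝ} (h : HtSeq n a Ω κ q U) :
    ∃ (φ : ℕ → ℕ) (μ ζ : Measure (E n)) (A : E n → E n →L[ℝ] E n) (S : Set (E n)), StrictMono φ ∧
      HtConv n (fun i => κ (φ i)) (fun i => q (φ i)) (fun i => U (φ i)) μ ζ A S :=
  htl_compact hn hΩ hΩc h

/-- L1': the limit pair. -/
theorem ht_lim_pair (hn : 3 ≤ n) (h : HtSeq n a Ω κ q U) (hc : HtConv n κ q U μ ζ A S) : HtPair n μ (fun _ => 1) A :=
  htl_pair hn h hc

end Claimed.Agent.R323
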