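import Claimed.Agent.R323.Ht.LimLo

/-!
# Row 323, block C, LIM: L4, the discrepancy vanishes in the limit.   (architect + prover: helper34)   Prefix `htz_`.

`ζ ≤ μ` (`ht_Xi_le_D`);  `ζ (closedBall x r) ≤ ∫_{closedBall x (2r)} ⟪A e, e⟫ dμ` for every unit `e` (`ht_Xi_le_M`, cut-off, `wkZ`, `wkM`);
by the tilt decay and the lower density bound the ratio `ζ (closedBall x r) / μ (closedBall x r)` tends to `0` at `μ`-a.e. point;  Besicovitch differentiation.
-/

set_option autoImplicit false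
open scoped ContDiff ENNReal NNReal RealInnerProductSpace Topology
open MeasureTheory Metric Set Filter

namespace Claimed.Agent.R323

open Claimed.Agent.Gmt

variable {n : ℕ}

theorem htz_Xi_aesm (hn : 3 ≤ n) {κ : ℝ} {q : E n} {U : E n → ℝ} (h : HtAC n κ q U) :
    AEStronglyMeasurable (fun x => htXi κ q U x / acC) volume :=
  ht_aesm (by omega) q ((ht_Xi_continuousOn h).div_const _)

theorem htz_integral_htZe (hn : 3 ≤ n) {κ : ℝ} {q : E n} {U : E n → ℝ} (h : HtAC n κ q U) (g : E n → ℝ) :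
    ∫ x, g x ∂(htZe κ q U) = ∫ x, g x * (htXi κ q U x / acC) := by
  unfold htZe
  rw [integral_withDensity_eq_integral_toReal_smul₀ ((htz_Xi_aesm hn h).aemeasurable.ennreal_ofReal)
    (Eventually.of_forall fun x => ENNReal.ofReal_lt_top)]
  refine integral_congr_ae (Eventually.of_forall fun x => ?_)
  simp only [smul_eq_mul]
  rw [ENNReal.toReal_ofReal (div_nonneg (ht_xi_nonneg hn h x) ht_acC_pos.le), mul_comm]

theorem htz_Ze_le (hn : 3 ≤ n) {κ : ℝ} {q : E n} {U : E n → ℝ} (h : HtAC n κ q U) : htZe κ q U ≤ htMu n κ q U :=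
  withDensity_mono (Eventually.of_forall fun x => ENNReal.ofReal_le_ofReal (ht_Xi_le_D hn h x))

/-- integrability of `g ⟪M e, e⟫`. -/
theorem htz_M_int (hn : 3 ≤ n) {κ : ℝ} {q : E n} {U : E n → ℝ} (h : HtAC n κ q U) (e : E n) {g : E n → ℝ} (hg : Continuous g)
    (hgc : HasCompactSupport g) : Integrable fun x => g x * ⟪htM n κ q U x e, e⟫ := by
  have hP := ht_pair hn h
  have hfm : AEStronglyMeasurable (fun y => ⟪htM n κ q U y e, e⟫) volume :=
    ((ContinuousLinearMap.apply ℝ (E n) e).continuous.comp_aestronglyMeasurable hP.mM).inner aestronglyMeasurable_const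
  have hfi : IntegrableOn (fun y => ⟪htM n κ q U y e, e⟫) (tsupport g) := by
    have hd : IntegrableOn (fun y => htD n κ q U y * ‖e‖ ^ 2) (tsupport g) :=
      (hP.lint.integrableOn_isCompact hgc).mul_const _
    refine Integrable.mono' hd hfm.restrict (Eventually.of_forall fun y => ?_)
    rw [Real.norm_eq_abs, abs_of_nonneg (ht_M_nonneg hn h y e)]
    exact ht_M_le hn h y e
  obtain ⟨c, hcb⟩ := hg.bounded_above_of_compact_support hgc
  rw [← integrableOn_iff_integrable_of_support_subset (s := tsupport g) (fun x hx => by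
    by_contra hx'
    exact hx (by simp only [image_eq_zero_of_notMem_tsupport hx', zero_mul]))]
  exact hfi.bdd_mul (c := c) hg.aestronglyMeasurable (Eventually.of_forall hcb)

variable {a : ℝ} {Ω : Set (E n)} {κ : ℕ → ℝ} {q : ℕ → E n} {U : ℕ → E n → ℝ} {μ ζ : Measure (E n)}
  {A : E n → E n →L[ℝ] E n} {S : Set (E n)}

/-- `ζ ≤ μ`. -/
theorem htz_le (hn : 3 ≤ n) (h : HtSeq n a Ω κ q U) (hc : HtConv n κ q U μ ζ A S) : ζ ≤ μ := by
  have := htv_le_of_test (μ := μ) (ν := ζ) hc.fin hc.finZ isOpen_univ (fun g hg hgc hs h0 => by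
    refine le_of_tendsto_of_tendsto' (hc.wkZ g hg hgc hs) (hc.wk g hg hgc hs) fun i => ?_
    exact integral_mono_measure (htz_Ze_le hn (h.ac i)) (Eventually.of_forall h0)
      (gmt_integrable_of_cc hg hgc (htlo_fin hn (h.ac i) _ hgc)))
  simpa only [Measure.restrict_univ] using this

/-- the discrepancy measure is controlled by the tilt in ANY direction. -/
theorem htz_ball_le (hn : 3 ≤ n) (h : HtSeq n a Ω κ q U) (hc : HtConv n κ q U μ ζ A S) (x : E n) {e : E n} (he : ‖e‖ = 1)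
    {r : ℝ} (hr : 0 < r) :
    ζ (closedBall x r) ≤ ENNReal.ofReal (∫ y in closedBall x (2 * r), ⟪A y e, e⟫ ∂μ) := by
  obtain ⟨g, hg1, hg2, hg3, hg4, hg5⟩ := gmt_exists_cutoff (isCompact_closedBall x r)
    (isOpen_ball (x := x) (ε := 2 * r)) (closedBall_subset_ball (by linarith))
  have hgB : ∀ y ∈ closedBall x r, g y = 1 := fun y hy => hg5.self_of_nhdsSet y hy
  have hg0 : ∀ y, y ∉ closedBall x (2 * r) → g y = 0 := fun y hy =>
    image_eq_zero_of_notMem_tsupport fun hy' => hy (ball_subset_closedBall (hg3 hy'))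
  obtain ⟨C, hC⟩ := hc.bdd
  have hAm : Measurable fun y => ⟪A y e, e⟫ :=
    ((ContinuousLinearMap.apply ℝ (E n) e).continuous.measurable.comp hc.mA).inner measurable_const
  have hAi : IntegrableOn (fun y => ⟪A y e, e⟫) (closedBall x (2 * r)) μ := by
    refine Measure.integrableOn_of_bounded (M := C * ‖e‖ * ‖e‖) (hc.fin _ (isCompact_closedBall _ _)) hAm.aestronglyMeasurable
      (Eventually.of_forall fun y => ?_)
    rw [Real.norm_eq_abs]
    calc |⟪A y e, e⟫| ≤ ‖A y e‖ * ‖e‖ := abs_real_inner_le_norm _ _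
      _ ≤ (‖A y‖ * ‖e‖) * ‖e‖ := by gcongr; exact (A y).le_opNorm e
      _ ≤ C * ‖e‖ * ‖e‖ := by gcongr; exact hC y
  have hle : ∫ y, g y * ⟪A y e, e⟫ ∂μ ≤ ∫ y in closedBall x (2 * r), ⟪A y e, e⟫ ∂μ := by
    rw [← setIntegral_eq_integral_of_forall_compl_eq_zero (s := closedBall x (2 * r))
      (fun y hy => by rw [hg0 y hy, zero_mul])]
    refine setIntegral_mono_ae (hAi.bdd_mul (c := 1) hg1.continuous.aestronglyMeasurable
      (Eventually.of_forall fun y => ?_)) hAi ?_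
    · rw [Real.norm_eq_abs, abs_of_nonneg (hg4 y).1]; exact (hg4 y).2
    · filter_upwards [(ht_lim_pair hn h hc).nonneg] with y hy
      nlinarith [hy e, (hg4 y).1, (hg4 y).2]
  have hlim : ∫ y, g y ∂ζ ≤ ∫ y, g y * ⟪A y e, e⟫ ∂μ := by
    refine le_of_tendsto_of_tendsto' (hc.wkZ g hg1.continuous hg2 (subset_univ _)) (hc.wkM e g hg1.continuous hg2) fun i => ?_
    rw [htz_integral_htZe hn (h.ac i)]
    refine integral_mono_of_nonneg (Eventually.of_forall fun y =>
      mul_nonneg (hg4 y).1 (div_nonneg (ht_xi_nonneg hn (h.ac i) y) ht_acC_pos.le)) (htz_M_int hn (h.ac i) e hg1.continuous hg2)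
      (Eventually.of_forall fun y => mul_le_mul_of_nonneg_left (ht_Xi_le_M hn (h.ac i) y e he) (hg4 y).1)
  calc ζ (closedBall x r) ≤ ENNReal.ofReal (∫ y, g y ∂ζ) :=
        gmt_measure_le_ofReal_integral (gmt_integrable_of_cc hg1.continuous hg2 (hc.finZ _ hg2)) (fun y => (hg4 y).1)
          measurableSet_closedBall fun y hy => (hgB y hy).ge
    _ ≤ ENNReal.ofReal (∫ y in closedBall x (2 * r), ⟪A y e, e⟫ ∂μ) := ENNReal.ofReal_le_ofReal (hlim.trans hle)

/-- PURE MATHLIB: a measure `ζ ≤ μ` whose density ratio tends to `0` along small closed balls vanishes. -/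
theorem htz_rn_zero {μ ν : Measure (E n)} [IsLocallyFiniteMeasure μ] (hle : ν ≤ μ)
    (h : ∀ᵐ x ∂μ, Tendsto (fun r : ℝ => ν (closedBall x r) / μ (closedBall x r)) (𝓝[>] 0) (𝓝 0)) : ν = 0 := by
  have : IsLocallyFiniteMeasure ν := ⟨fun x => (μ.finiteAt_nhds x).measure_mono hle⟩
  have hac : ν ≪ μ := Measure.absolutelyContinuous_of_le hle
  have hz : ν.rnDeriv μ =ᵐ[μ] fun _ => 0 := by
    filter_upwards [h, Besicovitch.ae_tendsto_rnDeriv ν μ] with x hx hlim
    exact tendsto_nhds_unique hlim hx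
  rw [← Measure.withDensity_rnDeriv_eq ν μ hac, withDensity_congr_ae hz]
  exact withDensity_zero

/-- L4, from the tilt decay and the lower density bound. -/
theorem htz_main (hn : 3 ≤ n) (h : HtSeq n a Ω κ q U) (hc : HtConv n κ q U μ ζ A S) {c₀ : ℝ} (hc₀ : 0 < c₀)
    (hlo : ∀ᵐ x ∂μ, ∀ r > 0, ENNReal.ofReal (c₀ * r ^ (n - 1)) ≤ μ (closedBall x r))
    (ht : ∀ᵐ x ∂μ, ∃ e : E n, ‖e‖ = 1 ∧ A x = htProj e ∧
      Tendsto (fun r : ℝ => (r ^ (n - 1))⁻¹ * ∫ y in closedBall x r, ⟪A y e, e⟫ ∂μ) (𝓝[>] 0) (𝓝 0)) : ζ = 0 := by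
  have := hc.locFin
  refine htz_rn_zero (htz_le hn h hc) ?_
  filter_upwards [hlo, ht] with x hx1 ⟨e, he, _, hx2⟩
  have hmap : Tendsto (fun r : ℝ => 2 * r) (𝓝[>] 0) (𝓝[>] 0) := by
    refine tendsto_nhdsWithin_iff.2 ⟨?_, ?_⟩
    · have : Tendsto (fun r : ℝ => 2 * r) (𝓝 0) (𝓝 (2 * 0)) := (continuous_const.mul continuous_id).tendsto 0
      rw [mul_zero] at this
      exact this.mono_left nhdsWithin_le_nhds
    · filter_upwards [self_mem_nhdsWithin] with r hr
      exact mul_pos (by norm_num : (0 : ℝ) < 2) hr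
  have h1 : Tendsto (fun r : ℝ => ENNReal.ofReal (2 ^ (n - 1) / c₀ *
      (((2 * r) ^ (n - 1))⁻¹ * ∫ y in closedBall x (2 * r), ⟪A y e, e⟫ ∂μ))) (𝓝[>] 0) (𝓝 0) := by
    have h2 := ((hx2.comp hmap).const_mul (2 ^ (n - 1) / c₀))
    rw [mul_zero] at h2
    have h3 := (ENNReal.continuous_ofReal.tendsto 0).comp h2
    rw [ENNReal.ofReal_zero] at h3
    exact h3
  refine tendsto_of_tendsto_of_tendsto_of_le_of_le' tendsto_const_nhds h1 (Eventually.of_forall fun r => zero_le) ?_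
  filter_upwards [self_mem_nhdsWithin] with r hr
  have hr0 : (0 : ℝ) < r := hr
  have hp : (0 : ℝ) < c₀ * r ^ (n - 1) := by positivity
  calc ζ (closedBall x r) / μ (closedBall x r)
      ≤ ENNReal.ofReal (∫ y in closedBall x (2 * r), ⟪A y e, e⟫ ∂μ) / ENNReal.ofReal (c₀ * r ^ (n - 1)) :=
        ENNReal.div_le_div (htz_ball_le hn h hc x he hr0) (hx1 r hr0)
    _ = ENNReal.ofReal ((∫ y in closedBall x (2 * r), ⟪A y e, e⟫ ∂μ) / (c₀ * r ^ (n - 1))) :=
        (ENNReal.ofReal_div_of_pos hp).symm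
    _ = ENNReal.ofReal (2 ^ (n - 1) / c₀ * (((2 * r) ^ (n - 1))⁻¹ * ∫ y in closedBall x (2 * r), ⟪A y e, e⟫ ∂μ)) := by
        congr 1
        rw [mul_pow]
        field_simp

end Claimed.Agent.R323
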