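import Claimed.Agent.R323.Ht.LimA
import Claimed.Agent.R323.Ht.LimZe

/-!
# Row 323, block C, LIM: L2 lower density (owner helper143), L3 tilt (owner helper39), L4 discrepancy (owner helper143).
PLAN: see the header of `Ht/Lim.lean`.
-/

set_option autoImplicit false
open scoped ContDiff ENNReal NNReal RealInnerProductSpace Topology
open MeasureTheory Metric Set Filter

namespace Claimed.Agent.R323

open Claimed.Agent.Gmt

variable {n : ℕ}

variable {a : ℝ} {Ω : Set (E n)} {κ : ℕ → ℝ} {q : ℕ → E n} {U : ℕ → E n → ℝ} {μ ζ : Measure (E n)}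
  {A : E n → E n →L[ℝ] E n} {S : Set (E n)}

/-- L2: lower density bound (the constant depends only on `n`). -/
theorem ht_lim_lower (hn : 3 ≤ n) : ∃ c₀ : ℝ, 0 < c₀ ∧ ∀ (a : ℝ) (Ω : Set (E n)) (κ : ℕ → ℝ) (q : ℕ → E n) (U : ℕ → E n → ℝ)
    (μ ζ : Measure (E n)) (A : E n → E n →L[ℝ] E n) (S : Set (E n)), IsOpen Ω → Ωᶜ ⊆ {0} → HtSeq n a Ω κ q U →
    HtConv n κ q U μ ζ A S → ∀ᵐ x ∂μ, ∀ r > 0, ENNReal.ofReal (c₀ * r ^ (n - 1)) ≤ μ (closedBall x r) :=
  htlo_main hn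

theorem htl_proj_self {e : E n} (he : ‖e‖ = 1) : htProj e e = 0 := by
  unfold htProj
  simp [he]

/-- the tilt excess is controlled by the oscillation of `A`. -/
theorem htl_tilt_le {μ : Measure (E n)} {A : E n → E n →L[ℝ] E n} (hm : Measurable A) {C : ℝ} (hC : ∀ x, ‖A x‖ ≤ C)
    (hfin : ∀ K, IsCompact K → μ K ≠ ⊤) {x e : E n} (he : ‖e‖ = 1) (hAx : A x e = 0) (r : ℝ) :
    ∫ y in closedBall x r, ⟪A y e, e⟫ ∂μ ≤ ∫ y in closedBall x r, ‖A y - A x‖ ∂μ := by
  have hf := hfin _ (isCompact_closedBall x r)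
  have hAm : Measurable fun y => ⟪A y e, e⟫ :=
    ((ContinuousLinearMap.apply ℝ (E n) e).continuous.measurable.comp hm).inner measurable_const
  have hle : ∀ y, ⟪A y e, e⟫ ≤ ‖A y - A x‖ := by
    intro y
    have e1 : A y e = (A y - A x) e := by rw [sub_apply, hAx, sub_zero]
    calc ⟪A y e, e⟫ ≤ ‖A y e‖ * ‖e‖ := real_inner_le_norm _ _
      _ = ‖(A y - A x) e‖ := by rw [he, mul_one, e1]
      _ ≤ ‖A y - A x‖ * ‖e‖ := (A y - A x).le_opNorm e
      _ = ‖A y - A x‖ := by rw [he, mul_one]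
  refine setIntegral_mono ?_ ?_ hle
  · refine Measure.integrableOn_of_bounded (M := C) hf hAm.aestronglyMeasurable (Eventually.of_forall fun y => ?_)
    rw [Real.norm_eq_abs]
    calc |⟪A y e, e⟫| ≤ ‖A y e‖ * ‖e‖ := abs_real_inner_le_norm _ _
      _ ≤ (‖A y‖ * ‖e‖) * ‖e‖ := by gcongr; exact (A y).le_opNorm e
      _ = ‖A y‖ := by rw [he, mul_one, mul_one]
      _ ≤ C := hC y
  · refine Measure.integrableOn_of_bounded (M := C + C) hf (hm.sub_const _).norm.aestronglyMeasurable (Eventually.of_forall fun y => ?_)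
    rw [norm_norm]
    exact (norm_sub_le _ _).trans (add_le_add (hC y) (hC x))

/-- L3: almost everywhere the limit tensor is a hyperplane projection and the tilt excess in that direction tends to `0`. -/
theorem ht_lim_tilt (hn : 3 ≤ n) (hΩ : IsOpen Ω) (hΩc : Ωᶜ ⊆ {0}) (h : HtSeq n a Ω κ q U) (hc : HtConv n κ q U μ ζ A S) :
    ∀ᵐ x ∂μ, ∃ e : E n, ‖e‖ = 1 ∧ A x = htProj e ∧
      Tendsto (fun r : ℝ => (r ^ (n - 1))⁻¹ * ∫ y in closedBall x r, ⟪A y e, e⟫ ∂μ) (𝓝[>] 0) (𝓝 0) := by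
  have := hc.locFin
  have hP := ht_lim_pair hn h hc
  obtain ⟨c₀, hc₀, hlow⟩ := ht_lim_lower hn
  have hlo := hlow a Ω κ q U μ ζ A S hΩ hΩc h hc
  obtain ⟨C, hC⟩ := hc.bdd
  have hnull := ht_sp_null (by omega : 2 ≤ n) hP hc₀ (C₀ := a / ((n : ℝ) - 1))
    (G := {x | ∀ r > 0, ENNReal.ofReal (c₀ * r ^ (n - 1)) ≤ μ (closedBall x r)})
    (fun x hx => by filter_upwards [self_mem_nhdsWithin] with r hr using hx r hr)
    (fun x _ => by filter_upwards [self_mem_nhdsWithin] with r hr using ht_lim_upper hn h hc x hr)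
  filter_upwards [hlo, hnull, ht_sp_leb hP] with x hx1 hx2 hx3
  obtain ⟨e, he, hAe⟩ := hx2 hx1
  refine ⟨e, he, hAe, ?_⟩
  have hAx : A x e = 0 := by rw [hAe, htl_proj_self he]
  have hlim : Tendsto (fun r => |a / ((n : ℝ) - 1)| * ⨍ y in closedBall x r, ‖A y - A x‖ ∂μ) (𝓝[>] 0) (𝓝 0) := by
    simpa using hx3.const_mul |a / ((n : ℝ) - 1)|
  refine squeeze_zero' ?_ ?_ hlim
  · filter_upwards [self_mem_nhdsWithin] with r hr
    have hr0 : (0 : ℝ) < r := hr
    refine mul_nonneg (by positivity) (setIntegral_nonneg_ae measurableSet_closedBall ?_)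
    filter_upwards [hP.nonneg] with y hy _ using hy e
  · filter_upwards [self_mem_nhdsWithin] with r hr
    have hr0 : (0 : ℝ) < r := hr
    have hp : (0 : ℝ) < r ^ (n - 1) := by positivity
    have hf := hc.fin _ (isCompact_closedBall x r)
    have hpos : 0 < μ (closedBall x r) := lt_of_lt_of_le (ENNReal.ofReal_pos.2 (by positivity)) (hx1 r hr0)
    have hreal : 0 < μ.real (closedBall x r) := ENNReal.toReal_pos hpos.ne' hf
    have hup : μ.real (closedBall x r) ≤ |a / ((n : ℝ) - 1)| * r ^ (n - 1) := by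
      have h1 := ENNReal.toReal_mono ENNReal.ofReal_ne_top (ht_lim_upper hn h hc x hr0)
      rw [ENNReal.toReal_ofReal'] at h1
      refine h1.trans (max_le ?_ (by positivity))
      exact mul_le_mul_of_nonneg_right (le_abs_self _) hp.le
    have havg : ∫ y in closedBall x r, ‖A y - A x‖ ∂μ = μ.real (closedBall x r) * ⨍ y in closedBall x r, ‖A y - A x‖ ∂μ := by
      rw [setAverage_eq, smul_eq_mul, mul_inv_cancel_left₀ hreal.ne']
    have havg0 : 0 ≤ ⨍ y in closedBall x r, ‖A y - A x‖ ∂μ := by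
      rw [setAverage_eq, smul_eq_mul]
      exact mul_nonneg (by positivity) (integral_nonneg fun y => norm_nonneg _)
    calc (r ^ (n - 1))⁻¹ * ∫ y in closedBall x r, ⟪A y e, e⟫ ∂μ
        ≤ (r ^ (n - 1))⁻¹ * (μ.real (closedBall x r) * ⨍ y in closedBall x r, ‖A y - A x‖ ∂μ) := by
          rw [← havg]
          exact mul_le_mul_of_nonneg_left (htl_tilt_le hc.mA hC hc.fin he hAx r) (by positivity)
      _ ≤ (r ^ (n - 1))⁻¹ * ((|a / ((n : ℝ) - 1)| * r ^ (n - 1)) * ⨍ y in closedBall x r, ‖A y - A x‖ ∂μ) := by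
          gcongr
      _ = |a / ((n : ℝ) - 1)| * ⨍ y in closedBall x r, ‖A y - A x‖ ∂μ := by
          field_simp

/-- L4: the discrepancy vanishes in the limit (NO bound on `a`). -/
theorem ht_lim_zeta (hn : 3 ≤ n) (hΩ : IsOpen Ω) (hΩc : Ωᶜ ⊆ {0}) (h : HtSeq n a Ω κ q U) (hc : HtConv n κ q U μ ζ A S) :
    ζ = 0 := by
  obtain ⟨c₀, hc₀, hlow⟩ := ht_lim_lower hn
  exact htz_main hn h hc hc₀ (hlow a Ω κ q U μ ζ A S hΩ hΩc h hc) (ht_lim_tilt hn hΩ hΩc h hc)

end Claimed.Agent.R323
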