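import Claimed.Agent.R323.Ht.LimC0

/-!
# Row 323, block C, LIM: L5 flat lemma in the limit, L5' multiplicity one, L6 stationarity, the main theorem `ht_lim_wk`.   (owner: helper39)
PLAN: see the header of `Ht/Lim.lean`.
-/

set_option autoImplicit false
open scoped ContDiff ENNReal NNReal RealInnerProductSpace Topology
open MeasureTheory Metric Set Filter

namespace Claimed.Agent.R323

open Claimed.Agent.Gmt

variable {n : ℕ}

theorem htc_ball_sub_cyl (x e : E n) (he : ‖e‖ = 1) (r : ℝ) : ball x r ⊆ gmtCyl x r e := by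
  intro y hy
  rw [mem_ball, dist_eq_norm] at hy
  constructor
  · have h1 : ‖gmtPr e (y - x)‖ ^ 2 = ‖y - x‖ ^ 2 - ⟪y - x, e⟫ ^ 2 := by
      unfold gmtPr
      rw [norm_sub_sq_real, norm_smul, inner_smul_right, he]
      simp only [Real.norm_eq_abs, mul_one, sq_abs]
      ring
    have h2 : ‖gmtPr e (y - x)‖ ^ 2 ≤ ‖y - x‖ ^ 2 := by rw [h1]; nlinarith [sq_nonneg ⟪y - x, e⟫]
    have h3 : ‖gmtPr e (y - x)‖ ≤ ‖y - x‖ := by
      exact abs_le_of_sq_le_sq' h2 (norm_nonneg _) |>.2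
    linarith
  · calc |⟪y - x, e⟫| ≤ ‖y - x‖ * ‖e‖ := abs_real_inner_le_norm _ _
      _ = ‖y - x‖ := by rw [he, mul_one]
      _ < r := hy



theorem htc_acC_pos : 0 < acC := by
  unfold acC
  positivity

theorem htc_ae_ne (hn : 3 ≤ n) (q : E n) : ∀ᵐ x : E n, x ≠ q := by
  haveI : NeZero n := ⟨by omega⟩
  haveI : Nontrivial (E n) := inferInstance
  exact compl_mem_ae_iff.2 (measure_singleton q)

/-- the normalised directional derivative of `Φ(U)`. -/
theorem htc_v_abs_le (hn : 3 ≤ n) {κ : ℝ} {q : E n} {U : E n → ℝ} (h : HtAC n κ q U) (e : E n) (he : ‖e‖ = 1) {x : E n}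
    (hx : x ≠ q) : |fderiv ℝ (fun z => htPhi (U z)) x e / acC| ≤ htD n κ q U x := by
  have h1 := ht_dPhi_le hn h x e hx
  rw [he, mul_one] at h1
  rw [abs_div, abs_of_pos htc_acC_pos, div_le_iff₀ htc_acC_pos]
  linarith

theorem htc_D_intOn (hn : 3 ≤ n) {κ : ℝ} {q : E n} {U : E n → ℝ} (h : HtAC n κ q U) {C : Set (E n)}
    (hCb : Bornology.IsBounded C) : IntegrableOn (htD n κ q U) C :=
  ((ht_pair hn h).lint.integrableOn_isCompact hCb.isCompact_closure).mono_set subset_closure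

theorem htc_v_intOn (hn : 3 ≤ n) {κ : ℝ} {q : E n} {U : E n → ℝ} (h : HtAC n κ q U) (e : E n) (he : ‖e‖ = 1) {C : Set (E n)}
    (hCb : Bornology.IsBounded C) : IntegrableOn (fun x => fderiv ℝ (fun z => htPhi (U z)) x e / acC) C := by
  refine Integrable.mono' (htc_D_intOn hn h hCb) ?_ ?_
  · exact ((measurable_fderiv_apply_const ℝ _ e).div_const _).aestronglyMeasurable
  · refine ae_restrict_of_ae ?_
    filter_upwards [htc_ae_ne hn q] with x hx
    exact htc_v_abs_le hn h e he hx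

/-- the `ε`-level inequality with a cut-off. -/
theorem htc_cut_le (hn : 3 ≤ n) {κ : ℝ} {q : E n} {U : E n → ℝ} (h : HtAC n κ q U) {C : Set (E n)} (hC : MeasurableSet C)
    (hCb : Bornology.IsBounded C) {w : E n → ℝ} (hw : Continuous w) (hw0 : ∀ x, 0 ≤ w x) (hw1 : ∀ x, w x ≤ 1)
    (hws : ∀ x, x ∉ C → w x = 0) (e : E n) (he : ‖e‖ = 1) {σ : ℝ} (hσ : σ = 1 ∨ σ = -1) :
    (∫ x, w x * htD n κ q U x) - σ * ∫ x, w x * (fderiv ℝ (fun z => htPhi (U z)) x e / acC) ≤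
      ∫ y in C, (htD n κ q U y - σ * fderiv ℝ (fun z => htPhi (U z)) y e / acC) := by
  set d := htD n κ q U with hd
  set v : E n → ℝ := fun x => fderiv ℝ (fun z => htPhi (U z)) x e / acC with hv
  have hdi : IntegrableOn d C := htc_D_intOn hn h hCb
  have hvi : IntegrableOn v C := htc_v_intOn hn h e he hCb
  have hwb : ∀ x, ‖w x‖ ≤ 1 := fun x => by rw [Real.norm_eq_abs, abs_of_nonneg (hw0 x)]; exact hw1 x
  have e1 : ∀ f : E n → ℝ, ∫ x, w x * f x = ∫ x in C, w x * f x := fun f =>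
    (setIntegral_eq_integral_of_forall_compl_eq_zero fun x hx => by rw [hws x hx, zero_mul]).symm
  have i1 : IntegrableOn (fun x => w x * d x) C := hdi.bdd_mul hw.aestronglyMeasurable (Eventually.of_forall hwb)
  have i2 : IntegrableOn (fun x => w x * v x) C := hvi.bdd_mul hw.aestronglyMeasurable (Eventually.of_forall hwb)
  rw [e1 d, e1 v, ← integral_const_mul, ← integral_sub i1 (i2.const_mul σ)]
  refine setIntegral_mono_ae (i1.sub (i2.const_mul σ)) ?_ ?_
  · have : (fun y => d y - σ * fderiv ℝ (fun z => htPhi (U z)) y e / acC) = fun y => d y - σ * v y := by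
      funext y; simp only [hv]; ring
    rw [this]
    exact hdi.sub (hvi.const_mul σ)
  · filter_upwards [htc_ae_ne hn q] with x hx
    have h1 := htc_v_abs_le hn h e he hx
    have h2 : σ * v x ≤ d x := by
      rcases hσ with rfl | rfl
      · rw [one_mul]; exact (le_abs_self _).trans h1
      · have := (neg_abs_le (v x)); simp only [hv] at this ⊢; linarith
    have h3 : σ * fderiv ℝ (fun z => htPhi (U z)) x e / acC = σ * v x := by simp only [hv]; ring
    rw [h3]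
    have : w x * d x - σ * (w x * v x) = w x * (d x - σ * v x) := by ring
    rw [this]
    nlinarith [hw0 x, hw1 x]



/-- from the cut-off to the closed ball. -/
theorem htc_meas_le {μ μS : Measure (E n)} (hle : μS ≤ μ) (hfin : ∀ K, IsCompact K → μ K ≠ ⊤) {w g : E n → ℝ}
    (hw : Continuous w) (hwc : HasCompactSupport w) (hw0 : ∀ x, 0 ≤ w x) {B : Set (E n)} (hB : MeasurableSet B)
    (hwB : ∀ x ∈ B, w x = 1) (hg : Measurable g) (hg1 : ∀ x, |g x| ≤ 1) {σ : ℝ} (hσ : σ = 1 ∨ σ = -1) :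
    (μ B).toReal - σ * ∫ y in B, g y ∂μS ≤ (∫ y, w y ∂μ) - σ * ∫ y, w y * g y ∂μS := by
  have iw : Integrable w μ := gmt_integrable_of_cc hw hwc (hfin _ hwc.isCompact)
  have iwS : Integrable w μS := iw.mono_measure hle
  have iwg : Integrable (fun y => w y * g y) μS := by
    have := iwS.bdd_mul (c := 1) hg.aestronglyMeasurable (Eventually.of_forall fun x => by
      rw [Real.norm_eq_abs]; exact hg1 x)
    simpa [mul_comm] using this
  have e1 : ∫ y, w y ∂μ = (μ B).toReal + ∫ y in Bᶜ, w y ∂μ := by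
    rw [← integral_add_compl hB iw]
    congr 1
    rw [setIntegral_congr_fun hB (g := fun _ => (1 : ℝ)) hwB]
    simp [Measure.real]
  have e2 : ∫ y, w y * g y ∂μS = (∫ y in B, g y ∂μS) + ∫ y in Bᶜ, w y * g y ∂μS := by
    rw [← integral_add_compl hB iwg]
    congr 1
    exact setIntegral_congr_fun hB fun y hy => by simp only [hwB y hy, one_mul]
  have e3 : σ * ∫ y in Bᶜ, w y * g y ∂μS ≤ ∫ y in Bᶜ, w y ∂μS := by
    rw [← integral_const_mul]
    refine integral_mono (iwg.integrableOn.const_mul σ) iwS.integrableOn fun y => ?_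
    have h1 := abs_le.1 (hg1 y)
    rcases hσ with rfl | rfl
    · nlinarith [hw0 y]
    · nlinarith [hw0 y]
  have e4 : ∫ y in Bᶜ, w y ∂μS ≤ ∫ y in Bᶜ, w y ∂μ :=
    integral_mono_measure (Measure.restrict_mono le_rfl hle) (Eventually.of_forall hw0) iw.integrableOn
  rw [e1, e2]
  linarith


variable {a : ℝ} {Ω : Set (E n)} {κ : ℕ → ℝ} {q : ℕ → E n} {U : ℕ → E n → ℝ} {μ ζ : Measure (E n)}
  {A : E n → E n →L[ℝ] E n} {S : Set (E n)}

/-- L5: the flat lemma passed to the limit. -/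
theorem ht_lim_local (hn : 3 ≤ n) (ha : a < 2 * (((n : ℝ) - 1) * gmtOm (n - 1))) (hΩ : IsOpen Ω) (hΩc : Ωᶜ ⊆ {0})
    (h : HtSeq n a Ω κ q U) (hc : HtConv n κ q U μ ζ A S) {x e : E n} (hx : x ∈ Ω) (he : ‖e‖ = 1)
    (ht : Tendsto (fun r : ℝ => (r ^ (n - 1))⁻¹ * ∫ y in closedBall x r, ⟪A y e, e⟫ ∂μ) (𝓝[>] 0) (𝓝 0)) {s : ℝ} (hs : 0 < s) :
    ∀ᶠ r in 𝓝[>] (0 : ℝ), ∃ σ : ℝ, (σ = 1 ∨ σ = -1) ∧
      (μ (closedBall x r)).toReal - σ * ∫ y in closedBall x r, ⟪e, gmtNu S y⟫ ∂(gmtMu S) ≤ s * r ^ (n - 1) := by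
  obtain ⟨hLF, hle⟩ := ht_lim_per_le hn hΩ hΩc h hc
  -- the constant `Θ`
  have hom : 0 < gmtOm (n - 1) := ENNReal.toReal_pos (measure_ball_pos volume 0 one_pos).ne' measure_ball_lt_top.ne
  have hn1 : (0 : ℝ) < (n : ℝ) - 1 := by
    have : (3 : ℝ) ≤ n := by exact_mod_cast hn
    linarith
  set W : ℝ := ((n : ℝ) - 1) * gmtOm (n - 1) with hW
  have hW0 : 0 < W := mul_pos hn1 hom
  set Θ : ℝ := (a / W + 2) / 2 with hΘd
  have h1 : a / W < 2 := by rw [div_lt_iff₀ hW0]; exact ha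
  have hΘ : Θ < 2 := by rw [hΘd]; linarith
  have haΘ : a < Θ * W := by
    have : a / W < Θ := by rw [hΘd]; linarith
    rwa [div_lt_iff₀ hW0] at this
  obtain ⟨δ, hδ, R, hR, H⟩ := ht_flat_dir n hn Θ s hΘ hs
  obtain ⟨c, hc0, haw⟩ := h.away {x} isCompact_singleton (singleton_subset_iff.2 hx)
  obtain ⟨ρ₀, hρ₀, hball⟩ := Metric.isOpen_iff.1 hΩ x hx
  have ev1 : ∀ᶠ r in 𝓝[>] (0 : ℝ), 0 < r := eventually_mem_nhdsWithin
  have ev2 : ∀ᶠ r in 𝓝[>] (0 : ℝ), r < min (c / (3 * R)) (ρ₀ / 2) :=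
    nhdsWithin_le_nhds (Iio_mem_nhds (lt_min (by positivity) (by positivity)))
  filter_upwards [ev1, ev2, htc_tilt_i hn h hc ht hδ hR] with r hr hr2 htl
  have hr3 : 3 * R * r ≤ c := by
    have := (lt_min_iff.1 hr2).1
    rw [lt_div_iff₀ (by positivity)] at this
    linarith
  have hr4 : 2 * r < ρ₀ := by have := (lt_min_iff.1 hr2).2; linarith
  -- the cut-off
  obtain ⟨w, hw1, hw2, hw3, hw4, hw5⟩ := gmt_exists_cutoff (isCompact_closedBall x r) (isOpen_ball (x := x) (ε := 2 * r))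
    (closedBall_subset_ball (by linarith))
  have hwB : ∀ y ∈ closedBall x r, w y = 1 := fun y hy => hw5.self_of_nhdsSet y hy
  have hwΩ : tsupport w ⊆ Ω := hw3.trans ((ball_subset_ball hr4.le).trans hball)
  have hwT : GmtTest0 Ω w := ⟨hw1.of_le (by exact_mod_cast le_top), hw2, hwΩ⟩
  have hwcyl : ∀ y, y ∉ gmtCyl x (2 * r) e → w y = 0 := fun y hy =>
    image_eq_zero_of_notMem_tsupport fun hy' => hy (htc_ball_sub_cyl x e he _ (hw3 hy'))
  -- the functionals
  set F : ℝ → ℕ → ℝ := fun σ i => (∫ y, w y * htD n (κ i) (q i) (U i) y) -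
    σ * ∫ y, w y * (fderiv ℝ (fun z => htPhi (U i z)) y e / acC) with hF
  set G : ℝ → ℝ := fun σ => (∫ y, w y ∂μ) - σ * ∫ y, w y * ⟪e, gmtNu S y⟫ ∂(gmtMu S) with hG
  have hFG : ∀ σ, Tendsto (F σ) atTop (𝓝 (G σ)) := fun σ =>
    (htc_wk_D hn h hc hw1.continuous hw2).sub ((htc_dPhi_tendsto hn hΩ h hc.l1 hLF hwT e).const_mul σ)
  -- the flat lemma for large `i`
  have hcylm : MeasurableSet (gmtCyl x (2 * r) e) := (isOpen_gmtCylH x _ _ e).measurableSet
  have hcylb : Bornology.IsBounded (gmtCyl x (2 * r) e) :=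
    Metric.isBounded_ball.subset (gmtCylH_subset_ball x (2 * r) (2 * r) he)
  have hev : ∀ᶠ i in atTop, F 1 i ≤ s * r ^ (n - 1) ∨ F (-1) i ≤ s * r ^ (n - 1) := by
    filter_upwards [htl, haw, h.small {x} isCompact_singleton (singleton_subset_iff.2 hx) (δ * r) (by positivity),
      h.en (Θ * W - a) (by linarith)] with i hi1 hi2 hi3 hi4
    have g1 : 3 * R * r ≤ ‖q i - x‖ := by rw [norm_sub_rev]; exact hr3.trans (hi2 x rfl)
    have g2 : κ i * ‖q i - x‖ ≤ δ * r := by rw [norm_sub_rev]; exact hi3 x rfl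
    have g3 : htEn n (κ i) (q i) (U i) ≤ Θ * W := by linarith
    obtain ⟨σ, hσ, hσ2⟩ := H (κ i) (q i) (U i) x e r (h.ac i) he hr g1 g2 g3 hi1
    have g4 := htc_cut_le hn (h.ac i) hcylm hcylb hw1.continuous (fun y => (hw4 y).1) (fun y => (hw4 y).2) hwcyl e he hσ
    rcases hσ with rfl | rfl
    · exact Or.inl (g4.trans hσ2)
    · exact Or.inr (g4.trans hσ2)
  have hfr : (∃ᶠ i in atTop, F 1 i ≤ s * r ^ (n - 1)) ∨ ∃ᶠ i in atTop, F (-1) i ≤ s * r ^ (n - 1) :=
    Filter.frequently_or_distrib.1 hev.frequently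
  have hfin : ∀ σ : ℝ, (σ = 1 ∨ σ = -1) → G σ ≤ s * r ^ (n - 1) →
      (μ (closedBall x r)).toReal - σ * ∫ y in closedBall x r, ⟪e, gmtNu S y⟫ ∂(gmtMu S) ≤ s * r ^ (n - 1) := by
    intro σ hσ hGσ
    refine le_trans ?_ hGσ
    refine htc_meas_le hle hc.fin hw1.continuous hw2 (fun y => (hw4 y).1) measurableSet_closedBall hwB
      (measurable_const.inner (measurable_gmtNu S)) (fun y => ?_) hσ
    have := gmt_abs_inner_gmtNu_le e S y
    rwa [he] at this
  rcases hfr with hfr | hfr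
  · exact ⟨1, Or.inl rfl, hfin 1 (Or.inl rfl) (le_of_tendsto_of_frequently (hFG 1) hfr)⟩
  · exact ⟨-1, Or.inr rfl, hfin (-1) (Or.inr rfl) (le_of_tendsto_of_frequently (hFG (-1)) hfr)⟩

/-- the vertex carries no mass. -/
theorem htl_ae_mem (hn : 3 ≤ n) (hΩc : Ωᶜ ⊆ {0}) (h : HtSeq n a Ω κ q U) (hc : HtConv n κ q U μ ζ A S) : ∀ᵐ x ∂μ, x ∈ Ω := by
  have h0 : μ {0} = 0 := by
    have hlim : Tendsto (fun r : ℝ => ENNReal.ofReal (a / ((n : ℝ) - 1) * r ^ (n - 1))) (𝓝[>] 0) (𝓝 0) := by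
      have h1 : Tendsto (fun r : ℝ => a / ((n : ℝ) - 1) * r ^ (n - 1)) (𝓝 0) (𝓝 (a / ((n : ℝ) - 1) * 0 ^ (n - 1))) :=
        (continuous_const.mul (continuous_pow _)).tendsto 0
      rw [zero_pow (by omega), mul_zero] at h1
      have h2 := (ENNReal.continuous_ofReal.tendsto 0).comp (h1.mono_left (nhdsWithin_le_nhds (s := Ioi (0 : ℝ))))
      rw [ENNReal.ofReal_zero] at h2
      exact h2
    refine le_antisymm (ge_of_tendsto hlim ?_) zero_le
    filter_upwards [self_mem_nhdsWithin] with r hr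
    exact (measure_mono (singleton_subset_iff.2 (mem_closedBall_self (le_of_lt hr)))).trans (ht_lim_upper hn h hc 0 hr)
  exact ae_iff.2 (measure_mono_null hΩc h0)

/-- L5': multiplicity one. -/
theorem ht_lim_eq (hn : 3 ≤ n) (ha : a < 2 * (((n : ℝ) - 1) * gmtOm (n - 1))) (hΩ : IsOpen Ω) (hΩc : Ωᶜ ⊆ {0})
    (h : HtSeq n a Ω κ q U) (hc : HtConv n κ q U μ ζ A S) :
    μ = gmtMu S ∧ ∀ᵐ x ∂μ, A x = htProj (gmtNu S x) := by
  have := hc.locFin
  obtain ⟨hLF, hle⟩ := ht_lim_per_le hn hΩ hΩc h hc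
  obtain ⟨c₀, hc₀, hlow⟩ := ht_lim_lower hn
  have hlo := hlow a Ω κ q U μ ζ A S hΩ hΩc h hc
  have htl := ht_lim_tilt hn hΩ hΩc h hc
  have hmem := htl_ae_mem hn hΩc h hc
  -- the local statement
  have key : ∀ᵐ x ∂μ, ∃ e : E n, ‖e‖ = 1 ∧ A x = htProj e ∧ ∀ η > 0, ∀ᶠ r in 𝓝[>] (0 : ℝ), 0 < μ (closedBall x r) ∧
      ∃ σ : ℝ, (σ = 1 ∨ σ = -1) ∧ (μ (closedBall x r)).toReal - σ * ∫ y in closedBall x r, ⟪e, gmtNu S y⟫ ∂(gmtMu S)
        ≤ η * (μ (closedBall x r)).toReal := by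
    filter_upwards [hlo, htl, hmem] with x hx1 hx2 hxΩ
    obtain ⟨e, he, hAe, ht⟩ := hx2
    refine ⟨e, he, hAe, fun η hη => ?_⟩
    filter_upwards [ht_lim_local hn ha hΩ hΩc h hc hxΩ he ht (s := η * c₀) (by positivity), self_mem_nhdsWithin] with r hr1 hr
    obtain ⟨σ, hσ, hr1⟩ := hr1
    have hr0 : (0 : ℝ) < r := hr
    have hpos : 0 < μ (closedBall x r) := lt_of_lt_of_le (ENNReal.ofReal_pos.2 (by positivity)) (hx1 r hr0)
    refine ⟨hpos, σ, hσ, hr1.trans ?_⟩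
    have h2 : c₀ * r ^ (n - 1) ≤ (μ (closedBall x r)).toReal := by
      have := ENNReal.toReal_mono (hc.fin _ (isCompact_closedBall x r)) (hx1 r hr0)
      rwa [ENNReal.toReal_ofReal (by positivity)] at this
    calc η * c₀ * r ^ (n - 1) = η * (c₀ * r ^ (n - 1)) := by ring
      _ ≤ η * (μ (closedBall x r)).toReal := by gcongr
  have hμ : gmtMu S = μ := by
    refine htc_rn_one hle ?_
    filter_upwards [key] with x hx η hη
    obtain ⟨e, he, -, hx⟩ := hx
    refine (hx η hη).frequently.mono ?_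
    rintro r ⟨-, σ, hσ, hr⟩
    have hf := hc.fin _ (isCompact_closedBall x r)
    have hfS : gmtMu S (closedBall x r) ≠ ⊤ := ne_top_of_le_ne_top hf (hle _)
    have h1 : σ * ∫ y in closedBall x r, ⟪e, gmtNu S y⟫ ∂(gmtMu S) ≤ (gmtMu S (closedBall x r)).toReal := by
      have hb : ‖∫ y in closedBall x r, ⟪e, gmtNu S y⟫ ∂(gmtMu S)‖ ≤ 1 * (gmtMu S).real (closedBall x r) :=
        norm_setIntegral_le_of_norm_le_const (lt_top_iff_ne_top.2 hfS) fun y _ => by
          rw [Real.norm_eq_abs]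
          have := gmt_abs_inner_gmtNu_le e S y
          rwa [he] at this
      rw [one_mul, Real.norm_eq_abs] at hb
      have hb' := abs_le.1 hb
      have e0 : (gmtMu S).real (closedBall x r) = (gmtMu S (closedBall x r)).toReal := rfl
      rcases hσ with rfl | rfl
      · linarith [hb'.2]
      · linarith [hb'.1]
    have h2 : (1 - η) * (μ (closedBall x r)).toReal ≤ (gmtMu S (closedBall x r)).toReal := by linarith
    calc ENNReal.ofReal (1 - η) * μ (closedBall x r)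
        = ENNReal.ofReal ((1 - η) * (μ (closedBall x r)).toReal) := by
          rw [ENNReal.ofReal_mul' ENNReal.toReal_nonneg, ENNReal.ofReal_toReal hf]
      _ ≤ ENNReal.ofReal (gmtMu S (closedBall x r)).toReal := ENNReal.ofReal_le_ofReal h2
      _ = gmtMu S (closedBall x r) := ENNReal.ofReal_toReal hfS
  refine ⟨hμ.symm, ?_⟩
  filter_upwards [key, htc_normal (μ := μ) (measurable_gmtNu S) (norm_gmtNu_le_one S)] with x hx hnorm
  obtain ⟨e, he, hAe, hx⟩ := hx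
  have hν := hnorm e he fun η hη => (hx η hη).frequently.mono (by
    rintro r ⟨hpos, σ, hσ, hr⟩
    refine ⟨hpos, σ, hσ, ?_⟩
    have hf := hc.fin _ (isCompact_closedBall x r)
    have i1 : IntegrableOn (fun _ : E n => (1 : ℝ)) (closedBall x r) μ := integrableOn_const hf
    have i2 : IntegrableOn (fun y => ⟪e, gmtNu S y⟫) (closedBall x r) μ :=
      Measure.integrableOn_of_bounded (M := 1) hf (measurable_const.inner (measurable_gmtNu S)).aestronglyMeasurable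
        (Eventually.of_forall fun y => by
          rw [Real.norm_eq_abs]
          have := gmt_abs_inner_gmtNu_le e S y
          rwa [he] at this)
    rw [integral_sub i1 (i2.const_mul σ), integral_const_mul, setIntegral_const, smul_eq_mul, mul_one]
    rw [hμ] at hr
    exact hr)
  rcases hν with h1 | h1
  · rw [hAe, h1]
  · rw [hAe, h1, htc_proj_neg]

/-- L6: stationarity. -/
theorem ht_lim_stat (hn : 3 ≤ n) (ha : a < 2 * (((n : ℝ) - 1) * gmtOm (n - 1))) (hΩ : IsOpen Ω) (hΩc : Ωᶜ ⊆ {0})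
    (h : HtSeq n a Ω κ q U) (hc : HtConv n κ q U μ ζ A S) (X : E n → E n) (hX : GmtTestS univ X) : gmtDelta S X = 0 := by
  obtain ⟨hμ, hA⟩ := ht_lim_eq hn ha hΩ hΩc h hc
  have h1 := (ht_lim_pair hn h hc).stat X ⟨hX.smooth.of_le (by exact_mod_cast le_top), hX.cpt, hX.sub⟩
  unfold gmtDelta
  rw [← hμ, ← h1]
  refine integral_congr_ae ?_
  filter_upwards [hA] with x hx
  rw [hx, htc_con_proj]
  rfl

theorem htw_U_aem (hn : 3 ≤ n) {κ : ℝ} {q : E n} {U : E n → ℝ} (h : HtAC n κ q U) : AEStronglyMeasurable U volume := by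
  have h1 : AEStronglyMeasurable U (volume.restrict ({q}ᶜ : Set (E n))) :=
    h.smooth.continuousOn.aestronglyMeasurable isOpen_compl_singleton.measurableSet
  have h2 : volume.restrict ({q}ᶜ : Set (E n)) = volume :=
    Measure.restrict_eq_self_of_ae_mem (htc_ae_ne hn q)
  rwa [h2] at h1

theorem htw_unique {u : ℕ → E n → ℝ} {v w : E n → ℝ} (hu : ∀ i, AEStronglyMeasurable (u i) volume)
    (hv : AEStronglyMeasurable v volume) (hw : AEStronglyMeasurable w volume)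
    (h1 : GmtConvF univ u v) (h2 : GmtConvF univ u w) : v =ᵐ[volume] w := by
  have key : ∀ K, IsCompact K → ∫⁻ x in K, ‖v x - w x‖ₑ = 0 := by
    intro K hK
    have h3 := (h1 K hK (subset_univ _)).add (h2 K hK (subset_univ _))
    rw [add_zero] at h3
    refine le_antisymm (ge_of_tendsto' h3 fun i => ?_) zero_le
    have hm : AEMeasurable (fun x => ‖u i x - v x‖ₑ) (volume.restrict K) := ((hu i).sub hv).enorm.restrict
    rw [← lintegral_add_left' hm]
    refine lintegral_mono fun x => ?_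
    calc ‖v x - w x‖ₑ = ‖-(u i x - v x) + (u i x - w x)‖ₑ := by congr 1; ring
      _ ≤ ‖-(u i x - v x)‖ₑ + ‖u i x - w x‖ₑ := enorm_add_le _ _
      _ = ‖u i x - v x‖ₑ + ‖u i x - w x‖ₑ := by rw [enorm_neg]
  have hun : (⋃ k : ℕ, closedBall (0 : E n) k) = univ := by
    refine eq_univ_of_forall fun x => ?_
    obtain ⟨k, hk⟩ := exists_nat_ge ‖x‖
    exact mem_iUnion.2 ⟨k, by simpa using hk⟩
  have h4 : ∀ᵐ x ∂(volume.restrict (⋃ k : ℕ, closedBall (0 : E n) k)), v x = w x := by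
    rw [ae_restrict_iUnion_iff]
    intro k
    have h5 := (lintegral_eq_zero_iff' (hv.sub hw).enorm.restrict).1 (key _ (isCompact_closedBall 0 k))
    filter_upwards [h5] with x hx
    have : ‖v x - w x‖ₑ = 0 := hx
    rw [enorm_eq_zero] at this
    linarith
  rwa [hun, Measure.restrict_univ] at h4

theorem htw_sgn_meas {S : Set (E n)} (hS : MeasurableSet S) : Measurable (htSgn S) := by
  unfold htSgn gmtChi
  exact measurable_const.sub (measurable_const.mul (measurable_const.indicator hS))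

theorem htw_set_ae {S S' : Set (E n)} (h : htSgn S =ᵐ[volume] htSgn S') : S =ᵐ[volume] S' := by
  filter_upwards [h] with x hx
  unfold htSgn gmtChi at hx
  refine propext ?_
  change x ∈ S ↔ x ∈ S'
  by_cases h1 : x ∈ S <;> by_cases h2 : x ∈ S' <;> simp [h1, h2] at hx ⊢
  norm_num at hx

theorem htw_core (hn : 3 ≤ n) {a : ℝ} (ha : a < 2 * (((n : ℝ) - 1) * gmtOm (n - 1))) {Ω : Set (E n)} (hΩ : IsOpen Ω)
    (hΩc : Ωᶜ ⊆ {0}) {κ : ℕ → ℝ} {q : ℕ → E n} {U : ℕ → E n → ℝ} (h : HtSeq n a Ω κ q U) {S : Set (E n)}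
    (hS : MeasurableSet S) (hl : GmtConvF univ U (htSgn S)) {ψ : ℕ → ℕ} (hψ : StrictMono ψ) :
    ∃ φ : ℕ → ℕ, StrictMono φ ∧ GmtLF S univ ∧
      GmtWk univ (fun i => htMu n (κ (ψ (φ i))) (q (ψ (φ i))) (U (ψ (φ i)))) (gmtMu S) ∧
      (∀ X, GmtTestS univ X → gmtDelta S X = 0) ∧
      ∀ x r, 0 < r → gmtMu S (ball x r) ≤ ENNReal.ofReal (a / ((n : ℝ) - 1) * r ^ (n - 1)) := by
  obtain ⟨φ, μ, ζ, A, S', hφ, hc⟩ := ht_lim_compact hn hΩ hΩc (h.subseq hψ)
  have h' := (h.subseq hψ).subseq hφ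
  have hl' : GmtConvF univ (fun i => U (ψ (φ i))) (htSgn S) := fun K hK hKU =>
    (hl K hK hKU).comp (hψ.comp hφ).tendsto_atTop
  have hSS : S =ᵐ[volume] S' := htw_set_ae (htw_unique (fun i => htw_U_aem hn (h.ac _))
    (htw_sgn_meas hS).aestronglyMeasurable (htw_sgn_meas hc.mS).aestronglyMeasurable hl' hc.l1)
  obtain ⟨hLF', -⟩ := ht_lim_per_le hn hΩ hΩc h' hc
  obtain ⟨hμ, -⟩ := ht_lim_eq hn ha hΩ hΩc h' hc
  have hSU : (S ∩ univ : Set (E n)) =ᵐ[volume] (S' ∩ univ : Set (E n)) := by simpa using hSS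
  have hmu : gmtMu S = gmtMu S' := by
    have := gmtMu_restrict_congr isOpen_univ hS hc.mS hSU
    simpa using this
  have hLF : GmtLF S univ := ⟨hS, fun W hW => by
    rw [gmtP_congr (U := W) hS hc.mS (hSS.inter (ae_eq_refl _))]
    exact hLF'.2 W hW⟩
  have hnu : gmtNu S' =ᵐ[gmtMu S'] gmtNu S := by
    have := gmtNu_congr isOpen_univ hLF' hS hSU.symm
    simpa using this
  refine ⟨φ, hφ, hLF, ?_, fun X hX => ?_, fun x r hr => ?_⟩
  · rw [hmu, ← hμ]
    exact hc.wk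
  · rw [← ht_lim_stat hn ha hΩ hΩc h' hc X hX]
    unfold gmtDelta
    rw [hmu]
    refine integral_congr_ae ?_
    filter_upwards [hnu] with y hy
    rw [hy]
  · rw [hmu, ← hμ]
    exact (measure_mono ball_subset_closedBall).trans (ht_lim_upper hn h' hc x hr)

/-- **the main theorem of HT-lite** for a sequence whose `L¹_loc` limit is known. -/
theorem ht_lim_wk (hn : 3 ≤ n) {a : ℝ} (ha : a < 2 * (((n : ℝ) - 1) * gmtOm (n - 1))) {Ω : Set (E n)} (hΩ : IsOpen Ω)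
    (hΩc : Ωᶜ ⊆ {0}) {κ : ℕ → ℝ} {q : ℕ → E n} {U : ℕ → E n → ℝ} (h : HtSeq n a Ω κ q U) {S : Set (E n)}
    (hS : MeasurableSet S) (hl : GmtConvF univ U (htSgn S)) :
    GmtLF S univ ∧ GmtWk univ (fun i => htMu n (κ i) (q i) (U i)) (gmtMu S) ∧ (∀ X, GmtTestS univ X → gmtDelta S X = 0) ∧
      ∀ x r, 0 < r → gmtMu S (ball x r) ≤ ENNReal.ofReal (a / ((n : ℝ) - 1) * r ^ (n - 1)) := by
  obtain ⟨-, -, hLF, -, hst, hub⟩ := htw_core hn ha hΩ hΩc h hS hl strictMono_id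
  refine ⟨hLF, fun g hg hgc hgs => ?_, hst, hub⟩
  refine tendsto_of_subseq_tendsto fun ns hns => ?_
  obtain ⟨φ₀, hφ₀, hψ⟩ := strictMono_subseq_of_tendsto_atTop hns
  obtain ⟨φ, -, -, hwk, -, -⟩ := htw_core hn ha hΩ hΩc h hS hl hψ
  exact ⟨fun i => φ₀ (φ i), hwk g hg hgc hgs⟩

end Claimed.Agent.R323
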