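import Claimed.Agent.R323.Ht.LimB

/-!
# Row 323, block C, LIM: tools for L5, L5'.   (architect: helper39)

* `htc_integral_htMu`: `integral_withDensity_eq_integral_toReal_smul₀` (`htD ≥ 0`: `ht_D_nonneg`; a.e. measurable: `(ht_pair hn h).md`).
* `htc_wk_D`: `hc.wk` + `htc_integral_htMu`.
* `htc_dPhi_tendsto`: for `i` large `q i ∉ tsupport ζ` (`h.away`), `T = ζ Φ(U_i) e` is a `C¹` field with compact support, `∫ gmtDiv T = 0`:  `∫ ζ ∂_eΦ(U_i) = -∫ Φ(U_i) ∂_eζ`;
  `|Φ(s) - Φ(t)| ≤ |s - t|` on `[-1,1]`, `Φ(±1) = ±acC/2`, `hl`:  `→ -∫ (acC/2) htSgn S ∂_eζ = acC ∫_S ∂_eζ` (`∫ ∂_eζ = 0`) `= acC ∫_S gmtDiv (ζ e) = acC ∫ ζ ⟪e,ν_S⟫ dμ_S` (`gmt_gauss_green`).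
* `htc_tilt_i`: `g` continuous, `1` on `closedBall x (R r)`, `0 ≤ g ≤ 1`, support in `ball x (2 R r)`:  `∫_{ball x (R r)} ⟪M_i e,e⟫ ≤ ∫ g ⟪M_i e,e⟫ → ∫ g ⟪A e,e⟫ dμ ≤ ∫_{closedBall x (2Rr)} ⟪A e,e⟫ dμ ≤ (δ/2) r^k` for `r` small (`ht` at the radius `2Rr`); `ht_M_nonneg`, `(ht_lim_pair ..).nonneg`.
* `htc_rn_one`, `htc_normal`: PURE MATHLIB.  `Besicovitch.ae_tendsto_rnDeriv`, `Measure.withDensity_rnDeriv_eq`; `VitaliFamily.ae_tendsto_average_norm_sub` for `Besicovitch.vitaliFamily μ` (closed balls: `Besicovitch.tendsto_filterAt`).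
-/

set_option autoImplicit false
open scoped ContDiff ENNReal NNReal RealInnerProductSpace Topology
open MeasureTheory Metric Set Filter

namespace Claimed.Agent.R323

open Claimed.Agent.Gmt

variable {n : ℕ}

variable {a : ℝ} {Ω : Set (E n)} {κ : ℕ → ℝ} {q : ℕ → E n} {U : ℕ → E n → ℝ} {μ ζ : Measure (E n)}
  {A : E n → E n →L[ℝ] E n} {S : Set (E n)}

/-- `DΦ(U_i) dx / acC → ν_S |Dχ_S|` weakly in `Ω`. -/
theorem htc_dPhi_tendsto (hn : 3 ≤ n) (hΩ : IsOpen Ω) (h : HtSeq n a Ω κ q U) (hl : GmtConvF univ U (htSgn S))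
    (hS : GmtLF S univ) {w : E n → ℝ} (hw : GmtTest0 Ω w) (e : E n) :
    Tendsto (fun i => ∫ x, w x * (fderiv ℝ (fun z => htPhi (U i z)) x e / acC)) atTop
      (𝓝 (∫ x, w x * ⟪e, gmtNu S x⟫ ∂(gmtMu S))) := by
  have hacC : 0 < acC := by unfold acC; positivity
  set T : E n → E n := fun y => w y • e with hT
  have hTs : tsupport T ⊆ tsupport w := by
    refine closure_minimal (fun x hx => ?_) (isClosed_tsupport w)
    refine subset_tsupport _ fun h0 => hx ?_
    simp only [hT, h0, zero_smul]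
  have hTc1 : ContDiff ℝ 1 T := hw.c1.smul contDiff_const
  have hTcpt : HasCompactSupport T := hw.cpt.of_isClosed_subset (isClosed_tsupport T) hTs
  have hTu : GmtTest univ T := ⟨hTc1, hTcpt, subset_univ _⟩
  obtain ⟨hD1, hD2, -⟩ := continuous_gmtDiv hTu
  have hlim := htc_phi_tendsto hn h.ac hl hS.1 hD1 hD2
  -- the limit
  have e1 : ∫ x, htPhi (htSgn S x) * gmtDiv T x = -(acC * ∫ x, w x * ⟪e, gmtNu S x⟫ ∂(gmtMu S)) := by
    have hDi : Integrable (gmtDiv T) := hD1.integrable_of_hasCompactSupport hD2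
    have g1 : ∫ x in S, gmtDiv T x = ∫ x, w x * ⟪e, gmtNu S x⟫ ∂(gmtMu S) := by
      rw [gmt_gauss_green isOpen_univ hS hTu]
      refine integral_congr_ae (Eventually.of_forall fun x => ?_)
      simp only [hT, inner_smul_left]
      simp
    have g2 : ∀ x, htPhi (htSgn S x) * gmtDiv T x =
        acC / 2 * gmtDiv T x - acC * S.indicator (gmtDiv T) x := by
      intro x
      rw [htc_phi_sgn]
      unfold htSgn gmtChi
      by_cases hx : x ∈ S
      · simp only [indicator_of_mem hx]; ring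
      · simp only [indicator_of_notMem hx]; ring
    simp_rw [g2]
    rw [integral_sub (hDi.const_mul _) ((hDi.indicator hS.1).const_mul _), integral_const_mul, integral_const_mul,
      integral_gmtDiv_eq_zero hTu, integral_indicator hS.1, g1]
    ring
  -- integration by parts for large `i`
  obtain ⟨c, hc0, haw⟩ := h.away (tsupport w) hw.cpt.isCompact hw.sub
  have hev : ∀ᶠ i in atTop, ∫ x, w x * (fderiv ℝ (fun z => htPhi (U i z)) x e / acC) =
      -(∫ x, htPhi (U i x) * gmtDiv T x) / acC := by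
    filter_upwards [haw] with i hi
    have hq : q i ∉ tsupport w := fun hq => by
      have := hi _ hq
      rw [sub_self, norm_zero] at this
      linarith
    have hTi : GmtTest ({q i}ᶜ) T := ⟨hTc1, hTcpt, fun x hx => fun hxq => hq (hxq ▸ hTs hx)⟩
    have hu : ContDiffOn ℝ 1 (fun z => htPhi (U i z)) {q i}ᶜ :=
      (htc_phi_contDiff.comp_contDiffOn (h.ac i).smooth).of_le (by exact_mod_cast le_top)
    have := integral_mul_gmtDiv isOpen_compl_singleton hu hTi
    rw [this, neg_neg, ← integral_div]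
    refine integral_congr_ae (Eventually.of_forall fun x => ?_)
    simp only [hT, map_smul, smul_eq_mul]
    ring
  have hfin : Tendsto (fun i => -(∫ x, htPhi (U i x) * gmtDiv T x) / acC) atTop
      (𝓝 (∫ x, w x * ⟪e, gmtNu S x⟫ ∂(gmtMu S))) := by
    have := (hlim.neg).div_const acC
    rw [e1, neg_neg, mul_div_cancel_left₀ _ hacC.ne'] at this
    exact this
  exact hfin.congr' (hev.mono fun i hi => hi.symm)

/-- the tilt hypothesis of the flat lemma holds for small `r` and large `i`. -/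
theorem htc_tilt_i (hn : 3 ≤ n) (h : HtSeq n a Ω κ q U) (hc : HtConv n κ q U μ ζ A S) {x e : E n}
    (ht : Tendsto (fun r : ℝ => (r ^ (n - 1))⁻¹ * ∫ y in closedBall x r, ⟪A y e, e⟫ ∂μ) (𝓝[>] 0) (𝓝 0))
    {δ R : ℝ} (hδ : 0 < δ) (hR : 0 < R) :
    ∀ᶠ r in 𝓝[>] (0 : ℝ), ∀ᶠ i in atTop,
      ∫ y in ball x (R * r), ⟪htM n (κ i) (q i) (U i) y e, e⟫ ≤ δ * r ^ (n - 1) := by
  have hmap : Tendsto (fun r : ℝ => 2 * R * r) (𝓝[>] 0) (𝓝[>] 0) := by
    refine tendsto_nhdsWithin_iff.2 ⟨?_, ?_⟩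
    · have : Tendsto (fun r : ℝ => 2 * R * r) (𝓝 0) (𝓝 (2 * R * 0)) := (continuous_const.mul continuous_id).tendsto 0
      rw [mul_zero] at this
      exact this.mono_left nhdsWithin_le_nhds
    · filter_upwards [self_mem_nhdsWithin] with r hr
      exact mul_pos (by positivity : (0 : ℝ) < 2 * R) hr
  have hη : (0 : ℝ) < δ / (2 * (2 * R) ^ (n - 1)) := by positivity
  have ev := (ht.comp hmap).eventually (Iio_mem_nhds hη)
  filter_upwards [ev, self_mem_nhdsWithin] with r hr1 hr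
  have hr0 : (0 : ℝ) < r := hr
  simp only [Function.comp, mem_Iio] at hr1
  -- the limit tilt at radius `2 R r`
  have hT : ∫ y in closedBall x (2 * R * r), ⟪A y e, e⟫ ∂μ < δ * r ^ (n - 1) := by
    have hp : (0 : ℝ) < (2 * R * r) ^ (n - 1) := by positivity
    rw [inv_mul_lt_iff₀ hp] at hr1
    have : (2 * R * r) ^ (n - 1) * (δ / (2 * (2 * R) ^ (n - 1))) = δ * r ^ (n - 1) / 2 := by
      rw [mul_pow (2 * R) r]
      field_simp
    rw [this] at hr1
    have : 0 < δ * r ^ (n - 1) := by positivity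
    linarith
  obtain ⟨g, hg1, hg2, hg3, hg4, hg5⟩ := gmt_exists_cutoff (isCompact_closedBall x (R * r))
    (isOpen_ball (x := x) (ε := 2 * R * r)) (closedBall_subset_ball (by nlinarith [mul_pos hR hr0]))
  have hgB : ∀ y ∈ closedBall x (R * r), g y = 1 := fun y hy => hg5.self_of_nhdsSet y hy
  have hg0 : ∀ y, y ∉ closedBall x (2 * R * r) → g y = 0 := fun y hy =>
    image_eq_zero_of_notMem_tsupport fun hy' => hy (ball_subset_closedBall (hg3 hy'))
  have hlim := hc.wkM e g hg1.continuous hg2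
  -- the limit integral is below the limit tilt
  obtain ⟨C, hC⟩ := hc.bdd
  have hAm : Measurable fun y => ⟪A y e, e⟫ :=
    ((ContinuousLinearMap.apply ℝ (E n) e).continuous.measurable.comp hc.mA).inner measurable_const
  have hAi : IntegrableOn (fun y => ⟪A y e, e⟫) (closedBall x (2 * R * r)) μ := by
    refine Measure.integrableOn_of_bounded (M := C * ‖e‖ * ‖e‖) (hc.fin _ (isCompact_closedBall _ _)) hAm.aestronglyMeasurable
      (Eventually.of_forall fun y => ?_)
    rw [Real.norm_eq_abs]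
    calc |⟪A y e, e⟫| ≤ ‖A y e‖ * ‖e‖ := abs_real_inner_le_norm _ _
      _ ≤ (‖A y‖ * ‖e‖) * ‖e‖ := by gcongr; exact (A y).le_opNorm e
      _ ≤ C * ‖e‖ * ‖e‖ := by gcongr; exact hC y
  have hle : ∫ y, g y * ⟪A y e, e⟫ ∂μ ≤ ∫ y in closedBall x (2 * R * r), ⟪A y e, e⟫ ∂μ := by
    rw [← setIntegral_eq_integral_of_forall_compl_eq_zero (s := closedBall x (2 * R * r))
      (fun y hy => by rw [hg0 y hy, zero_mul])]
    refine setIntegral_mono_ae (hAi.bdd_mul (c := 1) hg1.continuous.aestronglyMeasurable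
      (Eventually.of_forall fun y => ?_)) hAi ?_
    · rw [Real.norm_eq_abs, abs_of_nonneg (hg4 y).1]; exact (hg4 y).2
    · filter_upwards [(ht_lim_pair hn h hc).nonneg] with y hy
      nlinarith [hy e, (hg4 y).1, (hg4 y).2]
  filter_upwards [hlim.eventually (Iio_mem_nhds (lt_of_le_of_lt hle hT))] with i hi
  refine le_trans ?_ (le_of_lt hi)
  -- the `ε`-level
  have hP := ht_pair hn (h.ac i)
  set f : E n → ℝ := fun y => ⟪htM n (κ i) (q i) (U i) y e, e⟫ with hf
  have hf0 : ∀ y, 0 ≤ f y := fun y => ht_M_nonneg hn (h.ac i) y e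
  have hfm : AEStronglyMeasurable f volume :=
    ((ContinuousLinearMap.apply ℝ (E n) e).continuous.comp_aestronglyMeasurable hP.mM).inner aestronglyMeasurable_const
  have hfi : IntegrableOn f (closedBall x (2 * R * r)) := by
    have hd : IntegrableOn (fun y => htD n (κ i) (q i) (U i) y * ‖e‖ ^ 2) (closedBall x (2 * R * r)) :=
      (hP.lint.integrableOn_isCompact (isCompact_closedBall _ _)).mul_const _
    refine Integrable.mono' hd hfm.restrict (Eventually.of_forall fun y => ?_)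
    rw [Real.norm_eq_abs, abs_of_nonneg (hf0 y)]
    exact ht_M_le hn (h.ac i) y e
  have e0 : ∫ y, g y * f y = ∫ y in closedBall x (2 * R * r), g y * f y :=
    (setIntegral_eq_integral_of_forall_compl_eq_zero (fun y hy => by rw [hg0 y hy, zero_mul])).symm
  change ∫ y in ball x (R * r), f y ≤ ∫ y, g y * f y
  rw [e0]
  have hgi : IntegrableOn (fun y => g y * f y) (closedBall x (2 * R * r)) :=
    hfi.bdd_mul (c := 1) hg1.continuous.aestronglyMeasurable (Eventually.of_forall fun y => by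
      rw [Real.norm_eq_abs, abs_of_nonneg (hg4 y).1]; exact (hg4 y).2)
  have hsub : ball x (R * r) ⊆ closedBall x (2 * R * r) :=
    ball_subset_closedBall.trans (closedBall_subset_closedBall (by nlinarith [mul_pos hR hr0]))
  calc ∫ y in ball x (R * r), f y = ∫ y in ball x (R * r), g y * f y :=
        setIntegral_congr_fun measurableSet_ball fun y hy => by
          simp only [hgB y (ball_subset_closedBall hy), one_mul]
    _ ≤ ∫ y in closedBall x (2 * R * r), g y * f y :=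
        setIntegral_mono_set hgi (Eventually.of_forall fun y => mul_nonneg (hg4 y).1 (hf0 y))
          (Eventually.of_forall hsub)

/-- PURE MATHLIB: a smaller measure with density ratio `≥ 1 - η` along small closed balls is equal. -/
theorem htc_rn_one {μ ν : Measure (E n)} [IsLocallyFiniteMeasure μ] (hle : ν ≤ μ)
    (h : ∀ᵐ x ∂μ, ∀ η > 0, ∃ᶠ r in 𝓝[>] (0 : ℝ), ENNReal.ofReal (1 - η) * μ (closedBall x r) ≤ ν (closedBall x r)) :
    ν = μ := by
  have : IsLocallyFiniteMeasure ν := ⟨fun x => (μ.finiteAt_nhds x).measure_mono hle⟩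
  have hac : ν ≪ μ := Measure.absolutelyContinuous_of_le hle
  have hone : (fun _ => (1 : ℝ≥0∞)) ≤ᵐ[μ] ν.rnDeriv μ := by
    filter_upwards [h, Besicovitch.ae_tendsto_rnDeriv ν μ, (Besicovitch.vitaliFamily μ).ae_eventually_measure_pos]
      with x hx hlim hpos
    have hpos' : ∀ᶠ r in 𝓝[>] (0 : ℝ), 0 < μ (closedBall x r) := (Besicovitch.tendsto_filterAt μ x).eventually hpos
    have hfin' : ∀ᶠ r in 𝓝[>] (0 : ℝ), μ (closedBall x r) < ⊤ :=
      (Besicovitch.tendsto_filterAt μ x).eventually ((Besicovitch.vitaliFamily μ).eventually_measure_lt_top x)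
    refine le_of_forall_lt_imp_le_of_dense fun c hc => ?_
    have hc1 : c ≠ ⊤ := ne_top_of_lt hc
    have hc2 : c.toReal < 1 := by
      have := (ENNReal.toReal_lt_toReal hc1 ENNReal.one_ne_top).2 hc
      simpa using this
    have hfr := hx (1 - c.toReal) (by linarith)
    have e1 : ENNReal.ofReal (1 - (1 - c.toReal)) = c := by
      rw [sub_sub_cancel, ENNReal.ofReal_toReal hc1]
    rw [e1] at hfr
    refine ge_of_tendsto_of_frequently hlim ?_
    refine (hfr.and_eventually (hpos'.and hfin')).mono ?_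
    rintro r ⟨h1, h2, h3⟩
    exact (ENNReal.le_div_iff_mul_le (Or.inl h2.ne') (Or.inl h3.ne)).2 h1
  refine le_antisymm hle ?_
  calc μ = μ.withDensity (fun _ => 1) := by
        have : (fun _ : E n => (1 : ℝ≥0∞)) = 1 := rfl
        rw [this, withDensity_one]
    _ ≤ μ.withDensity (ν.rnDeriv μ) := withDensity_mono hone
    _ = ν := Measure.withDensity_rnDeriv_eq ν μ hac

/-- PURE MATHLIB: identification of a bounded measurable field at its Lebesgue points. -/
theorem htc_normal {μ : Measure (E n)} [IsLocallyFiniteMeasure μ] {ν : E n → E n} (hν : Measurable ν) (hν1 : ∀ x, ‖ν x‖ ≤ 1) :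
    ∀ᵐ x ∂μ, ∀ e : E n, ‖e‖ = 1 →
      (∀ η > 0, ∃ᶠ r in 𝓝[>] (0 : ℝ), 0 < μ (closedBall x r) ∧ ∃ σ : ℝ, (σ = 1 ∨ σ = -1) ∧
        ∫ y in closedBall x r, (1 - σ * ⟪e, ν y⟫) ∂μ ≤ η * (μ (closedBall x r)).toReal) →
      ν x = e ∨ ν x = -e := by
  have hloc : LocallyIntegrable ν μ := by
    refine (locallyIntegrable_const (1 : ℝ)).mono hν.aestronglyMeasurable ?_
    exact Eventually.of_forall fun t => by simpa using hν1 t
  filter_upwards [(Besicovitch.vitaliFamily μ).ae_tendsto_average_norm_sub hloc] with x hx e he hyp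
  have hlim := hx.comp (Besicovitch.tendsto_filterAt μ x)
  have hfin' : ∀ᶠ r in 𝓝[>] (0 : ℝ), μ (closedBall x r) < ⊤ :=
    (Besicovitch.tendsto_filterAt μ x).eventually ((Besicovitch.vitaliFamily μ).eventually_measure_lt_top x)
  -- the key inequality
  have key : ∀ η > 0, 1 - 2 * η ≤ |⟪e, ν x⟫| := by
    intro η hη
    have hev : ∀ᶠ r in 𝓝[>] (0 : ℝ), (⨍ y in closedBall x r, ‖ν y - ν x‖ ∂μ) < η :=
      hlim.eventually (Iio_mem_nhds hη)
    obtain ⟨r, ⟨hpos, σ, hσ, hint⟩, hav, hfin⟩ := ((hyp η hη).and_eventually (hev.and hfin')).exists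
    set m := (μ (closedBall x r)).toReal with hm
    have hm0 : 0 < m := ENNReal.toReal_pos hpos.ne' hfin.ne
    have : IsFiniteMeasure (μ.restrict (closedBall x r)) := ⟨by rw [Measure.restrict_apply_univ]; exact hfin⟩
    rw [setAverage_eq, smul_eq_mul, measureReal_def, ← hm, inv_mul_lt_iff₀ hm0] at hav
    have hσ1 : |σ| = 1 := by rcases hσ with rfl | rfl <;> simp
    have hi1 : Integrable (fun y => 1 - σ * ⟪e, ν y⟫) (μ.restrict (closedBall x r)) := by
      refine Integrable.mono' (g := fun _ => (2 : ℝ)) (integrable_const _) ?_ ?_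
      · exact (measurable_const.sub (measurable_const.mul (measurable_const.inner hν))).aestronglyMeasurable
      · refine Eventually.of_forall fun y => ?_
        have h1 : |⟪e, ν y⟫| ≤ 1 := by
          calc |⟪e, ν y⟫| ≤ ‖e‖ * ‖ν y‖ := abs_real_inner_le_norm _ _
            _ ≤ 1 := by rw [he, one_mul]; exact hν1 y
        rw [Real.norm_eq_abs]
        calc |1 - σ * ⟪e, ν y⟫| ≤ |(1 : ℝ)| + |σ * ⟪e, ν y⟫| := abs_sub _ _
          _ = 1 + |⟪e, ν y⟫| := by rw [abs_one, abs_mul, hσ1, one_mul]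
          _ ≤ 2 := by linarith
    have hi2 : Integrable (fun y => ‖ν y - ν x‖) (μ.restrict (closedBall x r)) := by
      refine Integrable.mono' (g := fun _ => (2 : ℝ)) (integrable_const _) ?_ ?_
      · exact ((hν.sub measurable_const).norm).aestronglyMeasurable
      · refine Eventually.of_forall fun y => ?_
        rw [norm_norm]
        calc ‖ν y - ν x‖ ≤ ‖ν y‖ + ‖ν x‖ := norm_sub_le _ _
          _ ≤ 2 := by linarith [hν1 y, hν1 x]
    have hle : ∫ _y in closedBall x r, (1 - σ * ⟪e, ν x⟫) ∂μ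
        ≤ ∫ y in closedBall x r, ((1 - σ * ⟪e, ν y⟫) + ‖ν y - ν x‖) ∂μ := by
      refine integral_mono (integrable_const _) (hi1.add hi2) fun y => ?_
      have h1 : σ * ⟪e, ν y - ν x⟫ ≤ ‖ν y - ν x‖ := by
        calc σ * ⟪e, ν y - ν x⟫ ≤ |σ * ⟪e, ν y - ν x⟫| := le_abs_self _
          _ = |⟪e, ν y - ν x⟫| := by rw [abs_mul, hσ1, one_mul]
          _ ≤ ‖e‖ * ‖ν y - ν x‖ := abs_real_inner_le_norm _ _
          _ = ‖ν y - ν x‖ := by rw [he, one_mul]
      rw [inner_sub_right] at h1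
      show 1 - σ * ⟪e, ν x⟫ ≤ (1 - σ * ⟪e, ν y⟫) + ‖ν y - ν x‖
      linarith
    rw [integral_add hi1 hi2, integral_const, smul_eq_mul, measureReal_def, Measure.restrict_apply_univ, ← hm] at hle
    have h2 : m * (1 - σ * ⟪e, ν x⟫) ≤ m * (2 * η) := by nlinarith
    have h3 : 1 - σ * ⟪e, ν x⟫ ≤ 2 * η := le_of_mul_le_mul_left h2 hm0
    have h4 : σ * ⟪e, ν x⟫ ≤ |⟪e, ν x⟫| := by
      calc σ * ⟪e, ν x⟫ ≤ |σ * ⟪e, ν x⟫| := le_abs_self _
        _ = |⟪e, ν x⟫| := by rw [abs_mul, hσ1, one_mul]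
    linarith
  have habs : 1 ≤ |⟪e, ν x⟫| := by
    refine le_of_forall_pos_le_add fun ε hε => ?_
    have := key (ε / 2) (by positivity)
    linarith
  have hnx := hν1 x
  have hnx2 : ‖ν x‖ ^ 2 ≤ 1 := by nlinarith [norm_nonneg (ν x)]
  rcases le_abs.1 habs with hp | hp
  · left
    have h1 : ‖ν x - e‖ ^ 2 ≤ 0 := by
      rw [norm_sub_sq_real, he, real_inner_comm]
      nlinarith
    have h2 : ‖ν x - e‖ = 0 := by nlinarith [norm_nonneg (ν x - e)]
    exact sub_eq_zero.1 (norm_eq_zero.1 h2)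
  · right
    have h1 : ‖ν x + e‖ ^ 2 ≤ 0 := by
      rw [norm_add_sq_real, he, real_inner_comm]
      nlinarith
    have h2 : ‖ν x + e‖ = 0 := by nlinarith [norm_nonneg (ν x + e)]
    exact eq_neg_of_add_eq_zero_left (norm_eq_zero.1 h2)

theorem htc_proj_neg (e : E n) : htProj (-e) = htProj e := by
  ext v i
  simp [htProj]

/-- `tr (P_ν L) = tr L - ⟪ν, L ν⟫`. -/
theorem htc_con_proj (ν : E n) (L : E n →L[ℝ] E n) : htCon (htProj ν) L = ∑ i, L (eb i) i - ⟪ν, L ν⟫ := by
  unfold htCon htProj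
  have h1 : ∀ i : Fin n, ⟪(ContinuousLinearMap.id ℝ (E n) - (innerSL ℝ ν).smulRight ν) (L (eb i)), eb i⟫ =
      L (eb i) i - ⟪ν, L (eb i)⟫ * ν i := by
    intro i
    simp only [sub_apply, ContinuousLinearMap.id_apply, ContinuousLinearMap.smulRight_apply,
      innerSL_apply_apply, inner_sub_left, inner_smul_left]
    simp [EuclideanSpace.inner_single_right]
  simp only [h1, Finset.sum_sub_distrib]
  congr 1
  have h2 : L ν = ∑ i, ν i • L (eb i) := by
    have h3 : ν = ∑ i, ν i • eb i := by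
      ext j
      simp [Finset.sum_apply, Pi.single_apply]
    conv_lhs => rw [h3]
    simp only [map_sum, map_smul]
  rw [h2, inner_sum]
  refine Finset.sum_congr rfl fun i _ => ?_
  rw [inner_smul_right]
  ring

end Claimed.Agent.R323
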