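import Claimed.Agent.R323.Ht.LimK1

/-!
# Row 323, block C, LIM: CLOSURE of the class `HtK` under blow-up, rotations, a.e. equality.   (owner: helper281)
Assembly of `Ht/LimK0.lean` (single scale) and `Ht/LimK1.lean` (diagonal argument).
-/

set_option autoImplicit false
open scoped ContDiff ENNReal NNReal RealInnerProductSpace Topology
open MeasureTheory Metric Set Filter

namespace Claimed.Agent.R323

open Claimed.Agent.Gmt

variable {n : ℕ}

/-- CLOSURE: blow-ups (at points of `Ω`) of limits are entire limits, without loss of mass. -/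
theorem ht_blow (hn : 3 ≤ n) {a : ℝ} (ha : a < 2 * (((n : ℝ) - 1) * gmtOm (n - 1))) {Ω : Set (E n)} (hΩ : IsOpen Ω)
    (hΩc : Ωᶜ ⊆ {0}) {κ : ℕ → ℝ} {q : ℕ → E n} {U : ℕ → E n → ℝ} (h : HtSeq n a Ω κ q U) {S : Set (E n)}
    (hS : MeasurableSet S) (hl : GmtConvF univ U (htSgn S)) {x : E n} (hx : x ∈ Ω) {r : ℕ → ℝ} (hr : ∀ j, 0 < r j)
    (hr0 : Tendsto r atTop (𝓝 0)) : ∃ S', HtK n a S' ∧ BlowTo S x r S' := by
  obtain ⟨-, hw, -, hb⟩ := ht_lim_wk hn ha hΩ hΩc h hS hl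
  obtain ⟨d, hd, hdΩ⟩ := Metric.nhds_basis_closedBall.mem_iff.1 (hΩ.mem_nhds hx)
  obtain ⟨c₀, hc₀, hc₀'⟩ := h.away _ (isCompact_closedBall x d) hdΩ
  obtain ⟨D, hD, hD0, hDd⟩ := hsp_cc_dense n
  have hDc : ∀ N l, HasCompactSupport (D N l) := fun N l =>
    HasCompactSupport.intro (isCompact_closedBall (0 : E n) N) fun y hy => hD0 N l y (by
      rw [mem_closedBall, dist_zero_right, not_le] at hy; exact hy)
  choose i hi using fun j => htk_sel_exists hn h hS hl hw hdΩ hc₀' hD hDc (hr j) j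
  have hseq := htk_diag_seq hn h.ac hd hc₀ hr hr0 hi
  have hu : (univ : Set (E n))ᶜ ⊆ {0} := by simp
  obtain ⟨φ, μ, ζ, A, S', hφ, hcv⟩ := ht_lim_compact hn isOpen_univ hu hseq
  have hseq' := hseq.subseq hφ
  obtain ⟨-, hw', -, hb'⟩ := ht_lim_wk hn ha isOpen_univ hu hseq' hcv.mS hcv.l1
  refine ⟨S', ⟨hcv.mS, _, _, _, hseq', hcv.l1⟩, φ, hφ, ?_, ?_⟩
  · refine htk_conv_of_sgn (fun j => measurableSet_gmtDil hS x _) hcv.mS ?_
    refine htk_l1_tri (fun j => htc_U_aesm hn (hseq'.ac j)) (fun j => htc_sgn_meas (measurableSet_gmtDil hS x _))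
      hφ.tendsto_atTop (fun j => (hi (φ j)).l1) hcv.l1
  · refine htk_wk_tri hD hD0 hDd hφ.tendsto_atTop (fun j => (hi (φ j)).wk) hw' fun R => ?_
    have hR : 0 < |R| + 1 := by positivity
    have hsub : closedBall (0 : E n) R ⊆ ball 0 (|R| + 1) :=
      closedBall_subset_ball (lt_of_le_of_lt (le_abs_self R) (lt_add_one _))
    refine ⟨|a / ((n : ℝ) - 1) * (|R| + 1) ^ (n - 1)|, abs_nonneg _, fun j => ?_, ?_⟩
    · exact (measure_mono hsub).trans ((htk_dil_bound hn hS hb x (hr _) 0 hR).trans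
        (ENNReal.ofReal_le_ofReal (le_abs_self _)))
    · exact (measure_mono hsub).trans ((hb' 0 _ hR).trans (ENNReal.ofReal_le_ofReal (le_abs_self _)))

theorem ht_K_congr {a : ℝ} {S S' : Set (E n)} (h : HtK n a S) (hS' : MeasurableSet S') (he : (S : Set (E n)) =ᵐ[volume] S') :
    HtK n a S' := by
  obtain ⟨-, κ, q, U, hseq, hl⟩ := h
  refine ⟨hS', κ, q, U, hseq, fun K hK hKu => ?_⟩
  refine (hl K hK hKu).congr fun i => ?_
  refine lintegral_congr_ae (ae_restrict_of_ae ?_)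
  filter_upwards [he] with y hy
  have : htSgn S y = htSgn S' y := by
    have hy' : y ∈ S ↔ y ∈ S' := iff_of_eq hy
    unfold htSgn gmtChi
    by_cases hyS : y ∈ S
    · rw [indicator_of_mem hyS, indicator_of_mem (hy'.1 hyS)]
    · rw [indicator_of_notMem hyS, indicator_of_notMem (fun h => hyS (hy'.2 h))]
  rw [this]

theorem ht_K_rot (hn : 3 ≤ n) {a : ℝ} {S : Set (E n)} (h : HtK n a S) (O : E n ≃ₗᵢ[ℝ] E n) : HtK n a (gmtRot O S) := by
  obtain ⟨hS, κ, q, U, hseq, hl⟩ := h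
  refine ⟨?_, κ, _, _, htk_seq_rot hn hseq O.symm, ?_⟩
  · have : gmtRot O S = O.symm ⁻¹' S := by ext y; exact mem_gmtRot O S y
    rw [this]
    exact O.symm.continuous.measurable hS
  · rw [← htk_sgn_rot]
    exact htk_convF_tr O.symm 0 one_pos hl

end Claimed.Agent.R323
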