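import Claimed.Agent.R323.Ht.Defs

/-!
# Row 323, block C, sub-block LIM, file V: VAGUE COMPACTNESS AND TEST FUNCTIONS.   (architect: helper143)   PAPER-FREE: Mathlib + `GmtWk` only.

Everything here is general measure theory on `E n`.  Prefix `htv_`.  LEAVES `L-HTV-*`: every `sorry`; prove IN PLACE (helpers directly above your theorem), pull before landing.
* `htv_dense`   : a countable family of `C_c` functions, uniformly dense with control of the supports.
* `htv_diag`    : one subsequence for countably many bounded real sequences.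
* `htv_compact` : vague compactness for a COUNTABLE FAMILY of sequences of measures with locally (eventually) bounded masses.
* `htv_le_of_test`, `htv_density`, `htv_ae_nonneg`, `htv_ae_le` : measures and densities are determined by nonnegative test functions.
* `htv_wk_subseq` : the subsequence principle.
-/

set_option autoImplicit false
open scoped ContDiff ENNReal NNReal RealInnerProductSpace Topology
open MeasureTheory Metric Set Filter

namespace Claimed.Agent.R323

open Claimed.Agent.Gmt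

variable {n : ℕ}

/-- the cut-off `= 1` on `closedBall 0 (k/2)`, `= 0` off `ball 0 ((k+1)/2)` -/
noncomputable def htvChi (n : ℕ) (k : ℤ) (x : E n) : ℝ := max 0 (min 1 ((k : ℝ) + 1 - 2 * ‖x‖))

theorem htvChi_cont (k : ℤ) : Continuous (htvChi n k) := by
  unfold htvChi
  fun_prop

theorem htvChi_nonneg (k : ℤ) (x : E n) : 0 ≤ htvChi n k x := le_max_left _ _

theorem htvChi_le_one (k : ℤ) (x : E n) : htvChi n k x ≤ 1 := max_le zero_le_one (min_le_left _ _)

theorem htvChi_eq_one {k : ℤ} {x : E n} (h : 2 * ‖x‖ ≤ k) : htvChi n k x = 1 := by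
  unfold htvChi
  rw [min_eq_left (by linarith), max_eq_right zero_le_one]

theorem htvChi_eq_zero {k : ℤ} {x : E n} (h : (k : ℝ) + 1 ≤ 2 * ‖x‖) : htvChi n k x = 0 := by
  unfold htvChi
  rw [max_eq_left]
  exact (min_le_right _ _).trans (by linarith)

/-- **LEAF L-HTV-1** (~120 l.).  PLAN: `C(E n, ℝ)` with the compact-open topology is second countable (`ContinuousMap.instSecondCountableTopology`, file `Mathlib/Topology/ContinuousMap/SecondCountableSpace.lean`), hence separable:
`TopologicalSpace.exists_countable_dense`, enumerate `h : ℕ → C(E n, ℝ)` (`TopologicalSpace.denseSeq`).   Cut-offs `χ N x = max 0 (min 1 (N + 1 - ‖x‖))` (`N : ℕ`): continuous, `0 ≤ χ ≤ 1`, `= 1` on `closedBall 0 N`, `tsupport ⊆ closedBall 0 (N + 1)`.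
`D (Nat.pair N l) = χ N * h l`... BUT the support must lie in `closedBall 0 (R + 1)` for REAL `R`: use instead cut-offs with rational parameters `χ a x = max 0 (min 1 ((a + 1 - ‖x‖)))`... simplest: take `χ_{a,b}`, `a < b` rationals, `= 1` on `closedBall 0 a`, `0` off `ball 0 b`
(`χ x = max 0 (min 1 ((b - ‖x‖)/(b - a)))`), family indexed by `ℚ × ℚ × ℕ` (`Encodable`/`exists_surjective_nat`); given `R` choose rationals `max R 0 < a < b < max R 0 + 1` (if `R < 0` then `g = 0`).
Density: `{f : C(E n, ℝ) | ∀ x ∈ closedBall 0 b, |f x - g x| < η}` is an open neighbourhood of `g` (`ContinuousMap.tendsto_iff_forall_isCompact_tendstoUniformlyOn`, or `ContinuousMap.isOpen_setOf_mapsTo` after subtracting; or use the metric of `C(closedBall, ℝ)` via `ContinuousMap.restrict`, which is continuous).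
Then `g - χ h = χ (g - h)` because `g = χ g` (`χ = 1` on `tsupport g`). -/
theorem htv_dense (n : ℕ) : ∃ D : ℕ → E n → ℝ, (∀ l, Continuous (D l)) ∧ (∀ l, HasCompactSupport (D l)) ∧
    ∀ g : E n → ℝ, Continuous g → HasCompactSupport g → ∀ R : ℝ, tsupport g ⊆ closedBall 0 R → ∀ η > 0,
      ∃ l, tsupport (D l) ⊆ closedBall 0 (R + 1) ∧ ∀ x, |g x - D l x| ≤ η := by
  classical
  set h : ℕ → C(E n, ℝ) := TopologicalSpace.denseSeq C(E n, ℝ) with hh
  set e : ℕ ≃ ℤ × ℕ := (Denumerable.eqv (ℤ × ℕ)).symm with he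
  have hzero : ∀ (k : ℤ) (l : ℕ) (x : E n), x ∉ closedBall (0 : E n) (((k : ℝ) + 1) / 2) → htvChi n k x * h l x = 0 := by
    intro k l x hx
    rw [mem_closedBall_zero_iff, not_le] at hx
    rw [htvChi_eq_zero (by linarith), zero_mul]
  have hts : ∀ (k : ℤ) (l : ℕ), tsupport (fun x => htvChi n k x * h l x) ⊆ closedBall (0 : E n) (((k : ℝ) + 1) / 2) := by
    intro k l
    refine closure_minimal (fun x hx => ?_) isClosed_closedBall
    by_contra hc
    exact hx (hzero k l x hc)
  refine ⟨fun j x => htvChi n (e j).1 x * h (e j).2 x, fun j => (htvChi_cont _).mul (h _).continuous,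
    fun j => HasCompactSupport.intro (isCompact_closedBall _ _) (hzero _ _), ?_⟩
  intro g hg _ R hR η hη
  set k : ℤ := ⌈2 * R⌉ with hk
  have hk1 : 2 * R ≤ k := Int.le_ceil _
  have hk2 : (k : ℝ) < 2 * R + 1 := Int.ceil_lt_add_one _
  set K : Set (E n) := closedBall (0 : E n) (((k : ℝ) + 1) / 2) with hK
  have : CompactSpace K := isCompact_iff_compactSpace.1 (isCompact_closedBall _ _)
  set G : C(E n, ℝ) := ⟨g, hg⟩ with hG
  have hopen : IsOpen ((ContinuousMap.restrict K) ⁻¹' (ball (G.restrict K) η) : Set C(E n, ℝ)) :=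
    isOpen_ball.preimage (ContinuousMap.continuous_restrict K)
  obtain ⟨l, hl⟩ := (TopologicalSpace.denseRange_denseSeq C(E n, ℝ)).exists_mem_open hopen ⟨G, mem_ball_self hη⟩
  have hl' : ∀ x ∈ K, |g x - h l x| ≤ η := by
    intro x hx
    have h1 : dist ((h l).restrict K) (G.restrict K) < η := hl
    have h2 := ContinuousMap.dist_apply_le_dist (f := (h l).restrict K) (g := G.restrict K) ⟨x, hx⟩
    rw [abs_sub_comm]
    exact (h2.trans h1.le)
  have hgχ : ∀ x, g x = htvChi n k x * g x := by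
    intro x
    by_cases hx : x ∈ tsupport g
    · have := mem_closedBall_zero_iff.1 (hR hx)
      rw [htvChi_eq_one (by linarith), one_mul]
    · rw [image_eq_zero_of_notMem_tsupport hx, mul_zero]
  refine ⟨e.symm (k, l), ?_, fun x => ?_⟩
  · simp only [Equiv.apply_symm_apply]
    exact (hts k l).trans (closedBall_subset_closedBall (by linarith))
  · simp only [Equiv.apply_symm_apply]
    by_cases hx : x ∈ K
    · rw [hgχ x, ← mul_sub, abs_mul, abs_of_nonneg (htvChi_nonneg k x)]
      calc htvChi n k x * |g x - h l x| ≤ 1 * η := mul_le_mul (htvChi_le_one k x) (hl' x hx) (abs_nonneg _) zero_le_one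
        _ = η := one_mul _
    · have h0 : htvChi n k x = 0 := by
        rw [hK, mem_closedBall_zero_iff, not_le] at hx
        exact htvChi_eq_zero (by linarith)
      rw [hgχ x, h0]
      simpa using hη.le

/-- **LEAF L-HTV-2** (~40 l.).  PLAN: `x i := fun l => a l i` lies in the compact set `Set.pi univ fun l => Icc (-C l) (C l)` (`isCompact_univ_pi`, `isCompact_Icc`) of `ι → ℝ`, which is first countable (`ι` countable);
`IsCompact.tendsto_subseq`; `tendsto_pi_nhds`. -/
theorem htv_diag {ι : Type*} [Countable ι] (a : ι → ℕ → ℝ) (hb : ∀ l, ∃ C : ℝ, ∀ i, |a l i| ≤ C) :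
    ∃ φ : ℕ → ℕ, StrictMono φ ∧ ∀ l, ∃ L : ℝ, Tendsto (fun i => a l (φ i)) atTop (𝓝 L) := by
  choose C hC using hb
  have hK : IsCompact (Set.pi univ fun l => Icc (-C l) (C l)) := isCompact_univ_pi fun l => isCompact_Icc
  obtain ⟨L, -, φ, hφ, hL⟩ := hK.tendsto_subseq (x := fun i l => a l i) (fun i l _ => abs_le.1 (hC l i))
  exact ⟨φ, hφ, fun l => ⟨L l, (tendsto_pi_nhds.1 hL) l⟩⟩

/-- an eventually bounded real sequence is bounded -/
theorem htv_bdd_of_eventually (a : ℕ → ℝ) {C : ℝ} (h : ∀ᶠ i in atTop, |a i| ≤ C) : ∃ C' : ℝ, ∀ i, |a i| ≤ C' := by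
  obtain ⟨N, hN⟩ := eventually_atTop.1 h
  refine ⟨C + ∑ i ∈ Finset.range N, |a i|, fun i => ?_⟩
  have h0 : 0 ≤ ∑ i ∈ Finset.range N, |a i| := Finset.sum_nonneg fun _ _ => abs_nonneg _
  rcases lt_or_ge i N with hi | hi
  · have h1 : |a i| ≤ ∑ i ∈ Finset.range N, |a i| :=
      Finset.single_le_sum (f := fun i => |a i|) (fun _ _ => abs_nonneg _) (Finset.mem_range.2 hi)
    have h2 : 0 ≤ C := (abs_nonneg _).trans (hN N le_rfl)
    linarith
  · have := hN i hi
    linarith

/-- **LEAF L-HTV-3a** (~60 l.): the basic estimate.  `g` continuous, `tsupport g ⊆ closedBall 0 R`, `|g| ≤ η`, `μ (closedBall 0 R) ≤ C`: `|∫ g dμ| ≤ η C`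
(`norm_integral_le_of_norm_le_const`-type: `setIntegral` on the closed ball, `setIntegral_eq_integral_of_forall_compl_eq_zero`, `norm_setIntegral_le_of_norm_le_const`). -/
theorem htv_integral_le {μ : Measure (E n)} {g : E n → ℝ} {R η : ℝ} {C : ℝ≥0} (hs : tsupport g ⊆ closedBall 0 R)
    (hg : ∀ x, |g x| ≤ η) (hμ : μ (closedBall 0 R) ≤ C) : |∫ x, g x ∂μ| ≤ η * C := by
  have hη : 0 ≤ η := (abs_nonneg _).trans (hg 0)
  rw [← setIntegral_eq_integral_of_forall_compl_eq_zero (s := closedBall (0 : E n) R)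
    (fun x hx => image_eq_zero_of_notMem_tsupport fun h => hx (hs h))]
  have h1 := norm_setIntegral_le_of_norm_le_const (μ := μ) (s := closedBall (0 : E n) R) (f := g) (C := η)
    (hμ.trans_lt ENNReal.coe_lt_top) (fun x _ => hg x)
  refine h1.trans (mul_le_mul_of_nonneg_left ?_ hη)
  exact ENNReal.toReal_le_coe_of_le_coe hμ

/-- a real sequence which is approximated, up to any `ε`, eventually, by convergent sequences converges -/
theorem htv_tendsto_of_approx (x : ℕ → ℝ)
    (h : ∀ ε > 0, ∃ y : ℕ → ℝ, (∃ L, Tendsto y atTop (𝓝 L)) ∧ ∀ᶠ i in atTop, |x i - y i| ≤ ε) :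
    ∃ L, Tendsto x atTop (𝓝 L) := by
  apply cauchySeq_tendsto_of_complete
  rw [Metric.cauchySeq_iff']
  intro ε hε
  obtain ⟨y, ⟨L, hL⟩, hxy⟩ := h (ε / 4) (by positivity)
  obtain ⟨N1, hN1⟩ := (Metric.tendsto_atTop.1 hL) (ε / 8) (by positivity)
  obtain ⟨N2, hN2⟩ := eventually_atTop.1 hxy
  refine ⟨max N1 N2, fun n hn => ?_⟩
  have a1 := abs_le.1 (hN2 n (le_of_max_le_right hn))
  have a2 := abs_le.1 (hN2 (max N1 N2) (le_max_right _ _))
  have a3 := hN1 n (le_of_max_le_left hn)
  have a4 := hN1 (max N1 N2) (le_max_left _ _)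
  rw [Real.dist_eq] at a3 a4
  have a3' := abs_lt.1 a3
  have a4' := abs_lt.1 a4
  rw [Real.dist_eq, abs_lt]
  constructor <;> linarith [a1.1, a1.2, a2.1, a2.2, a3'.1, a3'.2, a4'.1, a4'.2]

/-- one sequence: if the integrals of the dense family converge, then all integrals converge and the limit is a measure -/
theorem htv_compact_one (D : ℕ → E n → ℝ) (hDc : ∀ l, Continuous (D l)) (hDs : ∀ l, HasCompactSupport (D l))
    (hD : ∀ g : E n → ℝ, Continuous g → HasCompactSupport g → ∀ R : ℝ, tsupport g ⊆ closedBall 0 R → ∀ η > 0,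
      ∃ l, tsupport (D l) ⊆ closedBall 0 (R + 1) ∧ ∀ x, |g x - D l x| ≤ η)
    (ν : ℕ → Measure (E n)) (hb : ∀ R : ℝ, ∃ C : ℝ≥0, ∀ᶠ i in atTop, ν i (closedBall 0 R) ≤ C)
    (hlim : ∀ l, ∃ L : ℝ, Tendsto (fun i => ∫ x, D l x ∂(ν i)) atTop (𝓝 L)) :
    ∃ μ' : Measure (E n), (∀ K, IsCompact K → μ' K ≠ ⊤) ∧ GmtWk univ ν μ' := by
  classical
  -- (a) eventual integrability
  have hint : ∀ g : E n → ℝ, Continuous g → HasCompactSupport g → ∀ᶠ i in atTop, Integrable g (ν i) := by
    intro g hg hc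
    obtain ⟨R, hR⟩ := hc.isCompact.isBounded.subset_closedBall (0 : E n)
    obtain ⟨C, hC⟩ := hb R
    filter_upwards [hC] with i hi
    exact gmt_integrable_of_cc hg hc (ne_top_of_le_ne_top ENNReal.coe_ne_top ((measure_mono hR).trans hi))
  -- (b) the limits exist
  have hex : ∀ g : E n → ℝ, Continuous g → HasCompactSupport g → ∃ L : ℝ, Tendsto (fun i => ∫ x, g x ∂(ν i)) atTop (𝓝 L) := by
    intro g hg hc
    obtain ⟨R, hR⟩ := hc.isCompact.isBounded.subset_closedBall (0 : E n)
    obtain ⟨C, hC⟩ := hb (R + 1)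
    refine htv_tendsto_of_approx _ fun ε hε => ?_
    have hC1 : (0 : ℝ) < C + 1 := by positivity
    obtain ⟨l, hl1, hl2⟩ := hD g hg hc R hR (ε / (C + 1)) (by positivity)
    refine ⟨fun i => ∫ x, D l x ∂(ν i), hlim l, ?_⟩
    filter_upwards [hC, hint g hg hc, hint (D l) (hDc l) (hDs l)] with i hi h1 h2
    rw [← integral_sub h1 h2]
    have hts : tsupport (fun x => g x - D l x) ⊆ closedBall 0 (R + 1) := by
      refine closure_minimal (fun x hx => ?_) isClosed_closedBall
      by_contra hcon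
      apply hx
      have e1 : g x = 0 := image_eq_zero_of_notMem_tsupport fun h => hcon (closedBall_subset_closedBall (by linarith) (hR h))
      have e2 : D l x = 0 := image_eq_zero_of_notMem_tsupport fun h => hcon (hl1 h)
      show g x - D l x = 0
      rw [e1, e2, sub_zero]
    refine (htv_integral_le hts hl2 hi).trans ?_
    rw [div_mul_eq_mul_div, div_le_iff₀ hC1]
    nlinarith [C.2]
  -- (c) the functional
  let Lm : CompactlySupportedContinuousMap (E n) ℝ → ℝ := fun f => Classical.choose (hex f f.continuous f.hasCompactSupport)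
  have hLm : ∀ f : CompactlySupportedContinuousMap (E n) ℝ, Tendsto (fun i => ∫ x, f x ∂(ν i)) atTop (𝓝 (Lm f)) :=
    fun f => Classical.choose_spec (hex f f.continuous f.hasCompactSupport)
  let Λ₀ : CompactlySupportedContinuousMap (E n) ℝ →ₗ[ℝ] ℝ :=
    { toFun := Lm
      map_add' := fun f g => by
        refine tendsto_nhds_unique (hLm (f + g)) (((hLm f).add (hLm g)).congr' ?_)
        filter_upwards [hint f f.continuous f.hasCompactSupport, hint g g.continuous g.hasCompactSupport] with i h1 h2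
        rw [← integral_add h1 h2]
        rfl
      map_smul' := fun c f => by
        refine tendsto_nhds_unique (hLm (c • f)) (((hLm f).const_mul c).congr fun i => ?_)
        rw [← integral_const_mul]
        rfl }
  let Λ : CompactlySupportedContinuousMap (E n) ℝ →ₚ[ℝ] ℝ :=
    PositiveLinearMap.mk₀ Λ₀ (fun f hf => ge_of_tendsto' (hLm f) fun i => integral_nonneg fun x => hf x)
  refine ⟨RealRMK.rieszMeasure Λ, fun K hK => hK.measure_lt_top.ne, fun g hg hc _ => ?_⟩
  have := RealRMK.integral_rieszMeasure Λ ⟨⟨g, hg⟩, hc⟩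
  have e : ∫ x, g x ∂(RealRMK.rieszMeasure Λ) = Lm ⟨⟨g, hg⟩, hc⟩ := this
  rw [e]
  exact hLm ⟨⟨g, hg⟩, hc⟩

/-- **LEAF L-HTV-3** (~300 l., may be split: (i) limits exist for all `g`, (ii) the functional, (iii) RMK).   **Vague compactness**, for a countable family of sequences at once.
PLAN.  `D` from `htv_dense`.  Real sequences `s (a, l) i = ∫ D l ∂(μ a i)`: eventually bounded by `htv_integral_le` (`D l` is bounded with compact support), hence bounded (`htv_bdd_of_eventually`); `htv_diag` on `ι × ℕ` gives `φ`.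
Fix `a`.  (i) For `g ∈ C_c`, `tsupport g ⊆ closedBall 0 R`: `i ↦ ∫ g ∂(μ a (φ i))` is Cauchy: `|∫ g - ∫ D l| ≤ η C_{R+1}` eventually (`htv_integral_le` for `g - D l`; `integral_sub` needs integrability: `gmt_integrable_of_cc` (`Lib/Gmt/GgConvA.lean`), valid eventually), `cauchySeq_tendsto_of_complete`.
(ii) `Λ g := limUnder atTop fun i => ∫ g ∂(μ a (φ i))` on `C_c(E n, ℝ)` (`CompactlySupportedContinuousMap`): additive, homogeneous (limits of sums; integrability eventually), nonnegative on `g ≥ 0` (`integral_nonneg`, `ge_of_tendsto'`).  Model for building `Λ : C_c(X, ℝ) →ₚ[ℝ] ℝ`: `Claimed/Agent/R301/X08/Law.lean` l.85-100.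
(iii) `μ' := RealRMK.rieszMeasure Λ`, `RealRMK.integral_rieszMeasure`; it is a regular measure, so finite on compacts (`IsCompact.measure_lt_top`). -/
theorem htv_compact {ι : Type*} [Countable ι] (μ : ι → ℕ → Measure (E n))
    (hb : ∀ (a : ι) (R : ℝ), ∃ C : ℝ≥0, ∀ᶠ i in atTop, μ a i (closedBall 0 R) ≤ C) :
    ∃ φ : ℕ → ℕ, StrictMono φ ∧ ∀ a, ∃ μ' : Measure (E n), (∀ K, IsCompact K → μ' K ≠ ⊤) ∧ GmtWk univ (fun i => μ a (φ i)) μ' := by
  obtain ⟨D, hDc, hDs, hD⟩ := htv_dense n
  have hbd : ∀ q : ι × ℕ, ∃ C : ℝ, ∀ i, |(fun (q : ι × ℕ) i => ∫ x, D q.2 x ∂(μ q.1 i)) q i| ≤ C := by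
    rintro ⟨a, l⟩
    obtain ⟨R, hR⟩ := (hDs l).isCompact.isBounded.subset_closedBall (0 : E n)
    obtain ⟨M, hM⟩ := (hDc l).bounded_above_of_compact_support (hDs l)
    obtain ⟨C, hC⟩ := hb a R
    refine htv_bdd_of_eventually _ (C := M * C) ?_
    filter_upwards [hC] with i hi
    exact htv_integral_le hR hM hi
  obtain ⟨φ, hφ, hlim⟩ := htv_diag _ hbd
  refine ⟨φ, hφ, fun a => htv_compact_one D hDc hDs hD (fun i => μ a (φ i)) (fun R => ?_) (fun l => hlim (a, l))⟩
  obtain ⟨C, hC⟩ := hb a R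
  exact ⟨C, hφ.tendsto_atTop.eventually hC⟩

/-- weak convergence passes to subsequences -/
theorem htv_wk_comp {W : Set (E n)} {μ : ℕ → Measure (E n)} {μ' : Measure (E n)} (h : GmtWk W μ μ') {φ : ℕ → ℕ} (hφ : StrictMono φ) :
    GmtWk W (fun i => μ (φ i)) μ' := fun g hg hc hs => (h g hg hc hs).comp hφ.tendsto_atTop

theorem htv_wk_mono {W W' : Set (E n)} {μ : ℕ → Measure (E n)} {μ' : Measure (E n)} (h : GmtWk W μ μ') (hW : W' ⊆ W) : GmtWk W' μ μ' :=
  fun g hg hc hs => h g hg hc (hs.trans hW)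

/-- the subsequence principle -/
theorem htv_wk_subseq {W : Set (E n)} {μ : ℕ → Measure (E n)} {μ' : Measure (E n)}
    (h : ∀ φ : ℕ → ℕ, StrictMono φ → ∃ ψ : ℕ → ℕ, StrictMono ψ ∧ GmtWk W (fun i => μ (φ (ψ i))) μ') : GmtWk W μ μ' := by
  intro g hg hc hs
  refine tendsto_of_subseq_tendsto fun ns hns => ?_
  obtain ⟨φ, hφ, hφ'⟩ := strictMono_subseq_of_tendsto_atTop hns
  obtain ⟨ψ, hψ, hw⟩ := h (ns ∘ φ) hφ'
  exact ⟨φ ∘ ψ, hw g hg hc hs⟩

/-- Urysohn step: `ν K ≤ μ U` for `K ⊆ U ⊆ W`, `K` compact, `U` open -/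
theorem htv_le_aux {μ ν : Measure (E n)} (hν : ∀ K, IsCompact K → ν K ≠ ⊤) {W : Set (E n)}
    (h : ∀ g : E n → ℝ, Continuous g → HasCompactSupport g → tsupport g ⊆ W → (∀ x, 0 ≤ g x) → ∫ x, g x ∂ν ≤ ∫ x, g x ∂μ)
    {K U : Set (E n)} (hK : IsCompact K) (hU : IsOpen U) (hKU : K ⊆ U) (hUW : U ⊆ W) : ν K ≤ μ U := by
  obtain ⟨L, hL, hKL, hLU⟩ := exists_compact_between hK hU hKU
  obtain ⟨f, f1, f0, fc, fI⟩ := exists_continuous_one_zero_of_isCompact hK (isOpen_interior (s := L)).isClosed_compl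
    (disjoint_compl_right_iff_subset.2 hKL)
  have hts : tsupport f ⊆ L := by
    refine closure_minimal (fun x hx => ?_) hL.isClosed
    by_contra hc
    exact hx (f0 fun hi => hc (interior_subset hi))
  have hint : Integrable f ν := gmt_integrable_of_cc f.continuous fc (hν _ fc)
  calc ν K ≤ ENNReal.ofReal (∫ x, f x ∂ν) :=
        gmt_measure_le_ofReal_integral hint (fun x => (fI x).1) hK.measurableSet (fun x hx => (f1 hx).ge)
    _ ≤ ENNReal.ofReal (∫ x, f x ∂μ) :=
        ENNReal.ofReal_le_ofReal (h f f.continuous fc ((hts.trans hLU).trans hUW) fun x => (fI x).1)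
    _ ≤ μ U := gmt_ofReal_integral_le_measure (fun x => (fI x).2) hU.measurableSet
        (fun x hx => image_eq_zero_of_notMem_tsupport fun hc => hx (hLU (hts hc)))

/-- **LEAF L-HTV-4** (~120 l.): measures which are finite on compact sets are compared by nonnegative test functions.
PLAN: both restrictions are regular?  Direct: it suffices `ν K ≤ μ U` for `K ⊆ U ⊆ W`, `K` compact, `U` open (then `ν K ≤ μ K` by outer regularity of `μ` (`Measure.OuterRegular`; instance for locally finite measures on `E n`: provide `IsFiniteMeasureOnCompacts μ := ⟨fun K hK => (hμ K hK).lt_top⟩`),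
then `ν A ≤ μ A` for measurable `A ⊆ W` by inner regularity of `ν` (`MeasurableSet.measure_eq_iSup_isCompact`), `Measure.le_iff`, `Measure.restrict_apply`).   Urysohn: `exists_continuous_one_zero_of_isCompact` (or `exists_continuous_zero_one_of_isCompact`) gives `g`, `0 ≤ g ≤ 1`, `g = 1` on `K`, compact support in `U`;
`gmt_measure_le_ofReal_integral`, `gmt_ofReal_integral_le_measure` (`Lib/Gmt/GgConvA.lean` l.165-190). -/
theorem htv_le_of_test {μ ν : Measure (E n)} (hμ : ∀ K, IsCompact K → μ K ≠ ⊤) (hν : ∀ K, IsCompact K → ν K ≠ ⊤) {W : Set (E n)} (hW : IsOpen W)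
    (h : ∀ g : E n → ℝ, Continuous g → HasCompactSupport g → tsupport g ⊆ W → (∀ x, 0 ≤ g x) → ∫ x, g x ∂ν ≤ ∫ x, g x ∂μ) :
    ν.restrict W ≤ μ.restrict W := by
  have iμ : IsFiniteMeasureOnCompacts μ := ⟨fun K hK => (hμ K hK).lt_top⟩
  have iν : IsFiniteMeasureOnCompacts ν := ⟨fun K hK => (hν K hK).lt_top⟩
  have hcomp : ∀ K, IsCompact K → K ⊆ W → ν K ≤ μ K := by
    intro K hK hKW
    rw [Set.measure_eq_iInf_isOpen K μ]
    refine le_iInf fun U => le_iInf fun hKU => le_iInf fun hU => ?_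
    exact (htv_le_aux hν h hK (hU.inter hW) (subset_inter hKU hKW) inter_subset_right).trans (measure_mono inter_subset_left)
  rw [Measure.le_iff]
  intro A hA
  rw [Measure.restrict_apply hA, Measure.restrict_apply hA, (hA.inter hW.measurableSet).measure_eq_iSup_isCompact]
  refine iSup_le fun K => iSup_le fun hKA => iSup_le fun hK => ?_
  exact (hcomp K hK (hKA.trans inter_subset_right)).trans (measure_mono hKA)

/-- **LEAF L-HTV-5** (~100 l.): the density of a dominated measure.   PLAN: `μ` is σ-finite (`IsFiniteMeasureOnCompacts` on a σ-compact space), `ν ≪ μ`, `f x := min ((ν.rnDeriv μ x).toReal) c`; `Measure.withDensity_rnDeriv_eq`; `ν.rnDeriv μ ≤ c` a.e.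
(`Measure.rnDeriv_le_one_of_le`-type lemma after scaling, or `ae_le_of_forall_setLIntegral_le_of_sigmaFinite`); `integral_withDensity_eq_integral_toReal_smul`-family (`integral_withDensity_eq_integral_smul`). -/
theorem htv_density {μ ν : Measure (E n)} (hμ : ∀ K, IsCompact K → μ K ≠ ⊤) {c : ℝ≥0} (h : ν ≤ c • μ) :
    ∃ f : E n → ℝ, Measurable f ∧ (∀ x, 0 ≤ f x ∧ f x ≤ c) ∧ ν = μ.withDensity (fun x => ENNReal.ofReal (f x)) ∧
      ∀ g : E n → ℝ, ∫ x, g x ∂ν = ∫ x, g x * f x ∂μ := by
  have iμ : IsFiniteMeasureOnCompacts μ := ⟨fun K hK => (hμ K hK).lt_top⟩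
  have iν : IsFiniteMeasureOnCompacts ν := ⟨fun K hK => by
    refine (h K).trans_lt ?_
    rw [Measure.smul_apply]
    exact ENNReal.mul_lt_top ENNReal.coe_lt_top (hμ K hK).lt_top⟩
  have hac : ν ≪ μ := by
    refine Measure.AbsolutelyContinuous.mk fun s _ hs => ?_
    have := h s
    rw [Measure.smul_apply, hs] at this
    simpa using this
  set r := ν.rnDeriv μ with hr
  have hrm : Measurable r := Measure.measurable_rnDeriv ν μ
  have hwd : μ.withDensity r = ν := Measure.withDensity_rnDeriv_eq ν μ hac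
  have hrc : r ≤ᵐ[μ] fun _ => (c : ℝ≥0∞) := by
    refine ae_le_of_forall_setLIntegral_le_of_sigmaFinite hrm fun s hs _ => ?_
    rw [← withDensity_apply _ hs, hwd, setLIntegral_const]
    have := h s
    rwa [Measure.smul_apply] at this
  set f : E n → ℝ := fun x => min (r x).toReal c with hf
  have hfm : Measurable f := hrm.ennreal_toReal.min measurable_const
  have hf0 : ∀ x, 0 ≤ f x := fun x => le_min ENNReal.toReal_nonneg c.2
  have hfr : (fun x => ENNReal.ofReal (f x)) =ᵐ[μ] r := by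
    filter_upwards [hrc] with x hx
    have hx' : r x ≠ ⊤ := ne_top_of_le_ne_top ENNReal.coe_ne_top hx
    have : (r x).toReal ≤ c := ENNReal.toReal_le_coe_of_le_coe hx
    rw [hf]
    simp only
    rw [min_eq_left this, ENNReal.ofReal_toReal hx']
  have hν : ν = μ.withDensity (fun x => ENNReal.ofReal (f x)) := by
    rw [withDensity_congr_ae hfr, hwd]
  refine ⟨f, hfm, fun x => ⟨hf0 x, min_le_right _ _⟩, hν, fun g => ?_⟩
  conv_lhs => rw [hν]
  rw [integral_withDensity_eq_integral_toReal_smul hfm.ennreal_ofReal (Eventually.of_forall fun x => ENNReal.ofReal_lt_top)]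
  refine integral_congr_ae (Eventually.of_forall fun x => ?_)
  simp only [ENNReal.toReal_ofReal (hf0 x), smul_eq_mul]
  ring

/-- `htv_ae_nonneg` for a measurable density -/
theorem htv_ae_nonneg_meas {μ : Measure (E n)} {f : E n → ℝ} (hm : Measurable f) (hf : LocallyIntegrable f μ) {W : Set (E n)} (hW : IsOpen W)
    (h : ∀ g : E n → ℝ, Continuous g → HasCompactSupport g → tsupport g ⊆ W → (∀ x, 0 ≤ g x) → 0 ≤ ∫ x, g x * f x ∂μ) :
    ∀ᵐ x ∂μ, x ∈ W → 0 ≤ f x := by
  have hmp : Measurable fun x => ENNReal.ofReal (f x) := hm.ennreal_ofReal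
  have hmn : Measurable fun x => ENNReal.ofReal (-f x) := hm.neg.ennreal_ofReal
  have hfinp : ∀ K, IsCompact K → (μ.withDensity fun x => ENNReal.ofReal (f x)) K ≠ ⊤ := by
    intro K hK
    rw [withDensity_apply _ hK.measurableSet]
    exact (hf.integrableOn_isCompact hK).lintegral_lt_top.ne
  have hfinn : ∀ K, IsCompact K → (μ.withDensity fun x => ENNReal.ofReal (-f x)) K ≠ ⊤ := by
    intro K hK
    rw [withDensity_apply _ hK.measurableSet]
    exact (hf.integrableOn_isCompact hK).neg.lintegral_lt_top.ne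
  have hle := htv_le_of_test hfinp hfinn hW (by
    intro g hg hc hs h0
    have hF : Integrable (fun x => g x * f x) μ := by
      have := hf.integrable_smul_left_of_hasCompactSupport hg hc
      simpa [smul_eq_mul] using this
    rw [integral_withDensity_eq_integral_toReal_smul₀ hmn.aemeasurable
        (Eventually.of_forall fun x => ENNReal.ofReal_lt_top),
      integral_withDensity_eq_integral_toReal_smul₀ hmp.aemeasurable
        (Eventually.of_forall fun x => ENNReal.ofReal_lt_top)]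
    have e1 : ∀ x, (ENNReal.ofReal (f x)).toReal • g x = max (g x * f x) 0 := by
      intro x
      rw [smul_eq_mul]
      rcases le_total 0 (f x) with h1 | h1
      · rw [ENNReal.toReal_ofReal h1, max_eq_left (mul_nonneg (h0 x) h1), mul_comm]
      · rw [ENNReal.ofReal_of_nonpos h1, max_eq_right (mul_nonpos_of_nonneg_of_nonpos (h0 x) h1)]
        simp
    have e2 : ∀ x, (ENNReal.ofReal (-f x)).toReal • g x = max (-(g x * f x)) 0 := by
      intro x
      rw [smul_eq_mul]
      rcases le_total 0 (f x) with h1 | h1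
      · rw [ENNReal.ofReal_of_nonpos (by linarith), max_eq_right (by linarith [mul_nonneg (h0 x) h1])]
        simp
      · rw [ENNReal.toReal_ofReal (by linarith),
          max_eq_left (by linarith [mul_nonpos_of_nonneg_of_nonpos (h0 x) h1])]
        ring
    simp only [e1, e2]
    have h1 := h g hg hc hs h0
    have e3 : ∫ x, g x * f x ∂μ = (∫ x, max (g x * f x) 0 ∂μ) - ∫ x, max (-(g x * f x)) 0 ∂μ := by
      rw [← integral_sub hF.pos_part hF.neg_part]
      refine integral_congr_ae (Eventually.of_forall fun x => ?_)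
      show g x * f x = max (g x * f x) 0 - max (-(g x * f x)) 0
      rcases le_total 0 (g x * f x) with h2 | h2
      · rw [max_eq_left h2, max_eq_right (by linarith)]
        ring
      · rw [max_eq_right h2, max_eq_left (by linarith)]
        ring
    linarith)
  have hA : MeasurableSet {x | f x < 0} := measurableSet_lt hm measurable_const
  have hAW : MeasurableSet ({x | f x < 0} ∩ W) := hA.inter hW.measurableSet
  have h1 := hle {x | f x < 0}
  rw [Measure.restrict_apply hA, Measure.restrict_apply hA, withDensity_apply _ hAW, withDensity_apply _ hAW] at h1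
  have h2 : ∫⁻ x in {x | f x < 0} ∩ W, ENNReal.ofReal (f x) ∂μ = 0 := by
    rw [setLIntegral_congr_fun hAW (g := fun _ => 0) (fun x hx => ENNReal.ofReal_of_nonpos (le_of_lt hx.1)), lintegral_zero]
  rw [h2, nonpos_iff_eq_zero, lintegral_eq_zero_iff hmn] at h1
  have h3 := (ae_restrict_iff' hAW).1 h1
  filter_upwards [h3] with x hx hxW
  by_contra hc
  rw [not_le] at hc
  have h4 : ENNReal.ofReal (-f x) = 0 := hx ⟨hc, hxW⟩
  rw [ENNReal.ofReal_eq_zero] at h4
  linarith

/-- **LEAF L-HTV-6** (~100 l.): the sign of a density from nonnegative test functions.   PLAN: `htv_le_of_test` for `ν = μ.withDensity (ofReal (-f))`, `μ' = μ.withDensity (ofReal f)` (finite on compacts by `hf.integrableOn_isCompact`);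
`∫ g dν = ∫ g f⁻ dμ` (`integral_withDensity_eq_integral_toReal_smul₀`..), `f = f⁺ - f⁻`.   Evaluate on `A = W ∩ {f < 0}` (replace `f` by a measurable representative `hf.aestronglyMeasurable.mk`): `∫⁻_A ofReal (-f) ≤ ∫⁻_A ofReal f = 0`; `setLIntegral_eq_zero_iff`/`ae_restrict`. -/
theorem htv_ae_nonneg {μ : Measure (E n)} {f : E n → ℝ} (hf : LocallyIntegrable f μ) {W : Set (E n)} (hW : IsOpen W)
    (h : ∀ g : E n → ℝ, Continuous g → HasCompactSupport g → tsupport g ⊆ W → (∀ x, 0 ≤ g x) → 0 ≤ ∫ x, g x * f x ∂μ) :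
    ∀ᵐ x ∂μ, x ∈ W → 0 ≤ f x := by
  have hae := hf.aestronglyMeasurable
  have hmk : f =ᵐ[μ] hae.mk f := hae.ae_eq_mk
  have hloc : LocallyIntegrable (hae.mk f) μ := by
    intro x
    obtain ⟨s, hs, hi⟩ := hf x
    exact ⟨s, hs, hi.congr (ae_restrict_of_ae hmk)⟩
  have := htv_ae_nonneg_meas hae.stronglyMeasurable_mk.measurable hloc hW (by
    intro g hg hc hs h0
    have e : ∫ x, g x * hae.mk f x ∂μ = ∫ x, g x * f x ∂μ := by
      refine integral_congr_ae ?_
      filter_upwards [hmk] with x hx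
      rw [hx]
    rw [e]
    exact h g hg hc hs h0)
  filter_upwards [this, hmk] with x hx hx' hxW
  rw [hx']
  exact hx hxW

/-- a locally integrable function times a continuous function with compact support is integrable -/
theorem htv_integrable_mul {μ : Measure (E n)} {f g : E n → ℝ} (hf : LocallyIntegrable f μ) (hg : Continuous g) (hc : HasCompactSupport g) :
    Integrable (fun x => g x * f x) μ := by
  have := hf.integrable_smul_left_of_hasCompactSupport hg hc
  simpa [smul_eq_mul] using this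

theorem htv_ae_le {μ : Measure (E n)} {f₁ f₂ : E n → ℝ} (h₁ : LocallyIntegrable f₁ μ) (h₂ : LocallyIntegrable f₂ μ) {W : Set (E n)} (hW : IsOpen W)
    (h : ∀ g : E n → ℝ, Continuous g → HasCompactSupport g → tsupport g ⊆ W → (∀ x, 0 ≤ g x) → ∫ x, g x * f₁ x ∂μ ≤ ∫ x, g x * f₂ x ∂μ) :
    ∀ᵐ x ∂μ, x ∈ W → f₁ x ≤ f₂ x := by
  have := htv_ae_nonneg (h₂.sub h₁) hW fun g hg hc hs h0 => by
    have e : ∫ x, g x * (f₂ - f₁) x ∂μ = ∫ x, g x * f₂ x ∂μ - ∫ x, g x * f₁ x ∂μ := by
      rw [← integral_sub (htv_integrable_mul h₂ hg hc) (htv_integrable_mul h₁ hg hc)]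
      refine integral_congr_ae (Eventually.of_forall fun x => ?_)
      simp only [Pi.sub_apply]
      ring
    rw [e]
    linarith [h g hg hc hs h0]
  filter_upwards [this] with x hx hxW
  have := hx hxW
  simp only [Pi.sub_apply] at this
  linarith

theorem htv_ae_eq {μ : Measure (E n)} {f₁ f₂ : E n → ℝ} (h₁ : LocallyIntegrable f₁ μ) (h₂ : LocallyIntegrable f₂ μ) {W : Set (E n)} (hW : IsOpen W)
    (h : ∀ g : E n → ℝ, Continuous g → HasCompactSupport g → tsupport g ⊆ W → (∀ x, 0 ≤ g x) → ∫ x, g x * f₁ x ∂μ = ∫ x, g x * f₂ x ∂μ) :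
    ∀ᵐ x ∂μ, x ∈ W → f₁ x = f₂ x := by
  filter_upwards [htv_ae_le h₁ h₂ hW fun g a b c d => (h g a b c d).le, htv_ae_le h₂ h₁ hW fun g a b c d => (h g a b c d).ge] with x h1 h2 hx
  exact le_antisymm (h1 hx) (h2 hx)

/-- the weak limit of measures with (eventually) bounded masses of a ball -/
theorem htv_ball_le {μ : ℕ → Measure (E n)} {μ' : Measure (E n)} (h : GmtWk univ μ μ') (hfin : ∀ K, IsCompact K → μ' K ≠ ⊤)
    (hfi : ∀ i, ∀ K, IsCompact K → μ i K ≠ ⊤) {x : E n} {r : ℝ} {C : ℝ≥0∞}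
    (hb : ∀ᶠ i in atTop, μ i (ball x r) ≤ C) : μ' (ball x r) ≤ C :=
  (h.le_liminf isOpen_univ (fun K hK _ => hfin K hK) (fun i K hK _ => hfi i K hK) isOpen_ball (subset_univ _)).trans
    (liminf_le_of_frequently_le' hb.frequently)

/-- lower bounds pass to closed balls -/
theorem htv_le_closedBall {μ : ℕ → Measure (E n)} {μ' : Measure (E n)} (h : GmtWk univ μ μ') (hfin : ∀ K, IsCompact K → μ' K ≠ ⊤)
    (hfi : ∀ i, ∀ K, IsCompact K → μ i K ≠ ⊤) {x : E n} {r : ℝ} {C : ℝ≥0∞}
    (hb : ∃ᶠ i in atTop, C ≤ μ i (closedBall x r)) : C ≤ μ' (closedBall x r) :=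
  (le_limsup_of_frequently_le' hb).trans
    (h.limsup_le isOpen_univ (fun K hK _ => hfin K hK) (fun i K hK _ => hfi i K hK) (isCompact_closedBall x r) (subset_univ _))

end Claimed.Agent.R323
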