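import Claimed.Agent.R323.Ht.SpProj
import Claimed.Agent.R323.Ht.LimV

/-!
# Row 323, block C, sub-block SP, unit K: VAGUE COMPACTNESS OF MEASURES AND OF STATIONARY PAIRS.   CONTRACT + LEAVES.
Architect: helper178.   Mathlib + `Lib/Gmt` (`GmtWk`, `gmt_diag`, `gmt_tendsto_of_range`, `gmt_integrable_of_cc`) + `Ht/Defs.lean`.

EXITS (for LIM, helper39/helper143):
* `hsp_vague_compact`: countably many sequences of measures with locally (eventually) bounded masses have a COMMON vaguely convergent subsequence, regular limits.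
* `hsp_dens_compact`: the same for signed densities `f_i lam_i`, `|f_i| ≤ d_i`: limits `F μ`, `|F| ≤ 1`.
* `hsp_pair_of_lim`: a vague limit `(μ, 1, A)` of pairs `(lam_i, d_i, M_i)` is a pair.
* `hsp_compact`: pairs with locally bounded masses subconverge to a pair `(μ, 1, A)`.

ROUTE.   K0 a countable family dense in `C_c` (`C(E n, ℝ)` is second countable for the compact-open topology).   K1a diagonal extraction on it + Cauchy criterion.
K1b the limit functional is positive and linear: `RealRMK.rieszMeasure`.   K2: `(d_i + f_i) lam_i ≤ 2 d_i lam_i`, the limits satisfy `τ ≤ 2 μ`, `τ = a μ`, `F = a - 1`.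
The a.e. properties of `A` follow from `hsp_ae_nonneg` (a locally integrable `F` with `∫ g F dμ ≥ 0` for all `0 ≤ g ∈ C_c` is `≥ 0` a.e.).
-/

set_option autoImplicit false
open scoped ContDiff ENNReal NNReal RealInnerProductSpace Topology
open MeasureTheory Metric Set Filter

namespace Claimed.Agent.R323

open Claimed.Agent.Gmt

variable {n : ℕ}

/-! ### K0, K1: vague compactness of measures -/

theorem hsp_cc_dense_aux (n N : ℕ) : ∃ D : ℕ → E n → ℝ, (∀ j, Continuous (D j)) ∧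
    (∀ (j : ℕ) (x : E n), (N : ℝ) < ‖x‖ → D j x = 0) ∧
    ∀ (g : E n → ℝ), Continuous g → (∀ x, (N : ℝ) < ‖x‖ → g x = 0) → ∀ ε > 0, ∃ j, ∀ x, |g x - D j x| ≤ ε := by
  let S : Set C(E n, ℝ) := {f | ∀ x, (N : ℝ) < ‖x‖ → f x = 0}
  have : Nonempty S := ⟨⟨0, fun x _ => rfl⟩⟩
  obtain ⟨u, hu⟩ := TopologicalSpace.exists_dense_seq S
  have : CompactSpace (closedBall (0 : E n) N) := isCompact_iff_compactSpace.1 (isCompact_closedBall 0 _)
  refine ⟨fun j => (u j : C(E n, ℝ)), fun j => (u j : C(E n, ℝ)).continuous, fun j x hx => (u j).2 x hx, ?_⟩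
  intro g hg hg0 ε hε
  let f : S := ⟨⟨g, hg⟩, hg0⟩
  let Φ : S → C(closedBall (0 : E n) N, ℝ) := fun h => (h : C(E n, ℝ)).restrict (closedBall 0 N)
  have hΦ : Continuous Φ := (ContinuousMap.continuous_restrict _).comp continuous_subtype_val
  have hV : IsOpen (Φ ⁻¹' ball (Φ f) ε) := isOpen_ball.preimage hΦ
  obtain ⟨j, hj⟩ := hu.exists_mem_open hV ⟨f, mem_ball_self hε⟩
  refine ⟨j, fun x => ?_⟩
  by_cases hx : ‖x‖ ≤ N
  · have h1 : dist (Φ (u j)) (Φ f) < ε := hj
    rw [ContinuousMap.dist_lt_iff hε] at h1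
    have h2 := h1 ⟨x, by simpa using hx⟩
    have h3 : dist ((u j : C(E n, ℝ)) x) (g x) < ε := h2
    rw [Real.dist_eq, abs_sub_comm] at h3
    exact h3.le
  · rw [not_le] at hx
    have h4 : (u j : C(E n, ℝ)) x = 0 := (u j).2 x hx
    show |g x - (u j : C(E n, ℝ)) x| ≤ ε
    rw [hg0 x hx, h4, sub_zero, abs_zero]
    exact hε.le

/-- LEAF L-323-SP-K0.   For fixed `N`: `S = {f : C(E n, ℝ) | ∀ x, N < ‖x‖ → f x = 0}` with the subspace topology is second countable (`ContinuousMap.instSecondCountableTopology`), nonempty: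
`TopologicalSpace.exists_dense_seq`.   For `f ∈ S`, `ε > 0` the set `{h | ∀ x ∈ closedBall 0 N, |h x - f x| < ε}` is a neighbourhood of `f`: preimage of a ball under the continuous restriction
`C(E n, ℝ) → C(closedBall 0 N, ℝ)` (`ContinuousMap.restrict`, `ContinuousMap.dist_lt_iff`), or `ContinuousMap.tendsto_iff_forall_isCompact_tendstoUniformlyOn`. -/
theorem hsp_cc_dense (n : ℕ) : ∃ D : ℕ → ℕ → E n → ℝ, (∀ N j, Continuous (D N j)) ∧
    (∀ (N j : ℕ) (x : E n), (N : ℝ) < ‖x‖ → D N j x = 0) ∧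
    ∀ (N : ℕ) (g : E n → ℝ), Continuous g → (∀ x, (N : ℝ) < ‖x‖ → g x = 0) → ∀ ε > 0, ∃ j, ∀ x, |g x - D N j x| ≤ ε := by
  choose D h1 h2 h3 using hsp_cc_dense_aux n
  exact ⟨D, h1, h2, h3⟩

/-- EXIT K1: from `htv_compact` (`Ht/LimV.lean`, helper143/helper161). -/
theorem hsp_vague_compact {ι : Type} [Countable ι] (ν : ι → ℕ → Measure (E n))
    (hb : ∀ (a : ι) (R : ℝ), ∃ C : ℝ≥0∞, C ≠ ⊤ ∧ ∀ᶠ i in atTop, ν a i (closedBall 0 R) ≤ C) :
    ∃ (φ : ℕ → ℕ) (μ : ι → Measure (E n)), StrictMono φ ∧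
      ∀ a, (μ a).Regular ∧ GmtWk univ (fun i => ν a (φ i)) (μ a) := by
  obtain ⟨φ, hφ, h⟩ := htv_compact ν (fun a R => by
    obtain ⟨C, hC, hev⟩ := hb a R
    exact ⟨C.toNNReal, by rwa [ENNReal.coe_toNNReal hC]⟩)
  choose μ hμ using h
  refine ⟨φ, μ, hφ, fun a => ⟨?_, (hμ a).2⟩⟩
  have : IsFiniteMeasureOnCompacts (μ a) := ⟨fun K hK => lt_top_iff_ne_top.2 ((hμ a).1 K hK)⟩
  infer_instance

/-! ### comparison, densities, positivity -/

theorem hsp_le_cpt {μ ν : Measure (E n)} [ν.OuterRegular] [IsFiniteMeasureOnCompacts ν] [IsFiniteMeasureOnCompacts μ]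
    (hμν : ∀ g : E n → ℝ, Continuous g → HasCompactSupport g → (∀ x, 0 ≤ g x) → ∫ x, g x ∂μ ≤ ∫ x, g x ∂ν)
    ⦃K : Set (E n)⦄ (hK : IsCompact K) : μ K ≤ ν K := by
  refine ENNReal.le_of_forall_pos_le_add fun ε hε hν ↦ ?_
  have hνK : ν K ≠ ⊤ := hν.ne
  have hμK : μ K ≠ ⊤ := hK.measure_lt_top.ne
  obtain ⟨V, pV1, pV2, pV3⟩ : ∃ V ⊇ K, IsOpen V ∧ ν V ≤ ν K + ε :=
    exists_isOpen_le_add K ν (ne_of_gt (ENNReal.coe_lt_coe.mpr hε))
  suffices μ.real K ≤ ν.real K + ε by
    rwa [← ENNReal.toReal_le_toReal, ENNReal.toReal_add, ENNReal.coe_toReal]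
    all_goals finiteness
  have VltTop : ν V < ⊤ := pV3.trans_lt <| by finiteness
  obtain ⟨f, pf1, pf0, pf2, pf3⟩ := exists_continuousMap_one_of_isCompact_subset_isOpen hK pV2 pV1
  have hfc : HasCompactSupport (f : E n → ℝ) := hasCompactSupport_def.mpr pf0
  have hfV (x : E n) : f x ≤ V.indicator 1 x := by
    by_cases hx : x ∈ tsupport f
    · simp [(pf2 hx), (pf3 x).2]
    · simp [image_eq_zero_of_notMem_tsupport hx, Set.indicator_nonneg]
  have hfK (x : E n) : K.indicator 1 x ≤ f x := by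
    by_cases hx : x ∈ K
    · simp [hx, pf1 hx]
    · simp [hx, (pf3 x).1]
  calc
    μ.real K = ∫ x, K.indicator 1 x ∂μ := integral_indicator_one hK.measurableSet |>.symm
    _ ≤ ∫ x, f x ∂μ := by
      refine integral_mono ?_ (f.continuous.integrable_of_hasCompactSupport hfc) hfK
      exact (continuousOn_const.integrableOn_compact hK).integrable_indicator hK.measurableSet
    _ ≤ ∫ x, f x ∂ν := hμν f f.continuous hfc (fun x => (pf3 x).1)
    _ ≤ ∫ x, V.indicator 1 x ∂ν := by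
      refine integral_mono (f.continuous.integrable_of_hasCompactSupport hfc) ?_ hfV
      exact IntegrableOn.integrable_indicator integrableOn_const pV2.measurableSet
    _ ≤ (ν K).toReal + ↑ε := by
      rwa [integral_indicator_one pV2.measurableSet, measureReal_def,
        ← ENNReal.coe_toReal, ← ENNReal.toReal_add, ENNReal.toReal_le_toReal]
      all_goals finiteness

/-- LEAF L-323-SP-K2I.   Copy of the proof of Mathlib's `RealRMK.measure_le_of_isCompact_of_integral` (which asks the inequality for ALL `f`; only `0 ≤ f ≤ 1` is used): `μ K ≤ c μ' K` for compact `K`;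
then inner regularity of `μ` on open sets + outer regularity of `μ'` (`Measure.le_iff`/`Measure.OuterRegular`, `Measure.Regular.innerRegular`): `μ U ≤ c μ' U` for open `U`, `μ s ≤ c μ' s` for all measurable `s`. -/
theorem hsp_le_of_integral_le {μ μ' : Measure (E n)} [μ.Regular] [μ'.Regular] (c : ℝ≥0)
    (h : ∀ g : E n → ℝ, Continuous g → HasCompactSupport g → (∀ x, 0 ≤ g x) → ∫ x, g x ∂μ ≤ c * ∫ x, g x ∂μ') :
    μ ≤ c • μ' := by
  have hK : ∀ K, IsCompact K → μ K ≤ (c • μ') K := fun K hK =>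
    hsp_le_cpt (fun g hg hgc h0 => by
      rw [integral_smul_nnreal_measure]
      exact h g hg hgc h0) hK
  have hU : ∀ U, IsOpen U → μ U ≤ (c • μ') U := by
    intro U hU
    rw [hU.measure_eq_iSup_isCompact μ]
    exact iSup₂_le fun K hKU => iSup_le fun hK' => (hK K hK').trans (measure_mono hKU)
  refine Measure.le_iff.2 fun s _ => ?_
  rw [Set.measure_eq_iInf_isOpen s (c • μ')]
  exact le_iInf₂ fun U hsU => le_iInf fun hUo => (measure_mono hsU).trans (hU U hUo)

/-- LEAF L-323-SP-K2D.   `a₀ = μ.rnDeriv μ'`, `μ ≪ μ'`, `Measure.withDensity_rnDeriv_eq`; `a₀ ≤ c` a.e. (`ae_le_of_forall_setLIntegral_le_of_sigmaFinite`); `a = min (a₀.toReal) c`. -/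
theorem hsp_dens_of_le {μ μ' : Measure (E n)} [SigmaFinite μ'] (c : ℝ≥0) (h : μ ≤ c • μ') :
    ∃ a : E n → ℝ, Measurable a ∧ (∀ x, 0 ≤ a x ∧ a x ≤ c) ∧ μ = μ'.withDensity fun x => ENNReal.ofReal (a x) := by
  have : SigmaFinite μ := Measure.sigmaFinite_of_le (c • μ') h
  have hac : μ ≪ μ' := Measure.absolutelyContinuous_of_le_smul (c := (c : ℝ≥0∞)) h
  have hrn : μ'.withDensity (μ.rnDeriv μ') = μ := Measure.withDensity_rnDeriv_eq μ μ' hac
  have hm : Measurable (μ.rnDeriv μ') := Measure.measurable_rnDeriv μ μ'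
  have hle : μ.rnDeriv μ' ≤ᵐ[μ'] fun _ => (c : ℝ≥0∞) := by
    refine ae_le_of_forall_setLIntegral_le_of_sigmaFinite hm fun s hs _ => ?_
    rw [← withDensity_apply _ hs, hrn, setLIntegral_const]
    exact h s
  refine ⟨fun x => min (μ.rnDeriv μ' x).toReal c, hm.ennreal_toReal.min measurable_const,
    fun x => ⟨le_min ENNReal.toReal_nonneg c.2, min_le_right _ _⟩, ?_⟩
  refine hrn.symm.trans (withDensity_congr_ae ?_)
  filter_upwards [hle] with x hx
  have hfin : μ.rnDeriv μ' x ≠ ⊤ := ne_top_of_le_ne_top ENNReal.coe_ne_top hx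
  have h1 : (μ.rnDeriv μ' x).toReal ≤ c := by
    have := ENNReal.toReal_mono ENNReal.coe_ne_top hx
    simpa using this
  rw [min_eq_left h1, ENNReal.ofReal_toReal hfin]

/-- LEAF L-323-SP-K2W.   `integral_withDensity_eq_integral_toReal_smul₀`, `ENNReal.toReal_ofReal` a.e. -/
theorem hsp_integral_withDensity {lam : Measure (E n)} {h : E n → ℝ} (hm : AEMeasurable h lam)
    (h0 : ∀ᵐ x ∂lam, 0 ≤ h x) (g : E n → ℝ) :
    ∫ x, g x ∂(lam.withDensity fun x => ENNReal.ofReal (h x)) = ∫ x, g x * h x ∂lam := by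
  rw [integral_withDensity_eq_integral_toReal_smul₀ hm.ennreal_ofReal
    (Eventually.of_forall fun x => ENNReal.ofReal_lt_top)]
  refine integral_congr_ae ?_
  filter_upwards [h0] with x hx
  rw [ENNReal.toReal_ofReal hx, smul_eq_mul, mul_comm]

theorem hsp_lf_withDensity {μ : Measure (E n)} {G : E n → ℝ} (hG : LocallyIntegrable G μ) :
    IsLocallyFiniteMeasure (μ.withDensity fun x => ENNReal.ofReal (G x)) := by
  refine ⟨fun x => ?_⟩
  obtain ⟨U, hU, hi⟩ := hG x
  obtain ⟨V, hVU, hVo, hxV⟩ := _root_.mem_nhds_iff.1 hU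
  refine ⟨V, hVo.mem_nhds hxV, ?_⟩
  rw [withDensity_apply _ hVo.measurableSet]
  calc ∫⁻ y in V, ENNReal.ofReal (G y) ∂μ ≤ ∫⁻ y in V, ‖G y‖ₑ ∂μ := lintegral_mono fun y => by
        rw [← ofReal_norm, Real.norm_eq_abs]
        exact ENNReal.ofReal_le_ofReal (le_abs_self _)
    _ < ⊤ := (hi.mono_set hVU).2

/-- LEAF L-323-SP-K2P.   Either: `σ = μ.withDensity F⁺`, `τ = μ.withDensity F⁻` are locally finite, hence regular; `hsp_le_of_integral_le` gives `τ ≤ σ`; `σ {F < 0} = 0`.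
Or: Lebesgue differentiation (`(Besicovitch.vitaliFamily μ).ae_tendsto_average`, `Besicovitch.tendsto_filterAt`): `∫_{closedBall x r} F dμ ≥ 0` because the indicator of a closed ball is a decreasing limit of
`g_j = max 0 (1 - j dist(·, closedBall x r))` (dominated convergence). -/
theorem hsp_ae_nonneg {μ : Measure (E n)} [IsLocallyFiniteMeasure μ] {F : E n → ℝ} (hF : LocallyIntegrable F μ)
    (h : ∀ g : E n → ℝ, Continuous g → HasCompactSupport g → (∀ x, 0 ≤ g x) → 0 ≤ ∫ x, g x * F x ∂μ) :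
    ∀ᵐ x ∂μ, 0 ≤ F x := by
  have hFm : AEStronglyMeasurable F μ := hF.aestronglyMeasurable
  set P : E n → ℝ := fun x => max (F x) 0 with hPdef
  set Q : E n → ℝ := fun x => max (-F x) 0 with hQdef
  have hPm : AEStronglyMeasurable P μ := hFm.sup aestronglyMeasurable_const
  have hQm : AEStronglyMeasurable Q μ := hFm.neg.sup aestronglyMeasurable_const
  have hP : LocallyIntegrable P μ := hF.mono hPm (Eventually.of_forall fun x => by
    rw [Real.norm_eq_abs, Real.norm_eq_abs, abs_of_nonneg (le_max_right _ _)]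
    exact max_le (le_abs_self _) (abs_nonneg _))
  have hQ : LocallyIntegrable Q μ := hF.mono hQm (Eventually.of_forall fun x => by
    rw [Real.norm_eq_abs, Real.norm_eq_abs, abs_of_nonneg (le_max_right _ _)]
    exact max_le (neg_le_abs _) (abs_nonneg _))
  have := hsp_lf_withDensity hP
  have := hsp_lf_withDensity hQ
  have hle : (μ.withDensity fun x => ENNReal.ofReal (Q x)) ≤
      (1 : ℝ≥0) • (μ.withDensity fun x => ENNReal.ofReal (P x)) := by
    refine hsp_le_of_integral_le 1 fun g hg hgc hg0 => ?_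
    rw [hsp_integral_withDensity hQm.aemeasurable (Eventually.of_forall fun x => le_max_right _ _),
      hsp_integral_withDensity hPm.aemeasurable (Eventually.of_forall fun x => le_max_right _ _)]
    have i1 : Integrable (fun x => g x * P x) μ :=
      hP.integrable_smul_left_of_hasCompactSupport hg hgc
    have i2 : Integrable (fun x => g x * Q x) μ :=
      hQ.integrable_smul_left_of_hasCompactSupport hg hgc
    have h1 := h g hg hgc hg0
    have e : ∫ x, g x * F x ∂μ = ∫ x, g x * P x ∂μ - ∫ x, g x * Q x ∂μ := by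
      rw [← integral_sub i1 i2]
      refine integral_congr_ae (Eventually.of_forall fun x => ?_)
      have h2 : F x = P x - Q x := by
        simp only [hPdef, hQdef]
        rcases le_total 0 (F x) with h3 | h3
        · rw [max_eq_left h3, max_eq_right (by linarith)]
          ring
        · rw [max_eq_right h3, max_eq_left (by linarith)]
          ring
      show g x * F x = g x * P x - g x * Q x
      rw [h2]
      ring
    rw [NNReal.coe_one, one_mul]
    linarith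
  have hFF' : F =ᵐ[μ] hFm.mk F := hFm.ae_eq_mk
  have hN : MeasurableSet {x | hFm.mk F x < 0} :=
    measurableSet_lt hFm.stronglyMeasurable_mk.measurable measurable_const
  have hσ : (μ.withDensity fun x => ENNReal.ofReal (P x)) {x | hFm.mk F x < 0} = 0 := by
    rw [withDensity_apply _ hN, ← lintegral_zero (μ := μ.restrict {x | hFm.mk F x < 0})]
    refine lintegral_congr_ae ?_
    filter_upwards [ae_restrict_of_ae hFF', ae_restrict_mem hN] with x hx hxN
    have h3 : F x < 0 := by rw [hx]; exact hxN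
    simp only [hPdef]
    rw [max_eq_right h3.le, ENNReal.ofReal_zero]
  have hτ : (μ.withDensity fun x => ENNReal.ofReal (Q x)) {x | hFm.mk F x < 0} = 0 := by
    have h4 := hle {x | hFm.mk F x < 0}
    rw [one_smul, hσ] at h4
    exact le_antisymm h4 zero_le
  rw [withDensity_apply _ hN, lintegral_eq_zero_iff' hQm.aemeasurable.ennreal_ofReal.restrict] at hτ
  have h5 := (ae_restrict_iff' hN).1 hτ
  filter_upwards [h5, hFF'] with x hx hx'
  by_contra hneg
  rw [not_le] at hneg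
  have h6 : ENNReal.ofReal (Q x) = 0 := hx (by show hFm.mk F x < 0; rw [← hx']; exact hneg)
  rw [ENNReal.ofReal_eq_zero] at h6
  have h7 : -F x ≤ Q x := le_max_left _ _
  linarith

/-- LEAF L-323-SP-K2A.   Index set `Option ι`: `ν none i = (lam i).withDensity (ofReal ∘ d i)`, `ν (some a) i = (lam i).withDensity (ofReal ∘ (d i + f a i))`  (`0 ≤ d + f ≤ 2 d` a.e.).
Masses: `ν none i (closedBall 0 R) = ofReal ∫_{closedBall 0 R} d i` (`ofReal_integral_eq_lintegral_ofReal`).   `hsp_vague_compact` gives `φ`, `μ = μ none`, `τ a = μ (some a)`.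
`hsp_integral_withDensity`: `∫ g dν (some a) i = ∫ g d + ∫ g f` (integrability: `g` bounded with compact support, `d` locally integrable, `|f| ≤ d`).   For `g ≥ 0`: `∫ g dτ a ≤ 2 ∫ g dμ` (`le_of_tendsto_of_tendsto'`),
`hsp_le_of_integral_le`, `hsp_dens_of_le`: `τ a = α μ`, `0 ≤ α ≤ 2`;   `F a = α - 1`. -/
theorem hsp_dens_compact {ι : Type} [Countable ι] (lam : ℕ → Measure (E n)) (d : ℕ → E n → ℝ) (f : ι → ℕ → E n → ℝ)
    (hd : ∀ i, LocallyIntegrable (d i) (lam i)) (hf : ∀ a i, AEStronglyMeasurable (f a i) (lam i))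
    (hfd : ∀ a i, ∀ᵐ x ∂(lam i), |f a i x| ≤ d i x) (hd0 : ∀ i, ∀ᵐ x ∂(lam i), 0 ≤ d i x)
    (hb : ∀ R : ℝ, ∃ C : ℝ, ∀ᶠ i in atTop, ∫ x in closedBall 0 R, d i x ∂(lam i) ≤ C) :
    ∃ (φ : ℕ → ℕ) (μ : Measure (E n)) (F : ι → E n → ℝ), StrictMono φ ∧ μ.Regular ∧ (∀ a, Measurable (F a)) ∧
      (∀ a x, |F a x| ≤ 1) ∧
      GmtWk univ (fun i => (lam (φ i)).withDensity fun x => ENNReal.ofReal (d (φ i) x)) μ ∧
      ∀ (a : ι) (g : E n → ℝ), Continuous g → HasCompactSupport g →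
        Tendsto (fun i => ∫ x, g x * f a (φ i) x ∂(lam (φ i))) atTop (𝓝 (∫ x, g x * F a x ∂μ)) := by
  classical
  -- the densities
  let h : Option ι → ℕ → E n → ℝ := fun o i x => o.elim (d i x) (fun a => d i x + f a i x)
  have hm : ∀ o i, AEMeasurable (h o i) (lam i) := by
    intro o i
    cases o with
    | none => exact (hd i).aestronglyMeasurable.aemeasurable
    | some a => exact ((hd i).aestronglyMeasurable.add (hf a i)).aemeasurable
  have hp : ∀ o i, ∀ᵐ x ∂(lam i), 0 ≤ h o i x ∧ h o i x ≤ 2 * d i x := by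
    intro o i
    cases o with
    | none =>
      filter_upwards [hd0 i] with x hx
      exact ⟨hx, by show d i x ≤ 2 * d i x; linarith⟩
    | some a =>
      filter_upwards [hfd a i] with x hx
      have := abs_le.1 hx
      exact ⟨by show 0 ≤ d i x + f a i x; linarith, by show d i x + f a i x ≤ 2 * d i x; linarith⟩
  let ν : Option ι → ℕ → Measure (E n) := fun o i => (lam i).withDensity fun x => ENNReal.ofReal (h o i x)
  have hνb : ∀ (o : Option ι) (R : ℝ), ∃ C : ℝ≥0∞, C ≠ ⊤ ∧ ∀ᶠ i in atTop, ν o i (closedBall 0 R) ≤ C := by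
    intro o R
    obtain ⟨C, hC⟩ := hb R
    refine ⟨ENNReal.ofReal (2 * C), ENNReal.ofReal_ne_top, hC.mono fun i hi => ?_⟩
    show ((lam i).withDensity fun x => ENNReal.ofReal (h o i x)) (closedBall 0 R) ≤ _
    rw [withDensity_apply _ measurableSet_closedBall]
    have hint : IntegrableOn (fun x => 2 * d i x) (closedBall 0 R) (lam i) :=
      ((hd i).integrableOn_isCompact (isCompact_closedBall 0 R)).const_mul 2
    calc ∫⁻ x in closedBall 0 R, ENNReal.ofReal (h o i x) ∂(lam i)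
        ≤ ∫⁻ x in closedBall 0 R, ENNReal.ofReal (2 * d i x) ∂(lam i) := by
          refine lintegral_mono_ae (ae_restrict_of_ae ?_)
          filter_upwards [hp o i] with x hx
          exact ENNReal.ofReal_le_ofReal hx.2
      _ = ENNReal.ofReal (∫ x in closedBall 0 R, 2 * d i x ∂(lam i)) := by
          rw [ofReal_integral_eq_lintegral_ofReal hint]
          refine ae_restrict_of_ae ?_
          filter_upwards [hd0 i] with x hx
          show 0 ≤ 2 * d i x
          linarith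
      _ ≤ ENNReal.ofReal (2 * C) := by
          refine ENNReal.ofReal_le_ofReal ?_
          rw [integral_const_mul]
          linarith
  obtain ⟨φ, μ', hφ, hμ'⟩ := hsp_vague_compact ν hνb
  -- integrals against the densities
  have hI : ∀ o i (g : E n → ℝ), ∫ x, g x ∂(ν o i) = ∫ x, g x * h o i x ∂(lam i) := fun o i g =>
    hsp_integral_withDensity (hm o i) ((hp o i).mono fun _ hx => hx.1) g
  have hgd : ∀ i (g : E n → ℝ), Continuous g → HasCompactSupport g → Integrable (fun x => g x * d i x) (lam i) :=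
    fun i g hg hc => (hd i).integrable_smul_left_of_hasCompactSupport hg hc
  have hgf : ∀ a i (g : E n → ℝ), Continuous g → HasCompactSupport g →
      Integrable (fun x => g x * f a i x) (lam i) := by
    intro a i g hg hc
    refine Integrable.mono' (hgd i g hg hc).norm (hg.aestronglyMeasurable.mul (hf a i)) ?_
    filter_upwards [hfd a i, hd0 i] with x hx hx0
    rw [norm_mul, norm_mul, Real.norm_eq_abs (f a i x), Real.norm_eq_abs (d i x), abs_of_nonneg hx0]
    exact mul_le_mul_of_nonneg_left hx (norm_nonneg _)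
  have hsplit : ∀ a i (g : E n → ℝ), Continuous g → HasCompactSupport g →
      ∫ x, g x * f a i x ∂(lam i) = ∫ x, g x ∂(ν (some a) i) - ∫ x, g x ∂(ν none i) := by
    intro a i g hg hc
    rw [hI, hI]
    have : ∀ x, g x * h (some a) i x = g x * d i x + g x * f a i x := fun x => by
      show g x * (d i x + f a i x) = _
      ring
    simp only [this]
    rw [integral_add (hgd i g hg hc) (hgf a i g hg hc)]
    show _ = ∫ x, g x * d i x ∂(lam i) + _ - ∫ x, g x * d i x ∂(lam i)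
    ring
  set μ := μ' none with hμdef
  have hreg : μ.Regular := (hμ' none).1
  have hle : ∀ a, μ' (some a) ≤ (2 : ℝ≥0) • μ := by
    intro a
    have : (μ' (some a)).Regular := (hμ' (some a)).1
    refine hsp_le_of_integral_le 2 fun g hg hc hg0 => ?_
    have t1 := (hμ' (some a)).2 g hg hc (subset_univ _)
    have t2 := ((hμ' none).2 g hg hc (subset_univ _)).const_mul ((2 : ℝ≥0) : ℝ)
    refine le_of_tendsto_of_tendsto' t1 t2 fun i => ?_
    show ∫ x, g x ∂(ν (some a) (φ i)) ≤ ((2 : ℝ≥0) : ℝ) * ∫ x, g x ∂(ν none (φ i))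
    rw [hI, hI, ← integral_const_mul]
    refine integral_mono_of_nonneg ?_ ((hgd (φ i) g hg hc).const_mul _) ?_
    · filter_upwards [hp (some a) (φ i)] with x hx
      exact mul_nonneg (hg0 x) hx.1
    · filter_upwards [hp (some a) (φ i)] with x hx
      show g x * h (some a) (φ i) x ≤ ((2 : ℝ≥0) : ℝ) * (g x * d (φ i) x)
      have := mul_le_mul_of_nonneg_left hx.2 (hg0 x)
      simp only [NNReal.coe_ofNat]
      linarith
  have hα : ∀ a, ∃ α : E n → ℝ, Measurable α ∧ (∀ x, 0 ≤ α x ∧ α x ≤ ((2 : ℝ≥0) : ℝ)) ∧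
      μ' (some a) = μ.withDensity fun x => ENNReal.ofReal (α x) := fun a => hsp_dens_of_le 2 (hle a)
  choose α hαm hαb hαe using hα
  refine ⟨φ, μ, fun a x => α a x - 1, hφ, hreg, fun a => (hαm a).sub_const 1, fun a x => ?_, (hμ' none).2, ?_⟩
  · have := hαb a x
    simp only [NNReal.coe_ofNat] at this
    rw [abs_le]
    constructor <;> linarith [this.1, this.2]
  · intro a g hg hc
    have t1 := (hμ' (some a)).2 g hg hc (subset_univ _)
    have t2 := (hμ' none).2 g hg hc (subset_univ _)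
    have t3 := t1.sub t2
    have e1 : ∫ x, g x ∂(μ' (some a)) = ∫ x, g x * α a x ∂μ := by
      rw [hαe a]
      exact hsp_integral_withDensity (hαm a).aemeasurable (Eventually.of_forall fun x => (hαb a x).1) g
    have hgi : Integrable g μ := hg.integrable_of_hasCompactSupport hc
    have hgα : Integrable (fun x => g x * α a x) μ := by
      refine Integrable.mono' (hgi.norm.const_mul 2) (hg.aestronglyMeasurable.mul (hαm a).aestronglyMeasurable)
        (Eventually.of_forall fun x => ?_)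
      have := hαb a x
      simp only [NNReal.coe_ofNat] at this
      rw [norm_mul, Real.norm_eq_abs (α a x), abs_of_nonneg this.1, mul_comm]
      exact mul_le_mul_of_nonneg_right this.2 (norm_nonneg _)
    have e2 : ∫ x, g x * (α a x - 1) ∂μ = ∫ x, g x ∂(μ' (some a)) - ∫ x, g x ∂μ := by
      rw [e1, ← integral_sub hgα hgi]
      congr 1
      funext x
      ring
    rw [e2]
    refine t3.congr fun i => ?_
    exact (hsplit a (φ i) g hg hc).symm

/-! ### K2: limits of pairs -/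

/-- the hypotheses "`(lam_i, d_i, M_i) → (μ, 1, A)` vaguely". -/
structure HspLim (n : ℕ) (lam : ℕ → Measure (E n)) (d : ℕ → E n → ℝ) (M : ℕ → E n → E n →L[ℝ] E n)
    (μ : Measure (E n)) (A : E n → E n →L[ℝ] E n) : Prop where
  pair : ∀ i, HtPair n (lam i) (d i) (M i)
  mA : Measurable A
  bA : ∃ C : ℝ, ∀ x, ‖A x‖ ≤ C
  wk : ∀ g : E n → ℝ, Continuous g → HasCompactSupport g →
    Tendsto (fun i => ∫ x, g x * d i x ∂(lam i)) atTop (𝓝 (∫ x, g x ∂μ))
  wkM : ∀ (v w : E n) (g : E n → ℝ), Continuous g → HasCompactSupport g →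
    Tendsto (fun i => ∫ x, g x * ⟪M i x v, w⟫ ∂(lam i)) atTop (𝓝 (∫ x, g x * ⟪A x v, w⟫ ∂μ))

/-! helpers of the leaves K3, K4 (helper129) -/

/-- bounded measurable times `C_c` is integrable. -/
theorem hsp_k3_int_bdd {μ : Measure (E n)} [IsLocallyFiniteMeasure μ] {F : E n → ℝ} (hF : Measurable F) {C : ℝ}
    (hC : ∀ x, |F x| ≤ C) {g : E n → ℝ} (hg : Continuous g) (hc : HasCompactSupport g) :
    Integrable (fun x => g x * F x) μ := by
  have h1 : Integrable g μ := hg.integrable_of_hasCompactSupport hc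
  exact h1.mul_bdd (c := C) hF.aestronglyMeasurable (Eventually.of_forall fun x => by simpa using hC x)

theorem hsp_k3_locInt {μ : Measure (E n)} [IsLocallyFiniteMeasure μ] {F : E n → ℝ} (hF : Measurable F) {C : ℝ}
    (hC : ∀ x, |F x| ≤ C) : LocallyIntegrable F μ := by
  have h1 : LocallyIntegrable (fun _ : E n => C) μ := locallyIntegrable_const C
  exact h1.mono hF.aestronglyMeasurable (Eventually.of_forall fun x => by
    simpa using (hC x).trans (le_abs_self C))

/-- a bounded measurable function which is orthogonal to the nonnegative `C_c` functions vanishes a.e. -/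
theorem hsp_k3_ae_zero {μ : Measure (E n)} [IsLocallyFiniteMeasure μ] {F : E n → ℝ} (hF : Measurable F) {C : ℝ}
    (hC : ∀ x, |F x| ≤ C)
    (h : ∀ g : E n → ℝ, Continuous g → HasCompactSupport g → (∀ x, 0 ≤ g x) → ∫ x, g x * F x ∂μ = 0) :
    ∀ᵐ x ∂μ, F x = 0 := by
  have h1 := hsp_ae_nonneg (hsp_k3_locInt hF hC) fun g hg hc h0 => (h g hg hc h0).ge
  have h2 := hsp_ae_nonneg (F := fun x => - F x) (hsp_k3_locInt hF.neg (C := C) fun x => by simpa using hC x)
    fun g hg hc h0 => by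
      have : ∫ x, g x * -F x ∂μ = - ∫ x, g x * F x ∂μ := by
        rw [← integral_neg]; congr 1; funext x; ring
      rw [this, h g hg hc h0, neg_zero]
  filter_upwards [h1, h2] with x hx1 hx2
  linarith

theorem hsp_k3_meas {A : E n → E n →L[ℝ] E n} (hA : Measurable A) (v w : E n) : Measurable fun x => ⟪A x v, w⟫ := by
  have h1 : Continuous fun B : E n →L[ℝ] E n => ⟪B v, w⟫ := by fun_prop
  exact h1.measurable.comp hA

theorem hsp_k3_bdd {A : E n → E n →L[ℝ] E n} {C : ℝ} (hC : ∀ x, ‖A x‖ ≤ C) (v w : E n) (x : E n) :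
    |⟪A x v, w⟫| ≤ C * ‖v‖ * ‖w‖ := by
  calc |⟪A x v, w⟫| ≤ ‖A x v‖ * ‖w‖ := abs_real_inner_le_norm _ _
    _ ≤ ‖A x‖ * ‖v‖ * ‖w‖ := by gcongr; exact (A x).le_opNorm v
    _ ≤ C * ‖v‖ * ‖w‖ := by gcongr; exact hC x

/-- integrability of `g ⟪M v, w⟫` for a pair. -/
theorem hsp_k3_int_pair (hn : 1 ≤ n) {lam : Measure (E n)} {d : E n → ℝ} {M : E n → E n →L[ℝ] E n}
    (hP : HtPair n lam d M) {g : E n → ℝ} (hg : Continuous g) (hc : HasCompactSupport g) (v w : E n) :
    Integrable (fun x => g x * ⟪M x v, w⟫) lam := by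
  have h1 : Integrable (fun x => g x • d x) lam := hP.lint.integrable_smul_left_of_hasCompactSupport hg hc
  have h2 : Integrable (fun x => (‖v‖ * ‖w‖) * ‖g x • d x‖) lam := h1.norm.const_mul _
  have hcont : Continuous fun B : E n →L[ℝ] E n => ⟪B v, w⟫ := by fun_prop
  refine h2.mono' (hg.aestronglyMeasurable.mul (hcont.comp_aestronglyMeasurable hP.mM)) ?_
  filter_upwards [hsp_ae_norm_le hn hP] with x hx
  rw [norm_mul, norm_smul, Real.norm_eq_abs (d x), abs_of_nonneg hx.1]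
  have h3 : ‖⟪M x v, w⟫‖ ≤ d x * ‖v‖ * ‖w‖ := by
    calc ‖⟪M x v, w⟫‖ ≤ ‖M x v‖ * ‖w‖ := abs_real_inner_le_norm _ _
      _ ≤ ‖M x‖ * ‖v‖ * ‖w‖ := by gcongr; exact (M x).le_opNorm v
      _ ≤ d x * ‖v‖ * ‖w‖ := by gcongr; exact hx.2
  calc ‖g x‖ * ‖⟪M x v, w⟫‖ ≤ ‖g x‖ * (d x * ‖v‖ * ‖w‖) := by gcongr
    _ = _ := by ring

theorem hsp_k3_int_d {lam : Measure (E n)} {d : E n → ℝ} {M : E n → E n →L[ℝ] E n}
    (hP : HtPair n lam d M) {g : E n → ℝ} (hg : Continuous g) (hc : HasCompactSupport g) :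
    Integrable (fun x => g x * d x) lam :=
  hP.lint.integrable_smul_left_of_hasCompactSupport hg hc

/-- two operators with the same matrix are equal. -/
theorem hsp_k3_ext {B C : E n →L[ℝ] E n} (h : ∀ k l, ⟪B (eb k), eb l⟫ = ⟪C (eb k), eb l⟫) : B = C := by
  have h1 : ∀ k, B (eb k) = C (eb k) := fun k => by
    ext l
    have := h k l
    simpa [EuclideanSpace.inner_single_right] using this
  have h2 : (B : E n →ₗ[ℝ] E n) = (C : E n →ₗ[ℝ] E n) := by
    refine (EuclideanSpace.basisFun (Fin n) ℝ).toBasis.ext fun k => ?_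
    simpa using h1 k
  exact ContinuousLinearMap.coe_injective h2

theorem hsp_k3_con (B L : E n →L[ℝ] E n) :
    htCon B L = ∑ i, ∑ k, ⟪L (eb i), eb k⟫ * ⟪B (eb k), eb i⟫ := by
  unfold htCon
  refine Finset.sum_congr rfl fun i _ => ?_
  have h := (EuclideanSpace.basisFun (Fin n) ℝ).sum_repr' (L (eb i))
  simp only [EuclideanSpace.basisFun_apply] at h
  conv_lhs => rw [← h]
  rw [map_sum, sum_inner]
  refine Finset.sum_congr rfl fun k _ => ?_
  rw [map_smul, inner_smul_left, real_inner_comm (L (eb i)) (eb k)]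
  simp

/-- expansion of a bilinear form in the standard basis. -/
theorem hsp_k4_expand (B : E n →L[ℝ] E n) (v w : E n) :
    ⟪B v, w⟫ = ∑ k, ∑ l, (⟪eb k, v⟫ * ⟪eb l, w⟫) * ⟪B (eb k), eb l⟫ := by
  have hv := (EuclideanSpace.basisFun (Fin n) ℝ).sum_repr' v
  have hw := (EuclideanSpace.basisFun (Fin n) ℝ).sum_repr' w
  simp only [EuclideanSpace.basisFun_apply] at hv hw
  conv_lhs => rw [← hv, ← hw]
  rw [map_sum, sum_inner]
  refine Finset.sum_congr rfl fun k _ => ?_
  rw [inner_sum]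
  refine Finset.sum_congr rfl fun l _ => ?_
  rw [map_smul, inner_smul_left, inner_smul_right]
  simp
  ring

/-- the operator with matrix `F`. -/
noncomputable def hspOp (F : Fin n × Fin n → ℝ) : E n →L[ℝ] E n :=
  ∑ k, ∑ l, F (k, l) • (innerSL ℝ (eb k : E n)).smulRight (eb l : E n)

theorem hspOp_inner (F : Fin n × Fin n → ℝ) (k l : Fin n) : ⟪hspOp F (eb k), eb l⟫ = F (k, l) := by
  unfold hspOp
  simp only [sum_apply, smul_apply, ContinuousLinearMap.smulRight_apply,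
    innerSL_apply_apply, sum_inner, inner_smul_left, RCLike.conj_to_real]
  rw [Finset.sum_eq_single k, Finset.sum_eq_single l]
  · simp
  · intro b _ hb
    simp [EuclideanSpace.inner_single_left, hb]
  · simp
  · intro b _ hb
    refine Finset.sum_eq_zero fun c _ => ?_
    simp [EuclideanSpace.inner_single_left, hb]
  · simp

/-- LEAF L-323-SP-K3A.   For fixed `v, w`: `∫ g (⟪A v, w⟫ - ⟪v, A w⟫) dμ = lim 0 = 0` for all `g ∈ C_c` (`symm` of the pairs), so `= 0` a.e. (`hsp_ae_nonneg` twice, or `ae_eq_zero_of_integral_contDiff_smul_eq_zero`).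
Apply it to `v = eb k`, `w = eb l` (finitely many), expand in the basis. -/
theorem hsp_lim_symm {lam : ℕ → Measure (E n)} {d : ℕ → E n → ℝ} {M : ℕ → E n → E n →L[ℝ] E n} {μ : Measure (E n)}
    [IsLocallyFiniteMeasure μ] {A : E n → E n →L[ℝ] E n} (h : HspLim n lam d M μ A) :
    ∀ᵐ x ∂μ, ∀ v w : E n, ⟪A x v, w⟫ = ⟪v, A x w⟫ := by
  obtain ⟨C, hC⟩ := h.bA
  have key : ∀ v w : E n, ∀ᵐ x ∂μ, ⟪A x v, w⟫ - ⟪A x w, v⟫ = 0 := by
    intro v w
    refine hsp_k3_ae_zero ((hsp_k3_meas h.mA v w).sub (hsp_k3_meas h.mA w v)) (C := C * ‖v‖ * ‖w‖ + C * ‖w‖ * ‖v‖)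
      (fun x => (abs_sub _ _).trans (add_le_add (hsp_k3_bdd hC v w x) (hsp_k3_bdd hC w v x))) ?_
    intro g hg hc _
    have e : ∀ i, ∫ x, g x * ⟪M i x v, w⟫ ∂(lam i) = ∫ x, g x * ⟪M i x w, v⟫ ∂(lam i) := fun i => by
      refine integral_congr_ae ?_
      filter_upwards [(h.pair i).symm] with x hx
      rw [hx v w, real_inner_comm]
    have t1 := h.wkM v w g hg hc
    simp only [e] at t1
    have t2 := tendsto_nhds_unique t1 (h.wkM w v g hg hc)
    have i1 := hsp_k3_int_bdd (μ := μ) (hsp_k3_meas h.mA v w) (hsp_k3_bdd hC v w) hg hc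
    have i2 := hsp_k3_int_bdd (μ := μ) (hsp_k3_meas h.mA w v) (hsp_k3_bdd hC w v) hg hc
    simp only [mul_sub]
    rw [integral_sub i1 i2, t2, sub_self]
  have key2 : ∀ᵐ x ∂μ, ∀ k l : Fin n, ⟪A x (eb k), eb l⟫ - ⟪A x (eb l), eb k⟫ = 0 :=
    ae_all_iff.2 fun k => ae_all_iff.2 fun l => key (eb k) (eb l)
  filter_upwards [key2] with x hx v w
  have : A x = ContinuousLinearMap.adjoint (A x) := by
    refine hsp_k3_ext fun k l => ?_
    rw [ContinuousLinearMap.adjoint_inner_left, real_inner_comm (A x (eb l)) (eb k)]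
    linarith [hx k l]
  conv_lhs => rw [this]
  rw [ContinuousLinearMap.adjoint_inner_left]

/-- LEAF L-323-SP-K3B.   For fixed `v`: `∫ g ⟪A v, v⟫ dμ = lim ∫ g ⟪M_i v, v⟫ ≥ 0` and `∫ g (|v|² - ⟪A v, v⟫) dμ = lim ∫ g (|v|² d_i - ⟪M_i v, v⟫) ≥ 0` for `0 ≤ g ∈ C_c`; `hsp_ae_nonneg`.
`ae_all_iff` over `TopologicalSpace.denseSeq (E n)`; both sides are continuous in `v` (`DenseRange.induction_on` / `isClosed_le`). -/
theorem hsp_lim_bounds {lam : ℕ → Measure (E n)} {d : ℕ → E n → ℝ} {M : ℕ → E n → E n →L[ℝ] E n} {μ : Measure (E n)}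
    [IsLocallyFiniteMeasure μ] {A : E n → E n →L[ℝ] E n} (h : HspLim n lam d M μ A) :
    ∀ᵐ x ∂μ, ∀ v : E n, 0 ≤ ⟪A x v, v⟫ ∧ ⟪A x v, v⟫ ≤ ‖v‖ ^ 2 := by
  obtain ⟨C, hC⟩ := h.bA
  have key1 : ∀ v : E n, ∀ᵐ x ∂μ, 0 ≤ ⟪A x v, v⟫ := by
    intro v
    refine hsp_ae_nonneg (hsp_k3_locInt (hsp_k3_meas h.mA v v) (hsp_k3_bdd hC v v)) fun g hg hc h0 => ?_
    refine ge_of_tendsto' (h.wkM v v g hg hc) fun i => ?_
    refine integral_nonneg_of_ae ?_
    filter_upwards [(h.pair i).nonneg] with x hx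
    exact mul_nonneg (h0 x) (hx v)
  have key2 : ∀ v : E n, ∀ᵐ x ∂μ, 0 ≤ ‖v‖ ^ 2 - ⟪A x v, v⟫ := by
    intro v
    refine hsp_ae_nonneg (hsp_k3_locInt (measurable_const.sub (hsp_k3_meas h.mA v v)) (C := ‖v‖ ^ 2 + C * ‖v‖ * ‖v‖)
      fun x => (abs_sub _ _).trans (add_le_add (by rw [abs_of_nonneg (by positivity)]) (hsp_k3_bdd hC v v x)))
      fun g hg hc h0 => ?_
    have i1 : Integrable (fun x => g x * ‖v‖ ^ 2) μ := (hg.integrable_of_hasCompactSupport hc).mul_const _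
    have i2 := hsp_k3_int_bdd (μ := μ) (hsp_k3_meas h.mA v v) (hsp_k3_bdd hC v v) hg hc
    simp only [mul_sub]
    rw [integral_sub i1 i2, integral_mul_const, sub_nonneg]
    refine le_of_tendsto_of_tendsto' (h.wkM v v g hg hc) ((h.wk g hg hc).mul_const (‖v‖ ^ 2)) fun i => ?_
    rw [← integral_mul_const]
    refine integral_mono_of_nonneg ?_ ((hsp_k3_int_d (h.pair i) hg hc).mul_const _) ?_
    · filter_upwards [(h.pair i).nonneg] with x hx
      exact mul_nonneg (h0 x) (hx v)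
    · filter_upwards [(h.pair i).le] with x hx
      calc g x * ⟪M i x v, v⟫ ≤ g x * (d i x * ‖v‖ ^ 2) := mul_le_mul_of_nonneg_left (hx v) (h0 x)
        _ = g x * d i x * ‖v‖ ^ 2 := by ring
  have key3 : ∀ᵐ x ∂μ, ∀ j : ℕ, 0 ≤ ⟪A x (TopologicalSpace.denseSeq (E n) j), TopologicalSpace.denseSeq (E n) j⟫ ∧
      0 ≤ ‖TopologicalSpace.denseSeq (E n) j‖ ^ 2 - ⟪A x (TopologicalSpace.denseSeq (E n) j), TopologicalSpace.denseSeq (E n) j⟫ :=
    ae_all_iff.2 fun j => (key1 _).and (key2 _)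
  filter_upwards [key3] with x hx v
  have hcl : IsClosed {v : E n | 0 ≤ ⟪A x v, v⟫ ∧ ⟪A x v, v⟫ ≤ ‖v‖ ^ 2} := by
    have c1 : Continuous fun v : E n => ⟪A x v, v⟫ := by fun_prop
    have c2 : Continuous fun v : E n => ‖v‖ ^ 2 := by fun_prop
    exact IsClosed.inter (isClosed_le continuous_const c1) (isClosed_le c1 c2)
  refine (TopologicalSpace.denseRange_denseSeq (E n)).induction_on (p := fun v => 0 ≤ ⟪A x v, v⟫ ∧ ⟪A x v, v⟫ ≤ ‖v‖ ^ 2) v hcl
    fun j => ⟨(hx j).1, by linarith [(hx j).2]⟩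

/-- LEAF L-323-SP-K3C.   `∫ g (∑ ⟪A eb i, eb i⟫ - (n - 1)) dμ = lim ∫ g (∑ ⟪M eb i, eb i⟫ - (n-1) d) = 0`. -/
theorem hsp_lim_tr {lam : ℕ → Measure (E n)} {d : ℕ → E n → ℝ} {M : ℕ → E n → E n →L[ℝ] E n} {μ : Measure (E n)}
    [IsLocallyFiniteMeasure μ] {A : E n → E n →L[ℝ] E n} (h : HspLim n lam d M μ A) :
    ∀ᵐ x ∂μ, ∑ i, ⟪A x (eb i), eb i⟫ = (n : ℝ) - 1 := by
  obtain ⟨C, hC⟩ := h.bA
  have hm : Measurable fun x => ∑ i : Fin n, ⟪A x (eb i), eb i⟫ :=
    Finset.measurable_sum _ fun i _ => hsp_k3_meas h.mA (eb i) (eb i)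
  have hb : ∀ x, |∑ i : Fin n, ⟪A x (eb i), eb i⟫| ≤ ∑ i : Fin n, C * ‖(eb i : E n)‖ * ‖(eb i : E n)‖ := fun x =>
    (Finset.abs_sum_le_sum_abs _ _).trans (Finset.sum_le_sum fun i _ => hsp_k3_bdd hC (eb i) (eb i) x)
  have key : ∀ᵐ x ∂μ, ∑ i : Fin n, ⟪A x (eb i), eb i⟫ - ((n : ℝ) - 1) = 0 := by
    refine hsp_k3_ae_zero (hm.sub measurable_const) (C := (∑ i : Fin n, C * ‖(eb i : E n)‖ * ‖(eb i : E n)‖) + |(n : ℝ) - 1|)
      (fun x => (abs_sub _ _).trans (add_le_add (hb x) le_rfl)) fun g hg hc _ => ?_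
    have i1 : ∀ i : Fin n, Integrable (fun x => g x * ⟪A x (eb i), eb i⟫) μ := fun i =>
      hsp_k3_int_bdd (hsp_k3_meas h.mA (eb i) (eb i)) (hsp_k3_bdd hC (eb i) (eb i)) hg hc
    have i2 : Integrable (fun x => g x * ((n : ℝ) - 1)) μ := (hg.integrable_of_hasCompactSupport hc).mul_const _
    have e0 : ∀ x, g x * (∑ i : Fin n, ⟪A x (eb i), eb i⟫ - ((n : ℝ) - 1))
        = ∑ i : Fin n, g x * ⟪A x (eb i), eb i⟫ - g x * ((n : ℝ) - 1) := fun x => by
      rw [mul_sub, Finset.mul_sum]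
    simp only [e0]
    rw [integral_sub (integrable_finsetSum _ fun i _ => i1 i) i2, integral_finsetSum _ fun i _ => i1 i,
      integral_mul_const, sub_eq_zero]
    have t1 : Tendsto (fun j => ∑ i : Fin n, ∫ x, g x * ⟪M j x (eb i), eb i⟫ ∂(lam j)) atTop
        (𝓝 (∑ i : Fin n, ∫ x, g x * ⟪A x (eb i), eb i⟫ ∂μ)) :=
      tendsto_finsetSum _ fun i _ => h.wkM (eb i) (eb i) g hg hc
    have t2 := (h.wk g hg hc).mul_const ((n : ℝ) - 1)
    refine tendsto_nhds_unique t1 (t2.congr fun j => ?_)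
    rw [← integral_finsetSum _ fun i _ => hsp_k3_int_pair (Nat.succ_le_of_lt (Fin.pos i)) (h.pair j) hg hc (eb i) (eb i),
      ← integral_mul_const]
    refine integral_congr_ae ?_
    filter_upwards [(h.pair j).tr] with x hx
    rw [← Finset.mul_sum, hx]
    ring
  filter_upwards [key] with x hx
  linarith

/-- LEAF L-323-SP-K3D.   `htCon B L = ∑ i, ∑ k, ⟪L (eb i), eb k⟫ * ⟪B (eb k), eb i⟫`;   `g_{ik}(x) = ⟪fderiv ℝ X x (eb i), eb k⟫` is continuous with compact support.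
`∫ htCon (A x) (DX x) dμ = ∑ ∑ ∫ g_{ik} ⟪A eb k, eb i⟫ dμ = lim ∑ ∑ ∫ g_{ik} ⟪M_j eb k, eb i⟫ dlam_j = lim ∫ htCon (M_j) (DX) dlam_j = 0`
(integrability of each term: `hsp_ae_norm_le`, `lint`; for `μ`: bounded measurable times `C_c`). -/
theorem hsp_lim_stat (hn : 1 ≤ n) {lam : ℕ → Measure (E n)} {d : ℕ → E n → ℝ} {M : ℕ → E n → E n →L[ℝ] E n}
    {μ : Measure (E n)} [IsLocallyFiniteMeasure μ] {A : E n → E n →L[ℝ] E n} (h : HspLim n lam d M μ A)
    (X : E n → E n) (hX : GmtTest univ X) : ∫ x, htCon (A x) (fderiv ℝ X x) ∂μ = 0 := by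
  obtain ⟨C, hC⟩ := h.bA
  have hg : ∀ i k : Fin n, Continuous fun x => ⟪fderiv ℝ X x (eb i), eb k⟫ := fun i k => by
    have h1 : Continuous (fderiv ℝ X) := hX.c1.continuous_fderiv one_ne_zero
    fun_prop
  have hc : ∀ i k : Fin n, HasCompactSupport fun x => ⟪fderiv ℝ X x (eb i), eb k⟫ := fun i k =>
    (hX.cpt.fderiv (𝕜 := ℝ)).comp_left (g := fun L : E n →L[ℝ] E n => ⟪L (eb i), eb k⟫) (by simp)
  have i1 : ∀ i k : Fin n, Integrable (fun x => ⟪fderiv ℝ X x (eb i), eb k⟫ * ⟪A x (eb k), eb i⟫) μ := fun i k =>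
    hsp_k3_int_bdd (hsp_k3_meas h.mA (eb k) (eb i)) (hsp_k3_bdd hC (eb k) (eb i)) (hg i k) (hc i k)
  have i2 : ∀ (j : ℕ) (i k : Fin n), Integrable (fun x => ⟪fderiv ℝ X x (eb i), eb k⟫ * ⟪M j x (eb k), eb i⟫) (lam j) :=
    fun j i k => hsp_k3_int_pair hn (h.pair j) (hg i k) (hc i k) (eb k) (eb i)
  simp only [hsp_k3_con]
  rw [integral_finsetSum _ fun i _ => integrable_finsetSum _ fun k _ => i1 i k]
  simp only [integral_finsetSum _ fun k _ => i1 _ k]
  have t1 : Tendsto (fun j => ∑ i : Fin n, ∑ k : Fin n, ∫ x, ⟪fderiv ℝ X x (eb i), eb k⟫ * ⟪M j x (eb k), eb i⟫ ∂(lam j)) atTop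
      (𝓝 (∑ i : Fin n, ∑ k : Fin n, ∫ x, ⟪fderiv ℝ X x (eb i), eb k⟫ * ⟪A x (eb k), eb i⟫ ∂μ)) :=
    tendsto_finsetSum _ fun i _ => tendsto_finsetSum _ fun k _ => h.wkM (eb k) (eb i) _ (hg i k) (hc i k)
  refine tendsto_nhds_unique t1 (tendsto_const_nhds.congr fun j => ?_)
  have := (h.pair j).stat X hX
  simp only [hsp_k3_con] at this
  rw [integral_finsetSum _ fun i _ => integrable_finsetSum _ fun k _ => i2 j i k] at this
  simp only [integral_finsetSum _ fun k _ => i2 j _ k] at this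
  exact this.symm

/-- EXIT (glue, helper178): a vague limit of pairs is a pair. -/
theorem hsp_pair_of_lim (hn : 1 ≤ n) {lam : ℕ → Measure (E n)} {d : ℕ → E n → ℝ} {M : ℕ → E n → E n →L[ℝ] E n}
    {μ : Measure (E n)} [IsLocallyFiniteMeasure μ] {A : E n → E n →L[ℝ] E n} (h : HspLim n lam d M μ A) :
    HtPair n μ (fun _ => 1) A where
  md := aestronglyMeasurable_const
  mM := h.mA.aestronglyMeasurable
  lint := locallyIntegrable_const 1
  symm := hsp_lim_symm h
  nonneg := (hsp_lim_bounds h).mono fun _ hx v => (hx v).1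
  le := (hsp_lim_bounds h).mono fun _ hx v => by simpa using (hx v).2
  tr := (hsp_lim_tr h).mono fun _ hx => by simpa using hx
  stat := hsp_lim_stat hn h

/-- LEAF L-323-SP-K4.   `ι = Fin n × Fin n`, `f (k,l) i x = ⟪M i x (eb k), eb l⟫`, `|f| ≤ ‖M i x‖ ≤ d i x` a.e. (`hsp_ae_norm_le`).   `hsp_dens_compact` gives `φ, μ, F`.
`A x = ∑ k, ∑ l, F (k,l) x • (innerSL ℝ (eb k)).smulRight (eb l)`: measurable, `‖A x‖ ≤ n²`, `⟪A x v, w⟫ = ∑ ∑ ⟪v, eb k⟫ ⟪w, eb l⟫ F (k,l) x`; the same expansion for `M`: `wkM` for all `v, w` (finite sums of limits).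
`wk`: `hsp_integral_withDensity`.   Then `hsp_pair_of_lim`. -/
theorem hsp_compact (hn : 1 ≤ n) (lam : ℕ → Measure (E n)) (d : ℕ → E n → ℝ) (M : ℕ → E n → E n →L[ℝ] E n)
    (hP : ∀ i, HtPair n (lam i) (d i) (M i))
    (hb : ∀ R : ℝ, ∃ C : ℝ, ∀ᶠ i in atTop, ∫ x in closedBall 0 R, d i x ∂(lam i) ≤ C) :
    ∃ (φ : ℕ → ℕ) (μ : Measure (E n)) (A : E n → E n →L[ℝ] E n), StrictMono φ ∧ μ.Regular ∧ Measurable A ∧
      HtPair n μ (fun _ => 1) A ∧
      GmtWk univ (fun i => (lam (φ i)).withDensity fun x => ENNReal.ofReal (d (φ i) x)) μ ∧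
      ∀ (v w : E n) (g : E n → ℝ), Continuous g → HasCompactSupport g →
        Tendsto (fun i => ∫ x, g x * ⟪M (φ i) x v, w⟫ ∂(lam (φ i))) atTop (𝓝 (∫ x, g x * ⟪A x v, w⟫ ∂μ)) := by
  have hcont : ∀ v w : E n, Continuous fun B : E n →L[ℝ] E n => ⟪B v, w⟫ := fun v w => by fun_prop
  obtain ⟨φ, μ, F, hφ, hreg, hFm, hF1, hwk, hwkF⟩ := hsp_dens_compact (ι := Fin n × Fin n) lam d
    (fun a i x => ⟪M i x (eb a.1), eb a.2⟫) (fun i => (hP i).lint)
    (fun a i => (hcont _ _).comp_aestronglyMeasurable (hP i).mM)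
    (fun a i => by
      filter_upwards [hsp_ae_norm_le hn (hP i)] with x hx
      calc |⟪M i x (eb a.1), eb a.2⟫| ≤ ‖M i x (eb a.1)‖ * ‖(eb a.2 : E n)‖ := abs_real_inner_le_norm _ _
        _ ≤ ‖M i x‖ * ‖(eb a.1 : E n)‖ * ‖(eb a.2 : E n)‖ := by gcongr; exact (M i x).le_opNorm _
        _ = ‖M i x‖ := by simp
        _ ≤ d i x := hx.2)
    (fun i => (hsp_ae_norm_le hn (hP i)).mono fun x hx => hx.1) hb
  have := hreg
  set A : E n → E n →L[ℝ] E n := fun x => hspOp fun a => F a x with hA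
  have hAm : Measurable A := by
    simp only [hA, hspOp]
    refine Finset.measurable_sum _ fun k _ => Finset.measurable_sum _ fun l _ => ?_
    exact (hFm (k, l)).smul_const _
  have hAb : ∀ x, ‖A x‖ ≤ ∑ k : Fin n, ∑ l : Fin n, ‖(innerSL ℝ (eb k : E n)).smulRight (eb l : E n)‖ := by
    intro x
    simp only [hA, hspOp]
    refine (norm_sum_le _ _).trans (Finset.sum_le_sum fun k _ => (norm_sum_le _ _).trans (Finset.sum_le_sum fun l _ => ?_))
    rw [norm_smul]
    calc ‖F (k, l) x‖ * ‖(innerSL ℝ (eb k : E n)).smulRight (eb l : E n)‖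
        ≤ 1 * ‖(innerSL ℝ (eb k : E n)).smulRight (eb l : E n)‖ := by gcongr; exact hF1 _ x
      _ = _ := one_mul _
  have hwkM : ∀ (v w : E n) (g : E n → ℝ), Continuous g → HasCompactSupport g →
      Tendsto (fun i => ∫ x, g x * ⟪M (φ i) x v, w⟫ ∂(lam (φ i))) atTop (𝓝 (∫ x, g x * ⟪A x v, w⟫ ∂μ)) := by
    intro v w g hg hc
    have e1 : ∀ i, ∫ x, g x * ⟪M (φ i) x v, w⟫ ∂(lam (φ i))
        = ∑ k, ∑ l, (⟪eb k, v⟫ * ⟪eb l, w⟫) * ∫ x, g x * ⟪M (φ i) x (eb k), eb l⟫ ∂(lam (φ i)) := by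
      intro i
      have i2 : ∀ k l : Fin n, Integrable (fun x => (⟪eb k, v⟫ * ⟪eb l, w⟫) * (g x * ⟪M (φ i) x (eb k), eb l⟫)) (lam (φ i)) :=
        fun k l => (hsp_k3_int_pair hn (hP (φ i)) hg hc (eb k) (eb l)).const_mul _
      simp only [← integral_const_mul]
      simp only [← integral_finsetSum _ fun l _ => i2 _ l]
      rw [← integral_finsetSum _ fun k _ => integrable_finsetSum _ fun l _ => i2 k l]
      congr 1
      funext x
      rw [hsp_k4_expand (M (φ i) x) v w, Finset.mul_sum]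
      refine Finset.sum_congr rfl fun k _ => ?_
      rw [Finset.mul_sum]
      refine Finset.sum_congr rfl fun l _ => ?_
      ring
    have e2 : ∫ x, g x * ⟪A x v, w⟫ ∂μ = ∑ k, ∑ l, (⟪eb k, v⟫ * ⟪eb l, w⟫) * ∫ x, g x * F (k, l) x ∂μ := by
      have i2 : ∀ k l : Fin n, Integrable (fun x => (⟪eb k, v⟫ * ⟪eb l, w⟫) * (g x * F (k, l) x)) μ :=
        fun k l => (hsp_k3_int_bdd (hFm (k, l)) (hF1 (k, l)) hg hc).const_mul _
      simp only [← integral_const_mul]
      simp only [← integral_finsetSum _ fun l _ => i2 _ l]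
      rw [← integral_finsetSum _ fun k _ => integrable_finsetSum _ fun l _ => i2 k l]
      congr 1
      funext x
      rw [hsp_k4_expand (A x) v w, Finset.mul_sum]
      refine Finset.sum_congr rfl fun k _ => ?_
      rw [Finset.mul_sum]
      refine Finset.sum_congr rfl fun l _ => ?_
      rw [hA, hspOp_inner]
      ring
    simp only [e1]
    rw [e2]
    exact tendsto_finsetSum _ fun k _ => tendsto_finsetSum _ fun l _ => (hwkF (k, l) g hg hc).const_mul _
  have hlim : HspLim n (fun i => lam (φ i)) (fun i => d (φ i)) (fun i => M (φ i)) μ A := by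
    refine ⟨fun i => hP (φ i), hAm, ⟨_, hAb⟩, fun g hg hc => ?_, hwkM⟩
    have := hwk g hg hc (subset_univ _)
    refine this.congr fun i => ?_
    exact hsp_integral_withDensity (hP (φ i)).md.aemeasurable ((hsp_ae_norm_le hn (hP (φ i))).mono fun x hx => hx.1) g
  exact ⟨φ, μ, A, hφ, hreg, hAm, hsp_pair_of_lim hn hlim, hwk, hwkM⟩

end Claimed.Agent.R323
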