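import Claimed.Agent.R323.Ht.LimC
import Claimed.Agent.R323.Ht.SpCpt

/-!
# Row 323, block C, LIM-K, part 0: single-scale lemmas for the closure of `HtK`.   (owner: helper281, prefix `htk_`)
`T y = x₀ + r • O y`.  All statements are elementary changes of variables; they cite `Ht/AcTr.lean` as stated.
-/

set_option autoImplicit false
open scoped ContDiff ENNReal NNReal RealInnerProductSpace Topology
open MeasureTheory Metric Set Filter

namespace Claimed.Agent.R323

open Claimed.Agent.Gmt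

variable {n : ℕ}

/-- LEAF L-HTK-A.  `∫⁻_K F(x₀ + r O y) dy = r^{-n} ∫⁻_{T K} F`, for EVERY `F` (no measurability: `T` is a homeomorphism;
`lintegral_map_equiv` / `MeasurePreserving.setLIntegral_comp_emb`, `Measure.map_addHaar_smul`, `map_add_left_eq_self`,
`LinearIsometryEquiv.measurePreserving`). -/
theorem htk_lintegral_tr (O : E n ≃ₗᵢ[ℝ] E n) (x₀ : E n) {r : ℝ} (hr : 0 < r) (F : E n → ℝ≥0∞) (K : Set (E n)) :
    ∫⁻ y in K, F (x₀ + r • O y) = ENNReal.ofReal ((r ^ n)⁻¹) * ∫⁻ x in (fun y => x₀ + r • O y) '' K, F x := by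
  set e : E n ≃ₜ E n := (O.toHomeomorph.trans (Homeomorph.smulOfNeZero r hr.ne')).trans (Homeomorph.addLeft x₀) with he
  have hev : ∀ y, e y = x₀ + r • O y := fun y => rfl
  have hmap : Measure.map e (volume : Measure (E n)) = ENNReal.ofReal ((r ^ n)⁻¹) • volume := by
    have h1 : (e : E n → E n) = (fun z => x₀ + z) ∘ (fun z => r • z) ∘ O := rfl
    rw [h1, ← Measure.map_map (by fun_prop) (by fun_prop), ← Measure.map_map (by fun_prop) (by fun_prop),
      (O.measurePreserving).map_eq, Measure.map_addHaar_smul _ hr.ne', Measure.map_smul, map_add_left_eq_self]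
    simp [abs_of_pos (pow_pos hr n)]
  have hpre : e.toMeasurableEquiv ⁻¹' ((fun y => x₀ + r • O y) '' K) = K := by
    have : (fun y => x₀ + r • O y) = e := rfl
    rw [this]
    exact e.injective.preimage_image K
  have h2 := e.toMeasurableEquiv.restrict_map (volume : Measure (E n)) ((fun y => x₀ + r • O y) '' K)
  rw [hpre] at h2
  have h3 := lintegral_map_equiv (μ := volume.restrict K) F e.toMeasurableEquiv
  rw [← h2] at h3
  have h4 : Measure.map e.toMeasurableEquiv (volume : Measure (E n)) = ENNReal.ofReal ((r ^ n)⁻¹) • volume := hmap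
  rw [h4, Measure.restrict_smul, lintegral_smul_measure] at h3
  exact h3.symm

/-- `L¹_loc` convergence is invariant under `T`. -/
theorem htk_convF_tr (O : E n ≃ₗᵢ[ℝ] E n) (x₀ : E n) {r : ℝ} (hr : 0 < r) {U : ℕ → E n → ℝ} {u : E n → ℝ}
    (h : GmtConvF univ U u) : GmtConvF univ (fun i => htTr O x₀ r (U i)) (htTr O x₀ r u) := by
  intro K hK _
  have hc : Continuous fun y : E n => x₀ + r • O y := by fun_prop
  have h1 := h _ (hK.image hc) (subset_univ _)
  have h2 := ENNReal.Tendsto.const_mul (a := ENNReal.ofReal ((r ^ n)⁻¹)) h1 (Or.inr ENNReal.ofReal_ne_top)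
  rw [mul_zero] at h2
  refine h2.congr fun i => ?_
  exact (htk_lintegral_tr O x₀ hr (fun x => ‖U i x - u x‖ₑ) K).symm

theorem htk_sgn_dil (x : E n) (r : ℝ) (S : Set (E n)) :
    htTr (LinearIsometryEquiv.refl ℝ (E n)) x r (htSgn S) = htSgn (gmtDil x r S) := by
  funext y
  simp only [htTr, htSgn, gmtChi, gmtDil, LinearIsometryEquiv.coe_refl, id_eq]
  by_cases hy : x + r • y ∈ S
  · rw [indicator_of_mem hy, indicator_of_mem (show y ∈ {y | x + r • y ∈ S} from hy)]
  · rw [indicator_of_notMem hy, indicator_of_notMem (show y ∉ {y | x + r • y ∈ S} from hy)]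

theorem htk_sgn_rot (O : E n ≃ₗᵢ[ℝ] E n) (S : Set (E n)) : htTr O.symm 0 1 (htSgn S) = htSgn (gmtRot O S) := by
  funext y
  simp only [htTr, htSgn, gmtChi, zero_add, one_smul]
  by_cases hy : O.symm y ∈ S
  · rw [indicator_of_mem hy, indicator_of_mem ((mem_gmtRot O S y).2 hy)]
  · rw [indicator_of_notMem hy, indicator_of_notMem (fun h => hy ((mem_gmtRot O S y).1 h))]

/-- distances to the vertex. -/
theorem htk_tr_dist (q : E n) (O : E n ≃ₗᵢ[ℝ] E n) (x₀ : E n) {r : ℝ} (hr : 0 < r) (y : E n) :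
    r * ‖y - htTrq O x₀ r q‖ = ‖x₀ + r • O y - q‖ := by
  have := ht_tr_eps 1 q O x₀ hr y
  simpa only [htEps, one_mul] using this

/-- LEAF L-HTK-B.  weak convergence of the rescaled masses at a FIXED scale:
`∫ g dhtMu(V_i) = ∫ g htD(V_i)` (`htc_integral_htMu` with `ht_tr_ac`) `= r^{-(n-1)} ∫ g(r⁻¹(· - x)) htD(U_i)` (`ht_tr_integral`, `O = refl`)
`= r^{-(n-1)} ∫ g(r⁻¹(· - x)) dhtMu(U_i) → r^{-(n-1)} ∫ g(r⁻¹(· - x)) dgmtMu S` (`hw`; the test function is continuous with compact support: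
`HasCompactSupport.comp_homeomorph` or `.comp_isClosedEmbedding`) `= ∫ g dgmtMu (gmtDil x r S)` (`integral_gmtMu_gmtDil` with `g(r⁻¹(· - x))`, `r^n = r * r^(n-1)`). -/
theorem htk_wk_tr (hn : 3 ≤ n) {κ : ℕ → ℝ} {q : ℕ → E n} {U : ℕ → E n → ℝ} (hac : ∀ i, HtAC n (κ i) (q i) (U i))
    {S : Set (E n)} (hS : MeasurableSet S) (hw : GmtWk univ (fun i => htMu n (κ i) (q i) (U i)) (gmtMu S)) (x : E n) {r : ℝ}
    (hr : 0 < r) :
    GmtWk univ (fun i => htMu n (κ i) (htTrq (LinearIsometryEquiv.refl ℝ (E n)) x r (q i))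
      (htTr (LinearIsometryEquiv.refl ℝ (E n)) x r (U i))) (gmtMu (gmtDil x r S)) := by
  intro g hg hgc _
  obtain ⟨h, hh, hs⟩ := gmt_exists_dilHomeo x hr
  have hG : Continuous fun z : E n => g (r⁻¹ • (z - x)) := hg.comp (by fun_prop)
  have hGc : HasCompactSupport fun z : E n => g (r⁻¹ • (z - x)) := by
    have e : (fun z : E n => g (r⁻¹ • (z - x))) = g ∘ h.symm := by
      funext z
      simp only [Function.comp_apply, hs]
    rw [e]
    exact hgc.comp_homeomorph h.symm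
  have h1 := (hw _ hG hGc (subset_univ _)).const_mul ((r ^ (n - 1))⁻¹)
  have hrn : r ^ (n - 1) ≠ 0 := (pow_pos hr _).ne'
  have e2 : (r ^ (n - 1))⁻¹ * ∫ z, g (r⁻¹ • (z - x)) ∂(gmtMu S) = ∫ y, g y ∂(gmtMu (gmtDil x r S)) := by
    have h3 := integral_gmtMu_gmtDil hS x hr (fun z : E n => g (r⁻¹ • (z - x)))
    simp only [add_sub_cancel_left, smul_smul, inv_mul_cancel₀ hr.ne', one_smul] at h3
    have e : r ^ n = r ^ (n - 1) * r := by
      rw [← pow_succ]; congr 1; omega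
    rw [e] at h3
    have h4 : r ^ (n - 1) * ∫ y, g y ∂(gmtMu (gmtDil x r S)) = ∫ z, g (r⁻¹ • (z - x)) ∂(gmtMu S) := by
      have : r * (r ^ (n - 1) * ∫ y, g y ∂(gmtMu (gmtDil x r S))) = r * ∫ z, g (r⁻¹ • (z - x)) ∂(gmtMu S) := by
        rw [← h3]; ring
      exact mul_left_cancel₀ hr.ne' this
    rw [← h4, ← mul_assoc, inv_mul_cancel₀ hrn, one_mul]
  rw [e2] at h1
  refine h1.congr fun i => ?_
  rw [htc_integral_htMu hn (hac i), htc_integral_htMu hn (ht_tr_ac (hac i) _ x hr)]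
  have h5 := ht_tr_integral hn (hac i) (LinearIsometryEquiv.refl ℝ (E n)) x hr g
  have h6 : ∀ z : E n, (LinearIsometryEquiv.refl ℝ (E n)).symm (r⁻¹ • (z - x)) = r⁻¹ • (z - x) := fun z => rfl
  simp only [h6] at h5
  rw [← h5, ← mul_assoc, inv_mul_cancel₀ hrn, one_mul]

/-- LEAF L-HTK-C.  `HtSeq` on `univ` is invariant under a fixed rotation: `ht_tr_ac`, `ht_tr_En`, `ht_tr_eps` (with `r = 1`), `htk_tr_dist`;
for `small`/`away` apply the hypotheses to the compact set `O '' K`. -/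
theorem htk_seq_rot (hn : 3 ≤ n) {a : ℝ} {κ : ℕ → ℝ} {q : ℕ → E n} {U : ℕ → E n → ℝ} (h : HtSeq n a univ κ q U)
    (O : E n ≃ₗᵢ[ℝ] E n) : HtSeq n a univ κ (fun i => htTrq O 0 1 (q i)) (fun i => htTr O 0 1 (U i)) := by
  refine ⟨fun i => ht_tr_ac (h.ac i) O 0 one_pos, ?_, h.kap, ?_, ?_⟩
  · intro δ hδ
    filter_upwards [h.en δ hδ] with i hi
    rw [ht_tr_En hn (h.ac i) O 0 one_pos]
    exact hi
  · intro K hK _ δ hδ
    filter_upwards [h.small (O '' K) (hK.image O.continuous) (subset_univ _) δ hδ] with i hi x hx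
    have e := ht_tr_eps (κ i) (q i) O 0 one_pos x
    rw [one_mul, zero_add, one_smul] at e
    rw [e]
    exact hi _ (mem_image_of_mem _ hx)
  · intro K hK _
    obtain ⟨c, hc, hev⟩ := h.away (O '' K) (hK.image O.continuous) (subset_univ _)
    refine ⟨c, hc, ?_⟩
    filter_upwards [hev] with i hi x hx
    have e := htk_tr_dist (q i) O 0 one_pos x
    rw [one_mul, zero_add, one_smul] at e
    rw [e]
    exact hi _ (mem_image_of_mem _ hx)

/-- LEAF L-HTK-D.  `|htSgn S - htSgn S'| = 2 |χ_S - χ_S'|`: use `gmtConvF_chi` (`Lib/Gmt/BvVarA.lean`) and `‖a - b‖ₑ ≤ ‖2a - 2b‖ₑ`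
(squeeze with `tendsto_of_tendsto_of_tendsto_of_le_of_le`, `lintegral_mono`). -/
theorem htk_conv_of_sgn {S : ℕ → Set (E n)} {S' : Set (E n)} (hS : ∀ i, MeasurableSet (S i)) (hS' : MeasurableSet S')
    (h : GmtConvF univ (fun i => htSgn (S i)) (htSgn S')) : GmtConv univ S S' := by
  refine (gmtConvF_chi hS hS').1 ?_
  intro K hK hKU
  refine tendsto_of_tendsto_of_tendsto_of_le_of_le tendsto_const_nhds (h K hK hKU) (fun i => zero_le) (fun i => ?_)
  refine lintegral_mono fun x => ?_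
  rw [← ofReal_norm, ← ofReal_norm]
  refine ENNReal.ofReal_le_ofReal ?_
  have e : htSgn (S i) x - htSgn S' x = -2 * (gmtChi (S i) x - gmtChi S' x) := by
    unfold htSgn
    ring
  rw [e, norm_mul]
  have : ‖(-2 : ℝ)‖ = 2 := by norm_num
  rw [this]
  linarith [norm_nonneg (gmtChi (S i) x - gmtChi S' x)]

/-- LEAF L-HTK-E.  the density bound is scale invariant: `ball z R = gmtDil x ρ (ball (x + ρ z) (ρ R))` and `gmtMu_gmtDil`
(`μ_{S_ρ}(B_ρ) ρ^n = ρ μ_S(B)`, `n = (n-1)+1`). -/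
theorem htk_dil_bound (hn : 3 ≤ n) {S : Set (E n)} (hS : MeasurableSet S) {c : ℝ}
    (hb : ∀ x r, 0 < r → gmtMu S (ball x r) ≤ ENNReal.ofReal (c * r ^ (n - 1))) (x : E n) {ρ : ℝ} (hρ : 0 < ρ) (z : E n) {R : ℝ}
    (hR : 0 < R) : gmtMu (gmtDil x ρ S) (ball z R) ≤ ENNReal.ofReal (c * R ^ (n - 1)) := by
  have hball : ball z R = gmtDil x ρ (ball (x + ρ • z) (ρ * R)) := by
    ext y
    simp only [gmtDil, mem_ball, mem_ofPred_eq, dist_eq_norm]
    have : x + ρ • y - (x + ρ • z) = ρ • (y - z) := by rw [smul_sub]; abel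
    rw [this, norm_smul, Real.norm_eq_abs, abs_of_pos hρ]
    exact (mul_lt_mul_iff_right₀ hρ).symm
  have h1 := gmtMu_gmtDil hS x hρ (ball (x + ρ • z) (ρ * R))
  rw [← hball] at h1
  have h2 := hb (x + ρ • z) (ρ * R) (mul_pos hρ hR)
  have hpow : 0 < ρ ^ n := pow_pos hρ n
  have h3 : gmtMu (gmtDil x ρ S) (ball z R) * ENNReal.ofReal (ρ ^ n) ≤
      ENNReal.ofReal (c * R ^ (n - 1)) * ENNReal.ofReal (ρ ^ n) := by
    rw [h1]
    refine (mul_le_mul_right h2 _).trans (le_of_eq ?_)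
    rw [← ENNReal.ofReal_mul hρ.le, mul_comm (ENNReal.ofReal (c * R ^ (n - 1))), ← ENNReal.ofReal_mul hpow.le]
    congr 1
    obtain ⟨k, rfl⟩ : ∃ k, n = k + 1 := ⟨n - 1, by omega⟩
    simp only [Nat.add_sub_cancel]
    ring
  exact (ENNReal.mul_le_mul_iff_left (by simpa using hpow) ENNReal.ofReal_ne_top).1 h3

/-- LEAF L-HTK-F.  two functions that are uniformly close and vanish off `closedBall 0 N` have close integrals. -/
theorem htk_integral_close {μ : Measure (E n)} {g D : E n → ℝ} (hg : Continuous g) (hD : Continuous D) {N : ℝ}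
    (hg0 : ∀ x, N < ‖x‖ → g x = 0) (hD0 : ∀ x, N < ‖x‖ → D x = 0) {η : ℝ} (hη : ∀ x, |g x - D x| ≤ η) {C : ℝ} (hC : 0 ≤ C)
    (hμ : μ (closedBall 0 N) ≤ ENNReal.ofReal C) : |(∫ x, g x ∂μ) - ∫ x, D x ∂μ| ≤ η * C := by
  have hfin : μ (closedBall 0 N) ≠ ⊤ := (hμ.trans_lt ENNReal.ofReal_lt_top).ne
  have hout : ∀ y : E n, y ∉ closedBall (0 : E n) N → N < ‖y‖ := fun y hy => by
    rw [mem_closedBall, dist_zero_right, not_le] at hy; exact hy
  have hcs : ∀ f : E n → ℝ, Continuous f → (∀ x, N < ‖x‖ → f x = 0) → Integrable f μ := by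
    intro f hf hf0
    have hc : HasCompactSupport f :=
      HasCompactSupport.intro (isCompact_closedBall (0 : E n) N) fun y hy => hf0 y (hout y hy)
    refine gmt_integrable_of_cc hf hc ?_
    have hsub : tsupport f ⊆ closedBall 0 N :=
      closure_minimal (fun y hy => by
        by_contra hy'
        exact hy (hf0 y (hout y hy'))) isClosed_closedBall
    exact ((measure_mono hsub).trans_lt hfin.lt_top).ne
  have hη0 : 0 ≤ η := (abs_nonneg _).trans (hη 0)
  rw [← integral_sub (hcs g hg hg0) (hcs D hD hD0)]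
  have e : ∫ x, (g x - D x) ∂μ = ∫ x in closedBall 0 N, (g x - D x) ∂μ :=
    (setIntegral_eq_integral_of_forall_compl_eq_zero fun x hx => by
      rw [hg0 x (hout x hx), hD0 x (hout x hx), sub_zero]).symm
  rw [e]
  have h1 := norm_setIntegral_le_of_norm_le_const (μ := μ) (s := closedBall (0 : E n) N) (f := fun x => g x - D x)
    (C := η) hfin.lt_top (fun x _ => hη x)
  rw [Real.norm_eq_abs] at h1
  refine h1.trans (mul_le_mul_of_nonneg_left ?_ hη0)
  exact ENNReal.toReal_le_of_le_ofReal hC hμ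

end Claimed.Agent.R323
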