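import Claimed.Agent.R323.Ht.LimK0

/-!
# Row 323, block C, LIM-K, part 1: the DIAGONAL argument for `ht_blow`.   (owner: helper281, prefix `htk_`)
Scale `j` has radius `ρ = r j`.  Rescaled data at the scale `j`: `V = htTr refl x ρ (U i)`, vertex `htTrq refl x ρ (q i)`, the same `κ i`.
`HtkSel … ρ j i` = the index `i` is good enough for the scale `j`.  `closedBall x d ⊆ Ω` is FIXED: for `y` in a bounded set `x + r j • y` lies in it for large `j`.
-/

set_option autoImplicit false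
open scoped ContDiff ENNReal NNReal RealInnerProductSpace Topology
open MeasureTheory Metric Set Filter

namespace Claimed.Agent.R323

open Claimed.Agent.Gmt

variable {n : ℕ}

/-- the index `i` is good enough for the scale `j` (of radius `ρ`). -/
structure HtkSel (n : ℕ) (a : ℝ) (κ : ℕ → ℝ) (q : ℕ → E n) (U : ℕ → E n → ℝ) (S : Set (E n)) (x : E n) (d c₀ : ℝ)
    (D : ℕ → ℕ → E n → ℝ) (ρ : ℝ) (j i : ℕ) : Prop where
  en : htEn n (κ i) (q i) (U i) ≤ a + 1 / ((j : ℝ) + 1)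
  kap : κ i ≤ 1 / ((j : ℝ) + 1)
  small : ∀ z ∈ closedBall x d, htEps (κ i) (q i) z ≤ ρ / ((j : ℝ) + 1)
  away : ∀ z ∈ closedBall x d, c₀ ≤ ‖z - q i‖
  l1 : ∫⁻ y in closedBall (0 : E n) j, ‖htTr (LinearIsometryEquiv.refl ℝ (E n)) x ρ (U i) y - htSgn (gmtDil x ρ S) y‖ₑ ≤
    ENNReal.ofReal (1 / ((j : ℝ) + 1))
  wk : ∀ N ≤ j, ∀ l ≤ j, |(∫ y, D N l y ∂(htMu n (κ i) (htTrq (LinearIsometryEquiv.refl ℝ (E n)) x ρ (q i))
    (htTr (LinearIsometryEquiv.refl ℝ (E n)) x ρ (U i)))) - ∫ y, D N l y ∂(gmtMu (gmtDil x ρ S))| ≤ 1 / ((j : ℝ) + 1)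

/-- LEAF L-HTK-G.  SELECTION: all six properties hold eventually in `i`; take `.exists` of the conjunction.
`en`: `h.en`; `kap`: `h.kap` (`Tendsto.eventually_le_const` / `eventually_lt`); `small`: `h.small (closedBall x d)`; `away`: `hc₀`;
`l1`: `htk_convF_tr refl x hρ hl` on `closedBall 0 j` + `htk_sgn_dil` (`Tendsto.eventually_le_const`, target `0 < ofReal …`);
`wk`: `htk_wk_tr` for each `D N l`, `Metric.tendsto_nhds`/`tendsto_sub_nhds_zero`, finite conjunction `Finset.eventually_all` / `eventually_all_finite (finite_le_nat j)`. -/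
theorem htk_sel_exists (hn : 3 ≤ n) {a : ℝ} {Ω : Set (E n)} {κ : ℕ → ℝ} {q : ℕ → E n} {U : ℕ → E n → ℝ}
    (h : HtSeq n a Ω κ q U) {S : Set (E n)} (hS : MeasurableSet S) (hl : GmtConvF univ U (htSgn S))
    (hw : GmtWk univ (fun i => htMu n (κ i) (q i) (U i)) (gmtMu S)) {x : E n} {d c₀ : ℝ} (hd : closedBall x d ⊆ Ω)
    (hc₀ : ∀ᶠ i in atTop, ∀ z ∈ closedBall x d, c₀ ≤ ‖z - q i‖) {D : ℕ → ℕ → E n → ℝ} (hD : ∀ N l, Continuous (D N l))
    (hDc : ∀ N l, HasCompactSupport (D N l)) {ρ : ℝ} (hρ : 0 < ρ) (j : ℕ) : ∃ i, HtkSel n a κ q U S x d c₀ D ρ j i := by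
  have hj : (0 : ℝ) < 1 / ((j : ℝ) + 1) := by positivity
  have e1 := h.en _ hj
  have e2 : ∀ᶠ i in atTop, κ i ≤ 1 / ((j : ℝ) + 1) := h.kap.eventually_le_const hj
  have e3 := h.small (closedBall x d) (isCompact_closedBall x d) hd (ρ / ((j : ℝ) + 1)) (by positivity)
  have e5 : ∀ᶠ i in atTop, ∫⁻ y in closedBall (0 : E n) j,
      ‖htTr (LinearIsometryEquiv.refl ℝ (E n)) x ρ (U i) y - htSgn (gmtDil x ρ S) y‖ₑ ≤
        ENNReal.ofReal (1 / ((j : ℝ) + 1)) := by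
    have h1 := htk_convF_tr (LinearIsometryEquiv.refl ℝ (E n)) x hρ hl _ (isCompact_closedBall (0 : E n) j)
      (subset_univ _)
    rw [htk_sgn_dil] at h1
    exact h1.eventually_le_const (ENNReal.ofReal_pos.2 hj)
  have e6 : ∀ᶠ i in atTop, ∀ N ≤ j, ∀ l ≤ j,
      |(∫ y, D N l y ∂(htMu n (κ i) (htTrq (LinearIsometryEquiv.refl ℝ (E n)) x ρ (q i))
        (htTr (LinearIsometryEquiv.refl ℝ (E n)) x ρ (U i)))) - ∫ y, D N l y ∂(gmtMu (gmtDil x ρ S))| ≤
        1 / ((j : ℝ) + 1) := by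
    refine (eventually_all_finite (finite_le_nat j)).2 fun N _ => ?_
    refine (eventually_all_finite (finite_le_nat j)).2 fun l _ => ?_
    have h1 := htk_wk_tr hn h.ac hS hw x hρ (D N l) (hD N l) (hDc N l) (subset_univ _)
    rw [Metric.tendsto_nhds] at h1
    filter_upwards [h1 _ hj] with i hi
    rw [Real.dist_eq] at hi
    exact hi.le
  obtain ⟨i, h1, h2, h3, h4, h5, h6⟩ := (e1.and (e2.and (e3.and (hc₀.and (e5.and e6))))).exists
  exact ⟨i, h1, h2, h3, h4, h5, h6⟩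

/-- LEAF L-HTK-H.  the diagonal sequence is a sequence of data on ALL of `E n`.
`ac`: `ht_tr_ac`.  `en`: `ht_tr_En` + `1/(j+1) ≤ δ` eventually.  `kap`: squeeze `0 < κ ≤ 1/(j+1)` (`tendsto_one_div_add_atTop_nhds_zero_nat`).
`small`: `K ⊆ closedBall 0 R`; eventually `r j * R ≤ d`, so `x + r j • y ∈ closedBall x d`; `ht_tr_eps`: `r j * htEps κ q' y = htEps κ q (x + r j • y) ≤ r j/(j+1)`.
`away` with `c = c₀`: `htk_tr_dist`: `r j * ‖y - q'‖ = ‖x + r j • y - q‖ ≥ c₀` and eventually `r j ≤ 1`. -/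
theorem htk_diag_seq (hn : 3 ≤ n) {a : ℝ} {κ : ℕ → ℝ} {q : ℕ → E n} {U : ℕ → E n → ℝ} (hac : ∀ i, HtAC n (κ i) (q i) (U i))
    {S : Set (E n)} {x : E n} {d c₀ : ℝ} (hd : 0 < d) (hc₀ : 0 < c₀) {D : ℕ → ℕ → E n → ℝ} {r : ℕ → ℝ} (hr : ∀ j, 0 < r j)
    (hr0 : Tendsto r atTop (𝓝 0)) {i : ℕ → ℕ} (hs : ∀ j, HtkSel n a κ q U S x d c₀ D (r j) j (i j)) :
    HtSeq n a univ (fun j => κ (i j)) (fun j => htTrq (LinearIsometryEquiv.refl ℝ (E n)) x (r j) (q (i j)))
      (fun j => htTr (LinearIsometryEquiv.refl ℝ (E n)) x (r j) (U (i j))) := by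
  have hlim : Tendsto (fun j : ℕ => 1 / ((j : ℝ) + 1)) atTop (𝓝 0) := tendsto_one_div_add_atTop_nhds_zero_nat
  -- points of a compact set are mapped into `closedBall x d` eventually
  have hin : ∀ K : Set (E n), IsCompact K → ∀ᶠ j in atTop, ∀ y ∈ K, x + r j • y ∈ closedBall x d := by
    intro K hK
    obtain ⟨R, hR⟩ := hK.isBounded.subset_closedBall (0 : E n)
    have h1 : Tendsto (fun j => r j * (|R| + 1)) atTop (𝓝 0) := by
      simpa using hr0.mul_const (|R| + 1)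
    filter_upwards [h1.eventually_le_const hd] with j hj y hy
    have hy' : ‖y‖ ≤ |R| + 1 := by
      have := hR hy
      rw [mem_closedBall_zero_iff] at this
      linarith [le_abs_self R]
    rw [mem_closedBall, dist_eq_norm, add_sub_cancel_left, norm_smul, Real.norm_of_nonneg (hr j).le]
    exact (mul_le_mul_of_nonneg_left hy' (hr j).le).trans hj
  refine ⟨fun j => ht_tr_ac (hac (i j)) _ x (hr j), ?_, ?_, ?_, ?_⟩
  · intro δ hδ
    filter_upwards [hlim.eventually_le_const hδ] with j hj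
    rw [ht_tr_En hn (hac (i j)) _ x (hr j)]
    exact (hs j).en.trans (by linarith)
  · exact squeeze_zero (fun j => (hac (i j)).pos.le) (fun j => (hs j).kap) hlim
  · intro K hK _ δ hδ
    filter_upwards [hin K hK, hlim.eventually_le_const hδ] with j hj hj2 y hy
    have h1 := ht_tr_eps (κ (i j)) (q (i j)) (LinearIsometryEquiv.refl ℝ (E n)) x (hr j) y
    have h2 := (hs j).small _ (hj y hy)
    simp only [LinearIsometryEquiv.coe_refl, id] at h1
    rw [← h1] at h2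
    have h3 : r j * htEps (κ (i j)) (htTrq (LinearIsometryEquiv.refl ℝ (E n)) x (r j) (q (i j))) y
        ≤ r j * (1 / ((j : ℝ) + 1)) := by
      rw [mul_one_div]; exact h2
    exact (le_of_mul_le_mul_left h3 (hr j)).trans hj2
  · intro K hK _
    refine ⟨c₀, hc₀, ?_⟩
    filter_upwards [hin K hK, hr0.eventually_le_const one_pos] with j hj hj2 y hy
    have h1 := htk_tr_dist (q (i j)) (LinearIsometryEquiv.refl ℝ (E n)) x (hr j) y
    have h2 := (hs j).away _ (hj y hy)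
    simp only [LinearIsometryEquiv.coe_refl, id] at h1
    rw [← h1] at h2
    have h3 : r j * ‖y - htTrq (LinearIsometryEquiv.refl ℝ (E n)) x (r j) (q (i j))‖
        ≤ 1 * ‖y - htTrq (LinearIsometryEquiv.refl ℝ (E n)) x (r j) (q (i j))‖ :=
      mul_le_mul_of_nonneg_right hj2 (norm_nonneg _)
    linarith

/-- LEAF L-HTK-I.  triangle inequality in `L¹_loc`: `K ⊆ closedBall 0 (m j)` eventually, `‖s j - s'‖ₑ ≤ ‖W j - s j‖ₑ + ‖W j - s'‖ₑ`,
`lintegral_add_left'` (a.e. measurability of the first summand), `lintegral_mono_set`, squeeze. -/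
theorem htk_l1_tri {W s : ℕ → E n → ℝ} {s' : E n → ℝ} (hW : ∀ j, AEStronglyMeasurable (W j) volume)
    (hs : ∀ j, Measurable (s j)) {m : ℕ → ℕ} (hm : Tendsto m atTop atTop)
    (hc : ∀ j, ∫⁻ y in closedBall (0 : E n) (m j), ‖W j y - s j y‖ₑ ≤ ENNReal.ofReal (1 / ((m j : ℝ) + 1)))
    (hl : GmtConvF univ W s') : GmtConvF univ s s' := by
  intro K hK hKU
  obtain ⟨R, hR⟩ := hK.isBounded.subset_closedBall (0 : E n)
  have h1 : Tendsto (fun j => ENNReal.ofReal (1 / ((m j : ℝ) + 1))) atTop (𝓝 0) := by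
    have h := ENNReal.tendsto_ofReal (tendsto_one_div_add_atTop_nhds_zero_nat.comp hm)
    rw [ENNReal.ofReal_zero] at h
    exact h
  have h2 : Tendsto (fun j => ENNReal.ofReal (1 / ((m j : ℝ) + 1)) + ∫⁻ x in K, ‖W j x - s' x‖ₑ) atTop (𝓝 0) := by
    have h := h1.add (hl K hK hKU)
    rw [add_zero] at h
    exact h
  have hev : ∀ᶠ j in atTop, R ≤ (m j : ℝ) := (tendsto_natCast_atTop_atTop.comp hm).eventually_ge_atTop R
  refine tendsto_of_tendsto_of_tendsto_of_le_of_le' tendsto_const_nhds h2 (Eventually.of_forall fun j => zero_le) ?_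
  filter_upwards [hev] with j hj
  have hsub : K ⊆ closedBall (0 : E n) (m j) := hR.trans (closedBall_subset_closedBall hj)
  have hae : AEMeasurable (fun x => ‖W j x - s j x‖ₑ) (volume.restrict K) :=
    ((hW j).sub (hs j).aestronglyMeasurable).enorm.restrict
  calc ∫⁻ x in K, ‖s j x - s' x‖ₑ ≤ ∫⁻ x in K, (‖W j x - s j x‖ₑ + ‖W j x - s' x‖ₑ) := by
        refine lintegral_mono fun x => ?_
        have e : s j x - s' x = (W j x - s' x) - (W j x - s j x) := by ring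
        rw [e, add_comm]
        exact enorm_sub_le
    _ = (∫⁻ x in K, ‖W j x - s j x‖ₑ) + ∫⁻ x in K, ‖W j x - s' x‖ₑ := lintegral_add_left' hae _
    _ ≤ ENNReal.ofReal (1 / ((m j : ℝ) + 1)) + ∫⁻ x in K, ‖W j x - s' x‖ₑ :=
        add_le_add ((lintegral_mono_set hsub).trans (hc j)) le_rfl

/-- LEAF L-HTK-J.  triangle inequality for weak convergence, with a countable dense family `D`.
Given `g`: `N` with `tsupport g ⊆ closedBall 0 N`; `C` = common bound of `μ j`, `μ'` on `closedBall 0 N`; given `η`, `l` with `|g - D N l| ≤ η`;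
`|∫g dμ_j - ∫g dμ'| ≤ |∫(g-D)dμ_j| + |∫D dμ_j - ∫D dν_j| + |∫D dν_j - ∫D dμ'| + |∫(D-g)dμ'| ≤ ηC + 1/(m j+1) + o(1) + ηC` (`htk_integral_close`). -/
theorem htk_wk_tri {μ ν : ℕ → Measure (E n)} {μ' : Measure (E n)} {D : ℕ → ℕ → E n → ℝ} (hD : ∀ N l, Continuous (D N l))
    (hD0 : ∀ (N l : ℕ) (x : E n), (N : ℝ) < ‖x‖ → D N l x = 0)
    (hDd : ∀ (N : ℕ) (g : E n → ℝ), Continuous g → (∀ x, (N : ℝ) < ‖x‖ → g x = 0) → ∀ ε > 0, ∃ l, ∀ x, |g x - D N l x| ≤ ε)
    {m : ℕ → ℕ} (hm : Tendsto m atTop atTop)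
    (hc : ∀ j, ∀ N ≤ m j, ∀ l ≤ m j, |(∫ y, D N l y ∂(ν j)) - ∫ y, D N l y ∂(μ j)| ≤ 1 / ((m j : ℝ) + 1))
    (hν : GmtWk univ ν μ') (hb : ∀ R : ℝ, ∃ C : ℝ, 0 ≤ C ∧ (∀ j, μ j (closedBall 0 R) ≤ ENNReal.ofReal C) ∧
      μ' (closedBall 0 R) ≤ ENNReal.ofReal C) : GmtWk univ μ μ' := by
  intro g hg hgc _
  obtain ⟨R, hR⟩ := hgc.isCompact.isBounded.subset_closedBall (0 : E n)
  obtain ⟨N, hN⟩ := exists_nat_ge R
  have hg0 : ∀ x, (N : ℝ) < ‖x‖ → g x = 0 := by
    intro x hx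
    apply image_eq_zero_of_notMem_tsupport
    intro hxs
    have := hR hxs
    rw [mem_closedBall, dist_zero_right] at this
    linarith
  obtain ⟨C, hC, hbj, hb'⟩ := hb N
  rw [Metric.tendsto_atTop]
  intro ε hε
  set η := ε / (4 * (C + 1)) with hη
  have hηpos : 0 < η := by positivity
  have hηC : η * C ≤ ε / 4 := by
    rw [hη, div_mul_eq_mul_div, div_le_iff₀ (by positivity)]
    nlinarith
  obtain ⟨l, hl⟩ := hDd N g hg hg0 η hηpos
  have hDc : HasCompactSupport (D N l) :=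
    HasCompactSupport.intro (isCompact_closedBall (0 : E n) N) fun y hy => hD0 N l y (by
      rw [mem_closedBall, dist_zero_right, not_le] at hy; exact hy)
  have h3 := hν (D N l) (hD N l) hDc (subset_univ _)
  rw [Metric.tendsto_atTop] at h3
  obtain ⟨j1, hj1⟩ := h3 (ε / 8) (by positivity)
  obtain ⟨M, hM⟩ := exists_nat_gt (8 / ε)
  obtain ⟨j2, hj2⟩ := eventually_atTop.1 (tendsto_atTop.1 hm (max (max N l) M))
  refine ⟨max j1 j2, fun j hj => ?_⟩
  have hmj := hj2 j ((le_max_right _ _).trans hj)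
  have hNm : N ≤ m j := (le_max_left _ _).trans ((le_max_left _ _).trans hmj)
  have hlm : l ≤ m j := (le_max_right _ _).trans ((le_max_left _ _).trans hmj)
  have hMm : (M : ℝ) ≤ m j := by exact_mod_cast (le_max_right _ _).trans hmj
  have t1 := htk_integral_close hg (hD N l) hg0 (hD0 N l) hl hC (hbj j)
  have t2 := hc j N hNm l hlm
  have t3 := hj1 j ((le_max_left _ _).trans hj)
  have t4 := htk_integral_close hg (hD N l) hg0 (hD0 N l) hl hC hb'
  have t5 : 1 / ((m j : ℝ) + 1) ≤ ε / 8 := by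
    rw [div_le_iff₀ (by positivity)]
    have : 8 / ε < (m j : ℝ) + 1 := by linarith
    rw [div_lt_iff₀ hε] at this
    linarith
  rw [Real.dist_eq] at t3 ⊢
  rw [abs_lt] at t3 ⊢
  rw [abs_le] at t1 t2 t4
  constructor <;> linarith [t1.1, t1.2, t2.1, t2.2, t3.1, t3.2, t4.1, t4.2]

end Claimed.Agent.R323
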