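import Claimed.Agent.R323.Ht.LimA
import Claimed.Agent.R323.Ht.LimV

/-!
# Row 323, block C, LIM: L2, the lower density bound of the limit measure.   (architect + prover: helper34)   Prefix `htlo_`.

`x ∈ Ω ∩ spt μ`.  For `r₀` small there are, frequently in `i`, points `x_i ∈ ball x r₀` with `|U_i(x_i)| < 3/4`: otherwise `ht_clear` gives `μ (ball x (r₀/2)) = 0`.
`ht_lower` (`b = 1/4`) at `x_i` and at the radius `r/2`, and upper semicontinuity on closed balls.
-/

set_option autoImplicit false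
open scoped ContDiff ENNReal NNReal RealInnerProductSpace Topology
open MeasureTheory Metric Set Filter

namespace Claimed.Agent.R323

open Claimed.Agent.Gmt

variable {n : ℕ}

/-- the mass measure of a measurable bounded set. -/
theorem htlo_apply (hn : 3 ≤ n) {κ : ℝ} {q : E n} {U : E n → ℝ} (h : HtAC n κ q U) {B : Set (E n)} (hB : MeasurableSet B)
    (hb : Bornology.IsBounded B) : htMu n κ q U B = ENNReal.ofReal (∫ y in B, htD n κ q U y) := by
  have hi : IntegrableOn (htD n κ q U) B :=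
    ((ht_pair hn h).lint.integrableOn_isCompact hb.isCompact_closure).mono_set subset_closure
  unfold htMu
  rw [withDensity_apply _ hB, ofReal_integral_eq_lintegral_ofReal hi (Eventually.of_forall fun y => ht_D_nonneg hn h y)]

theorem htlo_fin (hn : 3 ≤ n) {κ : ℝ} {q : E n} {U : E n → ℝ} (h : HtAC n κ q U) (K : Set (E n)) (hK : IsCompact K) :
    htMu n κ q U K ≠ ⊤ := by
  rw [htlo_apply hn h hK.measurableSet hK.isBounded]
  exact ENNReal.ofReal_ne_top

variable {a : ℝ} {Ω : Set (E n)} {κ : ℕ → ℝ} {q : ℕ → E n} {U : ℕ → E n → ℝ} {μ ζ : Measure (E n)}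
  {A : E n → E n →L[ℝ] E n} {S : Set (E n)}

/-- the vertex carries no mass. -/
theorem htlo_ae_mem (hn : 3 ≤ n) (hΩc : Ωᶜ ⊆ {0}) (h : HtSeq n a Ω κ q U) (hc : HtConv n κ q U μ ζ A S) : ∀ᵐ x ∂μ, x ∈ Ω := by
  have h0 : μ {0} = 0 := by
    have hlim : Tendsto (fun r : ℝ => ENNReal.ofReal (a / ((n : ℝ) - 1) * r ^ (n - 1))) (𝓝[>] 0) (𝓝 0) := by
      have h1 : Tendsto (fun r : ℝ => a / ((n : ℝ) - 1) * r ^ (n - 1)) (𝓝 0) (𝓝 (a / ((n : ℝ) - 1) * 0 ^ (n - 1))) :=
        (continuous_const.mul (continuous_pow _)).tendsto 0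
      rw [zero_pow (by omega), mul_zero] at h1
      have h2 := (ENNReal.continuous_ofReal.tendsto 0).comp (h1.mono_left (nhdsWithin_le_nhds (s := Ioi (0 : ℝ))))
      rw [ENNReal.ofReal_zero] at h2
      exact h2
    refine le_antisymm (ge_of_tendsto hlim ?_) zero_le
    filter_upwards [self_mem_nhdsWithin] with r hr
    exact (measure_mono (singleton_subset_iff.2 (mem_closedBall_self (le_of_lt hr)))).trans (ht_lim_upper hn h hc 0 hr)
  exact ae_iff.2 (measure_mono_null hΩc h0)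

/-- clearing out in the limit: transition points accumulate at every point of the support. -/
theorem htlo_freq (hn : 3 ≤ n) (h : HtSeq n a Ω κ q U) (hc : HtConv n κ q U μ ζ A S) {x : E n} (hx : x ∈ Ω)
    {r₀ : ℝ} (hr₀ : 0 < r₀) (hq : ∀ᶠ i in atTop, 2 * r₀ ≤ ‖x - q i‖) (hpos : 0 < μ (ball x (r₀ / 2))) :
    ∃ᶠ i in atTop, ∃ y ∈ ball x r₀, |U i y| < 3 / 4 := by
  obtain ⟨C, hC, hclear⟩ := ht_clear hn
  by_contra hcon
  rw [not_frequently] at hcon
  have hall : ∀ᶠ i in atTop, ∀ y ∈ ball x r₀, 3 / 4 ≤ |U i y| := by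
    filter_upwards [hcon] with i hi y hy
    by_contra hlt
    exact hi ⟨y, hy, not_le.1 hlt⟩
  have hbd : ∀ δ > 0, μ (ball x (r₀ / 2)) ≤ ENNReal.ofReal (C * δ * r₀ ^ (n - 2)) := by
    intro δ hδ
    refine htv_ball_le hc.wk hc.fin (fun i K hK => htlo_fin hn (h.ac i) K hK) ?_
    filter_upwards [hall, hq, h.small {x} isCompact_singleton (singleton_subset_iff.2 hx) δ hδ] with i h1 h2 h3
    rw [htlo_apply hn (h.ac i) measurableSet_ball isBounded_ball]
    refine ENNReal.ofReal_le_ofReal ((hclear _ _ _ (h.ac i) x r₀ hr₀ h2 h1).trans ?_)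
    have := h3 x rfl
    gcongr
  have hlim : Tendsto (fun δ : ℝ => ENNReal.ofReal (C * δ * r₀ ^ (n - 2))) (𝓝[>] 0) (𝓝 0) := by
    have h1 : Tendsto (fun δ : ℝ => C * δ * r₀ ^ (n - 2)) (𝓝 0) (𝓝 (C * 0 * r₀ ^ (n - 2))) :=
      ((continuous_const.mul continuous_id).mul continuous_const).tendsto 0
    rw [mul_zero, zero_mul] at h1
    have h2 := (ENNReal.continuous_ofReal.tendsto 0).comp (h1.mono_left (nhdsWithin_le_nhds (s := Ioi (0 : ℝ))))
    rw [ENNReal.ofReal_zero] at h2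
    exact h2
  have h0 : μ (ball x (r₀ / 2)) ≤ 0 := by
    refine ge_of_tendsto hlim ?_
    filter_upwards [self_mem_nhdsWithin] with δ hδ using hbd δ hδ
  exact absurd hpos (not_lt.2 h0)

/-- L2: lower density bound (the constant depends only on `n`). -/
theorem htlo_main (hn : 3 ≤ n) : ∃ c₀ : ℝ, 0 < c₀ ∧ ∀ (a : ℝ) (Ω : Set (E n)) (κ : ℕ → ℝ) (q : ℕ → E n) (U : ℕ → E n → ℝ)
    (μ ζ : Measure (E n)) (A : E n → E n →L[ℝ] E n) (S : Set (E n)), IsOpen Ω → Ωᶜ ⊆ {0} → HtSeq n a Ω κ q U →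
    HtConv n κ q U μ ζ A S → ∀ᵐ x ∂μ, ∀ r > 0, ENNReal.ofReal (c₀ * r ^ (n - 1)) ≤ μ (closedBall x r) := by
  obtain ⟨c, hc0, hlow⟩ := ht_lower hn (b := 1 / 4) (by norm_num) (by norm_num)
  refine ⟨c / 2 ^ (n - 1), by positivity, ?_⟩
  intro a Ω κ q U μ ζ A S hΩ hΩc h hc
  filter_upwards [htlo_ae_mem hn hΩc h hc, Measure.support_mem_ae (μ := μ)] with x hxΩ hxs r hr
  have hxs' := (Measure.mem_support_iff_forall x).1 hxs
  obtain ⟨c', hc', haway⟩ := h.away {x} isCompact_singleton (singleton_subset_iff.2 hxΩ)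
  obtain ⟨r₁, hr₁, hr₁Ω⟩ := Metric.nhds_basis_closedBall.mem_iff.1 (hΩ.mem_nhds hxΩ)
  obtain ⟨r₀, hr₀, hr₀1, hr₀2, hr₀3⟩ : ∃ r₀ : ℝ, 0 < r₀ ∧ r₀ ≤ r₁ ∧ 2 * r₀ ≤ c' ∧ r₀ ≤ r / 2 :=
    ⟨min r₁ (min (c' / 2) (r / 2)), by positivity, min_le_left _ _,
      by have := (min_le_right r₁ (min (c' / 2) (r / 2))).trans (min_le_left _ _); linarith,
      (min_le_right _ _).trans (min_le_right _ _)⟩
  have hq : ∀ᶠ i in atTop, 2 * r₀ ≤ ‖x - q i‖ := by
    filter_upwards [haway] with i hi using hr₀2.trans (hi x rfl)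
  have hfr := htlo_freq hn h hc hxΩ hr₀ hq (hxs' _ (ball_mem_nhds x (by positivity)))
  have hKΩ : closedBall x r₀ ⊆ Ω := (closedBall_subset_closedBall hr₀1).trans hr₁Ω
  have hκ : ∀ᶠ i in atTop, κ i ≤ 1 / 2 := h.kap.eventually (Iic_mem_nhds (by norm_num))
  refine htv_le_closedBall hc.wk hc.fin (fun i K hK => htlo_fin hn (h.ac i) K hK) ?_
  refine (hfr.and_eventually (hq.and (hκ.and (h.small _ (isCompact_closedBall x r₀) hKΩ (r / 2) (by positivity))))).mono ?_
  rintro i ⟨⟨y, hy, hUy⟩, h1, h2, h3⟩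
  rw [htlo_apply hn (h.ac i) measurableSet_closedBall isBounded_closedBall]
  refine ENNReal.ofReal_le_ofReal ?_
  have hyq : y ≠ q i := by
    rintro rfl
    rw [mem_ball, dist_comm, dist_eq_norm] at hy
    linarith
  have hl := hlow _ _ _ (h.ac i) h2 y hyq (by linarith) (r / 2) (h3 y (ball_subset_closedBall hy))
  have hsub : ball y (r / 2) ⊆ closedBall x r := by
    intro z hz
    rw [mem_ball] at hz hy
    rw [mem_closedBall]
    linarith [dist_triangle z y x]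
  have hint : IntegrableOn (htD n (κ i) (q i) (U i)) (closedBall x r) :=
    (ht_pair hn (h.ac i)).lint.integrableOn_isCompact (isCompact_closedBall x r)
  calc c / 2 ^ (n - 1) * r ^ (n - 1) = c * (r / 2) ^ (n - 1) := by rw [div_pow]; ring
    _ ≤ ∫ z in ball y (r / 2), htD n (κ i) (q i) (U i) z := hl
    _ ≤ ∫ z in closedBall x r, htD n (κ i) (q i) (U i) z :=
        setIntegral_mono_set hint (Eventually.of_forall fun z => ht_D_nonneg hn (h.ac i) z) (Eventually.of_forall hsub)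

end Claimed.Agent.R323
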