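import Claimed.Agent.R323.Ht.LimV

/-!
# Row 323, block C, sub-block LIM, file P: COMPACTNESS OF ENTIRE STATIONARY PAIRS.   (architect: helper143)   PAPER-FREE: Mathlib + `Ht/Defs.lean` (`HtPair`, `htCon`) + `Ht/LimV.lean`.

`htp_compact` : pairs `(lam_i, d_i, M_i)` with locally bounded masses have a subsequence with `d_i lam_i → μ`, `⟪M_i v, v⟫ lam_i → ⟪A v, v⟫ μ` (`HtpLim`);     `htp_lim_pair` : the limit `(μ, 1, A)` is a pair.
No signed measures: only the NONNEGATIVE measures `htpT lam M (e_k + e_l)`; `A` is built from their densities with respect to `μ` by polarisation.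
Prefix `htp_`.  LEAVES `L-HTP-*`: every `sorry`; prove IN PLACE (helpers directly above your theorem), pull before landing.
-/

set_option autoImplicit false
open scoped ContDiff ENNReal NNReal RealInnerProductSpace Topology
open MeasureTheory Metric Set Filter

namespace Claimed.Agent.R323

open Claimed.Agent.Gmt

variable {n : ℕ}

/-! ## 1. The measures of a pair -/

/-- the mass measure `d lam` of a pair (`htMu n κ q U = htpMu volume (htD n κ q U)` by `rfl`) -/
noncomputable def htpMu (lam : Measure (E n)) (d : E n → ℝ) : Measure (E n) := lam.withDensity fun x => ENNReal.ofReal (d x)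

/-- the measure `⟪M v, v⟫ lam` -/
noncomputable def htpT (lam : Measure (E n)) (M : E n → E n →L[ℝ] E n) (v : E n) : Measure (E n) :=
  lam.withDensity fun x => ENNReal.ofReal ⟪M x v, v⟫

theorem htp_eqns_cite : True := by have := @htpMu.eq_1; have := @htpT.eq_1; trivial

section pair

variable {lam : Measure (E n)} {d : E n → ℝ} {M : E n → E n →L[ℝ] E n}

theorem htp_d_nonneg (hn : 1 ≤ n) (hP : HtPair n lam d M) : ∀ᵐ x ∂lam, 0 ≤ d x := by
  filter_upwards [hP.nonneg, hP.le] with x h1 h2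
  have h3 := (h1 (eb ⟨0, hn⟩)).trans (h2 (eb ⟨0, hn⟩))
  simpa using h3

/-- Cauchy-Schwarz for a nonnegative symmetric form -/
theorem htp_cs (L : E n →L[ℝ] E n) (hs : ∀ v w, ⟪L v, w⟫ = ⟪v, L w⟫) (h0 : ∀ v, 0 ≤ ⟪L v, v⟫) (v w : E n) :
    ⟪L v, w⟫ ^ 2 ≤ ⟪L v, v⟫ * ⟪L w, w⟫ := by
  have key : ∀ t : ℝ, 0 ≤ ⟪L w, w⟫ * (t * t) + (2 * ⟪L v, w⟫) * t + ⟪L v, v⟫ := by
    intro t
    have h1 : ⟪L w, v⟫ = ⟪L v, w⟫ := by rw [hs w v, real_inner_comm]
    have h2 := h0 (v + t • w)
    rw [map_add, map_smul, inner_add_left, inner_add_right, inner_add_right, real_inner_smul_left, real_inner_smul_left,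
      real_inner_smul_right, real_inner_smul_right, h1] at h2
    linarith
  have h3 := discrim_le_zero key
  unfold discrim at h3
  nlinarith

/-- **LEAF L-HTP-1** (~40 l.): `x ↦ ⟪M x v, w⟫` is a.e. strongly measurable and `|⟪M x v, w⟫| ≤ d x ‖v‖ ‖w‖` a.e. (Cauchy-Schwarz for the nonnegative symmetric form: `⟪M v, w⟫² ≤ ⟪M v, v⟫ ⟪M w, w⟫`; discriminant of `t ↦ ⟪M (v + t w), v + t w⟫ ≥ 0`,
`discrim_le_zero` or `nlinarith`), hence locally integrable.  Measurability: `hP.mM`, continuity of `L ↦ ⟪L v, w⟫` (`Continuous.comp_aestronglyMeasurable`). -/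
theorem htp_entry (hP : HtPair n lam d M) (v w : E n) :
    AEStronglyMeasurable (fun x => ⟪M x v, w⟫) lam ∧ (∀ᵐ x ∂lam, |⟪M x v, w⟫| ≤ d x * (‖v‖ * ‖w‖)) ∧ LocallyIntegrable (fun x => ⟪M x v, w⟫) lam := by
  have hm : AEStronglyMeasurable (fun x => ⟪M x v, w⟫) lam :=
    (by fun_prop : Continuous fun L : E n →L[ℝ] E n => ⟪L v, w⟫).comp_aestronglyMeasurable hP.mM
  have hb : ∀ᵐ x ∂lam, |⟪M x v, w⟫| ≤ d x * (‖v‖ * ‖w‖) := by
    filter_upwards [hP.symm, hP.nonneg, hP.le] with x h1 h2 h3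
    by_cases hv : v = 0
    · simp [hv]
    have hv' : 0 < ‖v‖ ^ 2 := by positivity
    have hd : 0 ≤ d x := by
      by_contra hc
      have := (h2 v).trans (h3 v)
      nlinarith
    refine abs_le_of_sq_le_sq ?_ (by positivity)
    calc ⟪M x v, w⟫ ^ 2 ≤ ⟪M x v, v⟫ * ⟪M x w, w⟫ := htp_cs (M x) h1 h2 v w
      _ ≤ (d x * ‖v‖ ^ 2) * (d x * ‖w‖ ^ 2) := mul_le_mul (h3 v) (h3 w) (h2 w) (by positivity)
      _ = (d x * (‖v‖ * ‖w‖)) ^ 2 := by ring
  refine ⟨hm, hb, (hP.lint.smul (‖v‖ * ‖w‖)).mono hm ?_⟩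
  filter_upwards [hb] with x hx
  rw [Real.norm_eq_abs]
  refine hx.trans ((le_abs_self _).trans (le_of_eq ?_))
  rw [Real.norm_eq_abs, Pi.smul_apply, smul_eq_mul, mul_comm]

/-- **LEAF L-HTP-2** (~50 l.): `integral_withDensity_eq_integral_toReal_smul₀` (a.e. measurable density, finite), `ENNReal.toReal_ofReal` a.e. (`hP.nonneg`, `htp_d_nonneg`), `smul_eq_mul`, `mul_comm`. -/
theorem htp_integral (hn : 1 ≤ n) (hP : HtPair n lam d M) (g : E n → ℝ) :
    (∫ x, g x ∂(htpMu lam d) = ∫ x, g x * d x ∂lam) ∧ ∀ v, ∫ x, g x ∂(htpT lam M v) = ∫ x, g x * ⟪M x v, v⟫ ∂lam := by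
  constructor
  · unfold htpMu
    rw [integral_withDensity_eq_integral_toReal_smul₀ hP.md.aemeasurable.ennreal_ofReal
      (Eventually.of_forall fun x => ENNReal.ofReal_lt_top)]
    refine integral_congr_ae ?_
    filter_upwards [htp_d_nonneg hn hP] with x hx
    rw [ENNReal.toReal_ofReal hx, smul_eq_mul, mul_comm]
  · intro v
    unfold htpT
    rw [integral_withDensity_eq_integral_toReal_smul₀ (htp_entry hP v v).1.aemeasurable.ennreal_ofReal
      (Eventually.of_forall fun x => ENNReal.ofReal_lt_top)]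
    refine integral_congr_ae ?_
    filter_upwards [hP.nonneg] with x hx
    rw [ENNReal.toReal_ofReal (hx v), smul_eq_mul, mul_comm]

/-- **LEAF L-HTP-3** (~50 l.): `withDensity_mono`-type (`Measure.le_iff`, `withDensity_apply`, `lintegral_mono_ae`), `hP.le`, `ENNReal.ofReal_mul`, `Measure.smul_apply`/`withDensity_smul`;
finiteness on compacts: `hP.lint.integrableOn_isCompact`, `Integrable.lintegral_lt_top`/`ofReal_integral_eq_lintegral_ofReal`. -/
theorem htp_T_le (hP : HtPair n lam d M) (v : E n) :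
    htpT lam M v ≤ (‖v‖₊ ^ 2) • htpMu lam d ∧ ∀ K, IsCompact K → htpMu lam d K ≠ ⊤ := by
  constructor
  · rw [Measure.le_iff]
    intro s hs
    rw [Measure.smul_apply, htpT, htpMu, withDensity_apply _ hs, withDensity_apply _ hs, ENNReal.smul_def, smul_eq_mul,
      ← lintegral_const_mul' _ _ ENNReal.coe_ne_top]
    refine lintegral_mono_ae (ae_restrict_of_ae ?_)
    filter_upwards [hP.le] with x hx
    refine (ENNReal.ofReal_le_ofReal (hx v)).trans (le_of_eq ?_)
    rw [mul_comm, ENNReal.ofReal_mul (by positivity)]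
    congr 1
    rw [ENNReal.coe_pow, ENNReal.ofReal_pow (norm_nonneg _), ofReal_norm]
    rfl
  · intro K hK
    rw [htpMu, withDensity_apply _ hK.measurableSet]
    have h1 := (hP.lint.integrableOn_isCompact hK).2
    refine ne_top_of_le_ne_top h1.ne (lintegral_mono fun x => ?_)
    rw [← ofReal_norm]
    exact ENNReal.ofReal_le_ofReal (le_abs_self _)

end pair

/-! ## 2. Linear algebra -/

theorem htp_polar (L : E n →L[ℝ] E n) (hs : ∀ v w, ⟪L v, w⟫ = ⟪v, L w⟫) (v w : E n) :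
    ⟪L v, w⟫ = (⟪L (v + w), v + w⟫ - ⟪L v, v⟫ - ⟪L w, w⟫) / 2 := by
  have h1 : ⟪L w, v⟫ = ⟪L v, w⟫ := by rw [hs w v, real_inner_comm]
  rw [map_add, inner_add_left, inner_add_right, inner_add_right, h1]
  ring

/-- the operator with the matrix `a` -/
noncomputable def htpOp (a : Fin n → Fin n → ℝ) : E n →L[ℝ] E n := ∑ k, ∑ l, a k l • (innerSL ℝ (eb k : E n)).smulRight (eb l : E n)

theorem htpOp_eqns_cite : True := by have := @htpOp.eq_1; trivial

/-- **LEAF L-HTP-4** (~40 l.): unfold, `ContinuousLinearMap.sum_apply`, `sum_inner`, `inner_smul_left`, `EuclideanSpace.inner_single_left`. -/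
theorem htp_op_apply (a : Fin n → Fin n → ℝ) (v w : E n) : ⟪htpOp a v, w⟫ = ∑ k, ∑ l, a k l * (v k * w l) := by
  unfold htpOp
  simp only [_root_.sum_apply, sum_inner]
  refine Finset.sum_congr rfl fun k _ => Finset.sum_congr rfl fun l _ => ?_
  rw [_root_.smul_apply, ContinuousLinearMap.smulRight_apply, innerSL_apply_apply, real_inner_smul_left,
    real_inner_smul_left, EuclideanSpace.inner_single_left, EuclideanSpace.inner_single_left]
  simp

/-- a bilinear form in coordinates -/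
theorem htp_coord (L : E n →L[ℝ] E n) (v w : E n) : ⟪L v, w⟫ = ∑ k, ∑ l, ⟪L (eb k), eb l⟫ * (v k * w l) := by
  calc ⟪L v, w⟫ = ⟪L (∑ k, v k • (eb k : E n)), ∑ l, w l • (eb l : E n)⟫ := by rw [gmt_sum_eb, gmt_sum_eb]
    _ = ∑ k, ∑ l, ⟪L (eb k), eb l⟫ * (v k * w l) := by
      rw [map_sum, sum_inner]
      refine Finset.sum_congr rfl fun k _ => ?_
      rw [inner_sum]
      refine Finset.sum_congr rfl fun l _ => ?_
      rw [map_smul, real_inner_smul_left, real_inner_smul_right]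
      ring

/-- **LEAF L-HTP-5** (~60 l.): expansion of a symmetric quadratic form in the values on `e_k + e_l`.  `v = ∑ v_k e_k` (`gmt_sum_eb`), bilinearity, `htp_polar` for `(e_k, e_l)`, `⟪L e_k, e_k⟫ = ⟪L (e_k + e_k), e_k + e_k⟫ / 4`. -/
theorem htp_expand (L : E n →L[ℝ] E n) (hs : ∀ v w, ⟪L v, w⟫ = ⟪v, L w⟫) (v : E n) :
    ⟪L v, v⟫ = ∑ k, ∑ l, ((⟪L (eb k + eb l), eb k + eb l⟫ + ⟪L (eb l + eb k), eb l + eb k⟫) / 4
      - (⟪L (eb k + eb k), eb k + eb k⟫ + ⟪L (eb l + eb l), eb l + eb l⟫) / 8) * (v k * v l) := by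
  rw [htp_coord L v v]
  refine Finset.sum_congr rfl fun k _ => Finset.sum_congr rfl fun l _ => ?_
  congr 1
  have h1 : ⟪L (eb l), (eb k : E n)⟫ = ⟪L (eb k), (eb l : E n)⟫ := by rw [hs (eb l) (eb k), real_inner_comm]
  simp only [map_add, inner_add_left, inner_add_right, h1]
  ring

/-- a property which is closed in `v` and holds a.e. for each `v` holds a.e. for all `v` -/
theorem htp_ae_all {μ : Measure (E n)} {F : E n → E n → ℝ} (hF : ∀ x, Continuous (F x)) (h : ∀ v, ∀ᵐ x ∂μ, 0 ≤ F x v) :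
    ∀ᵐ x ∂μ, ∀ v, 0 ≤ F x v := by
  have h1 : ∀ᵐ x ∂μ, ∀ k : ℕ, 0 ≤ F x (TopologicalSpace.denseSeq (E n) k) := ae_all_iff.2 fun k => h _
  filter_upwards [h1] with x hx v
  have hc : IsClosed {v | 0 ≤ F x v} := isClosed_le continuous_const (hF x)
  have hd : Dense {v | 0 ≤ F x v} := (TopologicalSpace.denseRange_denseSeq (E n)).mono (by rintro _ ⟨k, rfl⟩; exact hx k)
  have h2 : {v | 0 ≤ F x v} = univ := hc.closure_eq ▸ hd.closure_eq
  have h3 : v ∈ {v | 0 ≤ F x v} := by rw [h2]; exact mem_univ v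
  exact h3

/-! ## 3. Limits of pairs -/

/-- a convergent sequence of pairs -/
structure HtpLim (lam : ℕ → Measure (E n)) (d : ℕ → E n → ℝ) (M : ℕ → E n → E n →L[ℝ] E n) (μ : Measure (E n)) (A : E n → E n →L[ℝ] E n) : Prop where
  fin : ∀ K, IsCompact K → μ K ≠ ⊤
  mA : Measurable A
  symm : ∀ x v w, ⟪A x v, w⟫ = ⟪v, A x w⟫
  bdd : ∃ C : ℝ, ∀ x, ‖A x‖ ≤ C
  wk : GmtWk univ (fun i => htpMu (lam i) (d i)) μ
  wkM : ∀ (v : E n) (g : E n → ℝ), Continuous g → HasCompactSupport g →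
    Tendsto (fun i => ∫ x, g x * ⟪M i x v, v⟫ ∂(lam i)) atTop (𝓝 (∫ x, g x * ⟪A x v, v⟫ ∂μ))

/-- integration of the polarisation formula, term by term -/
theorem htp_int_expand {ρ : Measure (E n)} (g : E n → ℝ) (q : Fin n → Fin n → E n → ℝ)
    (hq : ∀ k l, Integrable (fun x => g x * q k l x) ρ) (v : E n) :
    ∫ x, g x * ∑ k, ∑ l, ((q k l x + q l k x) / 4 - (q k k x + q l l x) / 8) * (v k * v l) ∂ρ
      = ∑ k, ∑ l, ((∫ x, g x * q k l x ∂ρ + ∫ x, g x * q l k x ∂ρ) / 4
        - (∫ x, g x * q k k x ∂ρ + ∫ x, g x * q l l x ∂ρ) / 8) * (v k * v l) := by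
  have hterm : ∀ k l, Integrable (fun x => ((g x * q k l x + g x * q l k x) / 4 - (g x * q k k x + g x * q l l x) / 8) * (v k * v l)) ρ :=
    fun k l => ((((hq k l).add (hq l k)).div_const 4).sub (((hq k k).add (hq l l)).div_const 8)).mul_const _
  have e : ∀ x, g x * ∑ k, ∑ l, ((q k l x + q l k x) / 4 - (q k k x + q l l x) / 8) * (v k * v l)
      = ∑ k, ∑ l, ((g x * q k l x + g x * q l k x) / 4 - (g x * q k k x + g x * q l l x) / 8) * (v k * v l) := by
    intro x
    rw [Finset.mul_sum]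
    refine Finset.sum_congr rfl fun k _ => ?_
    rw [Finset.mul_sum]
    refine Finset.sum_congr rfl fun l _ => ?_
    ring
  simp only [e]
  rw [integral_finsetSum _ fun k _ => integrable_finsetSum _ fun l _ => hterm k l]
  refine Finset.sum_congr rfl fun k _ => ?_
  rw [integral_finsetSum _ fun l _ => hterm k l]
  refine Finset.sum_congr rfl fun l _ => ?_
  have h1 : Integrable (fun x => (g x * q k l x + g x * q l k x) / 4) ρ := ((hq k l).add (hq l k)).div_const 4
  have h2 : Integrable (fun x => (g x * q k k x + g x * q l l x) / 8) ρ := ((hq k k).add (hq l l)).div_const 8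
  rw [integral_mul_const, integral_sub h1 h2, integral_div, integral_div, integral_add (hq k l) (hq l k),
    integral_add (hq k k) (hq l l)]

/-- **LEAF L-HTP-6** (~250 l.; may be split).   **Compactness.**
PLAN.  Family of sequences indexed by `Option (Fin n × Fin n)`: `none ↦ htpMu (lam i) (d i)`, `some (k, l) ↦ htpT (lam i) (M i) (eb k + eb l)`; masses of closed balls eventually bounded (`hb`, `htp_T_le`, `‖eb k + eb l‖₊² ≤ 4`).  `htv_compact` gives `φ`, limits `μ`, `τ k l`.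
`τ k l ≤ 4 • μ`: `htv_le_of_test` on `W = univ` (`Measure.restrict_univ`) with `∫ g d(4 • μ) = 4 ∫ g dμ` (`integral_smul_nnreal_measure`), limits of `∫ g dτ_i ≤ 4 ∫ g dμ_i` (`integral_mono_measure`; integrability `gmt_integrable_of_cc`), `le_of_tendsto_of_tendsto'`.
`htv_density` gives measurable `f k l`, `0 ≤ f ≤ 4`, `∫ g dτ k l = ∫ g f k l dμ`.   `A x := htpOp fun k l => (f k l x + f l k x) / 4 - (f k k x + f l l x) / 8`.
`mA`: finite sums of `measurable scalar • constant` (`Measurable.smul_const`, `Finset.measurable_sum`);  `symm`: `htp_op_apply`, swap the two sums (`Finset.sum_comm`), the matrix is symmetric;  `bdd`: `norm_sum_le`, each coefficient `≤ 3`, `C = 3 n² max‖..‖` (any bound).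
`wkM`: `htp_expand` for `M i x` (a.e., `HtPair.symm`) and `htp_op_apply` for `A x`; `integral_finset_sum`, `integral_mul_const`/`integral_const_mul`, `htp_integral`, `tendsto_finset_sum`, `Tendsto.mul_const`, `Tendsto.add/sub/div_const`. -/
theorem htp_compact (hn : 1 ≤ n) (lam : ℕ → Measure (E n)) (d : ℕ → E n → ℝ) (M : ℕ → E n → E n →L[ℝ] E n)
    (hP : ∀ i, HtPair n (lam i) (d i) (M i))
    (hb : ∀ R : ℝ, ∃ C : ℝ≥0, ∀ᶠ i in atTop, htpMu (lam i) (d i) (closedBall 0 R) ≤ C) :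
    ∃ (φ : ℕ → ℕ) (μ : Measure (E n)) (A : E n → E n →L[ℝ] E n), StrictMono φ ∧
      HtpLim (fun i => lam (φ i)) (fun i => d (φ i)) (fun i => M (φ i)) μ A := by
  classical
  -- the family of sequences
  let F : Option (Fin n × Fin n) → ℕ → Measure (E n) := fun a i =>
    match a with
    | none => htpMu (lam i) (d i)
    | some q => htpT (lam i) (M i) (eb q.1 + eb q.2)
  have hbF : ∀ (a : Option (Fin n × Fin n)) (R : ℝ), ∃ C : ℝ≥0, ∀ᶠ i in atTop, F a i (closedBall 0 R) ≤ C := by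
    intro a R
    obtain ⟨C, hC⟩ := hb R
    cases a with
    | none => exact ⟨C, hC⟩
    | some q =>
      refine ⟨‖(eb q.1 + eb q.2 : E n)‖₊ ^ 2 * C, ?_⟩
      filter_upwards [hC] with i hi
      refine ((htp_T_le (hP i) (eb q.1 + eb q.2)).1 _).trans ?_
      rw [Measure.smul_apply, ENNReal.smul_def, smul_eq_mul, ENNReal.coe_mul]
      exact mul_le_mul_right hi _
  obtain ⟨φ, hφ, hlim⟩ := htv_compact F hbF
  obtain ⟨μ, hμf, hμ⟩ := hlim none
  have hτex : ∀ k l : Fin n, ∃ τ : Measure (E n), (∀ K, IsCompact K → τ K ≠ ⊤) ∧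
      GmtWk univ (fun i => htpT (lam (φ i)) (M (φ i)) (eb k + eb l)) τ := fun k l => hlim (some (k, l))
  choose τ hτf hτ using hτex
  -- domination
  have hdom : ∀ k l : Fin n, τ k l ≤ (‖(eb k + eb l : E n)‖₊ ^ 2) • μ := by
    intro k l
    have h1 := htv_le_of_test (μ := (‖(eb k + eb l : E n)‖₊ ^ 2) • μ) (ν := τ k l) (W := univ) (fun K hK => by
      rw [Measure.smul_apply, ENNReal.smul_def, smul_eq_mul]
      exact ENNReal.mul_ne_top ENNReal.coe_ne_top (hμf K hK)) (hτf k l) isOpen_univ (fun g hg hc hs h0 => by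
      rw [integral_smul_nnreal_measure, NNReal.smul_def, smul_eq_mul]
      refine le_of_tendsto_of_tendsto' (hτ k l g hg hc hs) ((hμ g hg hc hs).const_mul _) fun i => ?_
      have h2 := (htp_T_le (hP (φ i)) (eb k + eb l)).1
      have hfin : ((‖(eb k + eb l : E n)‖₊ ^ 2) • htpMu (lam (φ i)) (d (φ i))) (tsupport g) ≠ ⊤ := by
        rw [Measure.smul_apply, ENNReal.smul_def, smul_eq_mul]
        exact ENNReal.mul_ne_top ENNReal.coe_ne_top ((htp_T_le (hP (φ i)) (eb k + eb l)).2 _ hc)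
      have h3 := integral_mono_measure h2 (Eventually.of_forall h0) (gmt_integrable_of_cc hg hc hfin)
      rwa [integral_smul_nnreal_measure, NNReal.smul_def, smul_eq_mul] at h3)
    rwa [Measure.restrict_univ, Measure.restrict_univ] at h1
  have hfex := fun k l => htv_density hμf (hdom k l)
  choose f hfm hfb _ hfi using hfex
  -- the limit operator
  let a : E n → Fin n → Fin n → ℝ := fun x k l => (f k l x + f l k x) / 4 - (f k k x + f l l x) / 8
  have hasymm : ∀ x k l, a x l k = a x k l := by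
    intro x k l
    show (f l k x + f k l x) / 4 - (f l l x + f k k x) / 8 = (f k l x + f l k x) / 4 - (f k k x + f l l x) / 8
    ring
  have iμ : IsFiniteMeasureOnCompacts μ := ⟨fun K hK => (hμf K hK).lt_top⟩
  have hfloc : ∀ k l, LocallyIntegrable (f k l) μ := by
    intro k l
    refine (locallyIntegrable_const ((‖(eb k + eb l : E n)‖₊ ^ 2 : ℝ≥0) : ℝ)).mono (hfm k l).aestronglyMeasurable
      (Eventually.of_forall fun x => ?_)
    rw [Real.norm_of_nonneg (hfb k l x).1]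
    exact (hfb k l x).2.trans (le_abs_self _)
  refine ⟨φ, μ, fun x => htpOp (a x), hφ, hμf, ?_, ?_, ?_, hμ, ?_⟩
  · -- measurability
    have hc : Continuous (htpOp : (Fin n → Fin n → ℝ) → E n →L[ℝ] E n) := by
      unfold htpOp
      fun_prop
    refine hc.measurable.comp (measurable_pi_iff.2 fun k => measurable_pi_iff.2 fun l => ?_)
    exact (((hfm k l).add (hfm l k)).div_const 4).sub (((hfm k k).add (hfm l l)).div_const 8)
  · intro x v w
    rw [real_inner_comm (htpOp (a x) w) v, htp_op_apply, htp_op_apply, Finset.sum_comm]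
    refine Finset.sum_congr rfl fun k _ => Finset.sum_congr rfl fun l _ => ?_
    rw [hasymm]
    ring
  · -- boundedness
    refine ⟨∑ k : Fin n, ∑ l : Fin n, (((‖(eb k + eb l : E n)‖₊ ^ 2 : ℝ≥0) : ℝ) + ((‖(eb l + eb k : E n)‖₊ ^ 2 : ℝ≥0) : ℝ)
      + ((‖(eb k + eb k : E n)‖₊ ^ 2 : ℝ≥0) : ℝ) + ((‖(eb l + eb l : E n)‖₊ ^ 2 : ℝ≥0) : ℝ))
        * ‖(innerSL ℝ (eb k : E n)).smulRight (eb l : E n)‖, fun x => ?_⟩
    unfold htpOp
    refine (norm_sum_le _ _).trans (Finset.sum_le_sum fun k _ => (norm_sum_le _ _).trans (Finset.sum_le_sum fun l _ => ?_))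
    rw [norm_smul]
    refine mul_le_mul_of_nonneg_right ?_ (norm_nonneg _)
    have b1 := hfb k l x
    have b2 := hfb l k x
    have b3 := hfb k k x
    have b4 := hfb l l x
    show |(f k l x + f l k x) / 4 - (f k k x + f l l x) / 8| ≤ _
    rw [abs_le]
    constructor <;> linarith [b1.1, b1.2, b2.1, b2.2, b3.1, b3.2, b4.1, b4.2]
  · -- convergence of the quadratic forms
    intro v g hg hc
    have e1 : ∀ i, ∫ x, g x * ⟪M (φ i) x v, v⟫ ∂(lam (φ i))
        = ∑ k, ∑ l, ((∫ x, g x ∂(htpT (lam (φ i)) (M (φ i)) (eb k + eb l)) + ∫ x, g x ∂(htpT (lam (φ i)) (M (φ i)) (eb l + eb k))) / 4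
          - (∫ x, g x ∂(htpT (lam (φ i)) (M (φ i)) (eb k + eb k)) + ∫ x, g x ∂(htpT (lam (φ i)) (M (φ i)) (eb l + eb l))) / 8) * (v k * v l) := by
      intro i
      simp only [(htp_integral hn (hP (φ i)) g).2]
      rw [← htp_int_expand g (fun k l x => ⟪M (φ i) x (eb k + eb l), eb k + eb l⟫)
        (fun k l => htv_integrable_mul (htp_entry (hP (φ i)) _ _).2.2 hg hc) v]
      refine integral_congr_ae ?_
      filter_upwards [(hP (φ i)).symm] with x hx
      rw [htp_expand (M (φ i) x) hx v]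
    have e2 : ∫ x, g x * ⟪htpOp (a x) v, v⟫ ∂μ
        = ∑ k, ∑ l, ((∫ x, g x ∂(τ k l) + ∫ x, g x ∂(τ l k)) / 4 - (∫ x, g x ∂(τ k k) + ∫ x, g x ∂(τ l l)) / 8) * (v k * v l) := by
      simp only [hfi]
      rw [← htp_int_expand g f (fun k l => htv_integrable_mul (hfloc k l) hg hc) v]
      refine integral_congr_ae (Eventually.of_forall fun x => ?_)
      simp only
      rw [htp_op_apply]
    simp only [e1]
    rw [e2]
    have hs : tsupport g ⊆ univ := subset_univ _
    exact tendsto_finsetSum _ fun k _ => tendsto_finsetSum _ fun l _ =>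
      (((((hτ k l g hg hc hs).add (hτ l k g hg hc hs)).div_const 4).sub
        (((hτ k k g hg hc hs).add (hτ l l g hg hc hs)).div_const 8)).mul_const _)

section lim

variable {lam : ℕ → Measure (E n)} {d : ℕ → E n → ℝ} {M : ℕ → E n → E n →L[ℝ] E n} {μ : Measure (E n)} {A : E n → E n →L[ℝ] E n}

theorem HtpLim.comp (h : HtpLim lam d M μ A) {φ : ℕ → ℕ} (hφ : StrictMono φ) :
    HtpLim (fun i => lam (φ i)) (fun i => d (φ i)) (fun i => M (φ i)) μ A :=
  ⟨h.fin, h.mA, h.symm, h.bdd, htv_wk_comp h.wk hφ, fun v g hg hc => (h.wkM v g hg hc).comp hφ.tendsto_atTop⟩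

/-- **LEAF L-HTP-7** (~40 l.): entries of the limit are bounded measurable, hence locally integrable (`h.fin`: `IsFiniteMeasureOnCompacts`/`locallyIntegrable_const`-type; `LocallyIntegrable.mono`, or `Measure.integrableOn_of_bounded` on compacts + `locallyIntegrable_iff`). -/
theorem htp_lim_entry (h : HtpLim lam d M μ A) (v w : E n) : LocallyIntegrable (fun x => ⟪A x v, w⟫) μ ∧ LocallyIntegrable (fun _ : E n => (1 : ℝ)) μ := by
  have iμ : IsFiniteMeasureOnCompacts μ := ⟨fun K hK => (h.fin K hK).lt_top⟩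
  obtain ⟨C, hC⟩ := h.bdd
  refine ⟨(locallyIntegrable_const (C * ‖v‖ * ‖w‖)).mono ?_ (Eventually.of_forall fun x => ?_), locallyIntegrable_const 1⟩
  · exact ((by fun_prop : Continuous fun L : E n →L[ℝ] E n => ⟪L v, w⟫).measurable.comp h.mA).aestronglyMeasurable
  · refine (norm_inner_le_norm _ _).trans (le_trans ?_ (le_abs_self _))
    exact mul_le_mul_of_nonneg_right (((A x).le_opNorm v).trans (mul_le_mul_of_nonneg_right (hC x) (norm_nonneg _))) (norm_nonneg _)

/-- **LEAF L-HTP-8** (~70 l.): the bilinear convergence: `htp_polar` for `M i x` (a.e.) and for `A x`; `integral_sub`, `integral_div`, integrability by `htv_integrable_mul` + `htp_entry` / `htp_lim_entry`; `h.wkM` three times. -/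
theorem htp_lim_bilin (hP : ∀ i, HtPair n (lam i) (d i) (M i)) (h : HtpLim lam d M μ A) (v w : E n) (g : E n → ℝ) (hg : Continuous g) (hc : HasCompactSupport g) :
    Tendsto (fun i => ∫ x, g x * ⟪M i x v, w⟫ ∂(lam i)) atTop (𝓝 (∫ x, g x * ⟪A x v, w⟫ ∂μ)) := by
  have hi : ∀ i (a b : E n), Integrable (fun x => g x * ⟪M i x a, b⟫) (lam i) :=
    fun i a b => htv_integrable_mul (htp_entry (hP i) a b).2.2 hg hc
  have hl : ∀ a b : E n, Integrable (fun x => g x * ⟪A x a, b⟫) μ := fun a b => htv_integrable_mul (htp_lim_entry h a b).1 hg hc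
  have e1 : ∀ i, ∫ x, g x * ⟪M i x v, w⟫ ∂(lam i)
      = (∫ x, g x * ⟪M i x (v + w), v + w⟫ ∂(lam i) - ∫ x, g x * ⟪M i x v, v⟫ ∂(lam i) - ∫ x, g x * ⟪M i x w, w⟫ ∂(lam i)) / 2 := by
    intro i
    have hsub : Integrable (fun x => g x * ⟪M i x (v + w), v + w⟫ - g x * ⟪M i x v, v⟫) (lam i) := (hi i _ _).sub (hi i _ _)
    rw [← integral_sub (hi i _ _) (hi i _ _), ← integral_sub hsub (hi i _ _), ← integral_div]
    refine integral_congr_ae ?_
    filter_upwards [(hP i).symm] with x hx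
    rw [htp_polar (M i x) hx v w]
    ring
  have e2 : ∫ x, g x * ⟪A x v, w⟫ ∂μ
      = (∫ x, g x * ⟪A x (v + w), v + w⟫ ∂μ - ∫ x, g x * ⟪A x v, v⟫ ∂μ - ∫ x, g x * ⟪A x w, w⟫ ∂μ) / 2 := by
    have hsub : Integrable (fun x => g x * ⟪A x (v + w), v + w⟫ - g x * ⟪A x v, v⟫) μ := (hl _ _).sub (hl _ _)
    rw [← integral_sub (hl _ _) (hl _ _), ← integral_sub hsub (hl _ _), ← integral_div]
    refine integral_congr_ae (Eventually.of_forall fun x => ?_)
    simp only
    rw [htp_polar (A x) (h.symm x) v w]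
    ring
  simp only [e1]
  rw [e2]
  exact (((h.wkM (v + w) g hg hc).sub (h.wkM v g hg hc)).sub (h.wkM w g hg hc)).div_const 2

/-- **LEAF L-HTP-9** (~80 l.): `0 ≤ A ≤ 1`.   For fixed `v`: `htv_ae_nonneg` on `W = univ` for `f = ⟪A · v, v⟫`, resp. `f = ‖v‖² - ⟪A · v, v⟫`: `∫ g f dμ = lim ∫ g ⟪M_i v, v⟫ ≥ 0` (`ge_of_tendsto'`, `integral_nonneg_of_ae`), resp. `lim (‖v‖² ∫ g d_i - ∫ g ⟪M_i v, v⟫) ≥ 0`
(`h.wk`, `htp_integral`, `hP.le`).   Then `htp_ae_all`. -/
theorem htp_lim_bounds (hn : 1 ≤ n) (hP : ∀ i, HtPair n (lam i) (d i) (M i)) (h : HtpLim lam d M μ A) :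
    (∀ᵐ x ∂μ, ∀ v : E n, 0 ≤ ⟪A x v, v⟫) ∧ ∀ᵐ x ∂μ, ∀ v : E n, ⟪A x v, v⟫ ≤ 1 * ‖v‖ ^ 2 := by
  have hA : ∀ x, Continuous fun v : E n => ⟪A x v, v⟫ := fun x => by fun_prop
  constructor
  · refine htp_ae_all hA fun v => ?_
    have h1 := htv_ae_nonneg (htp_lim_entry h v v).1 isOpen_univ fun g hg hc _ h0 =>
      ge_of_tendsto' (h.wkM v g hg hc) fun i => integral_nonneg_of_ae (by
        filter_upwards [(hP i).nonneg] with x hx
        exact mul_nonneg (h0 x) (hx v))
    filter_upwards [h1] with x hx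
    exact hx (mem_univ x)
  · have h2 : ∀ᵐ x ∂μ, ∀ v : E n, 0 ≤ ‖v‖ ^ 2 - ⟪A x v, v⟫ := by
      refine htp_ae_all (fun x => by fun_prop) fun v => ?_
      have hloc : LocallyIntegrable (fun x => ‖v‖ ^ 2 * 1 - ⟪A x v, v⟫) μ :=
        ((htp_lim_entry h v v).2.smul (‖v‖ ^ 2)).sub (htp_lim_entry h v v).1
      have h1 := htv_ae_nonneg hloc isOpen_univ fun g hg hc hs h0 => by
        have hg1 : Integrable g μ := gmt_integrable_of_cc hg hc (h.fin _ hc)
        have e : ∫ x, g x * (‖v‖ ^ 2 * 1 - ⟪A x v, v⟫) ∂μ = ‖v‖ ^ 2 * ∫ x, g x ∂μ - ∫ x, g x * ⟪A x v, v⟫ ∂μ := by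
          rw [← integral_const_mul, ← integral_sub (hg1.const_mul _) (htv_integrable_mul (htp_lim_entry h v v).1 hg hc)]
          refine integral_congr_ae (Eventually.of_forall fun x => ?_)
          simp only
          ring
        rw [e]
        refine ge_of_tendsto' (((h.wk g hg hc hs).const_mul (‖v‖ ^ 2)).sub (h.wkM v g hg hc)) fun i => ?_
        rw [(htp_integral hn (hP i) g).1, ← integral_const_mul,
          ← integral_sub ((htv_integrable_mul (hP i).lint hg hc).const_mul _) (htv_integrable_mul (htp_entry (hP i) v v).2.2 hg hc)]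
        refine integral_nonneg_of_ae ?_
        filter_upwards [(hP i).le] with x hx
        have := mul_le_mul_of_nonneg_left (hx v) (h0 x)
        simp only [Pi.zero_apply]
        linarith
      filter_upwards [h1] with x hx
      have := hx (mem_univ x)
      linarith
    filter_upwards [h2] with x hx v
    have := hx v
    linarith

/-- **LEAF L-HTP-10** (~60 l.): the trace.  `htv_ae_eq` on `univ`; `∫ g ∑_k ⟪M_i e_k, e_k⟫ = (n-1) ∫ g d_i` (`hP.tr`), `integral_finset_sum`, `tendsto_finset_sum`, uniqueness of limits. -/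
theorem htp_lim_tr (hn : 1 ≤ n) (hP : ∀ i, HtPair n (lam i) (d i) (M i)) (h : HtpLim lam d M μ A) :
    ∀ᵐ x ∂μ, ∑ i, ⟪A x (eb i), eb i⟫ = ((n : ℝ) - 1) * 1 := by
  have hloc1 : LocallyIntegrable (fun x => ∑ i, ⟪A x (eb i), eb i⟫) μ := by
    have : ∀ s : Finset (Fin n), LocallyIntegrable (fun x => ∑ i ∈ s, ⟪A x (eb i), eb i⟫) μ := by
      intro s
      induction s using Finset.induction_on with
      | empty =>
        simp only [Finset.sum_empty]
        exact locallyIntegrable_zero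
      | insert a s ha ih =>
        simp only [Finset.sum_insert ha]
        exact (htp_lim_entry h _ _).1.add ih
    exact this Finset.univ
  have hloc2 : LocallyIntegrable (fun _ : E n => ((n : ℝ) - 1) * 1) μ := (htp_lim_entry h 0 0).2.smul ((n : ℝ) - 1)
  have h1 := htv_ae_eq hloc1 hloc2 isOpen_univ fun g hg hc hs _ => by
    have hg1 : Integrable g μ := gmt_integrable_of_cc hg hc (h.fin _ hc)
    have e1 : ∫ x, g x * ∑ i, ⟪A x (eb i), eb i⟫ ∂μ = ∑ i, ∫ x, g x * ⟪A x (eb i), eb i⟫ ∂μ := by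
      rw [← integral_finsetSum _ fun i _ => htv_integrable_mul (htp_lim_entry h _ _).1 hg hc]
      simp only [Finset.mul_sum]
    have e2 : ∫ x, g x * (((n : ℝ) - 1) * 1) ∂μ = ((n : ℝ) - 1) * ∫ x, g x ∂μ := by
      rw [← integral_const_mul]
      refine integral_congr_ae (Eventually.of_forall fun x => ?_)
      simp only
      ring
    rw [e1, e2]
    refine tendsto_nhds_unique (tendsto_finsetSum _ fun i _ => h.wkM (eb i) g hg hc) ?_
    refine ((h.wk g hg hc hs).const_mul ((n : ℝ) - 1)).congr fun i => ?_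
    rw [(htp_integral hn (hP i) g).1, ← integral_const_mul,
      ← integral_finsetSum _ fun k _ => htv_integrable_mul (htp_entry (hP i) _ _).2.2 hg hc]
    refine integral_congr_ae ?_
    filter_upwards [(hP i).tr] with x hx
    rw [← Finset.mul_sum, hx]
    ring
  filter_upwards [h1] with x hx
  exact hx (mem_univ x)

/-- **LEAF L-HTP-11** (~100 l.): stationarity.   `htCon L B = ∑_i ∑_k ⟪B e_i, e_k⟫ ⟪L e_k, e_i⟫` (`B e_i = ∑_k ⟪B e_i, e_k⟫ e_k`: `gmt_sum_eb`, `EuclideanSpace.inner_single_right`); `g_{ik} x = ⟪fderiv ℝ X x e_i, e_k⟫` is continuous (`hX.c1.continuous_fderiv le_rfl`) with compact support (`hX.cpt.fderiv`);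
`htp_lim_bilin` for each `(i, k)`, `tendsto_finset_sum`; every term of the sequence is `0` (`(hP i).stat X hX`); `tendsto_nhds_unique`. -/
theorem htp_lim_stat (hP : ∀ i, HtPair n (lam i) (d i) (M i)) (h : HtpLim lam d M μ A) (X : E n → E n) (hX : GmtTest univ X) :
    ∫ x, htCon (A x) (fderiv ℝ X x) ∂μ = 0 := by
  have hcon : ∀ (L B : E n →L[ℝ] E n), htCon L B = ∑ i, ∑ k, ⟪B (eb i), eb k⟫ * ⟪L (eb k), eb i⟫ := by
    intro L B
    unfold htCon
    refine Finset.sum_congr rfl fun i _ => ?_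
    have e : B (eb i) = ∑ k, ⟪B (eb i), eb k⟫ • (eb k : E n) := by
      conv_lhs => rw [← gmt_sum_eb (B (eb i))]
      refine Finset.sum_congr rfl fun k _ => ?_
      rw [EuclideanSpace.inner_single_right]
      simp
    conv_lhs => rw [e]
    rw [map_sum, sum_inner]
    refine Finset.sum_congr rfl fun k _ => ?_
    rw [map_smul, real_inner_smul_left]
  have hgc : ∀ i k : Fin n, Continuous fun x => ⟪fderiv ℝ X x (eb i), (eb k : E n)⟫ := by
    intro i k
    have h1 : Continuous (fderiv ℝ X) := hX.c1.continuous_fderiv one_ne_zero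
    fun_prop
  have hgs : ∀ i k : Fin n, HasCompactSupport fun x => ⟪fderiv ℝ X x (eb i), (eb k : E n)⟫ := by
    intro i k
    refine (hX.cpt.fderiv (𝕜 := ℝ)).comp_left (g := fun B : E n →L[ℝ] E n => ⟪B (eb i), (eb k : E n)⟫) ?_
    simp
  have e1 : ∀ i, ∫ x, htCon (M i x) (fderiv ℝ X x) ∂(lam i)
      = ∑ a, ∑ k, ∫ x, ⟪fderiv ℝ X x (eb a), (eb k : E n)⟫ * ⟪M i x (eb k), eb a⟫ ∂(lam i) := by
    intro i
    simp only [hcon]
    rw [integral_finsetSum _ fun a _ => integrable_finsetSum _ fun k _ => htv_integrable_mul (htp_entry (hP i) _ _).2.2 (hgc a k) (hgs a k)]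
    refine Finset.sum_congr rfl fun a _ => ?_
    rw [integral_finsetSum _ fun k _ => htv_integrable_mul (htp_entry (hP i) _ _).2.2 (hgc a k) (hgs a k)]
  have e2 : ∫ x, htCon (A x) (fderiv ℝ X x) ∂μ
      = ∑ a, ∑ k, ∫ x, ⟪fderiv ℝ X x (eb a), (eb k : E n)⟫ * ⟪A x (eb k), eb a⟫ ∂μ := by
    simp only [hcon]
    rw [integral_finsetSum _ fun a _ => integrable_finsetSum _ fun k _ => htv_integrable_mul (htp_lim_entry h _ _).1 (hgc a k) (hgs a k)]
    refine Finset.sum_congr rfl fun a _ => ?_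
    rw [integral_finsetSum _ fun k _ => htv_integrable_mul (htp_lim_entry h _ _).1 (hgc a k) (hgs a k)]
  have ht : Tendsto (fun i => ∫ x, htCon (M i x) (fderiv ℝ X x) ∂(lam i)) atTop (𝓝 (∫ x, htCon (A x) (fderiv ℝ X x) ∂μ)) := by
    simp only [e1]
    rw [e2]
    exact tendsto_finsetSum _ fun a _ => tendsto_finsetSum _ fun k _ => htp_lim_bilin hP h _ _ _ (hgc a k) (hgs a k)
  refine tendsto_nhds_unique ht ?_
  simp only [(hP _).stat X hX]
  exact tendsto_const_nhds

/-- **the limit of pairs is a pair** -/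
theorem htp_lim_pair (hn : 1 ≤ n) (hP : ∀ i, HtPair n (lam i) (d i) (M i)) (h : HtpLim lam d M μ A) : HtPair n μ (fun _ => 1) A where
  md := aestronglyMeasurable_const
  mM := h.mA.aestronglyMeasurable
  lint := (htp_lim_entry h 0 0).2
  symm := Eventually.of_forall fun x v w => h.symm x v w
  nonneg := (htp_lim_bounds hn hP h).1
  le := (htp_lim_bounds hn hP h).2
  tr := htp_lim_tr hn hP h
  stat := htp_lim_stat hP h

end lim

end Claimed.Agent.R323
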