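import Claimed.Agent.R323.Ht.LimC

/-!
# Row 323, block C, LIM: the sphere case.   (owner: helper39)
PLAN: see the header of `Ht/Lim.lean`.
-/

set_option autoImplicit false
open scoped ContDiff ENNReal NNReal RealInnerProductSpace Topology
open MeasureTheory Metric Set Filter

namespace Claimed.Agent.R323

open Claimed.Agent.Gmt

variable {n : ℕ}

/-- sharpened `ht_Xi_le_D` -/
theorem hts_Xi_le_D (hn : 3 ≤ n) {κ : ℝ} {q : E n} {U : E n → ℝ} (h : HtAC n κ q U) (x : E n) :
    ((n : ℝ) - 1) / ((n : ℝ) - 2) * (htXi κ q U x / acC) ≤ htD n κ q U x := by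
  have h3 : (0 : ℝ) < (n : ℝ) - 2 := by
    have : (3 : ℝ) ≤ n := by exact_mod_cast hn
    linarith
  have h1 := ht_eps_nonneg h.pos q x
  have h4 := ht_acC_pos
  unfold htD
  rw [ht_E_sub_Xi]
  have e : ((n : ℝ) - 1) / ((n : ℝ) - 2) * (htXi κ q U x / acC)
      = (htXi κ q U x + htXi κ q U x / ((n : ℝ) - 2)) / acC := by
    field_simp
    ring
  rw [e]
  refine div_le_div_of_nonneg_right ?_ h4.le
  nlinarith [mul_nonneg h1 (sq_nonneg ‖fderiv ℝ U x‖)]

/-- the crude bound of the link mass by the energy -/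
theorem hts_En_le (hn : 3 ≤ n) {κ : ℝ} {U : E n → ℝ} (h : HtAC n κ 0 U) :
    htEn n κ 0 U ≤ ((n : ℝ) - 1) / ((n : ℝ) - 2) * acE n κ U := by
  have h3 : (0 : ℝ) < (n : ℝ) - 2 := by
    have : (3 : ℝ) ≤ n := by exact_mod_cast hn
    linarith
  have hn1 : (0 : ℝ) < (n : ℝ) - 1 := by linarith
  have e1 := ht_en_eq hn h
  have hDi : IntegrableOn (htD n κ 0 U) (ball 0 1) := htc_D_intOn hn h isBounded_ball
  have h5 : ((n : ℝ) - 1) / ((n : ℝ) - 2) * ∫ x in ball (0 : E n) 1, htXi κ 0 U x / acC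
      ≤ ∫ x in ball (0 : E n) 1, htD n κ 0 U x := by
    rw [← integral_const_mul]
    refine integral_mono_of_nonneg (Eventually.of_forall fun x => ?_) hDi (Eventually.of_forall fun x => hts_Xi_le_D hn h x)
    exact mul_nonneg (div_nonneg hn1.le h3.le) (div_nonneg (ht_xi_nonneg hn h x) ht_acC_pos.le)
  have e2 : htEn n κ 0 U = ((n : ℝ) - 1) * ∫ x in ball (0 : E n) 1, htD n κ 0 U x := rfl
  have h6 : htEn n κ 0 U ≤ acE n κ U + htEn n κ 0 U / ((n : ℝ) - 1) := by
    have : ∫ x in ball (0 : E n) 1, htD n κ 0 U x = htEn n κ 0 U / ((n : ℝ) - 1) := by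
      rw [e2]; field_simp
    rw [this] at h5
    linarith
  have h7 : htEn n κ 0 U * (((n : ℝ) - 2) / ((n : ℝ) - 1)) ≤ acE n κ U := by
    have : htEn n κ 0 U * (((n : ℝ) - 2) / ((n : ℝ) - 1)) = htEn n κ 0 U - htEn n κ 0 U / ((n : ℝ) - 1) := by
      field_simp
      ring
    rw [this]
    linarith
  have h8 : htEn n κ 0 U = ((n : ℝ) - 1) / ((n : ℝ) - 2) * (htEn n κ 0 U * (((n : ℝ) - 2) / ((n : ℝ) - 1))) := by
    field_simp
  rw [h8]
  exact mul_le_mul_of_nonneg_left h7 (div_nonneg hn1.le h3.le)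

/-- the discrepancy measure is finite on compact sets -/
theorem hts_Ze_ne_top (hn : 3 ≤ n) {κ : ℝ} {q : E n} {U : E n → ℝ} (h : HtAC n κ q U) {K : Set (E n)} (hK : IsCompact K) :
    htZe κ q U K ≠ ⊤ := by
  unfold htZe
  rw [withDensity_apply _ hK.measurableSet]
  have hDi : IntegrableOn (htD n κ q U) K := htc_D_intOn hn h hK.isBounded
  refine ne_top_of_le_ne_top hDi.lintegral_lt_top.ne ?_
  exact lintegral_mono fun x => ENNReal.ofReal_le_ofReal (ht_Xi_le_D hn h x)

/-- an integral of the discrepancy is bounded by the discrepancy measure -/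
theorem hts_int_le_Ze (hn : 3 ≤ n) {κ : ℝ} {q : E n} {U : E n → ℝ} (h : HtAC n κ q U) {B K : Set (E n)} (hK : IsCompact K)
    (hBK : B ⊆ K) : ∫ x in B, htXi κ q U x / acC ≤ (htZe κ q U K).toReal := by
  by_cases hint : IntegrableOn (fun x => htXi κ q U x / acC) B
  · have h0 : ∀ x, 0 ≤ htXi κ q U x / acC := fun x => div_nonneg (ht_xi_nonneg hn h x) ht_acC_pos.le
    rw [integral_eq_lintegral_of_nonneg_ae (Eventually.of_forall h0) hint.aestronglyMeasurable]
    refine ENNReal.toReal_mono (hts_Ze_ne_top hn h hK) ?_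
    unfold htZe
    rw [withDensity_apply _ hK.measurableSet]
    exact lintegral_mono_set hBK
  · rw [integral_undef hint]
    exact ENNReal.toReal_nonneg

/-- after passing to a subsequence the discrepancy of solutions on the sphere is negligible: link masses `→ a`. -/
theorem ht_sphere_seq (hn : 3 ≤ n) {ε : ℕ → ℝ} {U : ℕ → E n → ℝ} {a : ℝ} (hε : ∀ i, 0 < ε i) (hε0 : Tendsto ε atTop (𝓝 0))
    (hU : ∀ i, AcSol n (ε i) (U i)) (hE : Tendsto (fun i => acE n (ε i) (U i)) atTop (𝓝 a)) :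
    ∃ (φ : ℕ → ℕ) (S : Set (E n)), StrictMono φ ∧ MeasurableSet S ∧
      HtSeq n a {0}ᶜ (fun i => ε (φ i)) (fun _ => 0) (fun i => U (φ i)) ∧
      Tendsto (fun i => htEn n (ε (φ i)) 0 (U (φ i))) atTop (𝓝 a) ∧ GmtConvF univ (fun i => U (φ i)) (htSgn S) := by
  have h3 : (0 : ℝ) < (n : ℝ) - 2 := by
    have : (3 : ℝ) ≤ n := by exact_mod_cast hn
    linarith
  have hn1 : (0 : ℝ) < (n : ℝ) - 1 := by linarith
  have hac : ∀ i, HtAC n (ε i) 0 (U i) := fun i => ht_ac_of_sol (hε i) (hU i)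
  set c : ℝ := ((n : ℝ) - 1) / ((n : ℝ) - 2) with hc
  have hc0 : 0 < c := div_pos hn1 h3
  -- the crude sequence
  have hcrude : HtSeq n (c * a) {0}ᶜ ε (fun _ => 0) U :=
    { ac := hac
      en := by
        intro δ hδ
        have h1 : ∀ᶠ i in atTop, acE n (ε i) (U i) < a + δ / c := hE.eventually (Iio_mem_nhds (by linarith [div_pos hδ hc0]))
        filter_upwards [h1] with i hi
        have h2 := hts_En_le hn (hac i)
        have h4 : c * acE n (ε i) (U i) ≤ c * (a + δ / c) := mul_le_mul_of_nonneg_left hi.le hc0.le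
        have h5 : c * (a + δ / c) = c * a + δ := by field_simp
        linarith
      kap := hε0
      small := by
        intro K hK _ δ hδ
        obtain ⟨R, hR0, hR⟩ : ∃ R : ℝ, 0 < R ∧ ∀ x ∈ K, ‖x‖ ≤ R := by
          obtain ⟨R, hR⟩ := hK.isBounded.exists_norm_le
          exact ⟨max R 1, lt_max_of_lt_right one_pos, fun x hx => (hR x hx).trans (le_max_left _ _)⟩
        have h1 : ∀ᶠ i in atTop, ε i < δ / R := hε0.eventually (Iio_mem_nhds (by positivity))
        filter_upwards [h1] with i hi x hx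
        unfold htEps
        rw [sub_zero]
        rw [lt_div_iff₀ hR0] at hi
        have := mul_le_mul_of_nonneg_left (hR x hx) (hε i).le
        linarith
      away := by
        intro K hK hK0
        rcases K.eq_empty_or_nonempty with rfl | hne
        · exact ⟨1, one_pos, Eventually.of_forall fun i x hx => absurd hx (notMem_empty x)⟩
        · obtain ⟨x₀, hx₀, hmin⟩ := hK.exists_isMinOn hne continuous_norm.continuousOn
          refine ⟨‖x₀‖, norm_pos_iff.2 (hK0 hx₀), Eventually.of_forall fun i x hx => ?_⟩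
          rw [sub_zero]
          exact hmin hx }
  have hΩ : IsOpen ({0}ᶜ : Set (E n)) := isOpen_compl_singleton
  have hΩc : (({0}ᶜ : Set (E n)))ᶜ ⊆ {0} := by rw [compl_compl]
  obtain ⟨φ, μ, ζ, A, S, hφ, hconv⟩ := ht_lim_compact hn hΩ hΩc hcrude
  have hsub := hcrude.subseq hφ
  have hζ : ζ = 0 := ht_lim_zeta hn hΩ hΩc hsub hconv
  -- the discrepancy on the annulus
  set K : Set (E n) := closedBall 0 1 \ ball 0 (1 / 2) with hK
  have hKc : IsCompact K := (isCompact_closedBall (0 : E n) 1).diff isOpen_ball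
  have hlim : limsup (fun i => htZe (ε (φ i)) 0 (U (φ i)) K) atTop ≤ ζ K :=
    hconv.wkZ.limsup_le isOpen_univ (fun K' _ _ => by rw [hζ]; simp)
      (fun i K' hK' _ => hts_Ze_ne_top hn (hac (φ i)) hK') hKc (subset_univ _)
  rw [hζ] at hlim
  have hZ0 : Tendsto (fun i => htZe (ε (φ i)) 0 (U (φ i)) K) atTop (𝓝 0) := by
    refine tendsto_of_le_liminf_of_limsup_le zero_le ?_
    simpa using hlim
  have hZ1 : Tendsto (fun i => (htZe (ε (φ i)) 0 (U (φ i)) K).toReal) atTop (𝓝 0) := by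
    have := (ENNReal.tendsto_toReal ENNReal.zero_ne_top).comp hZ0
    rw [ENNReal.toReal_zero] at this
    exact this
  have hX : Tendsto (fun i => ∫ x in ball (0 : E n) 1, htXi (ε (φ i)) 0 (U (φ i)) x / acC) atTop (𝓝 0) := by
    have hZ2 : Tendsto (fun i => 2 * (htZe (ε (φ i)) 0 (U (φ i)) K).toReal) atTop (𝓝 0) := by
      have := hZ1.const_mul 2
      simpa using this
    refine tendsto_of_tendsto_of_tendsto_of_le_of_le tendsto_const_nhds hZ2 (fun i => ?_) (fun i => ?_)
    · exact integral_nonneg fun x => div_nonneg (ht_xi_nonneg hn (hac (φ i)) x) ht_acC_pos.le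
    · refine (ht_xi_annulus hn (hac (φ i))).trans ?_
      refine mul_le_mul_of_nonneg_left (hts_int_le_Ze hn (hac (φ i)) hKc ?_) (by norm_num)
      intro x hx
      refine ⟨ball_subset_closedBall hx.1, fun hx' => hx.2 (ball_subset_closedBall hx')⟩
  have hEn : Tendsto (fun i => htEn n (ε (φ i)) 0 (U (φ i))) atTop (𝓝 a) := by
    have h1 : Tendsto (fun i => acE n (ε (φ i)) (U (φ i))) atTop (𝓝 a) := hE.comp hφ.tendsto_atTop
    have h2 := h1.add (hX.const_mul c)
    rw [mul_zero, add_zero] at h2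
    refine h2.congr fun i => ?_
    exact (ht_en_eq hn (hac (φ i))).symm
  refine ⟨φ, S, hφ, hconv.mS, ?_, hEn, hconv.l1⟩
  exact
    { ac := hsub.ac
      en := fun δ hδ => (hEn.eventually (Iio_mem_nhds (by linarith : a < a + δ))).mono fun i hi => le_of_lt hi
      kap := hsub.kap
      small := hsub.small
      away := hsub.away }

/-- change of variables `z = ρ y` in a lower integral over a set -/
theorem hts_lintegral_smul (ρ : ℝ) (hρ : 0 < ρ) (K : Set (E n)) (f : E n → ℝ≥0∞) :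
    ∫⁻ y in K, f (ρ • y) = ENNReal.ofReal ((ρ ^ n)⁻¹) * ∫⁻ z in (fun y => ρ • y) '' K, f z := by
  have hemb : MeasurableEmbedding (fun y : E n => ρ • y) := (Homeomorph.smulOfNeZero ρ hρ.ne').measurableEmbedding
  have hmap : Measure.map (fun y : E n => ρ • y) volume = ENNReal.ofReal ((ρ ^ n)⁻¹) • (volume : Measure (E n)) := by
    have := Measure.map_addHaar_smul (volume : Measure (E n)) hρ.ne'
    rw [this]
    congr 1
    rw [finrank_euclideanSpace, Fintype.card_fin, abs_of_pos (by positivity)]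
  have h1 : ∫⁻ z in (fun y => ρ • y) '' K, f z ∂(Measure.map (fun y : E n => ρ • y) volume) = ∫⁻ y in K, f (ρ • y) := by
    rw [hemb.restrict_map, hemb.lintegral_map, preimage_image_eq _ hemb.injective]
  rw [hmap, Measure.restrict_smul, lintegral_smul_measure] at h1
  rw [← h1]
  rfl

theorem hts_measurable {κ : ℝ} {q : E n} {U : E n → ℝ} (h : HtAC n κ q U) : Measurable U := by
  refine measurable_of_isOpen fun t ht => ?_
  have h1 : U ⁻¹' t = ({q}ᶜ ∩ U ⁻¹' t) ∪ ({q} ∩ U ⁻¹' t) := by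
    rw [← union_inter_distrib_right, compl_union_self, univ_inter]
  rw [h1]
  refine MeasurableSet.union ?_ ?_
  · exact (h.smooth.continuousOn.isOpen_inter_preimage isOpen_compl_singleton ht).measurableSet
  · exact (subsingleton_singleton.anti inter_subset_left).measurableSet

theorem hts_measurable_sgn {S : Set (E n)} (hS : MeasurableSet S) : Measurable (htSgn S) := by
  unfold htSgn gmtChi
  exact measurable_const.sub (measurable_const.mul (measurable_const.indicator hS))

theorem ht_sphere_cone {κ : ℕ → ℝ} {U : ℕ → E n → ℝ} (hU : ∀ i, HtAC n (κ i) 0 (U i)) {S : Set (E n)} (hS : MeasurableSet S)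
    (hl : GmtConvF univ U (htSgn S)) : GmtCone S := by
  intro ρ hρ
  have hhom : ∀ i y, U i (ρ • y) = U i y := by
    intro i y
    have := (hU i).hom ρ hρ y
    simpa using this
  have hSm := hts_measurable_sgn hS
  -- the two limits agree on compact sets
  have hzero : ∀ K : Set (E n), IsCompact K → ∫⁻ y in K, ‖htSgn S (ρ • y) - htSgn S y‖ₑ = 0 := by
    intro K hK
    have hK' : IsCompact ((fun y : E n => ρ • y) '' K) := hK.image (continuous_const_smul ρ)
    have t1 := hl K hK (subset_univ _)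
    have t2 := hl _ hK' (subset_univ _)
    have t3 : Tendsto (fun i => ENNReal.ofReal ((ρ ^ n)⁻¹) * ∫⁻ z in (fun y : E n => ρ • y) '' K, ‖U i z - htSgn S z‖ₑ)
        atTop (𝓝 (ENNReal.ofReal ((ρ ^ n)⁻¹) * 0)) :=
      ENNReal.Tendsto.const_mul t2 (Or.inr ENNReal.ofReal_ne_top)
    have t4 := t3.add t1
    rw [mul_zero, add_zero] at t4
    refine le_antisymm (ge_of_tendsto' t4 fun i => ?_) zero_le
    rw [← hts_lintegral_smul ρ hρ K (fun z => ‖U i z - htSgn S z‖ₑ)]
    have hmeas : Measurable fun y : E n => ‖U i y - htSgn S y‖ₑ := ((hts_measurable (hU i)).sub hSm).enorm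
    rw [← lintegral_add_right _ hmeas]
    refine lintegral_mono fun y => ?_
    have e : htSgn S (ρ • y) - htSgn S y = -(U i (ρ • y) - htSgn S (ρ • y)) + (U i y - htSgn S y) := by
      rw [hhom i y]; ring
    rw [e]
    refine (enorm_add_le _ _).trans ?_
    rw [enorm_neg]
  have hm2 : Measurable fun y : E n => ‖htSgn S (ρ • y) - htSgn S y‖ₑ :=
    ((hSm.comp (measurable_const_smul ρ)).sub hSm).enorm
  have hae : ∀ᵐ y : E n, htSgn S (ρ • y) = htSgn S y := by
    have h1 : ∀ j : ℕ, ∀ᵐ y : E n, y ∈ closedBall (0 : E n) j → htSgn S (ρ • y) = htSgn S y := by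
      intro j
      have h2 := (lintegral_eq_zero_iff hm2).1 (hzero _ (isCompact_closedBall (0 : E n) (j : ℝ)))
      rw [← ae_restrict_iff' measurableSet_closedBall]
      filter_upwards [h2] with y hy
      have : ‖htSgn S (ρ • y) - htSgn S y‖ₑ = 0 := hy
      exact sub_eq_zero.1 (enorm_eq_zero.1 this)
    filter_upwards [ae_all_iff.2 h1] with y hy
    obtain ⟨j, hj⟩ := exists_nat_ge ‖y‖
    exact hy j (by simpa using hj)
  refine Filter.eventuallyEq_set.2 ?_
  filter_upwards [hae] with y hy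
  unfold htSgn gmtChi at hy
  show (0 + ρ • y ∈ S) ↔ y ∈ S
  rw [zero_add]
  by_cases h1 : ρ • y ∈ S <;> by_cases h2 : y ∈ S
  · simp [h1, h2]
  · simp [h1, h2] at hy
  · simp [h1, h2] at hy
    norm_num at hy
  · simp [h1, h2]

theorem hts_En_nonneg (hn : 3 ≤ n) {κ : ℝ} {q : E n} {U : E n → ℝ} (h : HtAC n κ q U) : 0 ≤ htEn n κ q U := by
  have hn1 : (0 : ℝ) < (n : ℝ) - 1 := by
    have : (3 : ℝ) ≤ n := by exact_mod_cast hn
    linarith
  unfold htEn
  exact mul_nonneg hn1.le (integral_nonneg fun x => ht_D_nonneg hn h x)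

/-- the mass of a cut-off between two balls centred at the vertex -/
theorem hts_cut_bounds (hn : 3 ≤ n) {κ : ℝ} {U : E n → ℝ} (h : HtAC n κ 0 U) {χ : E n → ℝ} (hχ : Continuous χ)
    (h01 : ∀ x, χ x ∈ Icc (0 : ℝ) 1) {s : ℝ} (hs : 0 < s) (hs1 : s < 1) (h1 : ∀ x ∈ closedBall (0 : E n) s, χ x = 1)
    (h0 : ∀ x, x ∉ ball (0 : E n) 1 → χ x = 0) :
    htEn n κ 0 U * s ^ (n - 1) / ((n : ℝ) - 1) ≤ ∫ x, χ x ∂(htMu n κ 0 U) ∧
      ∫ x, χ x ∂(htMu n κ 0 U) ≤ htEn n κ 0 U / ((n : ℝ) - 1) := by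
  have hn1 : (0 : ℝ) < (n : ℝ) - 1 := by
    have : (3 : ℝ) ≤ n := by exact_mod_cast hn
    linarith
  have hD0 := ht_D_nonneg hn h
  have hDi : IntegrableOn (htD n κ 0 U) (ball 0 1) := htc_D_intOn hn h isBounded_ball
  have hχb : ∀ x, ‖χ x‖ ≤ 1 := fun x => by rw [Real.norm_eq_abs, abs_of_nonneg (h01 x).1]; exact (h01 x).2
  have hχD : IntegrableOn (fun x => χ x * htD n κ 0 U x) (ball 0 1) :=
    hDi.bdd_mul hχ.aestronglyMeasurable (Eventually.of_forall hχb)
  have e1 : ∫ x, χ x ∂(htMu n κ 0 U) = ∫ x in ball (0 : E n) 1, χ x * htD n κ 0 U x := by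
    rw [htc_integral_htMu hn h]
    exact (setIntegral_eq_integral_of_forall_compl_eq_zero fun x hx => by rw [h0 x hx, zero_mul]).symm
  have v1 := ht_ball_vertex hn h (t := 1) one_pos
  have vs := ht_ball_vertex hn h (t := s) hs
  rw [one_pow, mul_one] at v1
  rw [e1]
  constructor
  · rw [div_le_iff₀ hn1, ← vs, mul_comm]
    refine mul_le_mul_of_nonneg_right ?_ hn1.le
    calc ∫ y in ball (0 : E n) s, htD n κ 0 U y = ∫ y in ball (0 : E n) s, χ y * htD n κ 0 U y := by
          refine setIntegral_congr_fun measurableSet_ball fun y hy => ?_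
          simp only [h1 y (ball_subset_closedBall hy), one_mul]
      _ ≤ ∫ y in ball (0 : E n) 1, χ y * htD n κ 0 U y := by
          refine setIntegral_mono_set hχD ?_ ?_
          · exact Eventually.of_forall fun y => mul_nonneg (h01 y).1 (hD0 y)
          · exact (ball_subset_ball hs1.le).eventuallyLE
  · rw [le_div_iff₀ hn1, ← v1, mul_comm]
    refine mul_le_mul_of_nonneg_left ?_ hn1.le
    refine integral_mono hχD hDi fun y => ?_
    have := mul_le_mul_of_nonneg_right (h01 y).2 (hD0 y)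
    simpa using this

theorem ht_sphere_area (hn : 3 ≤ n) {κ : ℕ → ℝ} {U : ℕ → E n → ℝ} {a : ℝ} (hU : ∀ i, HtAC n (κ i) 0 (U i)) {S : Set (E n)}
    (hw : GmtWk univ (fun i => htMu n (κ i) 0 (U i)) (gmtMu S))
    (hE : Tendsto (fun i => htEn n (κ i) 0 (U i)) atTop (𝓝 a)) : linkArea S = a := by
  have hn1 : (0 : ℝ) < (n : ℝ) - 1 := by
    have : (3 : ℝ) ≤ n := by exact_mod_cast hn
    linarith
  have ha : 0 ≤ a := ge_of_tendsto' hE fun i => hts_En_nonneg hn (hU i)
  have key : ∀ s : ℝ, 0 < s → s < 1 →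
      (gmtMu S (closedBall 0 s) ≤ ENNReal.ofReal (a / ((n : ℝ) - 1)) ∧
        ENNReal.ofReal (a * s ^ (n - 1) / ((n : ℝ) - 1)) ≤ gmtMu S (ball 0 1)) ∨
      (a = 0 ∧ gmtMu S (ball 0 1) = ⊤) := by
    intro s hs hs1
    obtain ⟨χ, hχs, hχc, hχW, hχ01, hχ1⟩ := gmt_exists_cutoff (isCompact_closedBall (0 : E n) s) isOpen_ball
      (closedBall_subset_ball hs1)
    have h1 : ∀ x ∈ closedBall (0 : E n) s, χ x = 1 := fun x hx => hχ1.self_of_nhdsSet x hx
    have h0 : ∀ x, x ∉ ball (0 : E n) 1 → χ x = 0 := fun x hx =>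
      image_eq_zero_of_notMem_tsupport fun hx' => hx (hχW hx')
    have ht := hw χ hχs.continuous hχc (subset_univ _)
    have hb := fun i => hts_cut_bounds hn (hU i) hχs.continuous hχ01 hs hs1 h1 h0
    have l1 : a * s ^ (n - 1) / ((n : ℝ) - 1) ≤ ∫ x, χ x ∂(gmtMu S) :=
      le_of_tendsto_of_tendsto' ((hE.mul_const _).div_const _) ht fun i => (hb i).1
    have l2 : ∫ x, χ x ∂(gmtMu S) ≤ a / ((n : ℝ) - 1) :=
      le_of_tendsto_of_tendsto' ht (hE.div_const _) fun i => (hb i).2
    by_cases hint : Integrable χ (gmtMu S)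
    · left
      constructor
      · exact (gmt_measure_le_ofReal_integral hint (fun x => (hχ01 x).1) measurableSet_closedBall
          fun x hx => (h1 x hx).ge).trans (ENNReal.ofReal_le_ofReal l2)
      · exact (ENNReal.ofReal_le_ofReal l1).trans
          (gmt_ofReal_integral_le_measure (fun x => (hχ01 x).2) measurableSet_ball h0)
    · right
      rw [integral_undef hint] at l1
      constructor
      · have h2 : a * s ^ (n - 1) ≤ 0 := by
          rw [div_le_iff₀ hn1, zero_mul] at l1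
          exact l1
        have h3 : 0 < s ^ (n - 1) := pow_pos hs _
        nlinarith
      · by_contra hfin
        apply hint
        have hi : Integrable ((ball (0 : E n) 1).indicator fun _ => (1 : ℝ)) (gmtMu S) :=
          (integrable_indicator_iff measurableSet_ball).2 (integrableOn_const hfin)
        refine hi.mono' hχs.continuous.aestronglyMeasurable (Eventually.of_forall fun x => ?_)
        rw [Real.norm_eq_abs, abs_of_nonneg (hχ01 x).1]
        by_cases hx : x ∈ ball (0 : E n) 1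
        · rw [indicator_of_mem hx]; exact (hχ01 x).2
        · rw [indicator_of_notMem hx, h0 x hx]
  unfold linkArea
  by_cases hbad : ∃ s : ℝ, 0 < s ∧ s < 1 ∧ a = 0 ∧ gmtMu S (ball 0 1) = ⊤
  · obtain ⟨s, -, -, h1, h2⟩ := hbad
    rw [h2, h1]
    simp
  have key' : ∀ s : ℝ, 0 < s → s < 1 →
      gmtMu S (closedBall 0 s) ≤ ENNReal.ofReal (a / ((n : ℝ) - 1)) ∧
        ENNReal.ofReal (a * s ^ (n - 1) / ((n : ℝ) - 1)) ≤ gmtMu S (ball 0 1) := by
    intro s hs hs1
    rcases key s hs hs1 with h | h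
    · exact h
    · exact absurd ⟨s, hs, hs1, h.1, h.2⟩ hbad
  have hup : gmtMu S (ball 0 1) ≤ ENNReal.ofReal (a / ((n : ℝ) - 1)) := by
    have hun : ball (0 : E n) 1 = ⋃ j : ℕ, closedBall (0 : E n) (1 - 1 / ((j : ℝ) + 2)) := by
      ext x
      simp only [mem_ball, dist_zero_right, mem_iUnion, mem_closedBall]
      constructor
      · intro hx
        obtain ⟨j, hj⟩ := exists_nat_gt (1 / (1 - ‖x‖))
        refine ⟨j, ?_⟩
        have h1 : 0 < 1 - ‖x‖ := by linarith
        rw [div_lt_iff₀ h1] at hj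
        have h2 : (0 : ℝ) < (j : ℝ) + 2 := by positivity
        have h3 : 1 / ((j : ℝ) + 2) ≤ 1 - ‖x‖ := by
          rw [div_le_iff₀ h2]
          nlinarith
        linarith
      · rintro ⟨j, hj⟩
        have h2 : (0 : ℝ) < 1 / ((j : ℝ) + 2) := by positivity
        linarith
    have hmono : Monotone fun j : ℕ => closedBall (0 : E n) (1 - 1 / ((j : ℝ) + 2)) := by
      intro i j hij
      refine closedBall_subset_closedBall ?_
      have h1 : (i : ℝ) ≤ j := by exact_mod_cast hij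
      have h2 : 1 / ((j : ℝ) + 2) ≤ 1 / ((i : ℝ) + 2) := one_div_le_one_div_of_le (by positivity) (by linarith)
      linarith
    rw [hun, hmono.measure_iUnion]
    refine iSup_le fun j => ?_
    have h2 : (0 : ℝ) < (j : ℝ) + 2 := by positivity
    have h3 : 1 / ((j : ℝ) + 2) ≤ 1 / 2 := one_div_le_one_div_of_le (by norm_num) (by linarith [(Nat.cast_nonneg j : (0 : ℝ) ≤ j)])
    have h4 : (0 : ℝ) < 1 / ((j : ℝ) + 2) := by positivity
    exact (key' _ (by linarith) (by linarith)).1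
  have hlow : ENNReal.ofReal (a / ((n : ℝ) - 1)) ≤ gmtMu S (ball 0 1) := by
    have hc : Continuous fun s : ℝ => ENNReal.ofReal (a * s ^ (n - 1) / ((n : ℝ) - 1)) :=
      ENNReal.continuous_ofReal.comp (by fun_prop)
    have ht : Tendsto (fun s : ℝ => ENNReal.ofReal (a * s ^ (n - 1) / ((n : ℝ) - 1))) (𝓝[<] 1)
        (𝓝 (ENNReal.ofReal (a * 1 ^ (n - 1) / ((n : ℝ) - 1)))) := (hc.tendsto 1).mono_left nhdsWithin_le_nhds
    rw [one_pow, mul_one] at ht
    refine le_of_tendsto ht ?_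
    filter_upwards [Ioo_mem_nhdsLT (show (0 : ℝ) < 1 from one_pos)] with s hs
    exact (key' s hs.1 hs.2).2
  rw [le_antisymm hup hlow, ENNReal.toReal_ofReal (div_nonneg ha hn1.le)]
  field_simp

/-- `σ_m = (m+1) ω_{m+1}`. -/
theorem ht_sig (m : ℕ) : sig m = ((m : ℝ) + 1) * gmtOm (m + 1) := by
  unfold sig linkArea
  rw [gmtMu_open _ isOpen_ball, gmtP_half_ball (by omega) 0 (by simp) one_pos]
  have h0 : 0 ≤ gmtOm (m + 2 - 1) * (1 : ℝ) ^ (m + 2 - 1) := by
    unfold gmtOm
    positivity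
  rw [ENNReal.toReal_ofReal h0, one_pow, mul_one, show m + 2 - 1 = m + 1 from rfl]
  push_cast
  ring

end Claimed.Agent.R323
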