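import Claimed.Agent.R323.Ht.Ac
import Claimed.Agent.R323.Ht.LimP
import Claimed.Agent.R323.Ht.SpCpt

/-!
# Row 323, block C, sub-block LIM, file X1: the measures `htMu`, `htZe` at the `ε`-level; sequences.   (architect: helper143)
Prefix `htl_`.
-/

set_option autoImplicit false
open scoped ContDiff ENNReal NNReal RealInnerProductSpace Topology
open MeasureTheory Metric Set Filter

namespace Claimed.Agent.R323

open Claimed.Agent.Gmt

variable {n : ℕ}

/-- a measure which is finite on compact sets is locally finite -/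
theorem htl_locFin {μ : Measure (E n)} (h : ∀ K, IsCompact K → μ K ≠ ⊤) : IsLocallyFiniteMeasure μ :=
  ⟨fun x => ⟨closedBall x 1, closedBall_mem_nhds x one_pos, (h _ (isCompact_closedBall x 1)).lt_top⟩⟩

section eps

variable {κ : ℝ} {q : E n} {U : E n → ℝ}

theorem htl_D_aem (hn : 3 ≤ n) (h : HtAC n κ q U) : AEMeasurable (htD n κ q U) volume :=
  (ht_D_locallyIntegrable hn h).aestronglyMeasurable.aemeasurable

theorem htl_Xi_aesm (hn : 3 ≤ n) (h : HtAC n κ q U) : AEStronglyMeasurable (htXi κ q U) volume :=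
  ht_aesm (by omega) q (ht_Xi_continuousOn h)

theorem htl_U_aesm (hn : 3 ≤ n) (h : HtAC n κ q U) : AEStronglyMeasurable U volume :=
  ht_aesm (by omega) q h.smooth.continuousOn

theorem htl_mu_apply (hn : 3 ≤ n) (h : HtAC n κ q U) {s : Set (E n)} (hs : MeasurableSet s) (hi : IntegrableOn (htD n κ q U) s) :
    htMu n κ q U s = ENNReal.ofReal (∫ x in s, htD n κ q U x) := by
  unfold htMu
  rw [withDensity_apply _ hs, ofReal_integral_eq_lintegral_ofReal hi (Eventually.of_forall fun x => ht_D_nonneg hn h x)]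

theorem htl_mu_ball (hn : 3 ≤ n) (h : HtAC n κ q U) (x : E n) (r : ℝ) :
    htMu n κ q U (ball x r) = ENNReal.ofReal (∫ y in ball x r, htD n κ q U y) :=
  htl_mu_apply hn h measurableSet_ball (ht_ball_integrableOn hn h x r)

theorem htl_mu_ball_le (hn : 3 ≤ n) (h : HtAC n κ q U) (x : E n) {r : ℝ} (hr : 0 < r) :
    htMu n κ q U (ball x r) ≤ ENNReal.ofReal (htEn n κ q U / ((n : ℝ) - 1) * r ^ (n - 1)) := by
  rw [htl_mu_ball hn h]
  exact ENNReal.ofReal_le_ofReal (ht_ball_le hn h x hr)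

theorem htl_mu_fin (hn : 3 ≤ n) (h : HtAC n κ q U) (K : Set (E n)) (hK : IsCompact K) : htMu n κ q U K ≠ ⊤ := by
  obtain ⟨R, hR⟩ := hK.isBounded.subset_ball (0 : E n)
  refine ne_top_of_le_ne_top ?_ (measure_mono hR)
  rw [htl_mu_ball hn h]
  exact ENNReal.ofReal_ne_top

theorem htl_ze_le (hn : 3 ≤ n) (h : HtAC n κ q U) : htZe κ q U ≤ htMu n κ q U :=
  withDensity_mono (Eventually.of_forall fun x => ENNReal.ofReal_le_ofReal (ht_Xi_le_D hn h x))

theorem htl_ze_fin (hn : 3 ≤ n) (h : HtAC n κ q U) (K : Set (E n)) (hK : IsCompact K) : htZe κ q U K ≠ ⊤ :=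
  ne_top_of_le_ne_top (htl_mu_fin hn h K hK) (htl_ze_le hn h K)

theorem htl_integral_mu (hn : 3 ≤ n) (h : HtAC n κ q U) (g : E n → ℝ) :
    ∫ x, g x ∂(htMu n κ q U) = ∫ x, g x * htD n κ q U x :=
  hsp_integral_withDensity (htl_D_aem hn h) (Eventually.of_forall fun x => ht_D_nonneg hn h x) g

theorem htl_integral_ze (hn : 3 ≤ n) (h : HtAC n κ q U) (g : E n → ℝ) :
    ∫ x, g x ∂(htZe κ q U) = ∫ x, g x * (htXi κ q U x / acC) :=
  hsp_integral_withDensity ((htl_Xi_aesm hn h).aemeasurable.div_const _)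
    (Eventually.of_forall fun x => div_nonneg (ht_xi_nonneg hn h x) ht_acC_pos.le) g

theorem htl_Xi_locInt (hn : 3 ≤ n) (h : HtAC n κ q U) : LocallyIntegrable (fun x => htXi κ q U x / acC) volume :=
  (ht_D_locallyIntegrable hn h).mono ((htl_Xi_aesm hn h).aemeasurable.div_const _).aestronglyMeasurable (Eventually.of_forall fun x => by
    rw [Real.norm_eq_abs, Real.norm_eq_abs, abs_of_nonneg (div_nonneg (ht_xi_nonneg hn h x) ht_acC_pos.le),
      abs_of_nonneg (ht_D_nonneg hn h x)]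
    exact ht_Xi_le_D hn h x)

theorem htl_U_locInt (hn : 3 ≤ n) (h : HtAC n κ q U) : LocallyIntegrable U volume :=
  (locallyIntegrable_const (1 : ℝ)).mono (htl_U_aesm hn h) (Eventually.of_forall fun x => by
    rw [Real.norm_eq_abs, norm_one]
    exact h.bdd x)

end eps

section seq

variable {a : ℝ} {Ω : Set (E n)} {κ : ℕ → ℝ} {q : ℕ → E n} {U : ℕ → E n → ℝ}

theorem htl_seq_subseq (h : HtSeq n a Ω κ q U) {φ : ℕ → ℕ} (hφ : StrictMono φ) :
    HtSeq n a Ω (fun i => κ (φ i)) (fun i => q (φ i)) (fun i => U (φ i)) where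
  ac i := h.ac (φ i)
  en δ hδ := hφ.tendsto_atTop.eventually (h.en δ hδ)
  kap := h.kap.comp hφ.tendsto_atTop
  small K hK hKΩ δ hδ := hφ.tendsto_atTop.eventually (h.small K hK hKΩ δ hδ)
  away K hK hKΩ := by
    obtain ⟨c, hc, hev⟩ := h.away K hK hKΩ
    exact ⟨c, hc, hφ.tendsto_atTop.eventually hev⟩

/-- eventual bound for the masses of balls -/
theorem htl_seq_ball_le (hn : 3 ≤ n) (h : HtSeq n a Ω κ q U) {δ : ℝ} (hδ : 0 < δ) (x : E n) {r : ℝ} (hr : 0 < r) :
    ∀ᶠ i in atTop, htMu n (κ i) (q i) (U i) (ball x r) ≤ ENNReal.ofReal ((a + δ) / ((n : ℝ) - 1) * r ^ (n - 1)) := by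
  filter_upwards [h.en δ hδ] with i hi
  refine (htl_mu_ball_le hn (h.ac i) x hr).trans (ENNReal.ofReal_le_ofReal ?_)
  have h1 : (0 : ℝ) < (n : ℝ) - 1 := by linarith [htr_n_sub_one hn]
  gcongr

/-- the vertices leave every compact subset of `Ω` -/
theorem htl_seq_away (h : HtSeq n a Ω κ q U) {K : Set (E n)} (hK : IsCompact K) (hKΩ : K ⊆ Ω) : ∀ᶠ i in atTop, q i ∉ K := by
  obtain ⟨c, hc, hev⟩ := h.away K hK hKΩ
  filter_upwards [hev] with i hi hq
  have := hi _ hq
  rw [sub_self, norm_zero] at this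
  linarith

end seq

end Claimed.Agent.R323
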