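import Claimed.Agent.R323.Ht.LimX1

/-!
# Row 323, block C, sub-block LIM, file X2: upper bound, the limit pair, compactness of the measures.   (architect: helper143)
Prefix `htl_`.
-/

set_option autoImplicit false
open scoped ContDiff ENNReal NNReal RealInnerProductSpace Topology
open MeasureTheory Metric Set Filter

namespace Claimed.Agent.R323

open Claimed.Agent.Gmt

variable {n : ℕ}

variable {a : ℝ} {Ω : Set (E n)} {κ : ℕ → ℝ} {q : ℕ → E n} {U : ℕ → E n → ℝ} {μ ζ : Measure (E n)}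
  {A : E n → E n →L[ℝ] E n} {S : Set (E n)}

theorem htl_upper (hn : 3 ≤ n) (h : HtSeq n a Ω κ q U) (hfin : ∀ K, IsCompact K → μ K ≠ ⊤)
    (hwk : GmtWk univ (fun i => htMu n (κ i) (q i) (U i)) μ) (x : E n) {r : ℝ} (hr : 0 < r) :
    μ (closedBall x r) ≤ ENNReal.ofReal (a / ((n : ℝ) - 1) * r ^ (n - 1)) := by
  have hlim : Tendsto (fun δ : ℝ => ENNReal.ofReal ((a + δ) / ((n : ℝ) - 1) * (r + δ) ^ (n - 1))) (𝓝[>] 0)
      (𝓝 (ENNReal.ofReal (a / ((n : ℝ) - 1) * r ^ (n - 1)))) := by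
    have hc : Continuous fun δ : ℝ => ENNReal.ofReal ((a + δ) / ((n : ℝ) - 1) * (r + δ) ^ (n - 1)) :=
      ENNReal.continuous_ofReal.comp (by fun_prop)
    have h0 := hc.tendsto 0
    simp only [add_zero] at h0
    exact h0.mono_left nhdsWithin_le_nhds
  refine ge_of_tendsto hlim ?_
  filter_upwards [self_mem_nhdsWithin] with δ hδ
  have hδ0 : (0 : ℝ) < δ := hδ
  exact (measure_mono (closedBall_subset_ball (by linarith))).trans
    (htv_ball_le hwk hfin (fun i => htl_mu_fin hn (h.ac i)) (htl_seq_ball_le hn h hδ0 x (by linarith)))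

theorem htl_htpLim (hc : HtConv n κ q U μ ζ A S) :
    HtpLim (fun _ => volume) (fun i => htD n (κ i) (q i) (U i)) (fun i => htM n (κ i) (q i) (U i)) μ A :=
  ⟨hc.fin, hc.mA, hc.symm, hc.bdd, hc.wk, hc.wkM⟩

theorem htl_pair (hn : 3 ≤ n) (h : HtSeq n a Ω κ q U) (hc : HtConv n κ q U μ ζ A S) : HtPair n μ (fun _ => 1) A :=
  htp_lim_pair (by omega) (fun i => ht_pair hn (h.ac i)) (htl_htpLim hc)

/-- change the tensor on a null set: symmetric and bounded EVERYWHERE -/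
theorem htl_fix {A₀ : E n → E n →L[ℝ] E n} (hm : Measurable A₀) (hP : HtPair n μ (fun _ => 1) A₀) :
    ∃ A : E n → E n →L[ℝ] E n, Measurable A ∧ (∀ x v w, ⟪A x v, w⟫ = ⟪v, A x w⟫) ∧ (∃ C : ℝ, ∀ x, ‖A x‖ ≤ C) ∧ A =ᵐ[μ] A₀ := by
  classical
  set G : Set (E n →L[ℝ] E n) := {B | (∀ v w, ⟪B v, w⟫ = ⟪v, B w⟫) ∧ ‖B‖ ≤ 1} with hG
  have hGc : IsClosed G := by
    have h1 : IsClosed {B : E n →L[ℝ] E n | ∀ v w, ⟪B v, w⟫ = ⟪v, B w⟫} := by
      simp only [ofPred_forall]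
      exact isClosed_iInter fun v => isClosed_iInter fun w => isClosed_eq (by fun_prop) (by fun_prop)
    exact h1.inter (isClosed_le continuous_norm continuous_const)
  refine ⟨fun x => if A₀ x ∈ G then A₀ x else 0, Measurable.ite (hGc.measurableSet.preimage hm) hm measurable_const,
    fun x v w => ?_, ⟨1, fun x => ?_⟩, ?_⟩
  · by_cases hx : A₀ x ∈ G
    · simp only [hx, if_true]
      exact hx.1 v w
    · simp [hx]
  · by_cases hx : A₀ x ∈ G
    · simp only [hx, if_true]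
      exact hx.2
    · simp [hx]
  · filter_upwards [hP.symm, hsp_ae_norm_le_one hP] with x h1 h2
    have hx : A₀ x ∈ G := ⟨h1, h2⟩
    simp only [hx, if_true]

/-- compactness of the masses, the tensors and the discrepancies -/
theorem htl_meas_compact (hn : 3 ≤ n) (h : HtSeq n a Ω κ q U) :
    ∃ (φ : ℕ → ℕ) (μ ζ : Measure (E n)) (A : E n → E n →L[ℝ] E n), StrictMono φ ∧ Measurable A ∧
      (∀ x v w, ⟪A x v, w⟫ = ⟪v, A x w⟫) ∧ (∃ C : ℝ, ∀ x, ‖A x‖ ≤ C) ∧ (∀ K, IsCompact K → μ K ≠ ⊤) ∧ (∀ K, IsCompact K → ζ K ≠ ⊤) ∧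
      GmtWk univ (fun i => htMu n (κ (φ i)) (q (φ i)) (U (φ i))) μ ∧ GmtWk univ (fun i => htZe (κ (φ i)) (q (φ i)) (U (φ i))) ζ ∧
      ∀ v : E n, ∀ g : E n → ℝ, Continuous g → HasCompactSupport g →
        Tendsto (fun i => ∫ x, g x * ⟪htM n (κ (φ i)) (q (φ i)) (U (φ i)) x v, v⟫) atTop (𝓝 (∫ x, g x * ⟪A x v, v⟫ ∂μ)) := by
  have hball : ∀ R : ℝ, ∀ᶠ i in atTop, htMu n (κ i) (q i) (U i) (closedBall 0 R) ≤
      ENNReal.ofReal ((a + 1) / ((n : ℝ) - 1) * (|R| + 1) ^ (n - 1)) := fun R => by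
    filter_upwards [htl_seq_ball_le hn h one_pos (0 : E n) (r := |R| + 1) (by positivity)] with i hi
    exact (measure_mono (closedBall_subset_ball (by linarith [le_abs_self R]))).trans hi
  obtain ⟨φ₁, μ, A₀, hφ₁, hreg, hA₀, hP, hwk, hwkM⟩ := hsp_compact (by omega : 1 ≤ n) (fun _ => volume)
    (fun i => htD n (κ i) (q i) (U i)) (fun i => htM n (κ i) (q i) (U i)) (fun i => ht_pair hn (h.ac i)) (fun R => by
      refine ⟨max ((a + 1) / ((n : ℝ) - 1) * (|R| + 1) ^ (n - 1)) 0, ?_⟩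
      filter_upwards [hball R] with i hi
      have hint : IntegrableOn (htD n (κ i) (q i) (U i)) (closedBall 0 R) :=
        (ht_D_locallyIntegrable hn (h.ac i)).integrableOn_isCompact (isCompact_closedBall 0 R)
      rw [htl_mu_apply hn (h.ac i) measurableSet_closedBall hint] at hi
      have h0 : 0 ≤ ∫ x in closedBall 0 R, htD n (κ i) (q i) (U i) x := integral_nonneg fun x => ht_D_nonneg hn (h.ac i) x
      have := ENNReal.toReal_mono ENNReal.ofReal_ne_top hi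
      rwa [ENNReal.toReal_ofReal h0, ENNReal.toReal_ofReal'] at this)
  obtain ⟨A, hAm, hAs, hAb, hAe⟩ := htl_fix hA₀ hP
  obtain ⟨φ₂, ζ, hφ₂, hζ⟩ := hsp_vague_compact (ι := Unit) (fun _ i => htZe (κ (φ₁ i)) (q (φ₁ i)) (U (φ₁ i))) (fun _ R =>
    ⟨_, ENNReal.ofReal_ne_top, hφ₁.tendsto_atTop.eventually ((hball R).mono fun i hi => (htl_ze_le hn (h.ac i) _).trans hi)⟩)
  have := (hζ ()).1
  refine ⟨φ₁ ∘ φ₂, μ, ζ (), A, hφ₁.comp hφ₂, hAm, hAs, hAb, fun K hK => hK.measure_lt_top.ne, fun K hK => hK.measure_lt_top.ne,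
    htv_wk_comp hwk hφ₂, (hζ ()).2, fun v g hg hc => ?_⟩
  have e : ∫ x, g x * ⟪A x v, v⟫ ∂μ = ∫ x, g x * ⟪A₀ x v, v⟫ ∂μ := by
    refine integral_congr_ae ?_
    filter_upwards [hAe] with x hx
    rw [hx]
  rw [e]
  exact (hwkM v v g hg hc).comp hφ₂.tendsto_atTop

end Claimed.Agent.R323
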