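import Claimed.Agent.R323.Ht.Lim

/-!
# Row 323, block C (HT-lite): CONTRACT.   Route: `origin/helper39:notes/r323/C39.md` (architect helper39).
Limits of Allen-Cahn solutions with density `< 2` are multiplicity one stationary boundaries; the class of entire limits is closed under blow-up.
`ht_main` is PROVED here from the exits of `Ht/Lim.lean`.
-/

set_option autoImplicit false
open scoped ContDiff ENNReal NNReal RealInnerProductSpace Topology
open MeasureTheory Metric Set Filter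

namespace Claimed.Agent.R323

open Claimed.Agent.Gmt

theorem ht_gmtOm_pos (k : ℕ) : 0 < gmtOm k :=
  ENNReal.toReal_pos (measure_ball_pos volume 0 one_pos).ne' measure_ball_lt_top.ne

theorem ht_main_aux (m : ℕ) (a : ℝ) (ha : a < 2 * sig m) :
    a < 2 * ((((m + 2 : ℕ) : ℝ) - 1) * gmtOm (m + 2 - 1)) := by
  have e : (((m + 2 : ℕ) : ℝ) - 1) * gmtOm (m + 2 - 1) = sig m := by
    rw [ht_sig]
    have : m + 2 - 1 = m + 1 := rfl
    rw [this]
    push_cast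
    ring
  rw [e]
  exact ha

theorem ht_main_dens (m : ℕ) (a r : ℝ) :
    a / (((m + 2 : ℕ) : ℝ) - 1) * r ^ (m + 2 - 1) = a / sig m * gmtOm (m + 2 - 1) * r ^ (m + 2 - 1) := by
  have h0 : 0 < gmtOm (m + 1) := ht_gmtOm_pos _
  have e1 : m + 2 - 1 = m + 1 := rfl
  rw [ht_sig, e1]
  have h1 : ((m : ℝ) + 1) ≠ 0 := by positivity
  have h2 : (((m + 2 : ℕ) : ℝ) - 1) = (m : ℝ) + 1 := by push_cast; ring
  rw [h2]
  field_simp

theorem ht_blowclass (m : ℕ) (hm : 2 ≤ m) (a : ℝ) (ha : a < 2 * sig m) :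
    BlowClass (m + 2) (a / sig m) (HtK (m + 2) a) := by
  have hn : 3 ≤ m + 2 := by omega
  have ha' := ht_main_aux m a ha
  have hc : (univ : Set (E (m + 2)))ᶜ ⊆ {0} := by simp
  refine ⟨fun S h => h.1, ?_, ?_, ?_, ?_, fun S S' h h1 h2 => ht_K_congr h h1 h2, fun S h O => ht_K_rot hn h O⟩
  · rintro S ⟨hS, κ, q, U, h, hl⟩
    exact (ht_lim_wk hn ha' isOpen_univ hc h hS hl).1
  · rintro S ⟨hS, κ, q, U, h, hl⟩
    exact (ht_lim_wk hn ha' isOpen_univ hc h hS hl).2.2.1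
  · rintro S ⟨hS, κ, q, U, h, hl⟩ x r hr
    have := (ht_lim_wk hn ha' isOpen_univ hc h hS hl).2.2.2 x r hr
    rwa [ht_main_dens] at this
  · rintro S ⟨hS, κ, q, U, h, hl⟩ x r hr hr0
    exact ht_blow hn ha' isOpen_univ hc h hS hl (mem_univ x) hr hr0

theorem ht_main (m : ℕ) (hm : 2 ≤ m) (ε : ℕ → ℝ) (U : ℕ → E (m + 2) → ℝ) (a : ℝ) (hε : ∀ i, 0 < ε i)
    (hε0 : Tendsto ε atTop (𝓝 0)) (hU : ∀ i, AcSol (m + 2) (ε i) (U i))
    (hE : Tendsto (fun i => acE (m + 2) (ε i) (U i)) atTop (𝓝 a)) (ha : a < 2 * sig m) :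
    ∃ (K : Set (E (m + 2)) → Prop) (S : Set (E (m + 2))), BlowClass (m + 2) (a / sig m) K ∧ SphLim (m + 2) K S a := by
  have hn : 3 ≤ m + 2 := by omega
  have ha' := ht_main_aux m a ha
  obtain ⟨φ, S, hφ, hS, hseq, hen, hl⟩ := ht_sphere_seq hn hε hε0 hU hE
  have hΩ : IsOpen ({0}ᶜ : Set (E (m + 2))) := isOpen_compl_singleton
  have hc : (({0}ᶜ : Set (E (m + 2))))ᶜ ⊆ {0} := by simp
  obtain ⟨h1, h2, h3, -⟩ := ht_lim_wk hn ha' hΩ hc hseq hS hl
  refine ⟨HtK (m + 2) a, S, ht_blowclass m hm a ha, hS, ht_sphere_cone hseq.ac hS hl, h1, h3,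
    ht_sphere_area hn hseq.ac h2 hen, ?_⟩
  intro x hx r hr hr0
  exact ht_blow hn ha' hΩ hc hseq hS hl hx hr hr0

end Claimed.Agent.R323
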