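import Claimed.Agent.R323.Ht.Defs

/-!
# Row 323, block C, sub-block SP (stationary pairs).  Owner: helper137.
Pointwise linear algebra: the contraction `htCon`, Cauchy-Schwarz for nonnegative symmetric forms.
-/

set_option autoImplicit false
open scoped ContDiff ENNReal NNReal RealInnerProductSpace Topology
open MeasureTheory Metric Set Filter

namespace Claimed.Agent.R323

open Claimed.Agent.Gmt

variable {n : ℕ}

theorem htCon_add (M L L' : E n →L[ℝ] E n) : htCon M (L + L') = htCon M L + htCon M L' := by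
  unfold htCon
  rw [← Finset.sum_add_distrib]
  refine Finset.sum_congr rfl fun i _ => ?_
  rw [_root_.add_apply, map_add, inner_add_left]

theorem htCon_smul (M L : E n →L[ℝ] E n) (c : ℝ) : htCon M (c • L) = c * htCon M L := by
  unfold htCon
  rw [Finset.mul_sum]
  refine Finset.sum_congr rfl fun i _ => ?_
  rw [_root_.smul_apply, map_smul, inner_smul_left]
  simp

theorem htCon_id (M : E n →L[ℝ] E n) :
    htCon M (ContinuousLinearMap.id ℝ (E n)) = ∑ i, ⟪M (eb i), eb i⟫ := rfl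

theorem ht_sum_eb (v : E n) : ∑ i, ⟪v, eb i⟫ • (eb i : E n) = v := by
  have h := (EuclideanSpace.basisFun (Fin n) ℝ).sum_repr' v
  simpa [real_inner_comm] using h

theorem htCon_smulRight (M : E n →L[ℝ] E n) (l : E n →L[ℝ] ℝ) (w : E n) :
    htCon M (l.smulRight w) = l (M w) := by
  unfold htCon
  conv_rhs => rw [← ht_sum_eb (M w)]
  rw [map_sum]
  refine Finset.sum_congr rfl fun i _ => ?_
  rw [ContinuousLinearMap.smulRight_apply, map_smul, inner_smul_left, map_smul]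
  simp [mul_comm]

/-- Cauchy-Schwarz for a nonnegative symmetric form. -/
theorem ht_cs {M : E n →L[ℝ] E n} (hs : ∀ v w : E n, ⟪M v, w⟫ = ⟪v, M w⟫)
    (h0 : ∀ v : E n, 0 ≤ ⟪M v, v⟫) (v w : E n) : ⟪M v, w⟫ ^ 2 ≤ ⟪M v, v⟫ * ⟪M w, w⟫ := by
  have h : ∀ t : ℝ, 0 ≤ ⟪M w, w⟫ * (t * t) + 2 * ⟪M v, w⟫ * t + ⟪M v, v⟫ := by
    intro t
    have h1 := h0 (v + t • w)
    have h2 : ⟪M (v + t • w), v + t • w⟫
        = ⟪M w, w⟫ * (t * t) + 2 * ⟪M v, w⟫ * t + ⟪M v, v⟫ := by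
      rw [map_add, map_smul, inner_add_left, inner_add_right, inner_add_right, inner_smul_left,
        inner_smul_right, inner_smul_left, inner_smul_right, hs w v, real_inner_comm (M v) w]
      simp only [conj_trivial]
      ring
    rwa [h2] at h1
  have h3 := discrim_le_zero h
  unfold discrim at h3
  nlinarith

theorem ht_abs_le {M : E n →L[ℝ] E n} (hs : ∀ v w : E n, ⟪M v, w⟫ = ⟪v, M w⟫)
    (h0 : ∀ v : E n, 0 ≤ ⟪M v, v⟫) {d : ℝ} (hd : ∀ v : E n, ⟪M v, v⟫ ≤ d * ‖v‖ ^ 2) (v w : E n) :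
    |⟪M v, w⟫| ≤ d * (‖v‖ * ‖w‖) := by
  have h1 := ht_cs hs h0 v w
  have hd0 : 0 ≤ d * (‖v‖ * ‖w‖) := by
    by_cases hv : v = 0
    · simp [hv]
    have h2 : 0 ≤ d * ‖v‖ ^ 2 := (h0 v).trans (hd v)
    have h3 : 0 < ‖v‖ ^ 2 := by positivity
    have h4 : 0 ≤ d := by
      by_contra hcon
      have : d * ‖v‖ ^ 2 < 0 := mul_neg_of_neg_of_pos (not_le.1 hcon) h3
      linarith
    positivity
  refine abs_le_of_sq_le_sq' ?_ hd0 |> fun h => abs_le.2 h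
  calc ⟪M v, w⟫ ^ 2 ≤ ⟪M v, v⟫ * ⟪M w, w⟫ := h1
    _ ≤ (d * ‖v‖ ^ 2) * (d * ‖w‖ ^ 2) := mul_le_mul (hd v) (hd w) (h0 w) ((h0 v).trans (hd v))
    _ = (d * (‖v‖ * ‖w‖)) ^ 2 := by ring

theorem ht_norm_le {M : E n →L[ℝ] E n} (hs : ∀ v w : E n, ⟪M v, w⟫ = ⟪v, M w⟫)
    (h0 : ∀ v : E n, 0 ≤ ⟪M v, v⟫) {d : ℝ} (hd : ∀ v : E n, ⟪M v, v⟫ ≤ d * ‖v‖ ^ 2) (v : E n) :
    ‖M v‖ ≤ d * ‖v‖ := by
  by_cases hv : M v = 0
  · rw [hv, norm_zero]
    have := ht_abs_le hs h0 hd v v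
    by_cases hv0 : v = 0
    · simp [hv0]
    have h3 : 0 < ‖v‖ := norm_pos_iff.2 hv0
    have h4 : 0 ≤ d * (‖v‖ * ‖v‖) := (abs_nonneg _).trans this
    by_contra hcon
    have : d * ‖v‖ < 0 := not_le.1 hcon
    nlinarith
  have h1 := ht_abs_le hs h0 hd v (M v)
  rw [real_inner_self_eq_norm_sq, abs_of_nonneg (by positivity)] at h1
  have h2 : 0 < ‖M v‖ := norm_pos_iff.2 hv
  have h3 : ‖M v‖ * ‖M v‖ ≤ (d * ‖v‖) * ‖M v‖ := by nlinarith
  exact le_of_mul_le_mul_right h3 h2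

/-- the basic bound on the contraction. -/
theorem htCon_abs_le {M : E n →L[ℝ] E n} (hs : ∀ v w : E n, ⟪M v, w⟫ = ⟪v, M w⟫)
    (h0 : ∀ v : E n, 0 ≤ ⟪M v, v⟫) {d : ℝ} (hd : ∀ v : E n, ⟪M v, v⟫ ≤ d * ‖v‖ ^ 2)
    (L : E n →L[ℝ] E n) : |htCon M L| ≤ n * (d * ‖L‖) := by
  unfold htCon
  have h1 : ∀ i : Fin n, |⟪M (L (eb i)), eb i⟫| ≤ d * ‖L‖ := by
    intro i
    have h2 := ht_abs_le hs h0 hd (L (eb i)) (eb i)
    have h3 : ‖(eb i : E n)‖ = 1 := by simp [eb]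
    have h4 : ‖L (eb i)‖ ≤ ‖L‖ := by
      have := L.le_opNorm (eb i)
      rwa [h3, mul_one] at this
    rw [h3, mul_one] at h2
    have hd0 : 0 ≤ d := by
      have := (h0 (eb i)).trans (hd (eb i))
      rw [h3] at this
      simpa using this
    exact h2.trans (mul_le_mul_of_nonneg_left h4 hd0)
  calc |∑ i, ⟪M (L (eb i)), eb i⟫| ≤ ∑ i, |⟪M (L (eb i)), eb i⟫| := Finset.abs_sum_le_sum_abs _ _
    _ ≤ ∑ _i : Fin n, d * ‖L‖ := Finset.sum_le_sum fun i _ => h1 i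
    _ = n * (d * ‖L‖) := by simp

end Claimed.Agent.R323
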