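import Claimed.Agent.R323.Ht.SpField

/-!
# Row 323, block C, sub-block SP (stationary pairs).  Owner: helper137.
`ht_sp_der`: THE differential inequality.  `J(ρ) = ρ^{-(n-1)} ∫ φ(|Π(y-x)|/ρ) ζ d dλ` satisfies
`J'(ρ) ≥ - ρ^{-n} ∫ [ ζ φ ((n-1) d - tr(M Π)) + φ |Dζ (M Π(y-x))| ]`.
-/

set_option autoImplicit false
open scoped ContDiff ENNReal NNReal RealInnerProductSpace Topology
open MeasureTheory Metric Set Filter

namespace Claimed.Agent.R323

open Claimed.Agent.Gmt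

variable {n : ℕ} {φ : ℝ → ℝ} {lam : Measure (E n)} {d : E n → ℝ} {M : E n → E n →L[ℝ] E n}

theorem ht_aesm_apply (hM : AEStronglyMeasurable M lam) {v : E n → E n}
    (hv : AEStronglyMeasurable v lam) : AEStronglyMeasurable (fun y => M y (v y)) lam :=
  (isBoundedBilinearMap_apply (𝕜 := ℝ) (E := E n) (F := E n)).continuous.comp_aestronglyMeasurable
    (hM.prodMk hv)

theorem ht_aesm_con (hM : AEStronglyMeasurable M lam) {L : E n → E n →L[ℝ] E n}
    (hL : AEStronglyMeasurable L lam) : AEStronglyMeasurable (fun y => htCon (M y) (L y)) lam := by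
  unfold htCon
  refine Finset.aestronglyMeasurable_fun_sum _ fun i _ => ?_
  exact (ht_aesm_apply hM (hL.apply_continuousLinearMap (eb i))).inner aestronglyMeasurable_const

theorem HtPair.d_nonneg (hn : 1 ≤ n) (hP : HtPair n lam d M) : ∀ᵐ y ∂lam, 0 ≤ d y := by
  filter_upwards [hP.nonneg, hP.le] with y h0 h1
  have h2 := (h0 (eb ⟨0, hn⟩)).trans (h1 (eb ⟨0, hn⟩))
  have h3 : ‖(eb ⟨0, hn⟩ : E n)‖ = 1 := by simp [eb]
  rw [h3] at h2
  simpa using h2

/-- domination by the mass density on a compact set. -/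
theorem HtPair.integrable_dom (hP : HtPair n lam d M) {g : E n → ℝ}
    (hg : AEStronglyMeasurable g lam) {K : Set (E n)} (hK : IsCompact K) {B : ℝ}
    (hB : ∀ᵐ y ∂lam, |g y| ≤ B * d y) (h0 : ∀ y, y ∉ K → g y = 0) : Integrable g lam := by
  have h1 : Integrable (K.indicator fun y => B * d y) lam := by
    rw [integrable_indicator_iff hK.measurableSet]
    exact (hP.lint.integrableOn_isCompact hK).const_mul B
  refine h1.mono' hg ?_
  filter_upwards [hB] with y hy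
  by_cases hyK : y ∈ K
  · rw [indicator_of_mem hyK]; exact hy
  · rw [indicator_of_notMem hyK, h0 y hyK, norm_zero]

theorem HtPair.con_integrable (hP : HtPair n lam d M) {X : E n → E n} (hX : GmtTest univ X) :
    Integrable (fun y => htCon (M y) (fderiv ℝ X y)) lam := by
  have hc : Continuous (fderiv ℝ X) := hX.c1.continuous_fderiv one_ne_zero
  have hcs : HasCompactSupport (fderiv ℝ X) := hX.cpt.fderiv ℝ
  obtain ⟨B, hB⟩ := hc.bounded_above_of_compact_support hcs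
  refine hP.integrable_dom (ht_aesm_con hP.mM hc.aestronglyMeasurable) hX.cpt (B := n * B) ?_ ?_
  · filter_upwards [hP.symm, hP.nonneg, hP.le] with y h1 h2 h3
    have h4 := htCon_abs_le h1 h2 h3 (fderiv ℝ X y)
    have hd0 : 0 ≤ (n : ℝ) * d y := by
      rcases Nat.eq_zero_or_pos n with rfl | hn
      · simp
      · have h5 := (h2 (eb ⟨0, hn⟩)).trans (h3 (eb ⟨0, hn⟩))
        have h6 : ‖(eb ⟨0, hn⟩ : E n)‖ = 1 := by simp [eb]
        rw [h6] at h5
        have : 0 ≤ d y := by simpa using h5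
        positivity
    calc |htCon (M y) (fderiv ℝ X y)| ≤ n * (d y * ‖fderiv ℝ X y‖) := h4
      _ = (n * d y) * ‖fderiv ℝ X y‖ := by ring
      _ ≤ (n * d y) * B := mul_le_mul_of_nonneg_left (hB y) hd0
      _ = n * B * d y := by ring
  · intro y hy
    rw [fderiv_of_notMem_tsupport ℝ hy]
    simp [htCon]

/-- **the differential inequality**. -/
theorem ht_sp_der (hn : 1 ≤ n) (hP : HtPair n lam d M) (hφ : HtKer φ) {P : E n →L[ℝ] E n}
    (hPi : HtPi P) {ζ : E n → ℝ} (hζ : ContDiff ℝ 1 ζ) (hζ0 : ∀ y, 0 ≤ ζ y) (x : E n)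
    (hK : ∀ R : ℝ, ∃ K, IsCompact K ∧ ∀ y, ζ y ≠ 0 → ‖P (y - x)‖ ≤ R → y ∈ K)
    {ρ : ℝ} (hρ : 0 < ρ) {e : E n → ℝ} (he : Integrable e lam)
    (hle : ∀ᵐ y ∂lam, ζ y * htG φ P x ρ y * (((n : ℝ) - 1) * d y - htCon (M y) P)
      + htG φ P x ρ y * |fderiv ℝ ζ y (M y (P (y - x)))| ≤ e y) :
    ∃ D : ℝ, HasDerivAt
      (fun ρ : ℝ => (ρ ^ (n - 1))⁻¹ * ∫ y, φ (‖P (y - x)‖ / ρ) * (ζ y * d y) ∂lam) D ρ ∧
      -(ρ ^ n)⁻¹ * ∫ y, e y ∂lam ≤ D := by
  have hr : Measurable fun y : E n => ‖P (y - x)‖ := by fun_prop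
  have hcm : AEStronglyMeasurable (fun y => ζ y * d y) lam :=
    hζ.continuous.aestronglyMeasurable.mul hP.md
  have hSm : ∀ R, MeasurableSet {y : E n | ‖P (y - x)‖ ≤ R} := fun R =>
    measurableSet_le hr measurable_const
  have hc : ∀ R, IntegrableOn (fun y => ζ y * d y) {y | ‖P (y - x)‖ ≤ R} lam := by
    intro R
    obtain ⟨K, hKc, hKs⟩ := hK R
    obtain ⟨B, hB⟩ := hKc.exists_bound_of_continuousOn hζ.continuous.continuousOn
    have h1 : Integrable (fun y => ({y : E n | ‖P (y - x)‖ ≤ R}.indicator ζ y) * d y) lam := by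
      refine ht_integrable_cut hKc.measurableSet (hP.lint.integrableOn_isCompact hKc)
        ((hζ.continuous.measurable.indicator (hSm R)).aestronglyMeasurable) (B := max B 0)
        (fun y => ?_) (fun y hy => ?_)
      · by_cases hy : y ∈ {y : E n | ‖P (y - x)‖ ≤ R}
        · rw [indicator_of_mem hy]
          by_cases hz : ζ y = 0
          · rw [hz, abs_zero]; exact le_max_right _ _
          · exact (hB y (hKs y hz hy)).trans (le_max_left _ _)
        · rw [indicator_of_notMem hy, abs_zero]; exact le_max_right _ _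
      · by_cases hy' : y ∈ {y : E n | ‖P (y - x)‖ ≤ R}
        · rw [indicator_of_mem hy']
          by_contra hz
          exact hy (hKs y hz hy')
        · rw [indicator_of_notMem hy']
    rw [← integrable_indicator_iff (hSm R)]
    refine h1.congr (Eventually.of_forall fun y => ?_)
    by_cases hy : y ∈ {y : E n | ‖P (y - x)‖ ≤ R}
    · simp only [indicator_of_mem hy]
    · simp only [indicator_of_notMem hy, zero_mul]
  have hD := ht_kernel_hasDerivAt hφ (n - 1) hr hcm hc hρ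
  rw [Nat.sub_add_cancel hn] at hD
  refine ⟨_, hD, ?_⟩
  have hk : ((n - 1 : ℕ) : ℝ) = (n : ℝ) - 1 := by rw [Nat.cast_sub hn, Nat.cast_one]
  rw [hk]
  -- the three integrands
  obtain ⟨C, hC0, hC⟩ := hφ.sderiv_bound
  have hn1 : (0 : ℝ) ≤ (n : ℝ) - 1 := by
    have : (1 : ℝ) ≤ n := by exact_mod_cast hn
    linarith
  have ia : Integrable (fun y => (((n : ℝ) - 1) * φ (‖P (y - x)‖ / ρ)
      + deriv φ (‖P (y - x)‖ / ρ) * (‖P (y - x)‖ / ρ)) * (ζ y * d y)) lam := by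
    refine ht_integrable_cut (hSm ρ) (hc ρ) ?_ (B := ((n : ℝ) - 1) + C) (fun y => ?_)
      (fun y hy => ?_)
    · refine Measurable.aestronglyMeasurable ?_
      exact ((hφ.continuous.measurable.comp (hr.div_const ρ)).const_mul _).add
        ((hφ.continuous_deriv.measurable.comp (hr.div_const ρ)).mul (hr.div_const ρ))
    · refine (abs_add_le _ _).trans (add_le_add ?_ (hC _))
      rw [abs_mul, abs_of_nonneg hn1, abs_of_nonneg (hφ.nonneg _)]
      exact mul_le_of_le_one_right hn1 (hφ.le_one _)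
    · have h1 : 1 ≤ ‖P (y - x)‖ / ρ := by
        have : ρ < ‖P (y - x)‖ := not_le.1 hy
        rw [le_div_iff₀ hρ]; linarith
      rw [hφ.zero _ h1, hφ.deriv_eq_zero_of_ge h1]
      simp
  obtain ⟨K, hKc, hKs⟩ := hK ρ
  have hX : GmtTest univ (htX φ P ζ x ρ) := htX_test hφ P hζ x hρ hKc hKs
  have ib := hP.con_integrable hX
  have hstat := hP.stat _ hX
  have hmain : ∫ y, (((n : ℝ) - 1) * φ (‖P (y - x)‖ / ρ)
      + deriv φ (‖P (y - x)‖ / ρ) * (‖P (y - x)‖ / ρ)) * (ζ y * d y) ∂lam ≤ ∫ y, e y ∂lam := by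
    have h1 : ∫ y, (((n : ℝ) - 1) * φ (‖P (y - x)‖ / ρ)
        + deriv φ (‖P (y - x)‖ / ρ) * (‖P (y - x)‖ / ρ)) * (ζ y * d y) ∂lam
        = ∫ y, ((((n : ℝ) - 1) * φ (‖P (y - x)‖ / ρ)
          + deriv φ (‖P (y - x)‖ / ρ) * (‖P (y - x)‖ / ρ)) * (ζ y * d y)
          - htCon (M y) (fderiv ℝ (htX φ P ζ x ρ) y)) ∂lam := by
      rw [integral_sub ia ib, hstat, sub_zero]
    rw [h1]
    refine integral_mono_ae (ia.sub ib) he ?_
    filter_upwards [hle, hP.symm, hP.le] with y h2 h3 h4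
    refine le_trans ?_ h2
    rw [htX_con hφ hPi x (hζ.differentiable one_ne_zero y)]
    set w := P (y - x) with hw
    have hg : htG φ P x ρ y = φ (‖w‖ / ρ) := rfl
    rw [hg]
    have h5 : fderiv ℝ ζ y (M y w) ≥ -|fderiv ℝ ζ y (M y w)| := neg_abs_le _
    have h6 : 0 ≤ φ (‖w‖ / ρ) := hφ.nonneg _
    have h7 : deriv φ (‖w‖ / ρ) ≤ 0 := hφ.deriv_nonpos _
    have h8 : ⟪w, M y w⟫ / (ρ * ‖w‖) ≤ ‖w‖ / ρ * d y := by
      by_cases hw0 : ‖w‖ = 0
      · rw [hw0]; simp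
      · have hw1 : 0 < ‖w‖ := lt_of_le_of_ne (norm_nonneg _) (Ne.symm hw0)
        rw [div_le_iff₀ (by positivity), real_inner_comm]
        calc ⟪M y w, w⟫ ≤ d y * ‖w‖ ^ 2 := h4 w
          _ = ‖w‖ / ρ * d y * (ρ * ‖w‖) := by field_simp
    have h9 : 0 ≤ ζ y * (-deriv φ (‖w‖ / ρ)) * (‖w‖ / ρ * d y - ⟪w, M y w⟫ / (ρ * ‖w‖)) :=
      mul_nonneg (mul_nonneg (hζ0 y) (by linarith)) (by linarith)
    have h10 : φ (‖w‖ / ρ) * fderiv ℝ ζ y (M y w) ≥ -(φ (‖w‖ / ρ) * |fderiv ℝ ζ y (M y w)|) := by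
      nlinarith
    have e1 : ζ y * (deriv φ (‖w‖ / ρ) / (ρ * ‖w‖)) * ⟪w, M y w⟫
        = ζ y * deriv φ (‖w‖ / ρ) * (⟪w, M y w⟫ / (ρ * ‖w‖)) := by ring
    rw [e1]
    nlinarith
  have hpos : 0 < (ρ ^ n)⁻¹ := by positivity
  nlinarith

end Claimed.Agent.R323
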