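import Claimed.Agent.R323.Ht.SpKer
import Claimed.Agent.R323.Ht.SpAlg

/-!
# Row 323, block C, sub-block SP (stationary pairs).  Owner: helper137.
The test fields `X(y) = ζ(y) φ(|Π(y-x)|/ρ) Π(y-x)`  (`Π` an orthogonal projection, `ζ` a `C¹` function):
`Π = id, ζ = 1`: the radial field of the monotonicity formula;  `Π` = horizontal projection, `ζ = ζ(t)`: the slab field.
-/

set_option autoImplicit false
open scoped ContDiff ENNReal NNReal RealInnerProductSpace Topology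
open MeasureTheory Metric Set Filter

namespace Claimed.Agent.R323

open Claimed.Agent.Gmt

variable {n : ℕ} {φ : ℝ → ℝ}

/-- orthogonal projections. -/
structure HtPi (P : E n →L[ℝ] E n) : Prop where
  symm : ∀ v w : E n, ⟪P v, w⟫ = ⟪v, P w⟫
  idem : ∀ v : E n, P (P v) = P v

/-- the cut-off `φ(|Π(y-x)|/ρ)`. -/
noncomputable def htG (φ : ℝ → ℝ) (P : E n →L[ℝ] E n) (x : E n) (ρ : ℝ) (y : E n) : ℝ :=
  φ (‖P (y - x)‖ / ρ)

/-- the field `ζ(y) φ(|Π(y-x)|/ρ) Π(y-x)`. -/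
noncomputable def htX (φ : ℝ → ℝ) (P : E n →L[ℝ] E n) (ζ : E n → ℝ) (x : E n) (ρ : ℝ) (y : E n) :
    E n := (ζ y * htG φ P x ρ y) • P (y - x)

/-- generates the equation lemmas of the definitions above in this file (rule 6: unique names) -/
theorem ht_spfield_eqns_cite : True := by
  have := @htG.eq_1
  have := @htX.eq_1
  trivial

theorem htPi_id : HtPi (ContinuousLinearMap.id ℝ (E n)) := ⟨fun _ _ => rfl, fun _ => rfl⟩

theorem htG_near (hφ : HtKer φ) (P : E n →L[ℝ] E n) (x : E n) {ρ : ℝ} {y : E n}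
    (hy : P (y - x) = 0) : ∀ᶠ z in 𝓝 y, htG φ P x ρ z = 1 := by
  obtain ⟨a, ha, h⟩ := hφ.one
  have hc : Continuous fun z : E n => ‖P (z - x)‖ / ρ := by fun_prop
  have h0 : ‖P (y - x)‖ / ρ < a := by rw [hy]; simpa using ha
  filter_upwards [(hc.tendsto y).eventually (Iio_mem_nhds h0)] with z hz
  exact h _ (le_of_lt hz)

theorem ht_norm_hasFDerivAt {w : E n} (hw : w ≠ 0) :
    HasFDerivAt (fun v : E n => ‖v‖) (‖w‖⁻¹ • innerSL ℝ w) w := by
  have h1 := (hasFDerivAt_id w).norm_sq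
  have hn : ‖w‖ ≠ 0 := norm_ne_zero_iff.2 hw
  have h2 := h1.sqrt (pow_ne_zero 2 hn)
  have e1 : (fun v : E n => ‖v‖) = fun v : E n => √(‖id v‖ ^ 2) := by
    funext z
    rw [id, Real.sqrt_sq (norm_nonneg _)]
  rw [e1]
  refine h2.congr_fderiv ?_
  simp only [id]
  rw [Real.sqrt_sq (norm_nonneg _), ContinuousLinearMap.comp_id, two_smul, ← two_smul ℝ, smul_smul]
  congr 1
  field_simp

theorem ht_P_hasFDerivAt (P : E n →L[ℝ] E n) (x y : E n) :
    HasFDerivAt (fun z : E n => P (z - x)) P y := by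
  have h := (P.hasFDerivAt (x := y - x)).comp y ((hasFDerivAt_id y).sub_const x)
  rw [ContinuousLinearMap.comp_id] at h
  exact h

theorem HtPi.inner_comp {P : E n →L[ℝ] E n} (hP : HtPi P) (v : E n) :
    (innerSL ℝ (P v)).comp P = innerSL ℝ (P v) := by
  ext u
  simp only [ContinuousLinearMap.comp_apply, innerSL_apply_apply]
  rw [← hP.symm, hP.idem]

theorem htG_hasFDerivAt (hφ : HtKer φ) {P : E n →L[ℝ] E n} (hP : HtPi P) (x : E n) {ρ : ℝ}
    (y : E n) :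
    HasFDerivAt (htG φ P x ρ)
      ((deriv φ (‖P (y - x)‖ / ρ) / (ρ * ‖P (y - x)‖)) • innerSL ℝ (P (y - x))) y := by
  by_cases hy : P (y - x) = 0
  · have h1 : htG φ P x ρ =ᶠ[𝓝 y] fun _ => (1 : ℝ) := htG_near hφ P x hy
    have h2 : HasFDerivAt (fun _ : E n => (1 : ℝ)) (0 : E n →L[ℝ] ℝ) y := hasFDerivAt_const _ _
    rw [hy]
    simp only [norm_zero, mul_zero, div_zero, zero_smul]
    exact h2.congr_of_eventuallyEq h1
  · have h0 : HasFDerivAt (fun z : E n => P (z - x)) P y := ht_P_hasFDerivAt P x y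
    have h1 : HasFDerivAt (fun z : E n => ‖P (z - x)‖)
        (‖P (y - x)‖⁻¹ • innerSL ℝ (P (y - x))) y := by
      have := (ht_norm_hasFDerivAt hy).comp y h0
      rw [ContinuousLinearMap.smul_comp, hP.inner_comp] at this
      exact this
    have h2 : HasFDerivAt (fun z : E n => ‖P (z - x)‖ / ρ)
        (ρ⁻¹ • (‖P (y - x)‖⁻¹ • innerSL ℝ (P (y - x)))) y := by
      have := h1.const_smul ρ⁻¹
      refine this.congr_of_eventuallyEq (Eventually.of_forall fun z => ?_)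
      simp only [Pi.smul_apply, smul_eq_mul]
      rw [div_eq_inv_mul]
    have h3 := (hφ.hasDerivAt (‖P (y - x)‖ / ρ)).comp_hasFDerivAt y h2
    refine h3.congr_fderiv ?_
    rw [smul_smul, smul_smul]
    congr 1
    rw [div_eq_mul_inv (deriv φ _) (ρ * _), mul_inv, mul_assoc]

theorem htG_contDiff (hφ : HtKer φ) (P : E n →L[ℝ] E n) (x : E n) (ρ : ℝ) :
    ContDiff ℝ ∞ (htG φ P x ρ) := by
  rw [contDiff_iff_contDiffAt]
  intro y
  by_cases hy : P (y - x) = 0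
  · have : htG φ P x ρ =ᶠ[𝓝 y] fun _ => (1 : ℝ) := htG_near hφ P x hy
    exact contDiffAt_const.congr_of_eventuallyEq this
  · have h0 : ContDiffAt ℝ ∞ (fun z : E n => P (z - x)) y :=
      P.contDiff.contDiffAt.comp y (contDiffAt_id.sub contDiffAt_const)
    have h1 : ContDiffAt ℝ ∞ (fun z : E n => ‖P (z - x)‖) y := h0.norm ℝ hy
    exact hφ.smooth.contDiffAt.comp y (h1.div_const ρ)

theorem htG_nonneg (hφ : HtKer φ) (P : E n →L[ℝ] E n) (x : E n) (ρ : ℝ) (y : E n) :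
    0 ≤ htG φ P x ρ y := hφ.nonneg _

theorem htG_le_one (hφ : HtKer φ) (P : E n →L[ℝ] E n) (x : E n) (ρ : ℝ) (y : E n) :
    htG φ P x ρ y ≤ 1 := hφ.le_one _

theorem htG_eq_zero (hφ : HtKer φ) (P : E n →L[ℝ] E n) (x : E n) {ρ : ℝ} (hρ : 0 < ρ) {y : E n}
    (hy : ρ ≤ ‖P (y - x)‖) : htG φ P x ρ y = 0 :=
  hφ.zero _ (by rw [le_div_iff₀ hρ]; linarith)

theorem htX_hasFDerivAt (hφ : HtKer φ) {P : E n →L[ℝ] E n} (hP : HtPi P) {ζ : E n → ℝ} (x : E n)
    {ρ : ℝ} {y : E n} (hζ : DifferentiableAt ℝ ζ y) :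
    HasFDerivAt (htX φ P ζ x ρ)
      ((ζ y * htG φ P x ρ y) • P +
        (ζ y • ((deriv φ (‖P (y - x)‖ / ρ) / (ρ * ‖P (y - x)‖)) • innerSL ℝ (P (y - x)))
          + htG φ P x ρ y • fderiv ℝ ζ y).smulRight (P (y - x))) y := by
  have h0 : HasFDerivAt (fun z : E n => P (z - x)) P y := ht_P_hasFDerivAt P x y
  have h1 := hζ.hasFDerivAt.mul (htG_hasFDerivAt hφ hP x (ρ := ρ) y)
  exact h1.smul h0

/-- the contraction of a tensor with `DX`. -/
theorem htX_con (hφ : HtKer φ) {P : E n →L[ℝ] E n} (hP : HtPi P) {ζ : E n → ℝ} (x : E n)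
    {ρ : ℝ} {y : E n} (hζ : DifferentiableAt ℝ ζ y) (M : E n →L[ℝ] E n) :
    htCon M (fderiv ℝ (htX φ P ζ x ρ) y)
      = ζ y * htG φ P x ρ y * htCon M P
        + ζ y * (deriv φ (‖P (y - x)‖ / ρ) / (ρ * ‖P (y - x)‖)) * ⟪P (y - x), M (P (y - x))⟫
        + htG φ P x ρ y * fderiv ℝ ζ y (M (P (y - x))) := by
  rw [(htX_hasFDerivAt hφ hP x hζ).fderiv, htCon_add, htCon_smul, htCon_smulRight]
  simp only [_root_.add_apply, _root_.smul_apply, innerSL_apply_apply,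
    smul_eq_mul]
  ring

theorem htX_test (hφ : HtKer φ) (P : E n →L[ℝ] E n) {ζ : E n → ℝ} (hζ : ContDiff ℝ 1 ζ) (x : E n)
    {ρ : ℝ} (hρ : 0 < ρ) {K : Set (E n)} (hK : IsCompact K)
    (hKs : ∀ y, ζ y ≠ 0 → ‖P (y - x)‖ ≤ ρ → y ∈ K) : GmtTest univ (htX φ P ζ x ρ) where
  c1 := by
    have h1 : ContDiff ℝ 1 (htG φ P x ρ) := (htG_contDiff hφ P x ρ).of_le (by simp)
    have h2 : ContDiff ℝ 1 (fun z : E n => P (z - x)) :=
      P.contDiff.comp (contDiff_id.sub contDiff_const)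
    exact (hζ.mul h1).smul h2
  cpt := by
    refine HasCompactSupport.of_support_subset_isCompact hK fun y hy => ?_
    by_contra hcon
    apply hy
    unfold htX
    by_cases h1 : ζ y = 0
    · rw [h1, zero_mul, zero_smul]
    · have h2 : ¬ ‖P (y - x)‖ ≤ ρ := fun h => hcon (hKs y h1 h)
      rw [htG_eq_zero hφ P x hρ (not_le.1 h2).le, mul_zero, zero_smul]
  sub := subset_univ _

end Claimed.Agent.R323
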