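import Claimed.Agent.R323.Ht.Defs

/-!
# Row 323, block C, sub-block SP (stationary pairs).  Owner: helper137.
Kernel calculus: facts on `HtKer`, differentiation of the smoothed ratios `ρ^{-k} ∫ φ(r(y)/ρ) c(y) dλ` (abstract measure space).
-/

set_option autoImplicit false
open scoped ContDiff ENNReal NNReal RealInnerProductSpace Topology
open MeasureTheory Metric Set Filter

namespace Claimed.Agent.R323

variable {φ : ℝ → ℝ}

theorem HtKer.nonneg (hφ : HtKer φ) (s : ℝ) : 0 ≤ φ s := by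
  rcases le_total s 1 with h | h
  · rw [← hφ.zero 1 le_rfl]; exact hφ.anti h
  · rw [hφ.zero s h]

theorem HtKer.le_one (hφ : HtKer φ) (s : ℝ) : φ s ≤ 1 := by
  obtain ⟨a, _, h⟩ := hφ.one
  rcases le_total s a with h1 | h1
  · rw [h s h1]
  · rw [← h a le_rfl]; exact hφ.anti h1

theorem HtKer.hasDerivAt (hφ : HtKer φ) (s : ℝ) : HasDerivAt φ (deriv φ s) s :=
  (hφ.smooth.differentiable (by simp) s).hasDerivAt

theorem HtKer.continuous (hφ : HtKer φ) : Continuous φ := hφ.smooth.continuous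

theorem HtKer.continuous_deriv (hφ : HtKer φ) : Continuous (deriv φ) :=
  hφ.smooth.continuous_deriv (by simp)

theorem HtKer.deriv_nonpos (hφ : HtKer φ) (s : ℝ) : deriv φ s ≤ 0 :=
  hφ.anti.deriv_nonpos

theorem HtKer.deriv_eq_zero_of_le (hφ : HtKer φ) {s : ℝ} (hs : s ≤ 0) : deriv φ s = 0 := by
  obtain ⟨a, ha, h⟩ := hφ.one
  have h1 : φ =ᶠ[𝓝 s] fun _ => (1 : ℝ) := by
    filter_upwards [Iio_mem_nhds (lt_of_le_of_lt hs ha)] with t ht
    exact h t (le_of_lt ht)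
  rw [h1.deriv_eq]; simp

theorem HtKer.deriv_eq_zero_of_ge (hφ : HtKer φ) {s : ℝ} (hs : 1 ≤ s) : deriv φ s = 0 := by
  have h1 : IsLocalMin φ s := by
    refine Eventually.of_forall fun t => ?_
    rw [hφ.zero s hs]; exact hφ.nonneg t
  exact h1.deriv_eq_zero

theorem HtKer.deriv_bound (hφ : HtKer φ) : ∃ C : ℝ, 0 ≤ C ∧ ∀ s, |deriv φ s| ≤ C := by
  obtain ⟨C, hC⟩ := (isCompact_Icc (a := (0 : ℝ)) (b := 1)).exists_bound_of_continuousOn
    hφ.continuous_deriv.continuousOn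
  refine ⟨max C 0, le_max_right _ _, fun s => ?_⟩
  by_cases hs : s ∈ Icc (0 : ℝ) 1
  · exact (hC s hs).trans (le_max_left _ _)
  · rw [mem_Icc, not_and_or, not_le, not_le] at hs
    rcases hs with h | h
    · rw [hφ.deriv_eq_zero_of_le h.le, abs_zero]; exact le_max_right _ _
    · rw [hφ.deriv_eq_zero_of_ge h.le, abs_zero]; exact le_max_right _ _

theorem HtKer.sderiv_bound (hφ : HtKer φ) : ∃ C : ℝ, 0 ≤ C ∧ ∀ s : ℝ, |deriv φ s * s| ≤ C := by
  obtain ⟨C, hC0, hC⟩ := hφ.deriv_bound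
  refine ⟨C, hC0, fun s => ?_⟩
  by_cases h0 : s ≤ 0
  · rw [hφ.deriv_eq_zero_of_le h0]; simpa using hC0
  by_cases h1 : s ≤ 1
  · rw [abs_mul, abs_of_nonneg (not_le.1 h0).le]
    calc |deriv φ s| * s ≤ C * 1 := mul_le_mul (hC s) h1 (not_le.1 h0).le hC0
      _ = C := mul_one _
  · rw [hφ.deriv_eq_zero_of_ge (not_le.1 h1).le]; simpa using hC0

/-- derivative in `ρ` of the kernel `ρ^{-k} φ(r/ρ)`. -/
theorem ht_kernel_hasDerivAt_pt (hφ : HtKer φ) (k : ℕ) (r : ℝ) {ρ : ℝ} (hρ : 0 < ρ) :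
    HasDerivAt (fun ρ : ℝ => (ρ ^ k)⁻¹ * φ (r / ρ))
      (-(ρ ^ (k + 1))⁻¹ * ((k : ℝ) * φ (r / ρ) + deriv φ (r / ρ) * (r / ρ))) ρ := by
  have h1 : HasDerivAt (fun ρ : ℝ => (ρ ^ k)⁻¹) (-((k : ℝ) * ρ ^ (k - 1) * 1) / (ρ ^ k) ^ 2) ρ :=
    ((hasDerivAt_id ρ).pow k).inv (pow_ne_zero k hρ.ne')
  have h2 : HasDerivAt (fun ρ : ℝ => r / ρ) (-r / ρ ^ 2) ρ := by
    have := (hasDerivAt_const ρ r).div (hasDerivAt_id ρ) hρ.ne'
    refine this.congr_deriv ?_
    simp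
  have h4 : HasDerivAt (fun ρ : ℝ => (ρ ^ k)⁻¹ * φ (r / ρ))
      (-((k : ℝ) * ρ ^ (k - 1) * 1) / (ρ ^ k) ^ 2 * φ (r / ρ) +
        (ρ ^ k)⁻¹ * (deriv φ (r / ρ) * (-r / ρ ^ 2))) ρ := h1.mul ((hφ.hasDerivAt _).comp ρ h2)
  refine h4.congr_deriv ?_
  rcases Nat.eq_zero_or_pos k with rfl | hk
  · simp
    field_simp
  · obtain ⟨j, rfl⟩ : ∃ j, k = j + 1 := ⟨k - 1, by omega⟩
    simp only [Nat.add_sub_cancel]
    push_cast
    field_simp
    ring

/-- bounded x integrable-on-the-support. -/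
theorem ht_integrable_cut {Y : Type*} [MeasurableSpace Y] {lam : Measure Y} {g c : Y → ℝ} {S : Set Y}
    (hS : MeasurableSet S) (hc : IntegrableOn c S lam) (hg : AEStronglyMeasurable g lam) {B : ℝ}
    (hB : ∀ y, |g y| ≤ B) (h0 : ∀ y, y ∉ S → g y = 0) : Integrable (fun y => g y * c y) lam := by
  have h1 : IntegrableOn (fun y => g y * c y) S lam :=
    Integrable.bdd_mul hc hg.restrict (Eventually.of_forall fun y => hB y)
  have h2 : (fun y => g y * c y) = S.indicator (fun y => g y * c y) := by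
    funext y
    by_cases hy : y ∈ S
    · rw [indicator_of_mem hy]
    · rw [indicator_of_notMem hy, h0 y hy, zero_mul]
  rw [h2, integrable_indicator_iff hS]
  exact h1

/-- **differentiation of the smoothed ratios**. -/
theorem ht_kernel_hasDerivAt {Y : Type*} [MeasurableSpace Y] {lam : Measure Y} (hφ : HtKer φ) (k : ℕ)
    {r c : Y → ℝ} (hr : Measurable r) (hcm : AEStronglyMeasurable c lam)
    (hc : ∀ R, IntegrableOn c {y | r y ≤ R} lam) {ρ : ℝ} (hρ : 0 < ρ) :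
    HasDerivAt (fun ρ : ℝ => (ρ ^ k)⁻¹ * ∫ y, φ (r y / ρ) * c y ∂lam)
      (-(ρ ^ (k + 1))⁻¹ * ∫ y, ((k : ℝ) * φ (r y / ρ) + deriv φ (r y / ρ) * (r y / ρ)) * c y ∂lam)
      ρ := by
  obtain ⟨C, hC0, hC⟩ := hφ.sderiv_bound
  have hfun : (fun ρ : ℝ => (ρ ^ k)⁻¹ * ∫ y, φ (r y / ρ) * c y ∂lam)
      = fun ρ' => ∫ y, ((ρ' ^ k)⁻¹ * φ (r y / ρ')) * c y ∂lam := by
    funext ρ'
    rw [← integral_const_mul]
    congr 1; funext y; ring
  have hval : -(ρ ^ (k + 1))⁻¹ *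
        ∫ y, ((k : ℝ) * φ (r y / ρ) + deriv φ (r y / ρ) * (r y / ρ)) * c y ∂lam
      = ∫ y, (-(ρ ^ (k + 1))⁻¹ * ((k : ℝ) * φ (r y / ρ) + deriv φ (r y / ρ) * (r y / ρ))) * c y
          ∂lam := by
    rw [← integral_const_mul]
    congr 1; funext y; ring
  rw [hfun, hval]
  have hs : Ioo (ρ / 2) (2 * ρ) ∈ 𝓝 ρ := Ioo_mem_nhds (by linarith) (by linarith)
  set B : ℝ := ((ρ / 2) ^ (k + 1))⁻¹ * ((k : ℝ) + C) with hB
  have hB0 : 0 ≤ B := by rw [hB]; positivity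
  have hSm : ∀ R, MeasurableSet {y | r y ≤ R} := fun R => measurableSet_le hr measurable_const
  have hmφ : ∀ ρ' : ℝ, Measurable fun y => φ (r y / ρ') := fun ρ' =>
    hφ.continuous.measurable.comp (hr.div_const ρ')
  have hmd : ∀ ρ' : ℝ, Measurable fun y => deriv φ (r y / ρ') := fun ρ' =>
    hφ.continuous_deriv.measurable.comp (hr.div_const ρ')
  have hz : ∀ ρ' : ℝ, 0 < ρ' → ∀ y, y ∉ {y | r y ≤ ρ'} → 1 ≤ r y / ρ' := by
    intro ρ' hρ' y hy
    have : ρ' < r y := not_le.1 hy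
    rw [le_div_iff₀ hρ']; linarith
  have hbi : Integrable (fun y => ({y | r y ≤ 2 * ρ}.indicator (fun _ => B) y) * |c y|) lam := by
    refine ht_integrable_cut (hSm (2 * ρ)) (hc (2 * ρ)).abs
      ((measurable_const.indicator (hSm _)).aestronglyMeasurable) (B := B) (fun y => ?_)
      (fun y hy => indicator_of_notMem hy _)
    by_cases hy : y ∈ {y | r y ≤ 2 * ρ}
    · rw [indicator_of_mem hy, abs_of_nonneg hB0]
    · rw [indicator_of_notMem hy, abs_zero]; exact hB0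
  refine (hasDerivAt_integral_of_dominated_loc_of_deriv_le (μ := lam)
    (F := fun ρ' y => ((ρ' ^ k)⁻¹ * φ (r y / ρ')) * c y)
    (F' := fun ρ' y => (-(ρ' ^ (k + 1))⁻¹ *
      ((k : ℝ) * φ (r y / ρ') + deriv φ (r y / ρ') * (r y / ρ'))) * c y)
    (bound := fun y => ({y | r y ≤ 2 * ρ}.indicator (fun _ => B) y) * |c y|) hs ?_ ?_ ?_ ?_ hbi ?_).2
  · exact Eventually.of_forall fun ρ' =>
      (((hmφ ρ').const_mul _).aestronglyMeasurable).mul hcm
  · refine ht_integrable_cut (hSm ρ) (hc ρ) ((hmφ ρ).const_mul _).aestronglyMeasurable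
      (B := (ρ ^ k)⁻¹) (fun y => ?_) (fun y hy => ?_)
    · rw [abs_mul, abs_of_nonneg (by positivity), abs_of_nonneg (hφ.nonneg _)]
      exact mul_le_of_le_one_right (by positivity) (hφ.le_one _)
    · rw [hφ.zero _ (hz ρ hρ y hy), mul_zero]
  · exact ((((hmφ ρ).const_mul _).add ((hmd ρ).mul (hr.div_const ρ))).const_mul
      _).aestronglyMeasurable.mul hcm
  · refine Eventually.of_forall fun y ρ' hρ' => ?_
    have hρ'0 : 0 < ρ' := by linarith [hρ'.1]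
    rw [norm_mul, Real.norm_eq_abs, Real.norm_eq_abs]
    refine mul_le_mul_of_nonneg_right ?_ (abs_nonneg _)
    by_cases hy : y ∈ {y | r y ≤ 2 * ρ}
    · rw [indicator_of_mem hy, abs_mul, abs_neg, abs_of_nonneg (by positivity), hB]
      apply mul_le_mul
      · apply inv_anti₀ (by positivity)
        exact pow_le_pow_left₀ (by linarith) hρ'.1.le _
      · refine (abs_add_le _ _).trans (add_le_add ?_ (hC _))
        rw [abs_mul, abs_of_nonneg (Nat.cast_nonneg k), abs_of_nonneg (hφ.nonneg _)]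
        exact mul_le_of_le_one_right (Nat.cast_nonneg k) (hφ.le_one _)
      · exact abs_nonneg _
      · positivity
    · rw [indicator_of_notMem hy]
      have hy' : y ∉ {y | r y ≤ ρ'} := fun h => hy (le_trans h hρ'.2.le)
      rw [hφ.zero _ (hz ρ' hρ'0 y hy'), hφ.deriv_eq_zero_of_ge (hz ρ' hρ'0 y hy')]
      simp
  · refine Eventually.of_forall fun y ρ' hρ' => ?_
    have hρ'0 : 0 < ρ' := by linarith [hρ'.1]
    exact (ht_kernel_hasDerivAt_pt hφ k (r y) hρ'0).mul_const (c y)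

end Claimed.Agent.R323
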