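import Claimed.Agent.R323.Ht.SpDer

/-!
# Row 323, block C, sub-block SP (stationary pairs).  Owner: helper137.
SP1, SP1': monotonicity of the smoothed and of the sharp mass ratios.
-/

set_option autoImplicit false
open scoped ContDiff ENNReal NNReal RealInnerProductSpace Topology
open MeasureTheory Metric Set Filter

namespace Claimed.Agent.R323

open Claimed.Agent.Gmt

variable {n : ℕ} {φ : ℝ → ℝ} {lam : Measure (E n)} {d : E n → ℝ} {M : E n → E n →L[ℝ] E n}

theorem sp_ker_std {δ : ℝ} (hδ : 0 < δ) (hδ1 : δ < 1) : HtKer (htKer δ) where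
  smooth := Real.smoothTransition.contDiff.comp ((contDiff_const.sub contDiff_id).div_const δ)
  anti := fun a b hab => Real.smoothTransition.monotone (by gcongr)
  one := ⟨1 - δ, by linarith, fun s hs => Real.smoothTransition.one_of_one_le (by
    rw [le_div_iff₀ hδ]; linarith)⟩
  zero := fun s hs => Real.smoothTransition.zero_of_nonpos
    (div_nonpos_of_nonpos_of_nonneg (by linarith) hδ.le)

theorem sp_htI_eq (lam : Measure (E n)) (d : E n → ℝ) (φ : ℝ → ℝ) (x : E n) :
    (fun ρ : ℝ => htI n lam d φ x ρ) = fun ρ : ℝ => (ρ ^ (n - 1))⁻¹ *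
      ∫ y, φ (‖ContinuousLinearMap.id ℝ (E n) (y - x)‖ / ρ) * ((fun _ => (1 : ℝ)) y * d y) ∂lam := by
  funext ρ
  simp [htI]

theorem sp_htI_deriv (hn : 1 ≤ n) (hP : HtPair n lam d M) (hφ : HtKer φ) (x : E n) {ρ : ℝ}
    (hρ : 0 < ρ) : ∃ D : ℝ, HasDerivAt (fun ρ : ℝ => htI n lam d φ x ρ) D ρ ∧ 0 ≤ D := by
  obtain ⟨D, hD, hD0⟩ := ht_sp_der hn hP hφ htPi_id (ζ := fun _ => (1 : ℝ)) contDiff_const
    (fun _ => zero_le_one) x
    (fun R => ⟨closedBall x R, isCompact_closedBall x R, fun y _ hy => by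
      rw [mem_closedBall, dist_eq_norm]; exact hy⟩) hρ (e := fun _ => (0 : ℝ))
    (integrable_zero _ _ _) (by
      filter_upwards [hP.tr] with y hy
      rw [htCon_id, hy]
      simp)
  rw [← sp_htI_eq] at hD
  exact ⟨D, hD, by simpa using hD0⟩

/-- SP1: monotonicity of the smoothed ratios. -/
theorem sp_mono_ker (hn : 1 ≤ n) (hP : HtPair n lam d M) (hφ : HtKer φ) (x : E n) :
    MonotoneOn (fun ρ => htI n lam d φ x ρ) (Ioi 0) := by
  have hd : ∀ ρ ∈ Ioi (0 : ℝ), DifferentiableAt ℝ (fun ρ => htI n lam d φ x ρ) ρ := by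
    intro ρ hρ
    obtain ⟨D, hD, -⟩ := sp_htI_deriv hn hP hφ x hρ
    exact hD.differentiableAt
  refine monotoneOn_of_deriv_nonneg (convex_Ioi 0)
    (fun ρ hρ => (hd ρ hρ).continuousAt.continuousWithinAt) ?_ ?_
  · rw [interior_Ioi]
    exact fun ρ hρ => (hd ρ hρ).differentiableWithinAt
  · rw [interior_Ioi]
    intro ρ hρ
    obtain ⟨D, hD, hD0⟩ := sp_htI_deriv hn hP hφ x hρ
    rw [hD.deriv]
    exact hD0

/-- the smoothed ratios converge to the sharp ratio. -/
theorem sp_htI_tendsto (hP : HtPair n lam d M) (x : E n) {ρ : ℝ} (hρ : 0 < ρ) :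
    Tendsto (fun j : ℕ => htI n lam d (htKer (1 / ((j : ℝ) + 2))) x ρ) atTop
      (𝓝 (htR n lam d x ρ)) := by
  unfold htI htR
  refine Tendsto.const_mul _ ?_
  rw [← integral_indicator measurableSet_ball]
  have hδ : ∀ j : ℕ, 0 < 1 / ((j : ℝ) + 2) ∧ 1 / ((j : ℝ) + 2) < 1 := by
    intro j
    have : (0 : ℝ) ≤ j := Nat.cast_nonneg j
    refine ⟨by positivity, ?_⟩
    rw [div_lt_one (by positivity)]
    linarith
  have hker := fun j => sp_ker_std (hδ j).1 (hδ j).2
  refine tendsto_integral_of_dominated_convergence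
    (bound := (closedBall x ρ).indicator fun y => |d y|) ?_ ?_ ?_ ?_
  · intro j
    refine AEStronglyMeasurable.mul ?_ hP.md
    exact ((hker j).continuous.comp (by fun_prop)).aestronglyMeasurable
  · rw [integrable_indicator_iff measurableSet_closedBall]
    exact (hP.lint.integrableOn_isCompact (isCompact_closedBall x ρ)).abs
  · intro j
    refine Eventually.of_forall fun y => ?_
    by_cases hy : y ∈ closedBall x ρ
    · rw [indicator_of_mem hy, norm_mul, Real.norm_eq_abs, Real.norm_eq_abs,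
        abs_of_nonneg ((hker j).nonneg _)]
      exact mul_le_of_le_one_left (abs_nonneg _) ((hker j).le_one _)
    · rw [indicator_of_notMem hy, (hker j).zero, zero_mul, norm_zero]
      rw [mem_closedBall, dist_eq_norm, not_le] at hy
      rw [le_div_iff₀ hρ]; linarith
  · refine Eventually.of_forall fun y => ?_
    by_cases hy : y ∈ ball x ρ
    · rw [indicator_of_mem hy]
      rw [mem_ball, dist_eq_norm] at hy
      have hs : 0 < 1 - ‖y - x‖ / ρ := by
        rw [sub_pos, div_lt_one hρ]; exact hy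
      have hlim : Tendsto (fun j : ℕ => 1 / ((j : ℝ) + 2)) atTop (𝓝 0) := by
        have h1 : Tendsto (fun j : ℕ => (j : ℝ) + 2) atTop atTop :=
          tendsto_atTop_add_const_right _ _ tendsto_natCast_atTop_atTop
        have h2 := h1.inv_tendsto_atTop
        refine h2.congr fun j => ?_
        simp
      have hev := hlim.eventually (Iio_mem_nhds hs)
      refine tendsto_const_nhds.congr' ?_
      filter_upwards [hev] with j hj
      have : htKer (1 / ((j : ℝ) + 2)) (‖y - x‖ / ρ) = 1 := by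
        unfold htKer
        refine Real.smoothTransition.one_of_one_le ?_
        rw [le_div_iff₀ (hδ j).1, one_mul]
        exact le_of_lt hj
      rw [this, one_mul]
    · rw [indicator_of_notMem hy]
      rw [mem_ball, dist_eq_norm, not_lt] at hy
      refine tendsto_const_nhds.congr fun j => ?_
      rw [(hker j).zero, zero_mul]
      rw [le_div_iff₀ hρ]; linarith

/-- SP1': monotonicity of the sharp ratios. -/
theorem sp_mono (hn : 1 ≤ n) (hP : HtPair n lam d M) (x : E n) :
    MonotoneOn (fun ρ => htR n lam d x ρ) (Ioi 0) := by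
  intro a ha b hb hab
  have hδ : ∀ j : ℕ, 0 < 1 / ((j : ℝ) + 2) ∧ 1 / ((j : ℝ) + 2) < 1 := by
    intro j
    have : (0 : ℝ) ≤ j := Nat.cast_nonneg j
    refine ⟨by positivity, ?_⟩
    rw [div_lt_one (by positivity)]
    linarith
  exact le_of_tendsto_of_tendsto' (sp_htI_tendsto hP x ha) (sp_htI_tendsto hP x hb)
    fun j => sp_mono_ker hn hP (sp_ker_std (hδ j).1 (hδ j).2) x ha hb hab

end Claimed.Agent.R323
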